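import Mathlib

/-!
# The Fabius / Rvachev function.

`F` is a continuous function, `0` on `(-∞, 0]`, `1` on `[1, ∞)`, with
`F s = ∫ u in (2 s - 1)..(2 s), F u`. It is obtained as the uniform limit of explicit piecewise
polynomials `G N`.
-/

set_option autoImplicit false

namespace Crest.Agent.Lib.BoxFlowFab

open MeasureTheory intervalIntegral Filter Topology

noncomputable section

/-- The averaging operator. -/
def opT (f : ℝ → ℝ) (s : ℝ) : ℝ := ∫ u in (2 * s - 1)..(2 * s), f u

/-- Good functions. -/
structure Good (f : ℝ → ℝ) : Prop where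
  cont : Continuous f
  left : ∀ s, s ≤ 0 → f s = 0
  right : ∀ s, 1 ≤ s → f s = 1
  nonneg : ∀ s, 0 ≤ f s
  le_one : ∀ s, f s ≤ 1
  symm : ∀ s, f (1 - s) = 1 - f s

/-- primitive -/
def prim (f : ℝ → ℝ) (x : ℝ) : ℝ := ∫ u in (0 : ℝ)..x, f u

theorem opT_eq_prim {f : ℝ → ℝ} (hf : Continuous f) (s : ℝ) :
    opT f s = prim f (2 * s) - prim f (2 * s - 1) := by
  unfold opT prim
  rw [intervalIntegral.integral_interval_sub_left]
  · exact hf.intervalIntegrable _ _
  · exact hf.intervalIntegrable _ _

theorem hasDerivAt_prim {f : ℝ → ℝ} (hf : Continuous f) (x : ℝ) :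
    HasDerivAt (prim f) (f x) x :=
  intervalIntegral.integral_hasDerivAt_right (hf.intervalIntegrable _ _)
    (hf.stronglyMeasurableAtFilter _ _) hf.continuousAt

theorem continuous_prim {f : ℝ → ℝ} (hf : Continuous f) : Continuous (prim f) :=
  continuous_iff_continuousAt.2 fun x => (hasDerivAt_prim hf x).continuousAt

theorem hasDerivAt_opT {f : ℝ → ℝ} (hf : Continuous f) (s : ℝ) :
    HasDerivAt (opT f) (2 * f (2 * s) - 2 * f (2 * s - 1)) s := by
  have h1 : HasDerivAt (fun s : ℝ => 2 * s) 2 s := by
    simpa using (hasDerivAt_id s).const_mul (2 : ℝ)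
  have h2 : HasDerivAt (fun s : ℝ => 2 * s - 1) 2 s := h1.sub_const 1
  have h3 := (hasDerivAt_prim hf (2 * s)).comp s h1
  have h4 := (hasDerivAt_prim hf (2 * s - 1)).comp s h2
  have h5 := h3.sub h4
  have : opT f = (prim f ∘ fun s => 2 * s) - (prim f ∘ fun s => 2 * s - 1) := by
    funext s
    simp [opT_eq_prim hf]
  rw [this]
  have e : 2 * f (2 * s) - 2 * f (2 * s - 1) = f (2 * s) * 2 - f (2 * s - 1) * 2 := by ring
  rw [e]
  exact h5

theorem continuous_opT {f : ℝ → ℝ} (hf : Continuous f) : Continuous (opT f) :=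
  continuous_iff_continuousAt.2 fun x => (hasDerivAt_opT hf x).continuousAt

theorem Good.opT {f : ℝ → ℝ} (hf : Good f) : Good (opT f) where
  cont := continuous_opT hf.cont
  left s hs := by
    unfold Crest.Agent.Lib.BoxFlowFab.opT
    have : ∀ u ∈ Set.uIcc (2 * s - 1) (2 * s), f u = 0 := by
      intro u hu
      rw [Set.uIcc_of_le (by linarith)] at hu
      exact hf.left u (by linarith [hu.2])
    rw [intervalIntegral.integral_congr this]
    simp
  right s hs := by
    unfold Crest.Agent.Lib.BoxFlowFab.opT
    have : ∀ u ∈ Set.uIcc (2 * s - 1) (2 * s), f u = 1 := by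
      intro u hu
      rw [Set.uIcc_of_le (by linarith)] at hu
      exact hf.right u (by linarith [hu.1])
    rw [intervalIntegral.integral_congr this]
    simp
  nonneg s := by
    unfold Crest.Agent.Lib.BoxFlowFab.opT
    exact intervalIntegral.integral_nonneg (by linarith) fun u _ => hf.nonneg u
  le_one s := by
    unfold Crest.Agent.Lib.BoxFlowFab.opT
    have h : ∫ u in (2 * s - 1)..(2 * s), f u ≤ ∫ _ in (2 * s - 1)..(2 * s), (1 : ℝ) :=
      intervalIntegral.integral_mono_on (by linarith) (hf.cont.intervalIntegrable _ _)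
        (continuous_const.intervalIntegrable _ _) fun u _ => hf.le_one u
    simpa using h
  symm s := by
    unfold Crest.Agent.Lib.BoxFlowFab.opT
    have h1 : ∫ u in (2 * (1 - s) - 1)..(2 * (1 - s)), f u =
        ∫ u in (2 * s - 1)..(2 * s), f (1 - u) := by
      rw [intervalIntegral.integral_comp_sub_left]
      congr 1 <;> ring
    rw [h1]
    have h2 : ∀ u ∈ Set.uIcc (2 * s - 1) (2 * s), f (1 - u) = 1 - f u := fun u _ => hf.symm u
    rw [intervalIntegral.integral_congr h2, intervalIntegral.integral_sub
      (continuous_const.intervalIntegrable _ _) (hf.cont.intervalIntegrable _ _)]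
    simp

theorem Good.integral {f : ℝ → ℝ} (hf : Good f) : ∫ u in (0 : ℝ)..1, f u = 1 / 2 := by
  have h1 : ∫ u in (0 : ℝ)..1, f (1 - u) = ∫ u in (0 : ℝ)..1, f u := by
    rw [intervalIntegral.integral_comp_sub_left]
    simp
  have h2 : ∀ u ∈ Set.uIcc (0 : ℝ) 1, f (1 - u) = 1 - f u := fun u _ => hf.symm u
  rw [intervalIntegral.integral_congr h2, intervalIntegral.integral_sub
    (continuous_const.intervalIntegrable _ _) (hf.cont.intervalIntegrable _ _)] at h1
  simp at h1
  linarith

/-- Contraction estimate. -/
theorem opT_contraction {f g : ℝ → ℝ} (hf : Good f) (hg : Good g) {M : ℝ}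
    (hM : ∀ s, |f s - g s| ≤ M) (s : ℝ) : |opT f s - opT g s| ≤ M / 2 := by
  set h : ℝ → ℝ := fun u => f u - g u with hh
  have hc : Continuous h := hf.cont.sub hg.cont
  have hM0 : 0 ≤ M := (abs_nonneg _).trans (hM 0)
  -- primitive of h
  set Φ : ℝ → ℝ := prim h with hΦ
  have hdiff : ∀ s, opT f s - opT g s = Φ (2 * s) - Φ (2 * s - 1) := by
    intro s
    have : opT h s = opT f s - opT g s := by
      unfold opT
      rw [intervalIntegral.integral_sub (hf.cont.intervalIntegrable _ _)
        (hg.cont.intervalIntegrable _ _)]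
    rw [← this, opT_eq_prim hc]
  have hleft : ∀ x, x ≤ 0 → Φ x = 0 := by
    intro x hx
    simp only [hΦ, prim]
    have : ∀ u ∈ Set.uIcc (0 : ℝ) x, h u = 0 := by
      intro u hu
      rw [Set.uIcc_of_ge hx] at hu
      simp only [hh, hf.left u hu.2, hg.left u hu.2, sub_self]
    rw [intervalIntegral.integral_congr this]
    simp
  have hone : Φ 1 = 0 := by
    simp only [hΦ, prim, hh]
    rw [intervalIntegral.integral_sub (hf.cont.intervalIntegrable _ _)
      (hg.cont.intervalIntegrable _ _), hf.integral, hg.integral]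
    simp
  have hright : ∀ x, 1 ≤ x → Φ x = 0 := by
    intro x hx
    have h1 : Φ x = Φ 1 + ∫ u in (1 : ℝ)..x, h u := by
      simp only [hΦ, prim]
      rw [intervalIntegral.integral_add_adjacent_intervals (hc.intervalIntegrable _ _)
        (hc.intervalIntegrable _ _)]
    have h2 : ∀ u ∈ Set.uIcc (1 : ℝ) x, h u = 0 := by
      intro u hu
      rw [Set.uIcc_of_le hx] at hu
      simp only [hh, hf.right u hu.1, hg.right u hu.1, sub_self]
    rw [h1, hone, intervalIntegral.integral_congr h2]
    simp
  have hbound : ∀ x, |Φ x| ≤ M / 2 := by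
    intro x
    rcases le_total x 0 with hx | hx
    · rw [hleft x hx]; simp; positivity
    rcases le_total 1 x with hx1 | hx1
    · rw [hright x hx1]; simp; positivity
    have b1 : |Φ x| ≤ M * x := by
      simp only [hΦ, prim]
      have := intervalIntegral.norm_integral_le_of_norm_le_const
        (a := (0 : ℝ)) (b := x) (f := h) (C := M) (fun u _ => by simpa using hM u)
      simpa [abs_of_nonneg hx] using this
    have b2 : |Φ x| ≤ M * (1 - x) := by
      have h1 : Φ 1 = Φ x + ∫ u in x..(1 : ℝ), h u := by
        simp only [hΦ, prim]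
        rw [intervalIntegral.integral_add_adjacent_intervals (hc.intervalIntegrable _ _)
          (hc.intervalIntegrable _ _)]
      have h3 : Φ x = - ∫ u in x..(1 : ℝ), h u := by linarith
      rw [h3, abs_neg]
      have := intervalIntegral.norm_integral_le_of_norm_le_const
        (a := x) (b := (1 : ℝ)) (f := h) (C := M) (fun u _ => by simpa using hM u)
      simpa [abs_of_nonneg (by linarith : (0 : ℝ) ≤ 1 - x)] using this
    rcases le_total x (1 / 2) with hx2 | hx2
    · calc |Φ x| ≤ M * x := b1
        _ ≤ M * (1 / 2) := by gcongr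
        _ = M / 2 := by ring
    · calc |Φ x| ≤ M * (1 - x) := b2
        _ ≤ M * (1 / 2) := by gcongr; linarith
        _ = M / 2 := by ring
  rw [hdiff s]
  rcases le_total (2 * s) 1 with h1 | h1
  · rw [hleft (2 * s - 1) (by linarith)]
    simpa using hbound _
  · rw [hright (2 * s) h1]
    simpa using hbound _

/-- The truncated power divided by the factorial. -/
def tau (p : ℕ) (x : ℝ) : ℝ := (max x 0) ^ p / (p.factorial : ℝ)

theorem continuous_tau (p : ℕ) : Continuous (tau p) := by
  unfold tau
  fun_prop

theorem hasDerivAt_tau_ne (p : ℕ) (hp : 1 ≤ p) (y : ℝ) (hy : y ≠ 0) :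
    HasDerivAt (tau (p + 1)) (tau p y) y := by
  rcases lt_or_gt_of_ne hy with hy | hy
  · -- negative side: both are zero
    have h1 : tau p y = 0 := by
      unfold tau
      rw [max_eq_right hy.le]
      simp [zero_pow (by omega : p ≠ 0)]
    rw [h1]
    have h2 : tau (p + 1) =ᶠ[𝓝 y] fun _ => 0 := by
      filter_upwards [Iio_mem_nhds hy] with u hu
      unfold tau
      rw [max_eq_right (le_of_lt (Set.mem_Iio.1 hu))]
      simp
    exact (hasDerivAt_const y (0 : ℝ)).congr_of_eventuallyEq h2
  · have h1 : tau p y = y ^ p / (p.factorial : ℝ) := by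
      unfold tau
      rw [max_eq_left hy.le]
    rw [h1]
    have h2 : tau (p + 1) =ᶠ[𝓝 y] fun u => u ^ (p + 1) / ((p + 1).factorial : ℝ) := by
      filter_upwards [Ioi_mem_nhds hy] with u hu
      unfold tau
      rw [max_eq_left (le_of_lt (Set.mem_Ioi.1 hu))]
    refine HasDerivAt.congr_of_eventuallyEq ?_ h2
    have h3 : HasDerivAt (fun u : ℝ => u ^ (p + 1) / ((p + 1).factorial : ℝ))
        (((p + 1 : ℕ) : ℝ) * y ^ p / ((p + 1).factorial : ℝ)) y := by
      have := (hasDerivAt_pow (p + 1) y).div_const ((p + 1).factorial : ℝ)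
      simpa using this
    have h4 : ((p + 1 : ℕ) : ℝ) * y ^ p / ((p + 1).factorial : ℝ) = y ^ p / (p.factorial : ℝ) := by
      rw [Nat.factorial_succ]
      have hf : (p.factorial : ℝ) ≠ 0 := by positivity
      have hp' : ((p + 1 : ℕ) : ℝ) ≠ 0 := by positivity
      push_cast
      push_cast at hp'
      field_simp
    rwa [h4] at h3

theorem hasDerivAt_tau (p : ℕ) (hp : 1 ≤ p) (x : ℝ) : HasDerivAt (tau (p + 1)) (tau p x) x := by
  by_cases hx : x = 0
  · subst hx
    exact hasDerivAt_of_hasDerivAt_of_ne (fun y hy => hasDerivAt_tau_ne p hp y hy)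
      (continuous_tau _).continuousAt (continuous_tau _).continuousAt
  · exact hasDerivAt_tau_ne p hp x hx

theorem tau_two_mul (p : ℕ) (x : ℝ) : tau p (2 * x) = 2 ^ p * tau p x := by
  unfold tau
  have : max (2 * x) 0 = 2 * max x 0 := by
    rcases le_total x 0 with h | h
    · rw [max_eq_right h, max_eq_right (by linarith)]; simp
    · rw [max_eq_left h, max_eq_left (by linarith)]
  rw [this, mul_pow]
  ring

theorem opT_tau (p : ℕ) (hp : 1 ≤ p) (a s : ℝ) :
    opT (fun u => tau p (u - a)) s =
      2 ^ (p + 1) * (tau (p + 1) (s - a / 2) - tau (p + 1) (s - (a + 1) / 2)) := by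
  unfold opT
  have h : ∀ x ∈ Set.uIcc (2 * s - 1) (2 * s),
      HasDerivAt (fun u => tau (p + 1) (u - a)) (tau p (x - a)) x := by
    intro x _
    exact (hasDerivAt_tau p hp (x - a)).comp_sub_const x a
  rw [intervalIntegral.integral_eq_sub_of_hasDerivAt h]
  · have h1 : 2 * s - a = 2 * (s - a / 2) := by ring
    have h2 : 2 * s - 1 - a = 2 * (s - (a + 1) / 2) := by ring
    rw [h1, h2, tau_two_mul, tau_two_mul]
    ring
  · exact (by
      have : Continuous fun u => tau p (u - a) := (continuous_tau p).comp (by fun_prop)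
      exact this.intervalIntegrable _ _)

/-- List sum of atoms at denominators `2 ^ N` and power `N + 1`. -/
def atomSum (N : ℕ) (L : List ℕ) (s : ℝ) : ℝ :=
  (L.map fun t : ℕ => tau (N + 1) (s - (t : ℝ) / 2 ^ N)).sum

theorem continuous_atomSum (N : ℕ) (L : List ℕ) : Continuous (atomSum N L) := by
  induction L with
  | nil =>
    have : atomSum N [] = fun _ => 0 := by
      funext s
      simp [atomSum]
    rw [this]
    exact continuous_const
  | cons a L ih =>
    have : atomSum N (a :: L) = fun s => tau (N + 1) (s - (a : ℝ) / 2 ^ N) + atomSum N L s := by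
      funext s
      simp [atomSum]
    rw [this]
    exact ((continuous_tau _).comp (by fun_prop)).add ih

theorem opT_atomSum (N : ℕ) (L : List ℕ) (s : ℝ) :
    opT (atomSum N L) s = 2 ^ (N + 2) * (atomSum (N + 1) L s -
      atomSum (N + 1) (L.map (· + 2 ^ N)) s) := by
  induction L with
  | nil => simp [opT, atomSum]
  | cons a L ih =>
    have h1 : atomSum N (a :: L) = fun s => tau (N + 1) (s - (a : ℝ) / 2 ^ N) + atomSum N L s := by
      funext s
      simp [atomSum]
    have h2 : opT (atomSum N (a :: L)) s =
        opT (fun u => tau (N + 1) (u - (a : ℝ) / 2 ^ N)) s + opT (atomSum N L) s := by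
      rw [h1]
      unfold opT
      rw [intervalIntegral.integral_add]
      · exact ((continuous_tau _).comp (by fun_prop)).intervalIntegrable _ _
      · exact (continuous_atomSum _ _).intervalIntegrable _ _
    rw [h2, ih, opT_tau (N + 1) (by omega)]
    have h3 : s - (a : ℝ) / 2 ^ N / 2 = s - (a : ℝ) / 2 ^ (N + 1) := by
      rw [pow_succ]; field_simp
    have h4 : s - ((a : ℝ) / 2 ^ N + 1) / 2 = s - (((a + 2 ^ N : ℕ) : ℝ)) / 2 ^ (N + 1) := by
      push_cast
      rw [pow_succ]
      field_simp
    rw [h3, h4]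
    simp only [atomSum, List.map_cons, List.sum_cons]
    ring

/-- The shift lists. -/
def lists : ℕ → List ℕ × List ℕ
  | 0 => ([0], [1])
  | N + 1 => ((lists N).1 ++ (lists N).2.map (· + 2 ^ N), (lists N).2 ++ (lists N).1.map (· + 2 ^ N))

/-- The normalisation. -/
def cst : ℕ → ℕ
  | 0 => 1
  | N + 1 => cst N * 2 ^ (N + 2)

/-- The approximants. -/
def G (N : ℕ) (s : ℝ) : ℝ :=
  (cst N : ℝ) * (atomSum N (lists N).1 s - atomSum N (lists N).2 s)

theorem atomSum_append (N : ℕ) (L L' : List ℕ) (s : ℝ) :
    atomSum N (L ++ L') s = atomSum N L s + atomSum N L' s := by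
  simp [atomSum]

theorem G_succ (N : ℕ) : G (N + 1) = opT (G N) := by
  funext s
  have h1 : G N = fun s => (cst N : ℝ) * atomSum N (lists N).1 s - (cst N : ℝ) * atomSum N (lists N).2 s := by
    funext s; simp only [G]; ring
  have hc1 := continuous_atomSum N (lists N).1
  have hc2 := continuous_atomSum N (lists N).2
  have h2 : opT (G N) s = (cst N : ℝ) * opT (atomSum N (lists N).1) s -
      (cst N : ℝ) * opT (atomSum N (lists N).2) s := by
    rw [h1]
    unfold opT
    rw [intervalIntegral.integral_sub, intervalIntegral.integral_const_mul,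
      intervalIntegral.integral_const_mul]
    · exact (continuous_const.mul hc1).intervalIntegrable _ _
    · exact (continuous_const.mul hc2).intervalIntegrable _ _
  rw [h2, opT_atomSum, opT_atomSum]
  simp only [G, lists, cst, atomSum_append]
  push_cast
  ring

/-- Initial ramp. -/
theorem G_zero (s : ℝ) : G 0 s = max s 0 - max (s - 1) 0 := by
  simp [G, lists, cst, atomSum, tau]

theorem good_G_zero : Good (G 0) := by
  have hG : G 0 = fun s => max s 0 - max (s - 1) 0 := funext G_zero
  rw [hG]
  refine ⟨by fun_prop, ?_, ?_, ?_, ?_, ?_⟩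
  · intro s hs
    show max s 0 - max (s - 1) 0 = 0
    rw [max_eq_right hs, max_eq_right (by linarith)]
    simp
  · intro s hs
    show max s 0 - max (s - 1) 0 = 1
    rw [max_eq_left (by linarith), max_eq_left (by linarith)]
    ring
  · intro s
    show 0 ≤ max s 0 - max (s - 1) 0
    rcases le_total s 0 with h | h
    · rw [max_eq_right h, max_eq_right (by linarith)]; simp
    · rcases le_total s 1 with h1 | h1
      · rw [max_eq_left h, max_eq_right (by linarith)]; simpa using h
      · rw [max_eq_left h, max_eq_left (by linarith)]; linarith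
  · intro s
    show max s 0 - max (s - 1) 0 ≤ 1
    rcases le_total s 0 with h | h
    · rw [max_eq_right h, max_eq_right (by linarith)]; simp
    · rcases le_total s 1 with h1 | h1
      · rw [max_eq_left h, max_eq_right (by linarith)]; simpa using h1
      · rw [max_eq_left h, max_eq_left (by linarith)]; linarith
  · intro s
    show max (1 - s) 0 - max (1 - s - 1) 0 = 1 - (max s 0 - max (s - 1) 0)
    rcases le_total s 0 with h | h
    · rw [max_eq_right h, max_eq_left (by linarith), max_eq_left (by linarith),
        max_eq_right (by linarith)]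
      ring
    · rcases le_total s 1 with h1 | h1
      · have e1 : max (1 - s) 0 = 1 - s := max_eq_left (by linarith)
        have e2 : max (1 - s - 1) 0 = 0 := max_eq_right (by linarith)
        have e3 : max s 0 = s := max_eq_left h
        have e4 : max (s - 1) 0 = 0 := max_eq_right (by linarith)
        rw [e1, e2, e3, e4]
        ring
      · have e1 : max (1 - s) 0 = 0 := max_eq_right (by linarith)
        have e2 : max (1 - s - 1) 0 = 0 := max_eq_right (by linarith)
        have e3 : max s 0 = s := max_eq_left h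
        have e4 : max (s - 1) 0 = s - 1 := max_eq_left (by linarith)
        rw [e1, e2, e3, e4]
        ring

theorem good_G (N : ℕ) : Good (G N) := by
  induction N with
  | zero => exact good_G_zero
  | succ N ih => rw [G_succ]; exact ih.opT

theorem G_diff_le (N : ℕ) (s : ℝ) : |G (N + 1) s - G N s| ≤ (1 / 2) ^ N := by
  induction N generalizing s with
  | zero =>
    have h1 := (good_G 1).nonneg s
    have h2 := (good_G 1).le_one s
    have h3 := (good_G 0).nonneg s
    have h4 := (good_G 0).le_one s
    simp only [pow_zero]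
    rw [abs_le]
    constructor <;> linarith
  | succ N ih =>
    have := opT_contraction (good_G (N + 1)) (good_G N) ih s
    rw [← G_succ, ← G_succ] at this
    refine this.trans (le_of_eq ?_)
    rw [pow_succ]
    ring

theorem cauchy_G (s : ℝ) : CauchySeq fun N => G N s := by
  refine cauchySeq_of_le_geometric (1 / 2) 1 (by norm_num) fun N => ?_
  rw [Real.dist_eq, abs_sub_comm]
  simpa using G_diff_le N s

/-- The Fabius function. -/
def F (s : ℝ) : ℝ := limUnder atTop fun N => G N s

theorem tendsto_G (s : ℝ) : Tendsto (fun N => G N s) atTop (𝓝 (F s)) :=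
  (cauchy_G s).tendsto_limUnder

theorem abs_G_sub_F (N : ℕ) (s : ℝ) : |G N s - F s| ≤ 2 * (1 / 2) ^ N := by
  have := dist_le_of_le_geometric_of_tendsto (r := 1 / 2) (C := 1) (by norm_num)
    (f := fun N => G N s) (a := F s) (fun N => by
      rw [Real.dist_eq, abs_sub_comm]
      simpa using G_diff_le N s) (tendsto_G s) N
  rw [Real.dist_eq] at this
  have e : (1 : ℝ) * (1 / 2) ^ N / (1 - 1 / 2) = 2 * (1 / 2) ^ N := by ring
  rwa [e] at this

theorem continuous_F : Continuous F := by
  have hu : TendstoUniformly (fun N => G N) F atTop := by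
    rw [Metric.tendstoUniformly_iff]
    intro ε hε
    have h0 : Tendsto (fun N : ℕ => 2 * ((1 : ℝ) / 2) ^ N) atTop (𝓝 (2 * 0)) :=
      (tendsto_pow_atTop_nhds_zero_of_lt_one (by norm_num) (by norm_num)).const_mul 2
    rw [mul_zero] at h0
    filter_upwards [h0.eventually (gt_mem_nhds hε)] with N hN s
    rw [Real.dist_eq, abs_sub_comm]
    exact lt_of_le_of_lt (abs_G_sub_F N s) hN
  exact hu.continuous (Eventually.of_forall fun N => (good_G N).cont).frequently

theorem good_F : Good F where
  cont := continuous_F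
  left s hs := by
    have : ∀ N, G N s = 0 := fun N => (good_G N).left s hs
    have h := tendsto_G s
    simp only [this] at h
    exact tendsto_nhds_unique h tendsto_const_nhds
  right s hs := by
    have : ∀ N, G N s = 1 := fun N => (good_G N).right s hs
    have h := tendsto_G s
    simp only [this] at h
    exact tendsto_nhds_unique h tendsto_const_nhds
  nonneg s := ge_of_tendsto' (tendsto_G s) fun N => (good_G N).nonneg s
  le_one s := le_of_tendsto' (tendsto_G s) fun N => (good_G N).le_one s
  symm s := by
    have h1 := tendsto_G (1 - s)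
    have h2 : Tendsto (fun N => 1 - G N s) atTop (𝓝 (1 - F s)) := tendsto_const_nhds.sub (tendsto_G s)
    have : (fun N => G N (1 - s)) = fun N => 1 - G N s := funext fun N => (good_G N).symm s
    rw [this] at h1
    exact tendsto_nhds_unique h1 h2

theorem F_eq_opT : F = opT F := by
  funext s
  have h1 : Tendsto (fun N => G (N + 1) s) atTop (𝓝 (F s)) :=
    (tendsto_add_atTop_iff_nat 1).2 (tendsto_G s)
  have h2 : Tendsto (fun N => G (N + 1) s) atTop (𝓝 (opT F s)) := by
    rw [Metric.tendsto_atTop]
    intro ε hε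
    have h0 : Tendsto (fun N : ℕ => 2 * ((1 : ℝ) / 2) ^ N) atTop (𝓝 (2 * 0)) :=
      (tendsto_pow_atTop_nhds_zero_of_lt_one (by norm_num) (by norm_num)).const_mul 2
    rw [mul_zero] at h0
    obtain ⟨K, hK⟩ := eventually_atTop.1 (h0.eventually (gt_mem_nhds hε))
    refine ⟨K, fun N hN => ?_⟩
    rw [Real.dist_eq, G_succ]
    refine lt_of_le_of_lt ?_ (hK N hN)
    have hc := opT_contraction (good_G N) good_F (abs_G_sub_F N) s
    have h3 : 0 ≤ (2 : ℝ) * (1 / 2) ^ N := by positivity
    linarith
  exact tendsto_nhds_unique h1 h2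

theorem hasDerivAt_F (s : ℝ) : HasDerivAt F (2 * F (2 * s) - 2 * F (2 * s - 1)) s := by
  have := hasDerivAt_opT continuous_F s
  rwa [← F_eq_opT] at this

end

end Crest.Agent.Lib.BoxFlowFab
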