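import Crest.Agent.Lib.BoxFlowRat
import Crest.Agent.Lib.BoxFlowFab

/-!
# Effective evaluation of the Fabius function and its derivatives.
-/

set_option autoImplicit false

namespace Crest.Agent.Lib.BoxFlowFabEff

open Crest.Agent.Lib.BoxFlowRat Crest.Agent.Lib.BoxFlowFab
open scoped ContDiff

/-! ### Derivatives -/

/-- shift lists for the derivatives. -/
def dlists : ℕ → List ℕ × List ℕ
  | 0 => ([0], [])
  | k + 1 => ((dlists k).1.map (2 * ·) ++ (dlists k).2.map (2 * · + 1),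
      (dlists k).2.map (2 * ·) ++ (dlists k).1.map (2 * · + 1))

/-- normalisation for derivatives. -/
def dcst : ℕ → ℕ
  | 0 => 1
  | k + 1 => dcst k * 2 ^ (k + 1)

noncomputable section

/-- sum of values of `F`. -/
def FSum (k : ℕ) (L : List ℕ) (s : ℝ) : ℝ := (L.map fun t : ℕ => F (2 ^ k * s - t)).sum

/-- The `k`-th derivative of `F`. -/
def DF (k : ℕ) (s : ℝ) : ℝ := (dcst k : ℝ) * (FSum k (dlists k).1 s - FSum k (dlists k).2 s)

theorem FSum_append (k : ℕ) (L L' : List ℕ) (s : ℝ) :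
    FSum k (L ++ L') s = FSum k L s + FSum k L' s := by
  simp [FSum]

theorem hasDerivAt_FSum (k : ℕ) (L : List ℕ) (s : ℝ) :
    HasDerivAt (FSum k L) ((2 : ℝ) ^ (k + 1) * (FSum (k + 1) (L.map (2 * ·)) s -
      FSum (k + 1) (L.map (2 * · + 1)) s)) s := by
  induction L with
  | nil =>
    have : FSum k [] = fun _ => 0 := by funext s; simp [FSum]
    rw [this]
    simpa [FSum] using hasDerivAt_const s (0 : ℝ)
  | cons a L ih =>
    have h1 : FSum k (a :: L) = fun s => F (2 ^ k * s - a) + FSum k L s := by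
      funext s; simp [FSum]
    rw [h1]
    have h2 : HasDerivAt (fun s : ℝ => (2 : ℝ) ^ k * s - a) ((2 : ℝ) ^ k) s := by
      simpa using ((hasDerivAt_id s).const_mul ((2 : ℝ) ^ k)).sub_const (a : ℝ)
    have h3 := (hasDerivAt_F ((2 : ℝ) ^ k * s - a)).comp s h2
    have h4 : HasDerivAt (fun s : ℝ => F (2 ^ k * s - a) + FSum k L s) _ s := h3.add ih
    refine h4.congr_deriv ?_
    have e1 : (2 : ℝ) ^ (k + 1) * s - ((2 * a : ℕ) : ℝ) = 2 * ((2 : ℝ) ^ k * s - a) := by
      push_cast; rw [pow_succ]; ring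
    have e2 : (2 : ℝ) ^ (k + 1) * s - ((2 * a + 1 : ℕ) : ℝ) = 2 * ((2 : ℝ) ^ k * s - a) - 1 := by
      push_cast; rw [pow_succ]; ring
    simp only [FSum, List.map_cons, List.sum_cons]
    rw [e1, e2, pow_succ]
    ring

theorem hasDerivAt_DF (k : ℕ) (s : ℝ) : HasDerivAt (DF k) (DF (k + 1) s) s := by
  have h1 := hasDerivAt_FSum k (dlists k).1 s
  have h2 := hasDerivAt_FSum k (dlists k).2 s
  have h3 : HasDerivAt (fun s => (dcst k : ℝ) * (FSum k (dlists k).1 s - FSum k (dlists k).2 s)) _ s :=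
    (h1.sub h2).const_mul (dcst k : ℝ)
  have e : DF k = fun s => (dcst k : ℝ) * (FSum k (dlists k).1 s - FSum k (dlists k).2 s) := rfl
  rw [e]
  refine h3.congr_deriv ?_
  simp only [DF, dlists, dcst, FSum_append]
  push_cast
  ring

theorem continuous_FSum (k : ℕ) (L : List ℕ) : Continuous (FSum k L) := by
  induction L with
  | nil =>
    have : FSum k [] = fun _ => 0 := by funext s; simp [FSum]
    rw [this]
    exact continuous_const
  | cons a L ih =>
    have h1 : FSum k (a :: L) = fun s => F (2 ^ k * s - a) + FSum k L s := by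
      funext s; simp [FSum]
    rw [h1]
    exact (continuous_F.comp (by fun_prop)).add ih

theorem continuous_DF (k : ℕ) : Continuous (DF k) :=
  continuous_const.mul ((continuous_FSum k _).sub (continuous_FSum k _))

theorem contDiff_DF_aux (n : ℕ) : ∀ k, ContDiff ℝ n (DF k) := by
  induction n with
  | zero =>
    intro k
    have := (contDiff_zero (𝕜 := ℝ)).2 (continuous_DF k)
    simpa using this
  | succ n ih =>
    intro k
    have : ((n + 1 : ℕ) : WithTop ℕ∞) = (n : WithTop ℕ∞) + 1 := by push_cast; rfl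
    rw [this, contDiff_succ_iff_deriv]
    refine ⟨fun x => (hasDerivAt_DF k x).differentiableAt, by simp, ?_⟩
    have : deriv (DF k) = DF (k + 1) := funext fun x => (hasDerivAt_DF k x).deriv
    rw [this]
    exact ih (k + 1)

theorem contDiff_DF (k : ℕ) : ContDiff ℝ ∞ (DF k) :=
  contDiff_infty.2 fun n => contDiff_DF_aux n k

theorem DF_zero : DF 0 = F := by
  funext s
  simp [DF, dlists, dcst, FSum]

theorem contDiff_F : ContDiff ℝ ∞ F := DF_zero ▸ contDiff_DF 0

theorem iteratedDeriv_F (k : ℕ) : iteratedDeriv k F = DF k := by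
  induction k with
  | zero => simp [DF_zero]
  | succ k ih =>
    rw [iteratedDeriv_succ, ih]
    exact funext fun x => (hasDerivAt_DF k x).deriv

/-! ### Bounds -/

theorem FSum_nonneg (k : ℕ) (L : List ℕ) (s : ℝ) : 0 ≤ FSum k L s := by
  unfold FSum
  refine List.sum_nonneg ?_
  simp only [List.mem_map]
  rintro _ ⟨t, _, rfl⟩
  exact good_F.nonneg _

theorem FSum_le (k : ℕ) (L : List ℕ) (s : ℝ) : FSum k L s ≤ L.length := by
  induction L with
  | nil => simp [FSum]
  | cons a L ih =>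
    have h1 : FSum k (a :: L) s = F (2 ^ k * s - a) + FSum k L s := by simp [FSum]
    rw [h1]
    have := good_F.le_one ((2 : ℝ) ^ k * s - a)
    push_cast [List.length_cons]
    linarith

theorem dlists_length (k : ℕ) : (dlists k).1.length + (dlists k).2.length = 2 ^ k := by
  induction k with
  | zero => simp [dlists]
  | succ k ih =>
    simp only [dlists, List.length_append, List.length_map]
    rw [pow_succ, ← ih]
    ring

/-- bound for derivative. -/
def Bd (k : ℕ) : ℕ := dcst k * 2 ^ k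

theorem abs_DF_le (k : ℕ) (s : ℝ) : |DF k s| ≤ Bd k := by
  unfold DF Bd
  rw [abs_mul, abs_of_nonneg (by positivity : (0 : ℝ) ≤ (dcst k : ℝ))]
  push_cast
  refine mul_le_mul_of_nonneg_left ?_ (by positivity)
  have h1 := FSum_nonneg k (dlists k).1 s
  have h2 := FSum_nonneg k (dlists k).2 s
  have h3 := FSum_le k (dlists k).1 s
  have h4 := FSum_le k (dlists k).2 s
  have h5 : ((dlists k).1.length : ℝ) + ((dlists k).2.length : ℝ) = 2 ^ k := by
    exact_mod_cast dlists_length k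
  rw [abs_le]
  constructor <;> linarith

end

/-! ### Natural number evaluation of the approximants -/

/-- Sum of powers. -/
def natSum (N : ℕ) (L : List ℕ) (u v : ℕ) : ℕ :=
  L.foldl (fun acc t => acc + (u * 2 ^ N - t * v) ^ (N + 1)) 0

theorem foldl_add_eq {α : Type*} (f : α → ℕ) (L : List α) (a : ℕ) :
    L.foldl (fun acc t => acc + f t) a = a + (L.map f).sum := by
  induction L generalizing a with
  | nil => simp
  | cons b L ih => simp [ih, add_assoc]

theorem natSum_eq (N : ℕ) (L : List ℕ) (u v : ℕ) :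
    natSum N L u v = (L.map fun t => (u * 2 ^ N - t * v) ^ (N + 1)).sum := by
  unfold natSum
  rw [foldl_add_eq]
  simp

noncomputable section

theorem tau_eval (N : ℕ) (u v t : ℕ) (hv : 0 < v) :
    tau (N + 1) ((u : ℝ) / v - (t : ℝ) / 2 ^ N) =
      (((u * 2 ^ N - t * v) ^ (N + 1) : ℕ) : ℝ) / (((v * 2 ^ N) ^ (N + 1) * (N + 1).factorial : ℕ) : ℝ) := by
  have hv' : (0 : ℝ) < v := by exact_mod_cast hv
  have h2 : (0 : ℝ) < 2 ^ N := by positivity
  have key : max ((u : ℝ) / v - (t : ℝ) / 2 ^ N) 0 =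
      (((u * 2 ^ N - t * v : ℕ) : ℝ)) / ((v : ℝ) * 2 ^ N) := by
    rcases le_total (t * v) (u * 2 ^ N) with h | h
    · have hc : ((t * v : ℕ) : ℝ) ≤ ((u * 2 ^ N : ℕ) : ℝ) := by exact_mod_cast h
      push_cast at hc
      have e : (u : ℝ) / v - (t : ℝ) / 2 ^ N = ((u : ℝ) * 2 ^ N - t * v) / ((v : ℝ) * 2 ^ N) := by
        field_simp
      rw [e, max_eq_left (by
        apply div_nonneg
        · linarith
        · positivity), Nat.cast_sub h]
      push_cast
      rfl
    · have hc : ((u * 2 ^ N : ℕ) : ℝ) ≤ ((t * v : ℕ) : ℝ) := by exact_mod_cast h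
      push_cast at hc
      have e : (u : ℝ) / v - (t : ℝ) / 2 ^ N = ((u : ℝ) * 2 ^ N - t * v) / ((v : ℝ) * 2 ^ N) := by
        field_simp
      rw [e, max_eq_right (by
        apply div_nonpos_of_nonpos_of_nonneg
        · linarith
        · positivity), Nat.sub_eq_zero_of_le h]
      simp
  unfold tau
  rw [key, div_pow]
  push_cast
  rw [div_div]

theorem atomSum_eval (N : ℕ) (L : List ℕ) (u v : ℕ) (hv : 0 < v) :
    atomSum N L ((u : ℝ) / v) =
      (natSum N L u v : ℝ) / (((v * 2 ^ N) ^ (N + 1) * (N + 1).factorial : ℕ) : ℝ) := by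
  rw [natSum_eq]
  induction L with
  | nil => simp [atomSum]
  | cons a L ih =>
    have h1 : atomSum N (a :: L) ((u : ℝ) / v) =
        tau (N + 1) ((u : ℝ) / v - (a : ℝ) / 2 ^ N) + atomSum N L ((u : ℝ) / v) := by
      simp [atomSum]
    rw [h1, ih, tau_eval N u v a hv]
    simp only [List.map_cons, List.sum_cons]
    push_cast
    ring

/-- Triple approximating `G N (u / (d + 1))`. -/
def approxG (N u d : ℕ) : ℕ × ℕ × ℕ :=
  (cst N * natSum N (lists N).1 u (d + 1), cst N * natSum N (lists N).2 u (d + 1),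
    ((d + 1) * 2 ^ N) ^ (N + 1) * (N + 1).factorial - 1)

theorem valQ_cast (t : ℕ × ℕ × ℕ) : ((valQ t : ℚ) : ℝ) = ((t.1 : ℝ) - (t.2.1 : ℝ)) / ((t.2.2 : ℝ) + 1) := by
  simp [valQ]

theorem valQ_approxG (N u d : ℕ) : ((valQ (approxG N u d) : ℚ) : ℝ) = G N ((u : ℝ) / ((d + 1 : ℕ) : ℝ)) := by
  rw [valQ_cast]
  simp only [approxG, G]
  rw [atomSum_eval _ _ _ _ (Nat.succ_pos d), atomSum_eval _ _ _ _ (Nat.succ_pos d)]
  have hpos : 0 < ((d + 1) * 2 ^ N) ^ (N + 1) * (N + 1).factorial := by positivity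
  have e : (((((d + 1) * 2 ^ N) ^ (N + 1) * (N + 1).factorial - 1 : ℕ)) : ℝ) + 1 =
      (((d + 1) * 2 ^ N) ^ (N + 1) * (N + 1).factorial : ℕ) := by
    have : ((d + 1) * 2 ^ N) ^ (N + 1) * (N + 1).factorial - 1 + 1 =
        ((d + 1) * 2 ^ N) ^ (N + 1) * (N + 1).factorial := Nat.sub_add_cancel hpos
    exact_mod_cast this
  rw [e]
  push_cast
  ring

/-- Approximation of `F` at the value of a triple, with `N` as precision parameter. -/
def approxF (t : ℕ × ℕ × ℕ) (N : ℕ) : ℕ × ℕ × ℕ := approxG N (t.1 - t.2.1) t.2.2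

theorem G_val (N : ℕ) (t : ℕ × ℕ × ℕ) :
    G N (((valQ t : ℚ) : ℝ)) = G N (((t.1 - t.2.1 : ℕ) : ℝ) / ((t.2.2 + 1 : ℕ) : ℝ)) := by
  rw [valQ_cast]
  rcases le_total t.2.1 t.1 with h | h
  · rw [Nat.cast_sub h]
    push_cast
    rfl
  · rw [Nat.sub_eq_zero_of_le h]
    have h1 : ((t.1 : ℝ) - (t.2.1 : ℝ)) / ((t.2.2 : ℝ) + 1) ≤ 0 := by
      apply div_nonpos_of_nonpos_of_nonneg
      · have : (t.1 : ℝ) ≤ t.2.1 := by exact_mod_cast h
        linarith
      · positivity
    rw [(good_G N).left _ h1]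
    simp only [Nat.cast_zero, zero_div]
    rw [(good_G N).left 0 le_rfl]

theorem abs_F_sub_approxF (t : ℕ × ℕ × ℕ) (N : ℕ) :
    |F ((valQ t : ℚ) : ℝ) - ((valQ (approxF t N) : ℚ) : ℝ)| ≤ 2 * (1 / 2) ^ N := by
  unfold approxF
  rw [valQ_approxG, ← G_val, abs_sub_comm]
  exact abs_G_sub_F N _

/-! ### Approximating derivatives -/

/-- Sum of approximants over a list of shifts. -/
def sumApprox (L : List ℕ) (T : ℕ × ℕ × ℕ) (N : ℕ) : ℕ × ℕ × ℕ :=
  L.foldl (fun acc i => addT acc (approxF (addT T (0, i, 0)) N)) (0, 0, 0)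

theorem valQ_foldl_addT {α : Type*} (f : α → ℕ × ℕ × ℕ) (L : List α) (a : ℕ × ℕ × ℕ) :
    valQ (L.foldl (fun acc i => addT acc (f i)) a) = valQ a + (L.map fun i => valQ (f i)).sum := by
  induction L generalizing a with
  | nil => simp
  | cons b L ih =>
    simp only [List.foldl_cons, List.map_cons, List.sum_cons]
    rw [ih, valQ_addT, add_assoc]

theorem valQ_zero : valQ (0, 0, 0) = 0 := by simp [valQ]

theorem abs_FSum_sub (k : ℕ) (L : List ℕ) (T : ℕ × ℕ × ℕ) (N : ℕ) (s : ℝ)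
    (hT : ((valQ T : ℚ) : ℝ) = 2 ^ k * s) :
    |FSum k L s - ((valQ (sumApprox L T N) : ℚ) : ℝ)| ≤ L.length * (2 * (1 / 2) ^ N) := by
  unfold sumApprox
  rw [valQ_foldl_addT, valQ_zero, zero_add]
  induction L with
  | nil => simp [FSum]
  | cons a L ih =>
    have hshift : ((valQ (addT T (0, a, 0)) : ℚ) : ℝ) = 2 ^ k * s - a := by
      rw [valQ_addT]
      push_cast
      rw [hT]
      simp [valQ]
      ring
    have h1 : FSum k (a :: L) s = F (2 ^ k * s - a) + FSum k L s := by simp [FSum]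
    have h2 := abs_F_sub_approxF (addT T (0, a, 0)) N
    rw [hshift] at h2
    rw [h1]
    simp only [List.map_cons, List.sum_cons, List.length_cons]
    rw [Rat.cast_add]
    have e : F (2 ^ k * s - a) + FSum k L s -
        (((valQ (approxF (addT T (0, a, 0)) N) : ℚ) : ℝ) +
          (((L.map fun i => valQ (approxF (addT T (0, i, 0)) N)).sum : ℚ) : ℝ)) =
        (F (2 ^ k * s - a) - ((valQ (approxF (addT T (0, a, 0)) N) : ℚ) : ℝ)) +
        (FSum k L s - (((L.map fun i => valQ (approxF (addT T (0, i, 0)) N)).sum : ℚ) : ℝ)) := by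
      ring
    rw [e]
    refine (abs_add_le _ _).trans ?_
    calc _ ≤ 2 * (1 / 2 : ℝ) ^ N + L.length * (2 * (1 / 2) ^ N) := add_le_add h2 ih
      _ = _ := by push_cast; ring

/-- precision parameter. -/
def precN (k n : ℕ) : ℕ := dcst k + k + n + 1

/-- triple approximating the `k`-th derivative of `F` at the value of `t`. -/
def approxD (k : ℕ) (t : ℕ × ℕ × ℕ) (n : ℕ) : ℕ × ℕ × ℕ :=
  mulT (dcst k, 0, 0)
    (addT (sumApprox (dlists k).1 (mulT (2 ^ k, 0, 0) t) (precN k n))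
      (negT (sumApprox (dlists k).2 (mulT (2 ^ k, 0, 0) t) (precN k n))))

theorem abs_DF_sub_approxD (k : ℕ) (t : ℕ × ℕ × ℕ) (n : ℕ) :
    |DF k ((valQ t : ℚ) : ℝ) - ((valQ (approxD k t n) : ℚ) : ℝ)| ≤ 1 / ((n : ℝ) + 1) := by
  have hT : ((valQ (mulT (2 ^ k, 0, 0) t) : ℚ) : ℝ) = 2 ^ k * ((valQ t : ℚ) : ℝ) := by
    rw [valQ_mulT]
    push_cast
    simp [valQ]
  set s : ℝ := ((valQ t : ℚ) : ℝ) with hs
  set N := precN k n with hN
  have h1 := abs_FSum_sub k (dlists k).1 _ N s hT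
  have h2 := abs_FSum_sub k (dlists k).2 _ N s hT
  unfold approxD
  rw [valQ_mulT, valQ_addT, valQ_negT, ← hN]
  set A := ((valQ (sumApprox (dlists k).1 (mulT (2 ^ k, 0, 0) t) N) : ℚ) : ℝ) with hA
  set B := ((valQ (sumApprox (dlists k).2 (mulT (2 ^ k, 0, 0) t) N) : ℚ) : ℝ) with hB
  have hc : ((valQ (dcst k, 0, 0) : ℚ) : ℝ) = dcst k := by simp [valQ]
  push_cast
  rw [← hA, ← hB, hc]
  unfold DF
  have e : (dcst k : ℝ) * (FSum k (dlists k).1 s - FSum k (dlists k).2 s) - (dcst k : ℝ) * (A + -B) =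
      (dcst k : ℝ) * ((FSum k (dlists k).1 s - A) - (FSum k (dlists k).2 s - B)) := by ring
  rw [e, abs_mul, abs_of_nonneg (by positivity : (0 : ℝ) ≤ dcst k)]
  have h3 : |(FSum k (dlists k).1 s - A) - (FSum k (dlists k).2 s - B)| ≤
      (2 : ℝ) ^ k * (2 * (1 / 2) ^ N) := by
    refine (abs_sub _ _).trans ?_
    have h5 : ((dlists k).1.length : ℝ) + ((dlists k).2.length : ℝ) = 2 ^ k := by
      exact_mod_cast dlists_length k
    rw [← h5, add_mul]
    exact add_le_add h1 h2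
  have h4 : (dcst k : ℝ) * ((2 : ℝ) ^ k * (2 * (1 / 2) ^ N)) ≤ 1 / ((n : ℝ) + 1) := by
    have hN2 : (2 : ℝ) ^ N = 2 ^ dcst k * 2 ^ k * 2 ^ n * 2 := by
      rw [hN]; unfold precN; rw [pow_succ, pow_add, pow_add]
    have h6 : (dcst k : ℝ) ≤ 2 ^ dcst k := by
      exact_mod_cast (Nat.lt_two_pow_self (n := dcst k)).le
    have h7 : (n : ℝ) + 1 ≤ 2 ^ n := by
      exact_mod_cast (Nat.lt_two_pow_self (n := n))
    rw [one_div_pow, le_div_iff₀ (by positivity)]
    have h2pos : (0 : ℝ) < 2 ^ N := by positivity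
    rw [show (dcst k : ℝ) * (2 ^ k * (2 * (1 / 2 ^ N))) * ((n : ℝ) + 1) =
      ((dcst k : ℝ) * 2 ^ k * 2 * ((n : ℝ) + 1)) / 2 ^ N by field_simp]
    rw [div_le_one h2pos, hN2]
    have h8 : (0 : ℝ) ≤ 2 ^ k := by positivity
    have : (dcst k : ℝ) * 2 ^ k * 2 * ((n : ℝ) + 1) ≤ 2 ^ dcst k * 2 ^ k * 2 * 2 ^ n := by
      have h9 : (dcst k : ℝ) * 2 ^ k * 2 ≤ 2 ^ dcst k * 2 ^ k * 2 := by gcongr
      exact mul_le_mul h9 h7 (by positivity) (by positivity)
    calc _ ≤ _ := this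
      _ = _ := by ring
  calc (dcst k : ℝ) * |(FSum k (dlists k).1 s - A) - (FSum k (dlists k).2 s - B)|
      ≤ (dcst k : ℝ) * ((2 : ℝ) ^ k * (2 * (1 / 2) ^ N)) := by gcongr
    _ ≤ _ := h4

end

end Crest.Agent.Lib.BoxFlowFabEff
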