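import Crest.Agent.Lib.BoxFlowFabEff

/-!
# Primitive recursiveness of the evaluation of the Fabius function.
-/

set_option autoImplicit false

namespace Crest.Agent.Lib.BoxFlowFabPrim

open Crest.Agent.Lib.BoxFlowRat Crest.Agent.Lib.BoxFlowFab Crest.Agent.Lib.BoxFlowFabEff
open scoped ContDiff

theorem primrec_pow : Primrec₂ ((· ^ ·) : ℕ → ℕ → ℕ) :=
  Primrec₂.unpaired'.1 Nat.Primrec.pow

theorem primrec_factorial : Primrec Nat.factorial := by
  have h : Primrec₂ fun (k acc : ℕ) => (k + 1) * acc :=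
    Primrec.nat_mul.comp (Primrec.succ.comp Primrec.fst) Primrec.snd
  refine (Primrec.nat_rec₁ 1 h).of_eq fun n => ?_
  induction n with
  | zero => rfl
  | succ n ih =>
    show (n + 1) * Nat.rec 1 (fun k acc => (k + 1) * acc) n = (n + 1).factorial
    rw [ih, Nat.factorial_succ]

theorem primrec_two_pow : Primrec fun n : ℕ => 2 ^ n :=
  primrec_pow.comp (Primrec.const 2) Primrec.id

theorem primrec_cst : Primrec cst := by
  have h : Primrec₂ fun (k acc : ℕ) => acc * 2 ^ (k + 2) :=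
    Primrec.nat_mul.comp Primrec.snd
      (primrec_two_pow.comp (Primrec.nat_add.comp Primrec.fst (Primrec.const 2)))
  refine (Primrec.nat_rec₁ 1 h).of_eq fun n => ?_
  induction n with
  | zero => rfl
  | succ n ih =>
    show Nat.rec 1 (fun k acc => acc * 2 ^ (k + 2)) n * 2 ^ (n + 2) = cst (n + 1)
    rw [ih]
    rfl

theorem primrec_dcst : Primrec dcst := by
  have h : Primrec₂ fun (k acc : ℕ) => acc * 2 ^ (k + 1) :=
    Primrec.nat_mul.comp Primrec.snd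
      (primrec_two_pow.comp (Primrec.nat_add.comp Primrec.fst (Primrec.const 1)))
  refine (Primrec.nat_rec₁ 1 h).of_eq fun n => ?_
  induction n with
  | zero => rfl
  | succ n ih =>
    show Nat.rec 1 (fun k acc => acc * 2 ^ (k + 1)) n * 2 ^ (n + 1) = dcst (n + 1)
    rw [ih]
    rfl

theorem primrec_lists : Primrec lists := by
  have hg : Primrec₂ fun (x : ℕ × (List ℕ × List ℕ)) (t : ℕ) => t + 2 ^ x.1 :=
    Primrec.nat_add.comp Primrec.snd (primrec_two_pow.comp (Primrec.fst.comp Primrec.fst))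
  have h1 : Primrec fun x : ℕ × (List ℕ × List ℕ) => x.2.1 := Primrec.fst.comp Primrec.snd
  have h2 : Primrec fun x : ℕ × (List ℕ × List ℕ) => x.2.2 := Primrec.snd.comp Primrec.snd
  have h : Primrec₂ fun (N : ℕ) (p : List ℕ × List ℕ) =>
      (p.1 ++ p.2.map (· + 2 ^ N), p.2 ++ p.1.map (· + 2 ^ N)) := by
    refine Primrec.pair ?_ ?_
    · exact Primrec.list_append.comp h1 (Primrec.list_map h2 hg)
    · exact Primrec.list_append.comp h2 (Primrec.list_map h1 hg)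
  refine (Primrec.nat_rec₁ ([0], [1]) h).of_eq fun n => ?_
  induction n with
  | zero => rfl
  | succ n ih =>
    simp only [lists]
    rw [← ih]

theorem primrec_dlists : Primrec dlists := by
  have hg1 : Primrec₂ fun (_ : ℕ × (List ℕ × List ℕ)) (t : ℕ) => 2 * t :=
    Primrec.nat_mul.comp (Primrec.const 2) Primrec.snd
  have hg2 : Primrec₂ fun (_ : ℕ × (List ℕ × List ℕ)) (t : ℕ) => 2 * t + 1 :=
    Primrec.succ.comp (Primrec.nat_mul.comp (Primrec.const 2) Primrec.snd)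
  have h1 : Primrec fun x : ℕ × (List ℕ × List ℕ) => x.2.1 := Primrec.fst.comp Primrec.snd
  have h2 : Primrec fun x : ℕ × (List ℕ × List ℕ) => x.2.2 := Primrec.snd.comp Primrec.snd
  have h : Primrec₂ fun (_ : ℕ) (p : List ℕ × List ℕ) =>
      (p.1.map (2 * ·) ++ p.2.map (2 * · + 1), p.2.map (2 * ·) ++ p.1.map (2 * · + 1)) := by
    refine Primrec.pair ?_ ?_
    · exact Primrec.list_append.comp (Primrec.list_map h1 hg1) (Primrec.list_map h2 hg2)
    · exact Primrec.list_append.comp (Primrec.list_map h2 hg1) (Primrec.list_map h1 hg2)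
  refine (Primrec.nat_rec₁ ([0], []) h).of_eq fun n => ?_
  induction n with
  | zero => rfl
  | succ n ih =>
    simp only [dlists]
    rw [← ih]

/-- `natSum` as a function of a tuple. -/
theorem primrec_natSum : Primrec fun a : ℕ × List ℕ × ℕ × ℕ => natSum a.1 a.2.1 a.2.2.1 a.2.2.2 := by
  have aN : Primrec fun x : (ℕ × List ℕ × ℕ × ℕ) × (ℕ × ℕ) => x.1.1 := Primrec.fst.comp Primrec.fst
  have au : Primrec fun x : (ℕ × List ℕ × ℕ × ℕ) × (ℕ × ℕ) => x.1.2.2.1 :=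
    Primrec.fst.comp (Primrec.snd.comp (Primrec.snd.comp Primrec.fst))
  have av : Primrec fun x : (ℕ × List ℕ × ℕ × ℕ) × (ℕ × ℕ) => x.1.2.2.2 :=
    Primrec.snd.comp (Primrec.snd.comp (Primrec.snd.comp Primrec.fst))
  have as : Primrec fun x : (ℕ × List ℕ × ℕ × ℕ) × (ℕ × ℕ) => x.2.1 := Primrec.fst.comp Primrec.snd
  have ab : Primrec fun x : (ℕ × List ℕ × ℕ × ℕ) × (ℕ × ℕ) => x.2.2 := Primrec.snd.comp Primrec.snd
  have hh : Primrec₂ fun (a : ℕ × List ℕ × ℕ × ℕ) (x : ℕ × ℕ) =>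
      x.1 + (a.2.2.1 * 2 ^ a.1 - x.2 * a.2.2.2) ^ (a.1 + 1) :=
    Primrec.nat_add.comp as (primrec_pow.comp
    (Primrec.nat_sub.comp (Primrec.nat_mul.comp au (primrec_two_pow.comp aN))
      (Primrec.nat_mul.comp ab av))
    (Primrec.succ.comp aN))
  have hf : Primrec fun a : ℕ × List ℕ × ℕ × ℕ => a.2.1 := Primrec.fst.comp Primrec.snd
  have := Primrec.list_foldl hf (Primrec.const (α := ℕ × List ℕ × ℕ × ℕ) 0) hh
  exact this

theorem primrec_approxG : Primrec fun a : ℕ × ℕ × ℕ => approxG a.1 a.2.1 a.2.2 := by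
  have aN : Primrec fun a : ℕ × ℕ × ℕ => a.1 := Primrec.fst
  have au : Primrec fun a : ℕ × ℕ × ℕ => a.2.1 := Primrec.fst.comp Primrec.snd
  have ad : Primrec fun a : ℕ × ℕ × ℕ => a.2.2 := Primrec.snd.comp Primrec.snd
  have ad1 : Primrec fun a : ℕ × ℕ × ℕ => a.2.2 + 1 := Primrec.succ.comp ad
  have hl : Primrec fun a : ℕ × ℕ × ℕ => lists a.1 := primrec_lists.comp aN
  have hl1 : Primrec fun a : ℕ × ℕ × ℕ => (lists a.1).1 := Primrec.fst.comp hl
  have hl2 : Primrec fun a : ℕ × ℕ × ℕ => (lists a.1).2 := Primrec.snd.comp hl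
  have h1 : Primrec fun a : ℕ × ℕ × ℕ => cst a.1 * natSum a.1 (lists a.1).1 a.2.1 (a.2.2 + 1) :=
    Primrec.nat_mul.comp (primrec_cst.comp aN)
      (primrec_natSum.comp (Primrec.pair aN (Primrec.pair hl1 (Primrec.pair au ad1))))
  have h2 : Primrec fun a : ℕ × ℕ × ℕ => cst a.1 * natSum a.1 (lists a.1).2 a.2.1 (a.2.2 + 1) :=
    Primrec.nat_mul.comp (primrec_cst.comp aN)
      (primrec_natSum.comp (Primrec.pair aN (Primrec.pair hl2 (Primrec.pair au ad1))))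
  have h3 : Primrec fun a : ℕ × ℕ × ℕ => ((a.2.2 + 1) * 2 ^ a.1) ^ (a.1 + 1) :=
    primrec_pow.comp (Primrec.nat_mul.comp ad1 (primrec_two_pow.comp aN)) (Primrec.succ.comp aN)
  have h4 : Primrec fun a : ℕ × ℕ × ℕ =>
      ((a.2.2 + 1) * 2 ^ a.1) ^ (a.1 + 1) * (a.1 + 1).factorial - 1 :=
    Primrec.nat_sub.comp (Primrec.nat_mul.comp h3 (primrec_factorial.comp (Primrec.succ.comp aN)))
      (Primrec.const 1)
  exact Primrec.pair h1 (Primrec.pair h2 h4)

theorem primrec_approxF : Primrec₂ approxF := by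
  have h : Primrec fun a : (ℕ × ℕ × ℕ) × ℕ => (a.2, a.1.1 - a.1.2.1, a.1.2.2) :=
    Primrec.pair Primrec.snd (Primrec.pair
      (Primrec.nat_sub.comp (Primrec.fst.comp Primrec.fst)
        (Primrec.fst.comp (Primrec.snd.comp Primrec.fst)))
      (Primrec.snd.comp (Primrec.snd.comp Primrec.fst)))
  exact primrec_approxG.comp h

theorem primrec_sumApprox :
    Primrec fun a : List ℕ × (ℕ × ℕ × ℕ) × ℕ => sumApprox a.1 a.2.1 a.2.2 := by
  have aT : Primrec fun x : (List ℕ × (ℕ × ℕ × ℕ) × ℕ) × ((ℕ × ℕ × ℕ) × ℕ) => x.1.2.1 :=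
    Primrec.fst.comp (Primrec.snd.comp Primrec.fst)
  have aN : Primrec fun x : (List ℕ × (ℕ × ℕ × ℕ) × ℕ) × ((ℕ × ℕ × ℕ) × ℕ) => x.1.2.2 :=
    Primrec.snd.comp (Primrec.snd.comp Primrec.fst)
  have as : Primrec fun x : (List ℕ × (ℕ × ℕ × ℕ) × ℕ) × ((ℕ × ℕ × ℕ) × ℕ) => x.2.1 :=
    Primrec.fst.comp Primrec.snd
  have ab : Primrec fun x : (List ℕ × (ℕ × ℕ × ℕ) × ℕ) × ((ℕ × ℕ × ℕ) × ℕ) => x.2.2 :=
    Primrec.snd.comp Primrec.snd
  have h1 : Primrec fun x : (List ℕ × (ℕ × ℕ × ℕ) × ℕ) × ((ℕ × ℕ × ℕ) × ℕ) =>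
      addT x.1.2.1 (0, x.2.2, 0) :=
    primrec_addT.comp aT (Primrec.pair (Primrec.const 0) (Primrec.pair ab (Primrec.const 0)))
  have hh : Primrec₂ fun (a : List ℕ × (ℕ × ℕ × ℕ) × ℕ) (x : (ℕ × ℕ × ℕ) × ℕ) =>
      addT x.1 (approxF (addT a.2.1 (0, x.2, 0)) a.2.2) :=
    primrec_addT.comp as (primrec_approxF.comp h1 aN)
  have hf : Primrec fun a : List ℕ × (ℕ × ℕ × ℕ) × ℕ => a.1 := Primrec.fst
  have := Primrec.list_foldl hf (Primrec.const (α := List ℕ × (ℕ × ℕ × ℕ) × ℕ) (0, 0, 0)) hh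
  exact this

theorem primrec_precN : Primrec₂ precN := by
  have h1 : Primrec fun a : ℕ × ℕ => dcst a.1 + a.1 :=
    Primrec.nat_add.comp (primrec_dcst.comp Primrec.fst) Primrec.fst
  have h2 : Primrec fun a : ℕ × ℕ => dcst a.1 + a.1 + a.2 := Primrec.nat_add.comp h1 Primrec.snd
  have h3 : Primrec fun a : ℕ × ℕ => (dcst a.1 + a.1 + a.2) + 1 := Primrec.succ.comp h2
  exact h3

theorem primrec_sumApprox_comp {α : Type} [Primcodable α] {f : α → List ℕ} {g : α → ℕ × ℕ × ℕ}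
    {h : α → ℕ} (hf : Primrec f) (hg : Primrec g) (hh : Primrec h) :
    Primrec fun a => sumApprox (f a) (g a) (h a) := by
  have h1 := Primrec.pair hf (Primrec.pair hg hh)
  have h2 := primrec_sumApprox.comp h1
  exact h2

theorem primrec_approxD : Primrec fun a : ℕ × (ℕ × ℕ × ℕ) × ℕ => approxD a.1 a.2.1 a.2.2 := by
  have ak : Primrec fun a : ℕ × (ℕ × ℕ × ℕ) × ℕ => a.1 := Primrec.fst
  have at' : Primrec fun a : ℕ × (ℕ × ℕ × ℕ) × ℕ => a.2.1 := Primrec.fst.comp Primrec.snd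
  have an : Primrec fun a : ℕ × (ℕ × ℕ × ℕ) × ℕ => a.2.2 := Primrec.snd.comp Primrec.snd
  have hN : Primrec fun a : ℕ × (ℕ × ℕ × ℕ) × ℕ => precN a.1 a.2.2 := primrec_precN.comp ak an
  have hT : Primrec fun a : ℕ × (ℕ × ℕ × ℕ) × ℕ => mulT (2 ^ a.1, 0, 0) a.2.1 :=
    primrec_mulT.comp (Primrec.pair (primrec_two_pow.comp ak) (Primrec.const (0, 0))) at'
  have hl : Primrec fun a : ℕ × (ℕ × ℕ × ℕ) × ℕ => dlists a.1 := primrec_dlists.comp ak
  have hl1 : Primrec fun a : ℕ × (ℕ × ℕ × ℕ) × ℕ => (dlists a.1).1 := Primrec.fst.comp hl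
  have hl2 : Primrec fun a : ℕ × (ℕ × ℕ × ℕ) × ℕ => (dlists a.1).2 := Primrec.snd.comp hl
  have hs1 : Primrec fun a : ℕ × (ℕ × ℕ × ℕ) × ℕ =>
      sumApprox (dlists a.1).1 (mulT (2 ^ a.1, 0, 0) a.2.1) (precN a.1 a.2.2) :=
    primrec_sumApprox_comp hl1 hT hN
  have hs2 : Primrec fun a : ℕ × (ℕ × ℕ × ℕ) × ℕ =>
      sumApprox (dlists a.1).2 (mulT (2 ^ a.1, 0, 0) a.2.1) (precN a.1 a.2.2) :=
    primrec_sumApprox_comp hl2 hT hN
  have hc : Primrec fun a : ℕ × (ℕ × ℕ × ℕ) × ℕ => ((dcst a.1, 0, 0) : ℕ × ℕ × ℕ) :=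
    Primrec.pair (primrec_dcst.comp ak) (Primrec.const (0, 0))
  have hneg : Primrec fun a : ℕ × (ℕ × ℕ × ℕ) × ℕ =>
      negT (sumApprox (dlists a.1).2 (mulT (2 ^ a.1, 0, 0) a.2.1) (precN a.1 a.2.2)) :=
    primrec_negT.comp hs2
  have hadd : Primrec fun a : ℕ × (ℕ × ℕ × ℕ) × ℕ =>
      addT (sumApprox (dlists a.1).1 (mulT (2 ^ a.1, 0, 0) a.2.1) (precN a.1 a.2.2))
        (negT (sumApprox (dlists a.1).2 (mulT (2 ^ a.1, 0, 0) a.2.1) (precN a.1 a.2.2))) :=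
    primrec_addT.comp hs1 hneg
  exact primrec_mulT.comp hc hadd

theorem primrec_Bd : Primrec Bd :=
  Primrec.nat_mul.comp primrec_dcst primrec_two_pow

/-- The approximation function for derivatives of `F`. -/
def EF (a : ℕ × ℚ × ℕ) : ℚ := valQ (approxD a.1 (toTriple a.2.1) a.2.2)

theorem computable_EF : Computable EF := by
  have h1 : Computable fun a : ℕ × ℚ × ℕ => (a.1, toTriple a.2.1, a.2.2) :=
    Computable.pair Computable.fst (Computable.pair
      (computable_toTriple.comp (Computable.fst.comp Computable.snd))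
      (Computable.snd.comp Computable.snd))
  have h2 : Computable fun a : ℕ × ℚ × ℕ => approxD a.1 (toTriple a.2.1) a.2.2 :=
    (Computable.comp (f := fun a : ℕ × (ℕ × ℕ × ℕ) × ℕ => approxD a.1 a.2.1 a.2.2)
      (g := fun a : ℕ × ℚ × ℕ => (a.1, toTriple a.2.1, a.2.2)) primrec_approxD.to_comp h1 :)
  have h3 := computable_valQ.comp h2
  exact h3

theorem abs_iteratedDeriv_F_sub_EF (k : ℕ) (q : ℚ) (n : ℕ) :
    |iteratedDeriv k F (q : ℝ) - ((EF (k, q, n) : ℚ) : ℝ)| ≤ 1 / ((n : ℝ) + 1) := by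
  rw [iteratedDeriv_F]
  have := abs_DF_sub_approxD k (toTriple q) n
  rwa [valQ_toTriple] at this

theorem abs_iteratedDeriv_F_le (k : ℕ) (x : ℝ) : |iteratedDeriv k F x| ≤ Bd k := by
  rw [iteratedDeriv_F]
  exact abs_DF_le k x

end Crest.Agent.Lib.BoxFlowFabPrim
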