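import Crest.Agent.Lib.BoxFlowTensor

/-!
# Flows of autonomous fields, time-windows, and motions
-/

set_option autoImplicit false

namespace Crest.Agent.Lib.BoxFlowODE

open Crest.AnalysisR.BoxFlow
open Crest.Agent.Lib.BoxFlowFabEff Crest.Agent.Lib.BoxFlowFab
  Crest.Agent.Lib.BoxFlowSeq Crest.Agent.Lib.BoxFlowTensor
open scoped ContDiff NNReal

/-- Space. -/
abbrev Sp := Fin 3 → ℝ

/-- `φ` is a flow of the autonomous field `V` for times in `(-3, 3)`. -/
structure AutoFlow (V : Sp → Sp) (φ : ℝ → Sp → Sp) : Prop where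
  zero : ∀ x, φ 0 x = x
  deriv : ∀ x τ, τ ∈ Set.Ioo (-3 : ℝ) 3 → HasDerivAt (fun s => φ s x) (V (φ τ x)) τ

theorem exists_autoFlow {V : Sp → Sp} {K : ℝ≥0} {L : ℝ≥0} (hK : LipschitzWith K V)
    (hL : ∀ x, ‖V x‖ ≤ L) : ∃ φ, AutoFlow V φ := by
  have key : ∀ x : Sp, ∃ α : ℝ → Sp, α 0 = x ∧
      ∀ τ ∈ Set.Ioo (-3 : ℝ) 3, HasDerivAt α (V (α τ)) τ := by
    intro x
    have t0 : (0 : ℝ) ∈ Set.Icc (-3 : ℝ) 3 := by constructor <;> norm_num
    have hPL : IsPicardLindelof (fun _ => V) (tmin := -3) (tmax := 3) ⟨0, t0⟩ x (3 * L) 0 L K := by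
      refine IsPicardLindelof.of_time_independent (fun y _ => hL y) hK.lipschitzOnWith ?_
      norm_num
      linarith
    obtain ⟨α, h0, hα⟩ := hPL.exists_eq_forall_mem_Icc_hasDerivWithinAt₀
    refine ⟨α, h0, fun τ hτ => ?_⟩
    have := hα τ (Set.Ioo_subset_Icc_self hτ)
    exact this.hasDerivAt (Icc_mem_nhds hτ.1 hτ.2)
  choose α hα0 hα using key
  exact ⟨fun τ x => α x τ, hα0, fun x τ hτ => hα x τ hτ⟩

theorem ode_unique {W : Sp → Sp} {K : ℝ≥0} (hK : LipschitzWith K W) {f g : ℝ → Sp}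
    (hf : ∀ τ ∈ Set.Icc (0 : ℝ) 1, HasDerivAt f (W (f τ)) τ)
    (hg : ∀ τ ∈ Set.Icc (0 : ℝ) 1, HasDerivAt g (W (g τ)) τ) (h0 : f 0 = g 0) : f 1 = g 1 := by
  have h1 := ODE_solution_unique (v := fun _ => W) (K := K) (a := 0) (b := 1) (f := f) (g := g)
    (fun _ => hK)
    (fun τ hτ => (hf τ hτ).continuousAt.continuousWithinAt)
    (fun τ hτ => (hf τ (Set.Ico_subset_Icc_self hτ)).hasDerivWithinAt)
    (fun τ hτ => (hg τ hτ).continuousAt.continuousWithinAt)
    (fun τ hτ => (hg τ (Set.Ico_subset_Icc_self hτ)).hasDerivWithinAt) h0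
  exact h1 ⟨zero_le_one, le_rfl⟩

theorem AutoFlow.unique_right {V : Sp → Sp} {K : ℝ≥0} {φ : ℝ → Sp → Sp} (hK : LipschitzWith K V)
    (h : AutoFlow V φ) {x : Sp} {γ : ℝ → Sp} (h0 : γ 0 = x)
    (hγ : ∀ τ ∈ Set.Icc (0 : ℝ) 1, HasDerivAt γ (V (γ τ)) τ) : φ 1 x = γ 1 := by
  refine ode_unique hK (f := fun s => φ s x) (fun τ hτ => h.deriv x τ ⟨?_, ?_⟩) hγ ?_
  · linarith [hτ.1]
  · linarith [hτ.2]
  · simp [h.zero, h0]

theorem AutoFlow.reverse {V : Sp → Sp} {φ : ℝ → Sp → Sp} (h : AutoFlow V φ) :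
    AutoFlow (fun x => -V x) (fun τ => φ (-τ)) where
  zero := fun x => by simp [h.zero]
  deriv := fun x τ hτ => by
    have h1 := h.deriv x (-τ) ⟨by linarith [hτ.2], by linarith [hτ.1]⟩
    have h2 : HasDerivAt (fun s : ℝ => -s) (-1) τ := (hasDerivAt_id τ).neg
    have h3 := HasDerivAt.scomp τ h1 h2
    refine h3.congr_deriv ?_
    simp

theorem AutoFlow.inv_left {V : Sp → Sp} {K : ℝ≥0} {φ : ℝ → Sp → Sp} (hK : LipschitzWith K V)
    (h : AutoFlow V φ) (x : Sp) : φ (-1) (φ 1 x) = x := by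
  have hK' : LipschitzWith K (fun x => -V x) :=
    LipschitzWith.of_dist_le_mul fun y z => by
      simp only [dist_neg_neg]
      exact hK.dist_le_mul y z
  have hr := h.reverse
  have h1 : ∀ τ ∈ Set.Icc (0 : ℝ) 1, HasDerivAt (fun s => φ (-s) (φ 1 x))
      (-V (φ (-τ) (φ 1 x))) τ := fun τ hτ =>
    hr.deriv _ τ ⟨by linarith [hτ.1], by linarith [hτ.2]⟩
  have h2 : ∀ τ ∈ Set.Icc (0 : ℝ) 1, HasDerivAt (fun s => φ (1 - s) x)
      (-V (φ (1 - τ) x)) τ := fun τ hτ => by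
    have h3 := h.deriv x (1 - τ) ⟨by linarith [hτ.2], by linarith [hτ.1]⟩
    have h4 : HasDerivAt (fun s : ℝ => 1 - s) (-1) τ := by
      simpa using (hasDerivAt_id τ).const_sub 1
    have h5 := HasDerivAt.scomp τ h3 h4
    refine h5.congr_deriv ?_
    simp
  have h3 := ode_unique hK' h1 h2 (by simp [h.zero])
  simpa [h.zero] using h3

theorem AutoFlow.inv_right {V : Sp → Sp} {K : ℝ≥0} {φ : ℝ → Sp → Sp} (hK : LipschitzWith K V)
    (h : AutoFlow V φ) (x : Sp) : φ 1 (φ (-1) x) = x := by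
  have h1 : ∀ τ ∈ Set.Icc (0 : ℝ) 1, HasDerivAt (fun s => φ s (φ (-1) x))
      (V (φ τ (φ (-1) x))) τ := fun τ hτ =>
    h.deriv _ τ ⟨by linarith [hτ.1], by linarith [hτ.2]⟩
  have h2 : ∀ τ ∈ Set.Icc (0 : ℝ) 1, HasDerivAt (fun s => φ (s - 1) x)
      (V (φ (τ - 1) x)) τ := fun τ hτ => by
    have h3 := h.deriv x (τ - 1) ⟨by linarith [hτ.1], by linarith [hτ.2]⟩
    have h4 : HasDerivAt (fun s : ℝ => s - 1) 1 τ := (hasDerivAt_id τ).sub_const 1
    have h5 := HasDerivAt.scomp τ h3 h4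
    refine h5.congr_deriv ?_
    simp
  have h3 := ode_unique hK h1 h2 (by simp [h.zero])
  simpa [h.zero] using h3

/-! ### Good fields, realizable maps, motions -/

/-- The regularity properties required of the velocity field. -/
structure Good (U : Field) : Prop where
  smooth : ContDiff ℝ ∞ U
  compact : HasCompactSupport U
  eff : Effective U
  div : ∀ p, spaceDiv U p = 0

theorem Good.add {U V : Field} (hU : Good U) (hV : Good V) : Good fun p => U p + V p where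
  smooth := hU.smooth.add hV.smooth
  compact := hU.compact.add hV.compact
  eff := Effective.add hU.smooth hV.smooth hU.eff hV.eff
  div := fun p => by rw [spaceDiv_add hU.smooth hV.smooth, hU.div, hV.div, add_zero]

theorem Good.neg {U : Field} (hU : Good U) : Good fun p => -U p where
  smooth := hU.smooth.neg
  compact := hU.compact.neg
  eff := Effective.neg hU.eff
  div := fun p => by rw [spaceDiv_neg, hU.div, neg_zero]

theorem mixedDeriv_zero (ds : List (Fin 4)) : mixedDeriv ds (fun _ => 0) = fun _ => 0 := by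
  induction ds with
  | nil => rfl
  | cons d ds ih =>
    funext p
    show fderiv ℝ (mixedDeriv ds (fun _ => 0)) p (direction d) = 0
    rw [ih]
    simp

theorem good_zero : Good fun _ => 0 where
  smooth := contDiff_const
  compact := HasCompactSupport.zero
  eff := by
    refine ⟨fun _ _ => 0, fun _ => 0, Computable.const _, Computable.const _, fun ds t q n j => ?_,
      fun ds p j => ?_⟩
    · rw [mixedDeriv_zero]
      simp only [Pi.zero_apply, Rat.cast_zero, sub_zero, abs_zero]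
      positivity
    · rw [mixedDeriv_zero]
      simp
  div := fun p => by simp [spaceDiv]

/-- `M` is the time-one map of a good field active in any prescribed time-window. -/
def Realizes (M : Sp → Sp) : Prop :=
  ∀ s e : ℚ, 0 < s → s < e → ∃ (U : Field) (Φ : ℝ → Sp → Sp), Good U ∧
    (∀ p : ℝ × Sp, p.1 ∉ Set.Icc (s : ℝ) (e : ℝ) → U p = 0) ∧ IsFlow U Φ ∧
    (∀ t x, t ≤ (s : ℝ) → Φ t x = x) ∧ (∀ t x, (e : ℝ) ≤ t → Φ t x = M x)

theorem realizes_id : Realizes fun x => x := by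
  intro s e hs hse
  refine ⟨fun _ => 0, fun _ x => x, good_zero, fun _ _ => rfl, ⟨fun _ => rfl, fun t x => ?_⟩,
    fun _ _ _ => rfl, fun _ _ _ => rfl⟩
  exact hasDerivAt_const t x

theorem Realizes.comp {M₁ M₂ : Sp → Sp} (h₁ : Realizes M₁) (h₂ : Realizes M₂) :
    Realizes fun x => M₂ (M₁ x) := by
  intro s e hs hse
  set m₁ : ℚ := (2 * s + e) / 3 with hm₁
  set m₂ : ℚ := (s + 2 * e) / 3 with hm₂
  have h1 : s < m₁ := by rw [hm₁]; linarith
  have h2 : m₁ < m₂ := by rw [hm₁, hm₂]; linarith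
  have h3 : m₂ < e := by rw [hm₂]; linarith
  obtain ⟨U₁, Φ₁, g₁, v₁, f₁, b₁, a₁⟩ := h₁ s m₁ hs h1
  obtain ⟨U₂, Φ₂, g₂, v₂, f₂, b₂, a₂⟩ := h₂ m₂ e (hs.trans (h1.trans h2)) h3
  have h1r : (s : ℝ) < m₁ := by exact_mod_cast h1
  have h2r : (m₁ : ℝ) < m₂ := by exact_mod_cast h2
  have h3r : (m₂ : ℝ) < e := by exact_mod_cast h3
  have hsr : (0 : ℝ) < s := by exact_mod_cast hs
  refine ⟨fun p => U₁ p + U₂ p, fun t x => Φ₂ t (Φ₁ t x), g₁.add g₂, fun p hp => ?_,
    ⟨fun x => ?_, fun t x => ?_⟩, fun t x ht => ?_, fun t x ht => ?_⟩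
  · have e1 : U₁ p = 0 := v₁ p fun hh => hp ⟨hh.1, hh.2.trans (h2r.le.trans h3r.le)⟩
    have e2 : U₂ p = 0 := v₂ p fun hh => hp ⟨(h1r.trans h2r).le.trans hh.1, hh.2⟩
    simp [e1, e2]
  · show Φ₂ 0 (Φ₁ 0 x) = x
    rw [f₁.1, f₂.1]
  · rcases lt_or_ge t m₂ with ht | ht
    · -- before the second window
      have e1 : (fun s' => Φ₂ s' (Φ₁ s' x)) =ᶠ[nhds t] fun s' => Φ₁ s' x := by
        filter_upwards [Iio_mem_nhds ht] with s' hs'
        exact b₂ s' _ (le_of_lt hs')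
      have e2 : U₂ (t, Φ₂ t (Φ₁ t x)) = 0 := v₂ _ fun hh => absurd hh.1 (not_le.2 ht)
      have e3 : Φ₂ t (Φ₁ t x) = Φ₁ t x := b₂ t _ ht.le
      have h4 := (f₁.2 t x).congr_of_eventuallyEq e1
      refine h4.congr_deriv ?_
      simp only [e2, add_zero]
      rw [e3]
    · have ht' : (m₁ : ℝ) < t := h2r.trans_le ht
      have e1 : (fun s' => Φ₂ s' (Φ₁ s' x)) =ᶠ[nhds t] fun s' => Φ₂ s' (M₁ x) := by
        filter_upwards [Ioi_mem_nhds ht'] with s' hs'
        rw [a₁ s' x (le_of_lt hs')]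
      have e2 : U₁ (t, Φ₂ t (Φ₁ t x)) = 0 := v₁ _ fun hh => absurd hh.2 (not_le.2 ht')
      have e3 : Φ₁ t x = M₁ x := a₁ t x ht'.le
      have h4 := (f₂.2 t (M₁ x)).congr_of_eventuallyEq e1
      refine h4.congr_deriv ?_
      simp only [e2, zero_add]
      rw [e3]
  · have ht1 : t ≤ (s : ℝ) := ht
    show Φ₂ t (Φ₁ t x) = x
    rw [b₁ t x ht1, b₂ t x (ht1.trans (h1r.trans h2r).le)]
  · have ht1 : (e : ℝ) ≤ t := ht
    show Φ₂ t (Φ₁ t x) = M₂ (M₁ x)
    rw [a₁ t x ((h2r.trans h3r).le.trans ht1), a₂ t _ ht1]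

/-- Invertible realizable maps. -/
structure Motion (M N : Sp → Sp) : Prop where
  realM : Realizes M
  realN : Realizes N
  left : ∀ x, N (M x) = x
  right : ∀ x, M (N x) = x

theorem Motion.refl : Motion (fun x => x) (fun x => x) :=
  ⟨realizes_id, realizes_id, fun _ => rfl, fun _ => rfl⟩

theorem Motion.symm {M N : Sp → Sp} (h : Motion M N) : Motion N M :=
  ⟨h.realN, h.realM, h.right, h.left⟩

theorem Motion.comp {M₁ N₁ M₂ N₂ : Sp → Sp} (h₁ : Motion M₁ N₁) (h₂ : Motion M₂ N₂) :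
    Motion (fun x => M₂ (M₁ x)) (fun x => N₁ (N₂ x)) where
  realM := h₁.realM.comp h₂.realM
  realN := h₂.realN.comp h₁.realN
  left := fun x => by rw [h₂.left, h₁.left]
  right := fun x => by rw [h₁.right, h₂.right]

/-! ### The time profile -/

/-- The time profile with window `[s, e]`. -/
noncomputable def timeSeq (s e : ℚ) : Seq := fun k t =>
  (((1 / (e - s) : ℚ) : ℝ)) ^ k * DF k (((1 / (e - s) : ℚ) : ℝ) * t + ((-s / (e - s) : ℚ) : ℝ))

theorem effSeq_timeSeq (s e : ℚ) : EffSeq (timeSeq s e) :=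
  effSeq_DF.aff _ _

theorem timeSeq_arg (s e : ℚ) (hse : s < e) (t : ℝ) :
    ((1 / (e - s) : ℚ) : ℝ) * t + ((-s / (e - s) : ℚ) : ℝ) = (t - s) / ((e : ℝ) - s) := by
  have h : ((e : ℝ) - s) ≠ 0 := by
    have : (s : ℝ) < e := by exact_mod_cast hse
    linarith
  push_cast
  field_simp
  ring

theorem timeSeq_before (s e : ℚ) (hse : s < e) (k : ℕ) {t : ℝ} (ht : t ≤ s) :
    timeSeq s e k t = 0 := by
  have h : (0 : ℝ) < (e : ℝ) - s := by
    have : (s : ℝ) < e := by exact_mod_cast hse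
    linarith
  unfold timeSeq
  rw [timeSeq_arg s e hse, DF_eq_zero_of_nonpos, mul_zero]
  exact div_nonpos_of_nonpos_of_nonneg (by linarith) h.le

theorem timeSeq_after_zero (s e : ℚ) (hse : s < e) {t : ℝ} (ht : (e : ℝ) ≤ t) :
    timeSeq s e 0 t = 1 := by
  have h : (0 : ℝ) < (e : ℝ) - s := by
    have : (s : ℝ) < e := by exact_mod_cast hse
    linarith
  unfold timeSeq
  rw [timeSeq_arg s e hse, DF_zero_eq_one, pow_zero, one_mul]
  rw [le_div_iff₀ h]
  linarith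

theorem timeSeq_after_succ (s e : ℚ) (hse : s < e) (k : ℕ) {t : ℝ} (ht : (e : ℝ) ≤ t) :
    timeSeq s e (k + 1) t = 0 := by
  have h : (0 : ℝ) < (e : ℝ) - s := by
    have : (s : ℝ) < e := by exact_mod_cast hse
    linarith
  unfold timeSeq
  rw [timeSeq_arg s e hse, DF_succ_eq_zero_of_ge, mul_zero]
  rw [le_div_iff₀ h]
  linarith

theorem timeSeq_zero_mem (s e : ℚ) (t : ℝ) : timeSeq s e 0 t ∈ Set.Ioo (-3 : ℝ) 3 := by
  unfold timeSeq
  rw [pow_zero, one_mul, DF_zero]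
  have h1 := good_F.nonneg (((1 / (e - s) : ℚ) : ℝ) * t + ((-s / (e - s) : ℚ) : ℝ))
  have h2 := good_F.le_one (((1 / (e - s) : ℚ) : ℝ) * t + ((-s / (e - s) : ℚ) : ℝ))
  constructor <;> linarith

/-- A field admissible in all windows. -/
def Admissible (V : Sp → Sp) : Prop :=
  ∀ s e : ℚ, s < e → Good fun p : ℝ × Sp => timeSeq s e 1 p.1 • V p.2

theorem Admissible.neg {V : Sp → Sp} (h : Admissible V) : Admissible fun x => -V x := by
  intro s e hse
  have := (h s e hse).neg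
  convert this using 2
  simp

theorem realizes_of_auto {V : Sp → Sp} {φ : ℝ → Sp → Sp} (hA : Admissible V) (hφ : AutoFlow V φ) :
    Realizes (φ 1) := by
  intro s e hs hse
  have hsr : (0 : ℝ) < s := by exact_mod_cast hs
  refine ⟨fun p => timeSeq s e 1 p.1 • V p.2, fun t x => φ (timeSeq s e 0 t) x, hA s e hse,
    fun p hp => ?_, ⟨fun x => ?_, fun t x => ?_⟩, fun t x ht => ?_, fun t x ht => ?_⟩
  · by_cases h1 : p.1 ≤ s
    · simp [timeSeq_before s e hse 1 h1]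
    · have h2 : (e : ℝ) ≤ p.1 := by
        by_contra h3
        exact hp ⟨le_of_lt (not_le.1 h1), le_of_lt (not_le.1 h3)⟩
      simp [timeSeq_after_succ s e hse 0 h2]
  · show φ (timeSeq s e 0 0) x = x
    rw [timeSeq_before s e hse 0 hsr.le, hφ.zero]
  · have h1 := hφ.deriv x _ (timeSeq_zero_mem s e t)
    exact HasDerivAt.scomp t h1 ((effSeq_timeSeq s e).chain 0 t)
  · show φ (timeSeq s e 0 t) x = x
    rw [timeSeq_before s e hse 0 ht, hφ.zero]
  · show φ (timeSeq s e 0 t) x = φ 1 x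
    rw [timeSeq_after_zero s e hse ht]

theorem motion_of_auto {V : Sp → Sp} {φ : ℝ → Sp → Sp} {K : ℝ≥0} (hK : LipschitzWith K V)
    (hA : Admissible V) (hφ : AutoFlow V φ) : Motion (φ 1) (φ (-1)) where
  realM := realizes_of_auto hA hφ
  realN := by
    have := realizes_of_auto hA.neg hφ.reverse
    exact this
  left := hφ.inv_left hK
  right := hφ.inv_right hK

end Crest.Agent.Lib.BoxFlowODE
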