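import Crest.Agent.Lib.BoxFlowStep

/-!
# The motion plan
-/

set_option autoImplicit false

namespace Crest.Agent.Lib.BoxFlowPlan

open Crest.AnalysisR.BoxFlow
open Crest.Agent.Lib.BoxFlowODE Crest.Agent.Lib.BoxFlowStep

/-- The affine map carrying `box a h` onto `box b k`. -/
def affineMap (a h b k : Fin 3 → ℚ) (x : Sp) : Sp :=
  fun j => (b j : ℝ) + ((k j / h j : ℚ) : ℝ) * (x j - (a j : ℝ))

theorem continuous_affineMap (a h b k : Fin 3 → ℚ) : Continuous (affineMap a h b k) :=
  continuous_pi fun _ => by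
    unfold affineMap
    fun_prop

theorem affineMap_mem_box {a h b k : Fin 3 → ℚ} (hh : ∀ j, 0 < h j) (hk : ∀ j, 0 < k j) {x : Sp}
    (hx : x ∈ box a h) : affineMap a h b k x ∈ box b k := by
  intro j
  have h1 := hx j
  have hhj : (0 : ℝ) < h j := by exact_mod_cast hh j
  have hkj : (0 : ℝ) < k j := by exact_mod_cast hk j
  simp only [affineMap]
  rw [add_sub_cancel_left, abs_mul]
  have e : |((k j / h j : ℚ) : ℝ)| = (k j : ℝ) / h j := by
    push_cast
    exact abs_of_pos (by positivity)
  rw [e]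
  calc (k j : ℝ) / h j * |x j - (a j : ℝ)| ≤ (k j : ℝ) / h j * h j := by
        exact mul_le_mul_of_nonneg_left h1 (by positivity)
    _ = k j := by field_simp

theorem affineMap_comp {a h b k c l : Fin 3 → ℚ} (hk : ∀ j, 0 < k j) (x : Sp) :
    affineMap b k c l (affineMap a h b k x) = affineMap a h c l x := by
  funext j
  have hkj : (k j : ℝ) ≠ 0 := by exact_mod_cast (hk j).ne'
  simp only [affineMap]
  push_cast
  rw [add_sub_cancel_left]
  field_simp

theorem affineMap_self {a h : Fin 3 → ℚ} (hh : ∀ j, 0 < h j) (x : Sp) : affineMap a h a h x = x := by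
  funext j
  have hhj : (h j : ℝ) ≠ 0 := by exact_mod_cast (hh j).ne'
  simp only [affineMap]
  push_cast
  rw [div_self hhj]
  ring

/-- Reachability of configurations of labelled boxes. -/
def Reach {n : ℕ} (a h b k : Fin n → Fin 3 → ℚ) : Prop :=
  ∃ M N : Sp → Sp, Motion M N ∧ ∀ i, ∃ O : Set Sp, IsOpen O ∧ box (a i) (h i) ⊆ O ∧
    ∀ x ∈ O, M x = affineMap (a i) (h i) (b i) (k i) x

theorem Reach.refl {n : ℕ} (a h : Fin n → Fin 3 → ℚ) (hh : ∀ i j, 0 < h i j) : Reach a h a h :=
  ⟨fun x => x, fun x => x, Motion.refl, fun i => ⟨Set.univ, isOpen_univ, Set.subset_univ _,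
    fun x _ => (affineMap_self (hh i) x).symm⟩⟩

theorem Reach.trans {n : ℕ} {a h b k c l : Fin n → Fin 3 → ℚ} (h₁ : Reach a h b k)
    (h₂ : Reach b k c l) (hh : ∀ i j, 0 < h i j) (hk : ∀ i j, 0 < k i j) : Reach a h c l := by
  obtain ⟨M₁, N₁, hm₁, ho₁⟩ := h₁
  obtain ⟨M₂, N₂, hm₂, ho₂⟩ := h₂
  refine ⟨fun x => M₂ (M₁ x), fun x => N₁ (N₂ x), hm₁.comp hm₂, fun i => ?_⟩
  obtain ⟨O₁, hO₁, hb₁, he₁⟩ := ho₁ i
  obtain ⟨O₂, hO₂, hb₂, he₂⟩ := ho₂ i
  refine ⟨O₁ ∩ affineMap (a i) (h i) (b i) (k i) ⁻¹' O₂,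
    hO₁.inter (hO₂.preimage (continuous_affineMap _ _ _ _)), fun x hx => ⟨hb₁ hx, ?_⟩, ?_⟩
  · exact hb₂ (affineMap_mem_box (hh i) (hk i) hx)
  · rintro x ⟨hx₁, hx₂⟩
    show M₂ (M₁ x) = _
    rw [he₁ x hx₁, he₂ _ hx₂, affineMap_comp (hk i)]

theorem Reach.symm {n : ℕ} {a h b k : Fin n → Fin 3 → ℚ} (h₁ : Reach a h b k)
    (hh : ∀ i j, 0 < h i j) (hk : ∀ i j, 0 < k i j) : Reach b k a h := by
  obtain ⟨M, N, hm, ho⟩ := h₁
  refine ⟨N, M, hm.symm, fun i => ?_⟩
  obtain ⟨O, hO, hb, he⟩ := ho i
  refine ⟨affineMap (b i) (k i) (a i) (h i) ⁻¹' O, hO.preimage (continuous_affineMap _ _ _ _),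
    fun y hy => hb (affineMap_mem_box (hk i) (hh i) hy), fun y hy => ?_⟩
  have h1 := he _ hy
  rw [affineMap_comp (hh i), affineMap_self (hk i)] at h1
  have h2 := hm.left (affineMap (b i) (k i) (a i) (h i) y)
  rw [h1] at h2
  exact h2

/-- Open neighbourhood of a box. -/
def nbhd (c h : Fin 3 → ℚ) (ε : ℚ) : Set Sp := {x | ∀ ℓ, |x ℓ - (c ℓ : ℝ)| < (h ℓ : ℝ) + ε}

theorem isOpen_nbhd (c h : Fin 3 → ℚ) (ε : ℚ) : IsOpen (nbhd c h ε) := by
  have : nbhd c h ε = ⋂ ℓ, {x : Sp | |x ℓ - (c ℓ : ℝ)| < (h ℓ : ℝ) + ε} := by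
    ext x
    simp [nbhd]
  rw [this]
  refine isOpen_iInter_of_finite fun ℓ => isOpen_lt ?_ continuous_const
  fun_prop

theorem box_subset_nbhd {c h : Fin 3 → ℚ} {ε : ℚ} (hε : 0 < ε) : box c h ⊆ nbhd c h ε := by
  intro x hx ℓ
  have h1 := hx ℓ
  have h2 : (0 : ℝ) < ε := by exact_mod_cast hε
  linarith

/-- A finite family of positive numbers has a positive lower bound. -/
theorem exists_margin {ι : Type} [Fintype ι] (f : ι → ℚ) (hf : ∀ i, 0 < f i) :
    ∃ ε : ℚ, 0 < ε ∧ ∀ i, ε ≤ f i := by
  classical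
  have key : ∀ s : Finset ι, ∃ ε : ℚ, 0 < ε ∧ ∀ i ∈ s, ε ≤ f i := by
    intro s
    induction s using Finset.induction_on with
    | empty => exact ⟨1, one_pos, by simp⟩
    | insert a s _ ih =>
      obtain ⟨ε, hε, h⟩ := ih
      refine ⟨min ε (f a), lt_min hε (hf a), fun i hi => ?_⟩
      rcases Finset.mem_insert.1 hi with rfl | hi
      · exact min_le_right _ _
      · exact (min_le_left _ _).trans (h i hi)
  obtain ⟨ε, hε, h⟩ := key Finset.univ
  exact ⟨ε, hε, fun i => h i (Finset.mem_univ i)⟩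

theorem exists_roles (c : Fin 3) : ∃ a b : Fin 3, a ≠ b ∧ a ≠ c ∧ b ≠ c := by
  revert c
  decide

theorem abs_sub_le_add (x a b : ℝ) : |x - b| ≤ |x - a| + |a - b| := by
  have : x - b = (x - a) + (a - b) := by ring
  rw [this]
  exact abs_add_le _ _

theorem le_abs_sub (x a b : ℝ) : |a - b| - |x - a| ≤ |x - b| := by
  have := abs_sub_le_add a x b
  have h2 : |a - x| = |x - a| := abs_sub_comm _ _
  linarith

/-- Moving one box along a coordinate direction, sweeping through a block free of other boxes. -/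
theorem Reach.move {n : ℕ} (C h : Fin n → Fin 3 → ℚ) (hh : ∀ i j, 0 < h i j) (i : Fin n)
    (P P' : Fin 3 → ℚ) (c : Fin 3) (hP' : ∀ ℓ, ℓ ≠ c → P' ℓ = P ℓ) (pc pw : Fin 3 → ℚ)
    (hin : ∀ ℓ, |P ℓ - pc ℓ| + h i ℓ ≤ pw ℓ) (hin' : ∀ ℓ, |P' ℓ - pc ℓ| + h i ℓ ≤ pw ℓ)
    (hfree : ∀ j, j ≠ i → ∃ ℓ, h j ℓ + pw ℓ < |C j ℓ - pc ℓ|) :
    Reach (Function.update C i P) h (Function.update C i P') h := by
  classical
  -- the margin
  have hmarg : ∀ j : Fin n, ∃ e : ℚ, 0 < e ∧ (j ≠ i → ∃ ℓ, h j ℓ + pw ℓ + 3 * e ≤ |C j ℓ - pc ℓ|) := by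
    intro j
    by_cases hj : j = i
    · exact ⟨1, one_pos, fun h' => absurd hj h'⟩
    · obtain ⟨ℓ, hℓ⟩ := hfree j hj
      refine ⟨(|C j ℓ - pc ℓ| - h j ℓ - pw ℓ) / 3, by linarith, fun _ => ⟨ℓ, ?_⟩⟩
      linarith
  choose e he he' using hmarg
  obtain ⟨ε, hε, hεe⟩ := exists_margin e he
  have hεr : (0 : ℝ) < ε := by exact_mod_cast hε
  obtain ⟨a₁, b₁, hab, hac, hbc⟩ := exists_roles c
  have hpw : ∀ ℓ, 0 ≤ pw ℓ + ε := fun ℓ => by
    have h1 := hin ℓ
    have h2 := hh i ℓ
    have h3 := abs_nonneg (P ℓ - pc ℓ)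
    linarith
  obtain ⟨M, N, hm, hinner, hfar⟩ := step_motion hab hac hbc pc (fun ℓ => pw ℓ + ε) hpw hε 0
    (P' c - P c) 0
  refine ⟨M, N, hm, fun j => ?_⟩
  by_cases hj : j = i
  · subst hj
    refine ⟨nbhd P (h j) ε, isOpen_nbhd _ _ _, ?_, fun x hx => ?_⟩
    · simp only [Function.update_self]
      exact box_subset_nbhd hε
    · simp only [Function.update_self]
      have hrc : ∀ ℓ, (((|P ℓ - pc ℓ| + h j ℓ : ℚ) : ℝ)) ≤ pw ℓ := fun ℓ => by
        exact_mod_cast hin ℓ
      have hrc' : ∀ ℓ, (((|P' ℓ - pc ℓ| + h j ℓ : ℚ) : ℝ)) ≤ pw ℓ := fun ℓ => by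
        exact_mod_cast hin' ℓ
      have e0 : (((0 : ℚ) : ℝ)) * (x a₁ - ((0 : ℚ) : ℝ)) = 0 := by simp
      have hstep : ∀ ℓ, (x + Pi.single c (((P' c - P c : ℚ) : ℝ) + ((0 : ℚ) : ℝ) * (x a₁ - ((0 : ℚ) : ℝ))) : Sp) ℓ
          = x ℓ + ((P' ℓ : ℝ) - P ℓ) := by
        intro ℓ
        by_cases hℓ : ℓ = c
        · subst hℓ
          simp
        · have : (P' ℓ : ℝ) = P ℓ := by exact_mod_cast hP' ℓ hℓ
          simp [hℓ, this]
      have h1 := hinner x ?_ ?_
      · rw [h1]
        funext ℓ
        rw [hstep ℓ]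
        simp only [affineMap]
        have hhj : (h j ℓ : ℝ) ≠ 0 := by exact_mod_cast (hh j ℓ).ne'
        push_cast
        rw [div_self hhj]
        ring
      · intro ℓ
        have h3 := hx ℓ
        have h4 := abs_sub_le_add (x ℓ) (P ℓ) (pc ℓ)
        have h5 := hrc ℓ
        push_cast at h5 ⊢
        linarith
      · intro ℓ
        rw [hstep ℓ]
        have h3 := hx ℓ
        have h5 := hrc' ℓ
        push_cast at h5 ⊢
        have h6 := abs_sub_le_add (x ℓ + ((P' ℓ : ℝ) - P ℓ)) (P' ℓ) (pc ℓ)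
        have h7 : x ℓ + ((P' ℓ : ℝ) - P ℓ) - (P' ℓ : ℝ) = x ℓ - P ℓ := by ring
        rw [h7] at h6
        linarith
  · refine ⟨nbhd (C j) (h j) ε, isOpen_nbhd _ _ _, ?_, fun x hx => ?_⟩
    · simp only [Function.update_of_ne hj]
      exact box_subset_nbhd hε
    · simp only [Function.update_of_ne hj]
      rw [affineMap_self (hh j)]
      obtain ⟨ℓ, hℓ⟩ := he' j hj
      refine hfar x ⟨ℓ, ?_⟩
      have h3 := hx ℓ
      have h4 := le_abs_sub (x ℓ) (C j ℓ) (pc ℓ)
      have h5 : ((h j ℓ + pw ℓ + 3 * e j : ℚ) : ℝ) ≤ ((|C j ℓ - pc ℓ| : ℚ) : ℝ) := by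
        exact_mod_cast hℓ
      have h6 : (ε : ℝ) ≤ e j := by exact_mod_cast hεe j
      push_cast at h5 ⊢
      linarith

theorem add_single_same (x : Sp) (c : Fin 3) (w : ℝ) : (x + Pi.single c w : Sp) c = x c + w := by
  simp

theorem add_single_ne (x : Sp) (c : Fin 3) (w : ℝ) {d : Fin 3} (h : d ≠ c) :
    (x + Pi.single c w : Sp) d = x d := by
  simp [h]

theorem lin_le {α β u v W K : ℝ} (hu : |u| ≤ W) (hv : |v| ≤ W) (hK : |α| + |β| ≤ K) :
    |α * u + β * v| ≤ K * W := by
  have hW : 0 ≤ W := (abs_nonneg u).trans hu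
  calc |α * u + β * v| ≤ |α * u| + |β * v| := abs_add_le _ _
    _ = |α| * |u| + |β| * |v| := by rw [abs_mul, abs_mul]
    _ ≤ |α| * W + |β| * W := add_le_add (mul_le_mul_of_nonneg_left hu (abs_nonneg _))
        (mul_le_mul_of_nonneg_left hv (abs_nonneg _))
    _ = (|α| + |β|) * W := by ring
    _ ≤ K * W := mul_le_mul_of_nonneg_right hK hW

/-- Rescaling one box in a coordinate plane, the other boxes being separated from it in the
third coordinate. -/
theorem Reach.scale {n : ℕ} (C W : Fin n → Fin 3 → ℚ) (hW : ∀ j ℓ, 0 < W j ℓ) (i : Fin n)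
    (w w' : Fin 3 → ℚ) (hw : ∀ ℓ, 0 < w ℓ) {p q b : Fin 3} (hpq : p ≠ q) (hpb : p ≠ b) (hqb : q ≠ b)
    (r : ℚ) (hr : 0 < r) (hwp : w' p = r * w p) (hwq : w' q = w q / r) (hwb : w' b = w b)
    (hsep : ∀ j, j ≠ i → W j b + w b < |C j b - C i b|) :
    Reach C (Function.update W i w) C (Function.update W i w') := by
  classical
  have hmarg : ∀ j : Fin n, ∃ e : ℚ, 0 < e ∧ (j ≠ i → W j b + w b + 3 * e ≤ |C j b - C i b|) := by
    intro j
    by_cases hj : j = i
    · exact ⟨1, one_pos, fun h' => absurd hj h'⟩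
    · have h1 := hsep j hj
      refine ⟨(|C j b - C i b| - W j b - w b) / 3, by linarith, fun _ => ?_⟩
      linarith
  choose e he he' using hmarg
  obtain ⟨ε, hε, hεe⟩ := exists_margin e he
  have hεr : (0 : ℝ) < ε := by exact_mod_cast hε
  have hrr : (0 : ℝ) < r := by exact_mod_cast hr
  set W₀ : ℚ := w p + w q + 2 * ε with hW₀
  have hW₀pos : 0 < W₀ := by
    have h1 := hw p
    have h2 := hw q
    rw [hW₀]
    linarith
  set R : ℚ := (2 + r + 1 / r) * W₀ with hR
  have hRpos : 0 < R := by positivity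
  set pw : Fin 3 → ℚ := fun ℓ => if ℓ = b then w b + ε else R with hpwdef
  have hpw : ∀ ℓ, 0 ≤ pw ℓ := fun ℓ => by
    simp only [hpwdef]
    split_ifs
    · have := hw b
      linarith
    · exact hRpos.le
  have hpwb : pw b = w b + ε := by simp [hpwdef]
  have hpwp : pw p = R := by simp [hpwdef, hpb]
  have hpwq : pw q = R := by simp [hpwdef, hqb]
  obtain ⟨M₁, N₁, hm₁, hi₁, hf₁⟩ := step_motion hpb hpq hqb.symm (C i) pw hpw hε (C i p) 0 (r - 1)
  obtain ⟨M₂, N₂, hm₂, hi₂, hf₂⟩ := step_motion hqb hpq.symm hpb.symm (C i) pw hpw hε (C i q) 0 1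
  obtain ⟨M₃, N₃, hm₃, hi₃, hf₃⟩ := step_motion hpb hpq hqb.symm (C i) pw hpw hε (C i p) 0 (1 / r - 1)
  obtain ⟨M₄, N₄, hm₄, hi₄, hf₄⟩ := step_motion hqb hpq.symm hpb.symm (C i) pw hpw hε (C i q) 0 (-r)
  refine ⟨fun x => M₄ (M₃ (M₂ (M₁ x))), fun x => N₁ (N₂ (N₃ (N₄ x))),
    ((hm₁.comp hm₂).comp hm₃).comp hm₄, fun j => ?_⟩
  by_cases hj : j = i
  · subst hj
    refine ⟨nbhd (C j) w ε, isOpen_nbhd _ _ _, ?_, fun x hx => ?_⟩
    · simp only [Function.update_self]
      exact box_subset_nbhd hε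
    · simp only [Function.update_self]
      -- the planar coordinates
      set A : ℝ := (C j p : ℝ) with hA
      set B : ℝ := (C j q : ℝ) with hB
      set u : ℝ := x p - A with hu
      set v : ℝ := x q - B with hv
      have hwpr : (0 : ℝ) < w p := by exact_mod_cast hw p
      have hwqr : (0 : ℝ) < w q := by exact_mod_cast hw q
      have hW₀r : (W₀ : ℝ) = (w p : ℝ) + w q + 2 * ε := by
        rw [hW₀]
        push_cast
        ring
      have huW : |u| ≤ (W₀ : ℝ) := by
        have := hx p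
        rw [hW₀r]
        have h3 : |x p - (C j p : ℝ)| < (w p : ℝ) + ε := this
        linarith
      have hvW : |v| ≤ (W₀ : ℝ) := by
        have := hx q
        rw [hW₀r]
        have h3 : |x q - (C j q : ℝ)| < (w q : ℝ) + ε := this
        linarith
      have hRr : (R : ℝ) = (2 + (r : ℝ) + 1 / r) * W₀ := by
        rw [hR]
        push_cast
        ring
      have hinvr : (0 : ℝ) < 1 / (r : ℝ) := by positivity
      have habsr : |(r : ℝ)| = r := abs_of_pos hrr
      have habsi : |1 / (r : ℝ)| = 1 / r := abs_of_pos hinvr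
      have habs1 : |(r : ℝ) - 1| ≤ r + 1 := by
        rw [abs_le]
        constructor <;> linarith
      -- block membership criterion
      have hblock : ∀ y : Sp, |y p - A| ≤ R → |y q - B| ≤ R → |y b - (C j b : ℝ)| ≤ (w b : ℝ) + ε →
          ∀ ℓ, |y ℓ - (C j ℓ : ℝ)| ≤ pw ℓ := by
        intro y h1 h2 h3 ℓ
        rcases fin3_roles p q b hpq hpb hqb ℓ with rfl | rfl | rfl
        · rw [hpwp]; exact h1
        · rw [hpwq]; exact h2
        · rw [hpwb]; push_cast; exact h3
      -- the points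
      set y₀ : Sp := x with hy₀
      set y₁ : Sp := y₀ + Pi.single q (((0 : ℚ) : ℝ) + ((r - 1 : ℚ) : ℝ) * (y₀ p - (C j p : ℝ))) with hy₁
      set y₂ : Sp := y₁ + Pi.single p (((0 : ℚ) : ℝ) + ((1 : ℚ) : ℝ) * (y₁ q - (C j q : ℝ))) with hy₂
      set y₃ : Sp := y₂ + Pi.single q (((0 : ℚ) : ℝ) + ((1 / r - 1 : ℚ) : ℝ) * (y₂ p - (C j p : ℝ))) with hy₃
      set y₄ : Sp := y₃ + Pi.single p (((0 : ℚ) : ℝ) + ((-r : ℚ) : ℝ) * (y₃ q - (C j q : ℝ))) with hy₄
      have h1p : y₁ p = x p := add_single_ne _ _ _ hpq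
      have h1q : y₁ q = B + (((r : ℝ) - 1) * u + 1 * v) := by
        rw [hy₁, add_single_same]
        push_cast
        rw [hu, hv, hy₀]
        ring
      have h1b : y₁ b = x b := add_single_ne _ _ _ hqb.symm
      have h2p : y₂ p = A + ((r : ℝ) * u + 1 * v) := by
        rw [hy₂, add_single_same, h1p, h1q]
        push_cast
        rw [hu]
        ring
      have h2q : y₂ q = B + (((r : ℝ) - 1) * u + 1 * v) := by
        rw [hy₂, add_single_ne _ _ _ hpq.symm, h1q]
      have h2b : y₂ b = x b := by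
        rw [hy₂, add_single_ne _ _ _ hpb.symm, h1b]
      have h3p : y₃ p = A + ((r : ℝ) * u + 1 * v) := by
        rw [hy₃, add_single_ne _ _ _ hpq, h2p]
      have h3q : y₃ q = B + (0 * u + (1 / (r : ℝ)) * v) := by
        rw [hy₃, add_single_same, h2p, h2q]
        push_cast
        field_simp
        ring
      have h3b : y₃ b = x b := by
        rw [hy₃, add_single_ne _ _ _ hqb.symm, h2b]
      have h4p : y₄ p = A + ((r : ℝ) * u + 0 * v) := by
        rw [hy₄, add_single_same, h3p, h3q]
        push_cast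
        field_simp
        ring
      have h4q : y₄ q = B + (0 * u + (1 / (r : ℝ)) * v) := by
        rw [hy₄, add_single_ne _ _ _ hpq.symm, h3q]
      have h4b : y₄ b = x b := by
        rw [hy₄, add_single_ne _ _ _ hpb.symm, h3b]
      have hbnd : ∀ {α β : ℝ}, |α| + |β| ≤ 2 + (r : ℝ) + 1 / r → |α * u + β * v| ≤ (R : ℝ) := by
        intro α β h
        rw [hRr]
        exact lin_le huW hvW h
      have hxb : |x b - (C j b : ℝ)| ≤ (w b : ℝ) + ε := (hx b).le
      have add_sub_left' : ∀ A' t : ℝ, A' + t - A' = t := fun A' t => by ring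
      have hB0 : ∀ ℓ, |y₀ ℓ - (C j ℓ : ℝ)| ≤ pw ℓ := by
        refine hblock x ?_ ?_ hxb
        · have : x p - A = 1 * u + 0 * v := by rw [hu]; ring
          rw [this]
          refine hbnd ?_
          simp only [abs_one, abs_zero]
          linarith
        · have : x q - B = 0 * u + 1 * v := by rw [hv]; ring
          rw [this]
          refine hbnd ?_
          simp only [abs_one, abs_zero]
          linarith
      have hB1 : ∀ ℓ, |y₁ ℓ - (C j ℓ : ℝ)| ≤ pw ℓ := by
        refine hblock y₁ ?_ ?_ (by rw [h1b]; exact hxb)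
        · have : y₁ p - A = 1 * u + 0 * v := by rw [h1p, hu]; ring
          rw [this]
          refine hbnd ?_
          simp only [abs_one, abs_zero]
          linarith
        · rw [h1q, add_sub_left']
          refine hbnd ?_
          simp only [abs_one]
          linarith
      have hB2 : ∀ ℓ, |y₂ ℓ - (C j ℓ : ℝ)| ≤ pw ℓ := by
        refine hblock y₂ ?_ ?_ (by rw [h2b]; exact hxb)
        · rw [h2p, add_sub_left']
          refine hbnd ?_
          simp only [abs_one, habsr]
          linarith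
        · rw [h2q, add_sub_left']
          refine hbnd ?_
          simp only [abs_one]
          linarith
      have hB3 : ∀ ℓ, |y₃ ℓ - (C j ℓ : ℝ)| ≤ pw ℓ := by
        refine hblock y₃ ?_ ?_ (by rw [h3b]; exact hxb)
        · rw [h3p, add_sub_left']
          refine hbnd ?_
          simp only [abs_one, habsr]
          linarith
        · rw [h3q, add_sub_left']
          refine hbnd ?_
          simp only [abs_zero, habsi]
          linarith
      have hB4 : ∀ ℓ, |y₄ ℓ - (C j ℓ : ℝ)| ≤ pw ℓ := by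
        refine hblock y₄ ?_ ?_ (by rw [h4b]; exact hxb)
        · rw [h4p, add_sub_left']
          refine hbnd ?_
          simp only [abs_zero, habsr]
          linarith
        · rw [h4q, add_sub_left']
          refine hbnd ?_
          simp only [abs_zero, habsi]
          linarith
      have e1 : M₁ x = y₁ := hi₁ x hB0 hB1
      have e2 : M₂ y₁ = y₂ := hi₂ y₁ hB1 hB2
      have e3 : M₃ y₂ = y₃ := hi₃ y₂ hB2 hB3
      have e4 : M₄ y₃ = y₄ := hi₄ y₃ hB3 hB4
      show M₄ (M₃ (M₂ (M₁ x))) = _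
      rw [e1, e2, e3, e4]
      have hwpne : (w p : ℝ) ≠ 0 := hwpr.ne'
      have hwqne : (w q : ℝ) ≠ 0 := hwqr.ne'
      have hwbne : (w b : ℝ) ≠ 0 := by exact_mod_cast (hw b).ne'
      funext ℓ
      simp only [affineMap]
      rcases fin3_roles p q b hpq hpb hqb ℓ with rfl | rfl | rfl
      · rw [h4p, hwp]
        push_cast
        field_simp
        ring
      · rw [h4q, hwq]
        push_cast
        field_simp
        ring
      · rw [h4b, hwb]
        push_cast
        field_simp
        ring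
  · refine ⟨nbhd (C j) (W j) ε, isOpen_nbhd _ _ _, ?_, fun x hx => ?_⟩
    · simp only [Function.update_of_ne hj]
      exact box_subset_nbhd hε
    · simp only [Function.update_of_ne hj]
      rw [affineMap_self (hW j)]
      have hfar : ∃ ℓ, (pw ℓ : ℝ) + ε ≤ |x ℓ - (C i ℓ : ℝ)| := by
        refine ⟨b, ?_⟩
        rw [hpwb]
        have h3 := hx b
        have h4 := le_abs_sub (x b) (C j b) (C i b)
        have h5 : ((W j b + w b + 3 * e j : ℚ) : ℝ) ≤ ((|C j b - C i b| : ℚ) : ℝ) := by
          exact_mod_cast he' j hj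
        have h6 : (ε : ℝ) ≤ e j := by exact_mod_cast hεe j
        push_cast at h5 ⊢
        linarith
      show M₄ (M₃ (M₂ (M₁ x))) = x
      rw [hf₁ x hfar, hf₂ x hfar, hf₃ x hfar, hf₄ x hfar]

/-! ### Disjoint boxes are separated -/

theorem sep_of_disjoint {c₁ h₁ c₂ h₂ : Fin 3 → ℚ} (hh₁ : ∀ j, 0 < h₁ j) (hh₂ : ∀ j, 0 < h₂ j)
    (hd : Disjoint (box c₁ h₁) (box c₂ h₂)) : ∃ ℓ, h₁ ℓ + h₂ ℓ < |c₁ ℓ - c₂ ℓ| := by
  by_contra hcon
  push Not at hcon
  have hle : ∀ ℓ, |(c₁ ℓ : ℝ) - c₂ ℓ| ≤ (h₁ ℓ : ℝ) + h₂ ℓ := fun ℓ => by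
    exact_mod_cast hcon ℓ
  set x : Sp := fun ℓ => (c₁ ℓ : ℝ) + ((h₁ ℓ : ℝ) / ((h₁ ℓ : ℝ) + h₂ ℓ)) * ((c₂ ℓ : ℝ) - c₁ ℓ) with hx
  have h1 : x ∈ box c₁ h₁ := by
    intro ℓ
    have hp1 : (0 : ℝ) < h₁ ℓ := by exact_mod_cast hh₁ ℓ
    have hp2 : (0 : ℝ) < h₂ ℓ := by exact_mod_cast hh₂ ℓ
    have e : x ℓ - (c₁ ℓ : ℝ) = ((h₁ ℓ : ℝ) / ((h₁ ℓ : ℝ) + h₂ ℓ)) * ((c₂ ℓ : ℝ) - c₁ ℓ) := by
      simp only [hx]
      ring
    rw [e, abs_mul, abs_of_pos (by positivity : (0 : ℝ) < (h₁ ℓ : ℝ) / ((h₁ ℓ : ℝ) + h₂ ℓ)),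
      abs_sub_comm]
    calc (h₁ ℓ : ℝ) / ((h₁ ℓ : ℝ) + h₂ ℓ) * |(c₁ ℓ : ℝ) - c₂ ℓ|
        ≤ (h₁ ℓ : ℝ) / ((h₁ ℓ : ℝ) + h₂ ℓ) * ((h₁ ℓ : ℝ) + h₂ ℓ) :=
          mul_le_mul_of_nonneg_left (hle ℓ) (by positivity)
      _ = h₁ ℓ := by field_simp
  have h2 : x ∈ box c₂ h₂ := by
    intro ℓ
    have hp1 : (0 : ℝ) < h₁ ℓ := by exact_mod_cast hh₁ ℓ
    have hp2 : (0 : ℝ) < h₂ ℓ := by exact_mod_cast hh₂ ℓ
    have e : x ℓ - (c₂ ℓ : ℝ) = ((h₂ ℓ : ℝ) / ((h₁ ℓ : ℝ) + h₂ ℓ)) * ((c₁ ℓ : ℝ) - c₂ ℓ) := by
      simp only [hx]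
      field_simp
      ring
    rw [e, abs_mul, abs_of_pos (by positivity : (0 : ℝ) < (h₂ ℓ : ℝ) / ((h₁ ℓ : ℝ) + h₂ ℓ))]
    calc (h₂ ℓ : ℝ) / ((h₁ ℓ : ℝ) + h₂ ℓ) * |(c₁ ℓ : ℝ) - c₂ ℓ|
        ≤ (h₂ ℓ : ℝ) / ((h₁ ℓ : ℝ) + h₂ ℓ) * ((h₁ ℓ : ℝ) + h₂ ℓ) :=
          mul_le_mul_of_nonneg_left (hle ℓ) (by positivity)
      _ = h₂ ℓ := by field_simp
  exact Set.disjoint_left.1 hd h1 h2

/-! ### Slots -/

/-- The final position of the `i`-th box. -/
def slot (L : ℚ) {n : ℕ} (i : Fin n) : Fin 3 → ℚ :=
  ![L * (((i : ℕ) : ℚ) + 1), 0, L * (((i : ℕ) : ℚ) + 1)]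

theorem slot_sep {L : ℚ} (hL : 0 < L) {n : ℕ} {i j : Fin n} (hij : j ≠ i) :
    L ≤ |L * (((j : ℕ) : ℚ) + 1) - L * (((i : ℕ) : ℚ) + 1)| := by
  have e : L * (((j : ℕ) : ℚ) + 1) - L * (((i : ℕ) : ℚ) + 1) = L * (((j : ℕ) : ℚ) - ((i : ℕ) : ℚ)) := by
    ring
  rw [e, abs_mul, abs_of_pos hL]
  have h1 : (1 : ℚ) ≤ |((j : ℕ) : ℚ) - ((i : ℕ) : ℚ)| := by
    have hne : (j : ℕ) ≠ (i : ℕ) := fun h => hij (Fin.ext h)
    rcases Nat.lt_or_gt_of_ne hne with h | h
    · have h2 : ((j : ℕ) : ℚ) + 1 ≤ ((i : ℕ) : ℚ) := by exact_mod_cast h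
      rw [le_abs]
      right
      linarith
    · have h2 : ((i : ℕ) : ℚ) + 1 ≤ ((j : ℕ) : ℚ) := by exact_mod_cast h
      rw [le_abs]
      left
      linarith
  nlinarith

theorem coord_forall {P : Fin 3 → Prop} (h0 : P 0) (h1 : P 1) (h2 : P 2) (ℓ : Fin 3) : P ℓ := by
  fin_cases ℓ <;> assumption

theorem hin_of {x c h w : ℚ} (h1 : c + h - w ≤ x) (h2 : x ≤ c + w - h) : |x - c| + h ≤ w := by
  have : |x - c| ≤ w - h := abs_le.2 ⟨by linarith, by linarith⟩
  linarith

/-- Moving the boxes one after another to their slots. -/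
theorem sort_reach {n : ℕ} (a h : Fin n → Fin 3 → ℚ) (hh : ∀ i j, 0 < h i j)
    (hsep : ∀ i j, i ≠ j → ∃ ℓ, h i ℓ + h j ℓ < |a i ℓ - a j ℓ|) (L : ℚ) (hLpos : 0 < L)
    (hL : ∀ i j ℓ, |a j ℓ| + h j ℓ + h i ℓ < L) : Reach a h (slot L) h := by
  classical
  set stage : Finset (Fin n) → Fin n → Fin 3 → ℚ := fun A i => if i ∈ A then a i else slot L i
    with hstage
  have key : ∀ (m : ℕ) (A : Finset (Fin n)), A.card = m → Reach (stage A) h (stage ∅) h := by
    intro m
    induction m with
    | zero =>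
      intro A hA
      rw [Finset.card_eq_zero.1 hA]
      exact Reach.refl _ _ hh
    | succ m ih =>
      intro A hA
      have hne : A.Nonempty := Finset.card_pos.1 (by omega)
      obtain ⟨i, hiA, hmax⟩ := Finset.exists_max_image A (fun i => a i 2 - h i 2) hne
      set A' := A.erase i with hA'
      have hcard : A'.card = m := by
        rw [hA', Finset.card_erase_of_mem hiA, hA]
        rfl
      have hiA' : i ∉ A' := Finset.notMem_erase i A
      set C := stage A' with hC
      have hCj : ∀ j, j ≠ i → (C j = a j ∧ j ∈ A) ∨ C j = slot L j := by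
        intro j hj
        by_cases hjA : j ∈ A'
        · left
          exact ⟨by simp [hC, hstage, hjA], Finset.mem_of_mem_erase hjA⟩
        · right
          simp [hC, hstage, hjA]
      have e0 : stage A = Function.update C i (a i) := by
        funext j
        by_cases hj : j = i
        · subst hj
          simp [hstage, hiA]
        · rw [Function.update_of_ne hj]
          simp only [hC, hstage, hA', Finset.mem_erase, hj, ne_eq, not_false_eq_true, true_and]
      have e3 : stage A' = Function.update C i (slot L i) := by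
        funext j
        by_cases hj : j = i
        · subst hj
          simp [hC, hstage, hiA']
        · rw [Function.update_of_ne hj]
      set Y : ℚ := L * (((i : ℕ) : ℚ) + 1) with hY
      have hYL : L ≤ Y := by
        have : (0 : ℚ) ≤ ((i : ℕ) : ℚ) := by positivity
        rw [hY]
        nlinarith
      have hslot : slot L i = ![Y, 0, Y] := rfl
      have hai : ∀ ℓ, |a i ℓ| + h i ℓ + h i ℓ < L := fun ℓ => hL i i ℓ
      have hai2 : a i 2 < Y := by
        have h1 := hai 2
        have h2 := le_abs_self (a i 2)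
        have h3 := hh i 2
        linarith
      have hai0 : a i 0 < Y := by
        have h1 := hai 0
        have h2 := le_abs_self (a i 0)
        have h3 := hh i 0
        linarith
      -- common separation at height `Y`
      have hfree2 : ∀ j, j ≠ i → h j 2 + h i 2 < |C j 2 - Y| := by
        intro j hj
        rcases hCj j hj with ⟨e1, -⟩ | e1
        · rw [e1]
          have h1 := hL i j 2
          have h2 := neg_abs_le (a j 2)
          have h3 := le_abs_self (a j 2)
          rw [abs_sub_comm, lt_abs]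
          left
          linarith
        · rw [e1]
          have h1 := hL i j 2
          have h2 := abs_nonneg (a j 2)
          have h3 : L ≤ |L * (((j : ℕ) : ℚ) + 1) - L * (((i : ℕ) : ℚ) + 1)| := slot_sep hLpos hj
          have e2 : slot L j 2 = L * (((j : ℕ) : ℚ) + 1) := rfl
          rw [e2]
          linarith
      have m1 : Reach (Function.update C i (a i)) h (Function.update C i ![a i 0, a i 1, Y]) h := by
        refine Reach.move C h hh i (a i) ![a i 0, a i 1, Y] 2 ?_ ![a i 0, a i 1, (a i 2 + Y) / 2]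
          ![h i 0, h i 1, h i 2 + (Y - a i 2) / 2] ?_ ?_ ?_
        · intro ℓ hℓ
          fin_cases ℓ
          · rfl
          · rfl
          · exact absurd rfl hℓ
        · refine coord_forall ?_ ?_ ?_
          · exact hin_of (by simp) (by simp)
          · exact hin_of (by simp) (by simp)
          · refine hin_of ?_ ?_
            · simp only [Matrix.cons_val]
              linarith
            · simp only [Matrix.cons_val]
              linarith
        · refine coord_forall ?_ ?_ ?_
          · exact hin_of (by simp) (by simp)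
          · exact hin_of (by simp) (by simp)
          · refine hin_of ?_ ?_
            · simp only [Matrix.cons_val]
              linarith
            · simp only [Matrix.cons_val]
              linarith
        · intro j hj
          rcases hCj j hj with ⟨e1, hjA⟩ | e1
          · obtain ⟨ℓ, hℓ⟩ := hsep i j hj.symm
            rw [abs_sub_comm] at hℓ
            revert hℓ
            refine (coord_forall (P := fun ℓ => h i ℓ + h j ℓ < |a j ℓ - a i ℓ| → ?_) ?_ ?_ ?_ ℓ)
            · intro hℓ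
              refine ⟨0, ?_⟩
              rw [e1]
              simp only [Matrix.cons_val]
              linarith
            · intro hℓ
              refine ⟨1, ?_⟩
              rw [e1]
              simp only [Matrix.cons_val]
              linarith
            · intro hℓ
              refine ⟨2, ?_⟩
              rw [e1]
              simp only [Matrix.cons_val]
              have hm : a j 2 - h j 2 ≤ a i 2 - h i 2 := hmax j hjA
              rw [lt_abs] at hℓ ⊢
              rcases hℓ with hℓ | hℓ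
              · exfalso
                have := hh i 2
                linarith
              · right
                linarith
          · refine ⟨0, ?_⟩
            rw [e1]
            simp only [Matrix.cons_val]
            have hj2 : slot L j 0 = L * (((j : ℕ) : ℚ) + 1) := rfl
            rw [hj2, lt_abs]
            left
            have h1 := hL j i 0
            have h2 := le_abs_self (a i 0)
            have h3 : (0 : ℚ) ≤ ((j : ℕ) : ℚ) := by positivity
            nlinarith
      have m2 : Reach (Function.update C i ![a i 0, a i 1, Y]) h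
          (Function.update C i ![Y, a i 1, Y]) h := by
        refine Reach.move C h hh i ![a i 0, a i 1, Y] ![Y, a i 1, Y] 0 ?_
          ![(a i 0 + Y) / 2, a i 1, Y] ![h i 0 + (Y - a i 0) / 2, h i 1, h i 2] ?_ ?_ ?_
        · intro ℓ hℓ
          fin_cases ℓ
          · exact absurd rfl hℓ
          · rfl
          · rfl
        · refine coord_forall ?_ ?_ ?_
          · refine hin_of ?_ ?_
            · simp only [Matrix.cons_val]
              linarith
            · simp only [Matrix.cons_val]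
              linarith
          · exact hin_of (by simp) (by simp)
          · exact hin_of (by simp) (by simp)
        · refine coord_forall ?_ ?_ ?_
          · refine hin_of ?_ ?_
            · simp only [Matrix.cons_val]
              linarith
            · simp only [Matrix.cons_val]
              linarith
          · exact hin_of (by simp) (by simp)
          · exact hin_of (by simp) (by simp)
        · intro j hj
          refine ⟨2, ?_⟩
          simp only [Matrix.cons_val]
          exact hfree2 j hj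
      have m3 : Reach (Function.update C i ![Y, a i 1, Y]) h
          (Function.update C i ![Y, 0, Y]) h := by
        refine Reach.move C h hh i ![Y, a i 1, Y] ![Y, 0, Y] 1 ?_
          ![Y, a i 1 / 2, Y] ![h i 0, h i 1 + |a i 1| / 2, h i 2] ?_ ?_ ?_
        · intro ℓ hℓ
          fin_cases ℓ
          · rfl
          · exact absurd rfl hℓ
          · rfl
        · refine coord_forall ?_ ?_ ?_
          · exact hin_of (by simp) (by simp)
          · have h2 := le_abs_self (a i 1)
            have h3 := neg_abs_le (a i 1)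
            refine hin_of ?_ ?_
            · simp only [Matrix.cons_val]
              linarith
            · simp only [Matrix.cons_val]
              linarith
          · exact hin_of (by simp) (by simp)
        · refine coord_forall ?_ ?_ ?_
          · exact hin_of (by simp) (by simp)
          · have h2 := le_abs_self (a i 1)
            have h3 := neg_abs_le (a i 1)
            refine hin_of ?_ ?_
            · simp only [Matrix.cons_val]
              linarith
            · simp only [Matrix.cons_val]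
              linarith
          · exact hin_of (by simp) (by simp)
        · intro j hj
          refine ⟨2, ?_⟩
          simp only [Matrix.cons_val]
          exact hfree2 j hj
      have step : Reach (stage A) h (stage A') h := by
        rw [e0, e3, hslot]
        exact (m1.trans m2 hh hh).trans m3 hh hh
      exact step.trans (ih A' hcard) hh hh
  have h1 := key _ Finset.univ rfl
  have e1 : stage Finset.univ = a := by
    funext i
    simp [hstage]
  have e2 : stage ∅ = slot L := by
    funext i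
    simp [hstage]
  rwa [e1, e2] at h1

/-- Changing the widths of boxes sitting in separated slots. -/
theorem scale_reach {n : ℕ} (C h k : Fin n → Fin 3 → ℚ) (hh : ∀ i j, 0 < h i j)
    (hk : ∀ i j, 0 < k i j) (hvol : ∀ i, k i 0 * k i 1 * k i 2 = h i 0 * h i 1 * h i 2) (L : ℚ)
    (hC0 : ∀ i j, j ≠ i → L ≤ |C j 0 - C i 0|) (hC2 : ∀ i j, j ≠ i → L ≤ |C j 2 - C i 2|)
    (hL1 : ∀ i j ℓ, h j ℓ + h i ℓ < L) (hL2 : ∀ i j ℓ, k j ℓ + h i ℓ < L)
    (hL3 : ∀ i j ℓ, h j ℓ + k i ℓ < L) (hL4 : ∀ i j ℓ, k j ℓ + k i ℓ < L) : Reach C h C k := by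
  classical
  set stage : Finset (Fin n) → Fin n → Fin 3 → ℚ := fun B i => if i ∈ B then h i else k i
    with hstage
  have hpos : ∀ B j ℓ, 0 < stage B j ℓ := by
    intro B j ℓ
    simp only [hstage]
    split_ifs
    · exact hh j ℓ
    · exact hk j ℓ
  have key : ∀ (m : ℕ) (B : Finset (Fin n)), B.card = m → Reach C (stage B) C (stage ∅) := by
    intro m
    induction m with
    | zero =>
      intro B hB
      rw [Finset.card_eq_zero.1 hB]
      exact Reach.refl _ _ (hpos ∅)
    | succ m ih =>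
      intro B hB
      have hne : B.Nonempty := Finset.card_pos.1 (by omega)
      obtain ⟨i, hiB⟩ := hne
      set B' := B.erase i with hB'
      have hcard : B'.card = m := by
        rw [hB', Finset.card_erase_of_mem hiB, hB]
        rfl
      have hiB' : i ∉ B' := Finset.notMem_erase i B
      set W := stage B' with hW
      have e0 : stage B = Function.update W i (h i) := by
        funext j
        by_cases hj : j = i
        · subst hj
          simp [hstage, hiB]
        · rw [Function.update_of_ne hj]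
          simp only [hW, hstage, hB', Finset.mem_erase, hj, ne_eq, not_false_eq_true, true_and]
      have e3 : stage B' = Function.update W i (k i) := by
        funext j
        by_cases hj : j = i
        · subst hj
          simp [hW, hstage, hiB']
        · rw [Function.update_of_ne hj]
      have hWle : ∀ j ℓ, W j ℓ = h j ℓ ∨ W j ℓ = k j ℓ := by
        intro j ℓ
        simp only [hW, hstage]
        split_ifs
        · left; rfl
        · right; rfl
      set w₁ : Fin 3 → ℚ := ![k i 0, h i 1 * h i 0 / k i 0, h i 2] with hw₁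
      have hh0 : h i 0 ≠ 0 := (hh i 0).ne'
      have hh2 : h i 2 ≠ 0 := (hh i 2).ne'
      have hk0 : k i 0 ≠ 0 := (hk i 0).ne'
      have hk2 : k i 2 ≠ 0 := (hk i 2).ne'
      have hw₁pos : ∀ ℓ, 0 < w₁ ℓ := by
        refine coord_forall ?_ ?_ ?_
        · exact hk i 0
        · have h1 := hh i 0
          have h2 := hh i 1
          have h3 := hk i 0
          show 0 < h i 1 * h i 0 / k i 0
          positivity
        · exact hh i 2
      have s1 : Reach C (Function.update W i (h i)) C (Function.update W i w₁) := by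
        refine Reach.scale C W (hpos B') i (h i) w₁ (hh i) (p := 0) (q := 1) (b := 2) (by decide)
          (by decide) (by decide) (k i 0 / h i 0) (div_pos (hk i 0) (hh i 0)) ?_ ?_ ?_ ?_
        · show k i 0 = k i 0 / h i 0 * h i 0
          field_simp
        · show h i 1 * h i 0 / k i 0 = h i 1 / (k i 0 / h i 0)
          field_simp
        · rfl
        · intro j hj
          have h1 := hC2 i j hj
          have h2 := hL1 i j 2
          have h3 := hL2 i j 2
          rcases hWle j 2 with e | e <;> rw [e] <;> linarith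
      have s2 : Reach C (Function.update W i w₁) C (Function.update W i (k i)) := by
        refine Reach.scale C W (hpos B') i w₁ (k i) hw₁pos (p := 2) (q := 1) (b := 0) (by decide)
          (by decide) (by decide) (k i 2 / h i 2) (div_pos (hk i 2) (hh i 2)) ?_ ?_ ?_ ?_
        · show k i 2 = k i 2 / h i 2 * h i 2
          field_simp
        · show k i 1 = h i 1 * h i 0 / k i 0 / (k i 2 / h i 2)
          have hv := hvol i
          field_simp
          linarith
        · rfl
        · intro j hj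
          have h1 := hC0 i j hj
          have h2 := hL3 i j 0
          have h3 := hL4 i j 0
          show W j 0 + k i 0 < _
          rcases hWle j 0 with e | e <;> rw [e] <;> linarith
      have hu0 : ∀ i' j', 0 < Function.update W i (h i) i' j' := by
        intro i' j'
        rw [← e0]
        exact hpos B i' j'
      have hu1 : ∀ i' j', 0 < Function.update W i w₁ i' j' := by
        intro i' j'
        by_cases hj : i' = i
        · subst hj
          simp only [Function.update_self]
          exact hw₁pos j'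
        · rw [Function.update_of_ne hj]
          exact hpos B' i' j'
      have step : Reach C (stage B) C (stage B') := by
        rw [e0, e3]
        exact s1.trans s2 hu0 hu1
      exact step.trans (ih B' hcard) (hpos B) (hpos B')
  have h1 := key _ Finset.univ rfl
  have e1 : stage Finset.univ = h := by
    funext i
    simp [hstage]
  have e2 : stage ∅ = k := by
    funext i
    simp [hstage]
  rwa [e1, e2] at h1

/-- The main combinatorial statement. -/
theorem reach_all {n : ℕ} (a b h k : Fin n → Fin 3 → ℚ) (hh : ∀ i j, 0 < h i j)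
    (hk : ∀ i j, 0 < k i j)
    (ha : Pairwise fun i i' => Disjoint (box (a i) (h i)) (box (a i') (h i')))
    (hb : Pairwise fun i i' => Disjoint (box (b i) (k i)) (box (b i') (k i')))
    (hvol : ∀ i, ∏ j : Fin 3, k i j / h i j = 1) : Reach a h b k := by
  classical
  set t : Fin n → Fin 3 → ℚ := fun i ℓ => |a i ℓ| + |b i ℓ| + h i ℓ + k i ℓ with ht
  have htnn : ∀ i ℓ, 0 ≤ t i ℓ := fun i ℓ => by
    have := hh i ℓ
    have := hk i ℓ
    have := abs_nonneg (a i ℓ)
    have := abs_nonneg (b i ℓ)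
    simp only [ht]
    linarith
  set S : ℚ := ∑ i, ∑ ℓ, t i ℓ with hS
  have htS : ∀ i ℓ, t i ℓ ≤ S := fun i ℓ => by
    have h1 : t i ℓ ≤ ∑ ℓ, t i ℓ :=
      Finset.single_le_sum (f := fun ℓ => t i ℓ) (fun ℓ _ => htnn i ℓ) (Finset.mem_univ ℓ)
    have h2 : ∑ ℓ, t i ℓ ≤ S :=
      Finset.single_le_sum (f := fun i => ∑ ℓ, t i ℓ)
        (fun i _ => Finset.sum_nonneg fun ℓ _ => htnn i ℓ) (Finset.mem_univ i)
    exact h1.trans h2
  have hSnn : 0 ≤ S := Finset.sum_nonneg fun i _ => Finset.sum_nonneg fun ℓ _ => htnn i ℓ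
  set L : ℚ := 2 * S + 1 with hLdef
  have hLpos : 0 < L := by
    rw [hLdef]
    linarith
  have hparts : ∀ i ℓ, |a i ℓ| + h i ℓ ≤ S ∧ |b i ℓ| + k i ℓ ≤ S ∧ h i ℓ ≤ S ∧ k i ℓ ≤ S := by
    intro i ℓ
    have h1 := htS i ℓ
    have h2 := hh i ℓ
    have h3 := hk i ℓ
    have h4 := abs_nonneg (a i ℓ)
    have h5 := abs_nonneg (b i ℓ)
    simp only [ht] at h1
    refine ⟨by linarith, by linarith, by linarith, by linarith⟩
  have r1 : Reach a h (slot L) h := by
    refine sort_reach a h hh (fun i j hij => sep_of_disjoint (hh i) (hh j) (ha hij)) L hLpos ?_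
    intro i j ℓ
    have h1 := (hparts j ℓ).1
    have h2 := (hparts i ℓ).2.2.1
    rw [hLdef]
    linarith
  have r2 : Reach b k (slot L) k := by
    refine sort_reach b k hk (fun i j hij => sep_of_disjoint (hk i) (hk j) (hb hij)) L hLpos ?_
    intro i j ℓ
    have h1 := (hparts j ℓ).2.1
    have h2 := (hparts i ℓ).2.2.2
    rw [hLdef]
    linarith
  have r3 : Reach (slot L) h (slot L) k := by
    refine scale_reach (slot L) h k hh hk ?_ L ?_ ?_ ?_ ?_ ?_ ?_
    · intro i
      have hv := hvol i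
      rw [Fin.prod_univ_three] at hv
      have h0 := hh i 0
      have h1 := hh i 1
      have h2 := hh i 2
      field_simp at hv
      linarith
    · intro i j hij
      exact slot_sep hLpos hij
    · intro i j hij
      exact slot_sep hLpos hij
    · intro i j ℓ
      have h1 := (hparts j ℓ).2.2.1
      have h2 := (hparts i ℓ).2.2.1
      rw [hLdef]
      linarith
    · intro i j ℓ
      have h1 := (hparts j ℓ).2.2.2
      have h2 := (hparts i ℓ).2.2.1
      rw [hLdef]
      linarith
    · intro i j ℓ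
      have h1 := (hparts j ℓ).2.2.1
      have h2 := (hparts i ℓ).2.2.2
      rw [hLdef]
      linarith
    · intro i j ℓ
      have h1 := (hparts j ℓ).2.2.2
      have h2 := (hparts i ℓ).2.2.2
      rw [hLdef]
      linarith
  exact (r1.trans r3 hh hh).trans (r2.symm hk hk) hh hk

end Crest.Agent.Lib.BoxFlowPlan
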