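import Mathlib

/-!
# Computable rational arithmetic for the `Primcodable ℚ` coming from `Denumerable ℚ`.

`valQ (p, n, d) = (p - n) / (d + 1)` is the "internal triple" representation of rationals.
We show that `valQ` and a section `toTriple` are `Computable`.
-/

set_option autoImplicit false

namespace Crest.Agent.Lib.BoxFlowRat

open Encodable

/-- The plain encoding of `ℚ` (not the denumerable one). -/
abbrev enc0 (q : ℚ) : ℕ := @Encodable.encode ℚ Rat.instEncodable q

/-- absolute value of the integer with code `z`. -/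
def absZ (z : ℕ) : ℕ := if z % 2 = 0 then z / 2 else z / 2 + 1

/-- positive part of the integer with code `z`. -/
def posZ (z : ℕ) : ℕ := if z % 2 = 0 then z / 2 else 0

/-- negative part of the integer with code `z`. -/
def negZ (z : ℕ) : ℕ := if z % 2 = 0 then 0 else z / 2 + 1

/-- Predicate of being a valid code. -/
def SP (m : ℕ) : Prop :=
  0 < m.unpair.2 ∧ ∀ k < m.unpair.2 + 1, ¬ (2 ≤ k ∧ absZ m.unpair.1 % k = 0 ∧ m.unpair.2 % k = 0)

instance : DecidablePred SP := fun m => by
  unfold SP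
  infer_instance

theorem coprime_iff (a d : ℕ) (hd : 0 < d) :
    Nat.Coprime a d ↔ ∀ k < d + 1, ¬ (2 ≤ k ∧ a % k = 0 ∧ d % k = 0) := by
  constructor
  · rintro h k - ⟨h2, h3, h4⟩
    have h5 : k ∣ a := Nat.dvd_of_mod_eq_zero h3
    have h6 : k ∣ d := Nat.dvd_of_mod_eq_zero h4
    have h7 : k ∣ Nat.gcd a d := Nat.dvd_gcd h5 h6
    rw [h] at h7
    have := Nat.le_of_dvd Nat.one_pos h7
    omega
  · intro h
    by_contra hne
    have hg : Nat.gcd a d ≠ 1 := hne
    have hg0 : 0 < Nat.gcd a d := Nat.gcd_pos_of_pos_right _ hd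
    have hle : Nat.gcd a d ≤ d := Nat.gcd_le_right _ hd
    refine h (Nat.gcd a d) (by omega) ⟨by omega, ?_, ?_⟩
    · exact Nat.mod_eq_zero_of_dvd (Nat.gcd_dvd_left _ _)
    · exact Nat.mod_eq_zero_of_dvd (Nat.gcd_dvd_right _ _)

theorem enc0_eq (q : ℚ) : enc0 q = Nat.pair (@Encodable.encode ℤ _ q.num) q.den := rfl

theorem encodeZ_eq (z : ℤ) : @Encodable.encode ℤ _ z =
    match z with
    | Int.ofNat n => 2 * n
    | Int.negSucc n => 2 * n + 1 := by
  cases z with
  | ofNat n => rfl
  | negSucc n => rfl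

theorem absZ_encode (z : ℤ) : absZ (@Encodable.encode ℤ _ z) = z.natAbs := by
  rw [encodeZ_eq]
  cases z with
  | ofNat n =>
    simp only [absZ]
    have : 2 * n % 2 = 0 := by omega
    rw [if_pos this]
    simp
  | negSucc n =>
    simp only [absZ]
    have : ¬ (2 * n + 1) % 2 = 0 := by omega
    rw [if_neg this]
    simp only [Int.natAbs_negSucc]
    omega

theorem posZ_sub_negZ (z : ℤ) :
    (posZ (@Encodable.encode ℤ _ z) : ℚ) - (negZ (@Encodable.encode ℤ _ z) : ℚ) = z := by
  rw [encodeZ_eq]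
  cases z with
  | ofNat n =>
    simp only [posZ, negZ]
    have : 2 * n % 2 = 0 := by omega
    rw [if_pos this, if_pos this]
    have h2 : 2 * n / 2 = n := by omega
    rw [h2]
    simp
  | negSucc n =>
    simp only [posZ, negZ]
    have : ¬ (2 * n + 1) % 2 = 0 := by omega
    rw [if_neg this, if_neg this]
    have h2 : (2 * n + 1) / 2 = n := by omega
    rw [h2]
    simp [Int.negSucc_eq]

theorem SP_iff (m : ℕ) : SP m ↔ m ∈ Set.range enc0 := by
  constructor
  · rintro ⟨h1, h2⟩
    have hcop : Nat.Coprime (absZ m.unpair.1) m.unpair.2 := (coprime_iff _ _ h1).2 h2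
    -- the integer
    obtain ⟨z, hz⟩ : ∃ z : ℤ, @Encodable.encode ℤ _ z = m.unpair.1 := by
      refine ⟨Equiv.intEquivNat.symm m.unpair.1, ?_⟩
      exact Equiv.intEquivNat.apply_symm_apply _
    have hcop' : Nat.Coprime z.natAbs m.unpair.2 := by
      rw [← absZ_encode, hz]; exact hcop
    refine ⟨⟨z, m.unpair.2, h1.ne', hcop'⟩, ?_⟩
    rw [enc0_eq]
    change Nat.pair (@Encodable.encode ℤ _ z) m.unpair.2 = m
    rw [hz, Nat.pair_unpair]
  · rintro ⟨q, rfl⟩
    rw [enc0_eq]
    have h1 : (Nat.pair (@Encodable.encode ℤ _ q.num) q.den).unpair.1 =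
        @Encodable.encode ℤ _ q.num := by simp
    have h2 : (Nat.pair (@Encodable.encode ℤ _ q.num) q.den).unpair.2 = q.den := by simp
    refine ⟨?_, ?_⟩
    · rw [h2]; exact q.den_pos
    · rw [h1, h2, absZ_encode]
      exact (coprime_iff _ _ q.den_pos).1 q.reduced

/-- Number of valid codes below `m`. -/
def countS (m : ℕ) : ℕ := ((List.range m).filter (fun y => decide (SP y))).length

/-- The encoding of `ℚ` used by `Primcodable ℚ`. -/
abbrev encP (q : ℚ) : ℕ := @Encodable.encode ℚ (Primcodable.ofDenumerable ℚ).toEncodable q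

theorem encode_eq (q : ℚ) : encP q = countS (enc0 q) := by
  have h : encP q = (List.range (enc0 q)).countP
      (fun y => @decide (y ∈ Set.range enc0) (Encodable.decidableRangeEncode ℚ y)) := rfl
  rw [h, countS, List.countP_eq_length_filter]
  congr 1
  apply List.filter_congr
  intro x _
  simp only [decide_eq_decide]
  exact (SP_iff x).symm

theorem enc0_inj {q q' : ℚ} (h : enc0 q = enc0 q') : q = q' :=
  Encodable.encode_injective h

/-- The internal value. -/
def valQ (t : ℕ × ℕ × ℕ) : ℚ := ((t.1 : ℚ) - (t.2.1 : ℚ)) / ((t.2.2 : ℚ) + 1)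

/-- Triple of a code. -/
def tripleOfCode (m : ℕ) : ℕ × ℕ × ℕ := (posZ m.unpair.1, negZ m.unpair.1, m.unpair.2 - 1)

theorem valQ_tripleOfCode (q : ℚ) : valQ (tripleOfCode (enc0 q)) = q := by
  rw [enc0_eq]
  simp only [valQ, tripleOfCode, Nat.unpair_pair]
  rw [posZ_sub_negZ]
  have h : ((q.den - 1 : ℕ) : ℚ) + 1 = (q.den : ℚ) := by
    have := q.den_pos
    have h2 : q.den - 1 + 1 = q.den := by omega
    exact_mod_cast h2
  rw [h]
  exact Rat.num_div_den q

/-- Section of `valQ`. -/
def toTriple (q : ℚ) : ℕ × ℕ × ℕ := tripleOfCode (enc0 q)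

@[simp] theorem valQ_toTriple (q : ℚ) : valQ (toTriple q) = q := valQ_tripleOfCode q

/-! ### Primitive recursiveness -/

theorem primrec_absZ : Primrec absZ := by
  unfold absZ
  refine Primrec.ite ?_ ?_ ?_
  · exact Primrec.eq.comp (Primrec.nat_mod.comp Primrec.id (Primrec.const 2)) (Primrec.const 0)
  · exact Primrec.nat_div.comp Primrec.id (Primrec.const 2)
  · exact Primrec.succ.comp (Primrec.nat_div.comp Primrec.id (Primrec.const 2))

theorem primrec_posZ : Primrec posZ := by
  unfold posZ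
  refine Primrec.ite ?_ ?_ ?_
  · exact Primrec.eq.comp (Primrec.nat_mod.comp Primrec.id (Primrec.const 2)) (Primrec.const 0)
  · exact Primrec.nat_div.comp Primrec.id (Primrec.const 2)
  · exact Primrec.const 0

theorem primrec_negZ : Primrec negZ := by
  unfold negZ
  refine Primrec.ite ?_ ?_ ?_
  · exact Primrec.eq.comp (Primrec.nat_mod.comp Primrec.id (Primrec.const 2)) (Primrec.const 0)
  · exact Primrec.const 0
  · exact Primrec.succ.comp (Primrec.nat_div.comp Primrec.id (Primrec.const 2))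

theorem primrec_tripleOfCode : Primrec tripleOfCode := by
  unfold tripleOfCode
  have hu1 : Primrec fun m : ℕ => m.unpair.1 := Primrec.fst.comp Primrec.unpair
  have hu2 : Primrec fun m : ℕ => m.unpair.2 := Primrec.snd.comp Primrec.unpair
  exact Primrec.pair (primrec_posZ.comp hu1) (Primrec.pair (primrec_negZ.comp hu1)
    (Primrec.nat_sub.comp hu2 (Primrec.const 1)))

theorem primrecPred_SP : PrimrecPred SP := by
  have hu1 : Primrec fun m : ℕ => m.unpair.1 := Primrec.fst.comp Primrec.unpair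
  have hu2 : Primrec fun m : ℕ => m.unpair.2 := Primrec.snd.comp Primrec.unpair
  unfold SP
  refine PrimrecPred.and ?_ ?_
  · exact Primrec.nat_lt.comp (Primrec.const 0) hu2
  · -- bounded quantifier
    have hrel : PrimrecRel fun (k m : ℕ) =>
        ¬ (2 ≤ k ∧ absZ m.unpair.1 % k = 0 ∧ m.unpair.2 % k = 0) := by
      refine PrimrecPred.not ?_
      refine PrimrecPred.and ?_ (PrimrecPred.and ?_ ?_)
      · exact Primrec.nat_le.comp (Primrec.const 2) Primrec.fst
      · exact Primrec.eq.comp (Primrec.nat_mod.comp (primrec_absZ.comp (hu1.comp Primrec.snd))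
          Primrec.fst) (Primrec.const 0)
      · exact Primrec.eq.comp (Primrec.nat_mod.comp (hu2.comp Primrec.snd) Primrec.fst)
          (Primrec.const 0)
    have := hrel.forall_lt
    exact this.comp (Primrec.succ.comp hu2) Primrec.id

theorem primrec_countS : Primrec countS := by
  unfold countS
  refine Primrec.list_length.comp ?_
  exact (Primrec.listFilter primrecPred_SP).comp Primrec.list_range

/-- Code search predicate. -/
def searchEnc (n m : ℕ) : Bool := decide (SP m ∧ countS m = n)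

theorem primrec_searchEnc : Primrec₂ searchEnc := by
  unfold searchEnc
  refine PrimrecPred.decide ?_
  refine PrimrecPred.and ?_ ?_
  · exact primrecPred_SP.comp Primrec.snd
  · exact Primrec.eq.comp (primrec_countS.comp Primrec.snd) Primrec.fst

theorem searchEnc_iff (q : ℚ) (m : ℕ) : searchEnc (encP q) m = true ↔ m = enc0 q := by
  simp only [searchEnc, decide_eq_true_eq]
  constructor
  · rintro ⟨h1, h2⟩
    obtain ⟨q', rfl⟩ := (SP_iff m).1 h1
    rw [← encode_eq] at h2
    have : q' = q := @Encodable.encode_injective ℚ (Primcodable.ofDenumerable ℚ).toEncodable _ _ h2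
    rw [this]
  · rintro rfl
    exact ⟨(SP_iff _).2 ⟨q, rfl⟩, (encode_eq q).symm⟩

theorem computable_enc0 : Computable enc0 := by
  have hp : Partrec₂ fun (n m : ℕ) => (Part.some (searchEnc n m)) :=
    (primrec_searchEnc.to_comp).partrec₂
  have hr : Partrec fun n : ℕ => Nat.rfind fun m => Part.some (searchEnc n m) := Partrec.rfind hp
  have hc : Partrec fun q : ℚ => Nat.rfind fun m => Part.some (searchEnc (encP q) m) :=
    hr.comp Computable.encode
  refine hc.of_eq_tot ?_
  intro q
  rw [Nat.mem_rfind]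
  constructor
  · have : searchEnc (encP q) (enc0 q) = true := (searchEnc_iff q _).2 rfl
    rw [this]; simp
  · intro m hm
    have : searchEnc (encP q) m = false := by
      by_contra h
      have h' : searchEnc (encP q) m = true := by simpa using h
      have := (searchEnc_iff q m).1 h'
      omega
    rw [this]; simp

theorem computable_toTriple : Computable toTriple :=
  primrec_tripleOfCode.to_comp.comp computable_enc0

/-- Search predicate for a code of the value of a triple. -/
def searchVal (t : ℕ × ℕ × ℕ) (m : ℕ) : Bool :=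
  decide (SP m ∧ t.1 * m.unpair.2 + negZ m.unpair.1 * (t.2.2 + 1) =
    t.2.1 * m.unpair.2 + posZ m.unpair.1 * (t.2.2 + 1))

theorem primrec_searchVal : Primrec₂ searchVal := by
  unfold searchVal
  have hu1 : Primrec fun m : ℕ => m.unpair.1 := Primrec.fst.comp Primrec.unpair
  have hu2 : Primrec fun m : ℕ => m.unpair.2 := Primrec.snd.comp Primrec.unpair
  refine PrimrecPred.decide ?_
  refine PrimrecPred.and ?_ ?_
  · exact primrecPred_SP.comp Primrec.snd
  · have hd : Primrec fun p : (ℕ × ℕ × ℕ) × ℕ => p.1.2.2 + 1 :=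
      Primrec.succ.comp (Primrec.snd.comp (Primrec.snd.comp Primrec.fst))
    refine Primrec.eq.comp ?_ ?_
    · exact Primrec.nat_add.comp
        (Primrec.nat_mul.comp (Primrec.fst.comp Primrec.fst) (hu2.comp Primrec.snd))
        (Primrec.nat_mul.comp (primrec_negZ.comp (hu1.comp Primrec.snd)) hd)
    · exact Primrec.nat_add.comp
        (Primrec.nat_mul.comp (Primrec.fst.comp (Primrec.snd.comp Primrec.fst)) (hu2.comp Primrec.snd))
        (Primrec.nat_mul.comp (primrec_posZ.comp (hu1.comp Primrec.snd)) hd)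

theorem searchVal_iff (t : ℕ × ℕ × ℕ) (m : ℕ) : searchVal t m = true ↔ m = enc0 (valQ t) := by
  simp only [searchVal, decide_eq_true_eq]
  have hval : ∀ q : ℚ, (t.1 * (enc0 q).unpair.2 + negZ (enc0 q).unpair.1 * (t.2.2 + 1) =
      t.2.1 * (enc0 q).unpair.2 + posZ (enc0 q).unpair.1 * (t.2.2 + 1)) ↔ q = valQ t := by
    intro q
    rw [enc0_eq]
    simp only [Nat.unpair_pair]
    have h0 := posZ_sub_negZ q.num
    set P := posZ (@Encodable.encode ℤ _ q.num)
    set N := negZ (@Encodable.encode ℤ _ q.num)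
    have hq : q = ((P : ℚ) - N) / q.den := by
      rw [h0]; exact (Rat.num_div_den q).symm
    have hdq : (q.den : ℚ) ≠ 0 := by exact_mod_cast q.den_nz
    have hd1 : ((t.2.2 : ℚ) + 1) ≠ 0 := by positivity
    constructor
    · intro h
      have h' : (t.1 : ℚ) * q.den + N * ((t.2.2 : ℚ) + 1) =
          t.2.1 * q.den + P * ((t.2.2 : ℚ) + 1) := by exact_mod_cast h
      rw [hq]
      simp only [valQ]
      rw [div_eq_div_iff hdq hd1]
      linarith
    · intro h
      have h2 : (P : ℚ) - N = ((t.1 : ℚ) - t.2.1) / ((t.2.2 : ℚ) + 1) * q.den := by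
        have h21 : (P : ℚ) - N = valQ t * q.den := by
          rw [h0, ← h]
          exact (Rat.mul_den_eq_num q).symm
        simpa only [valQ] using h21
      have h3 : ((P : ℚ) - N) * ((t.2.2 : ℚ) + 1) = ((t.1 : ℚ) - t.2.1) * q.den := by
        rw [h2]; field_simp
      have h4 : (t.1 : ℚ) * q.den + N * ((t.2.2 : ℚ) + 1) =
          t.2.1 * q.den + P * ((t.2.2 : ℚ) + 1) := by linarith
      exact_mod_cast h4
  constructor
  · rintro ⟨h1, h2⟩
    obtain ⟨q', rfl⟩ := (SP_iff m).1 h1
    rw [(hval q').1 h2]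
  · rintro rfl
    exact ⟨(SP_iff _).2 ⟨_, rfl⟩, (hval _).2 rfl⟩

theorem computable_enc0_valQ : Computable fun t => enc0 (valQ t) := by
  have hp : Partrec₂ fun (t : ℕ × ℕ × ℕ) (m : ℕ) => (Part.some (searchVal t m)) :=
    (primrec_searchVal.to_comp).partrec₂
  have hr : Partrec fun t : ℕ × ℕ × ℕ => Nat.rfind fun m => Part.some (searchVal t m) :=
    Partrec.rfind hp
  refine hr.of_eq_tot ?_
  intro t
  rw [Nat.mem_rfind]
  constructor
  · have : searchVal t (enc0 (valQ t)) = true := (searchVal_iff t _).2 rfl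
    rw [this]; simp
  · intro m hm
    have : searchVal t m = false := by
      by_contra h
      have h' : searchVal t m = true := by simpa using h
      have := (searchVal_iff t m).1 h'
      omega
    rw [this]; simp

theorem computable_valQ : Computable valQ := by
  rw [← Computable.encode_iff]
  have : Computable fun t => countS (enc0 (valQ t)) :=
    primrec_countS.to_comp.comp computable_enc0_valQ
  exact this.of_eq fun t => (encode_eq _).symm

/-! ### Internal arithmetic -/

/-- internal addition -/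
def addT (s t : ℕ × ℕ × ℕ) : ℕ × ℕ × ℕ :=
  (s.1 * (t.2.2 + 1) + t.1 * (s.2.2 + 1), s.2.1 * (t.2.2 + 1) + t.2.1 * (s.2.2 + 1),
    (s.2.2 + 1) * (t.2.2 + 1) - 1)

/-- internal multiplication -/
def mulT (s t : ℕ × ℕ × ℕ) : ℕ × ℕ × ℕ :=
  (s.1 * t.1 + s.2.1 * t.2.1, s.1 * t.2.1 + s.2.1 * t.1, (s.2.2 + 1) * (t.2.2 + 1) - 1)

/-- internal negation -/
def negT (s : ℕ × ℕ × ℕ) : ℕ × ℕ × ℕ := (s.2.1, s.1, s.2.2)

theorem den_mul_sub_one (a b : ℕ) : (((a + 1) * (b + 1) - 1 : ℕ) : ℚ) + 1 = ((a : ℚ) + 1) * ((b : ℚ) + 1) := by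
  have h : (a + 1) * (b + 1) - 1 + 1 = (a + 1) * (b + 1) := by
    have : 0 < (a + 1) * (b + 1) := by positivity
    omega
  have h' : (((a + 1) * (b + 1) - 1 + 1 : ℕ) : ℚ) = (((a + 1) * (b + 1) : ℕ) : ℚ) := by rw [h]
  push_cast at h'
  exact h'

theorem valQ_addT (s t : ℕ × ℕ × ℕ) : valQ (addT s t) = valQ s + valQ t := by
  simp only [valQ, addT]
  rw [den_mul_sub_one]
  have h1 : ((s.2.2 : ℚ) + 1) ≠ 0 := by positivity
  have h2 : ((t.2.2 : ℚ) + 1) ≠ 0 := by positivity
  push_cast
  field_simp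
  ring

theorem valQ_mulT (s t : ℕ × ℕ × ℕ) : valQ (mulT s t) = valQ s * valQ t := by
  simp only [valQ, mulT]
  rw [den_mul_sub_one]
  have h1 : ((s.2.2 : ℚ) + 1) ≠ 0 := by positivity
  have h2 : ((t.2.2 : ℚ) + 1) ≠ 0 := by positivity
  push_cast
  field_simp
  ring

theorem valQ_negT (s : ℕ × ℕ × ℕ) : valQ (negT s) = - valQ s := by
  simp only [valQ, negT]
  ring

theorem primrec_addT : Primrec₂ addT := by
  unfold addT
  have a1 : Primrec fun p : (ℕ × ℕ × ℕ) × (ℕ × ℕ × ℕ) => p.1.1 := Primrec.fst.comp Primrec.fst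
  have a2 : Primrec fun p : (ℕ × ℕ × ℕ) × (ℕ × ℕ × ℕ) => p.1.2.1 :=
    Primrec.fst.comp (Primrec.snd.comp Primrec.fst)
  have a3 : Primrec fun p : (ℕ × ℕ × ℕ) × (ℕ × ℕ × ℕ) => p.1.2.2 + 1 :=
    Primrec.succ.comp (Primrec.snd.comp (Primrec.snd.comp Primrec.fst))
  have b1 : Primrec fun p : (ℕ × ℕ × ℕ) × (ℕ × ℕ × ℕ) => p.2.1 := Primrec.fst.comp Primrec.snd
  have b2 : Primrec fun p : (ℕ × ℕ × ℕ) × (ℕ × ℕ × ℕ) => p.2.2.1 :=
    Primrec.fst.comp (Primrec.snd.comp Primrec.snd)
  have b3 : Primrec fun p : (ℕ × ℕ × ℕ) × (ℕ × ℕ × ℕ) => p.2.2.2 + 1 :=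
    Primrec.succ.comp (Primrec.snd.comp (Primrec.snd.comp Primrec.snd))
  exact Primrec.pair
    (Primrec.nat_add.comp (Primrec.nat_mul.comp a1 b3) (Primrec.nat_mul.comp b1 a3))
    (Primrec.pair
      (Primrec.nat_add.comp (Primrec.nat_mul.comp a2 b3) (Primrec.nat_mul.comp b2 a3))
      (Primrec.nat_sub.comp (Primrec.nat_mul.comp a3 b3) (Primrec.const 1)))

theorem primrec_mulT : Primrec₂ mulT := by
  unfold mulT
  have a1 : Primrec fun p : (ℕ × ℕ × ℕ) × (ℕ × ℕ × ℕ) => p.1.1 := Primrec.fst.comp Primrec.fst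
  have a2 : Primrec fun p : (ℕ × ℕ × ℕ) × (ℕ × ℕ × ℕ) => p.1.2.1 :=
    Primrec.fst.comp (Primrec.snd.comp Primrec.fst)
  have a3 : Primrec fun p : (ℕ × ℕ × ℕ) × (ℕ × ℕ × ℕ) => p.1.2.2 + 1 :=
    Primrec.succ.comp (Primrec.snd.comp (Primrec.snd.comp Primrec.fst))
  have b1 : Primrec fun p : (ℕ × ℕ × ℕ) × (ℕ × ℕ × ℕ) => p.2.1 := Primrec.fst.comp Primrec.snd
  have b2 : Primrec fun p : (ℕ × ℕ × ℕ) × (ℕ × ℕ × ℕ) => p.2.2.1 :=
    Primrec.fst.comp (Primrec.snd.comp Primrec.snd)
  have b3 : Primrec fun p : (ℕ × ℕ × ℕ) × (ℕ × ℕ × ℕ) => p.2.2.2 + 1 :=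
    Primrec.succ.comp (Primrec.snd.comp (Primrec.snd.comp Primrec.snd))
  exact Primrec.pair
    (Primrec.nat_add.comp (Primrec.nat_mul.comp a1 b1) (Primrec.nat_mul.comp a2 b2))
    (Primrec.pair
      (Primrec.nat_add.comp (Primrec.nat_mul.comp a1 b2) (Primrec.nat_mul.comp a2 b1))
      (Primrec.nat_sub.comp (Primrec.nat_mul.comp a3 b3) (Primrec.const 1)))

theorem primrec_negT : Primrec negT := by
  unfold negT
  exact Primrec.pair (Primrec.fst.comp Primrec.snd) (Primrec.pair Primrec.fst
    (Primrec.snd.comp Primrec.snd))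

/-! ### Computable operations on `ℚ` -/

theorem computable_add : Computable₂ ((· + ·) : ℚ → ℚ → ℚ) := by
  have : Computable fun p : ℚ × ℚ => valQ (addT (toTriple p.1) (toTriple p.2)) :=
    computable_valQ.comp (primrec_addT.to_comp.comp (computable_toTriple.comp Computable.fst)
      (computable_toTriple.comp Computable.snd))
  exact this.of_eq fun p => by rw [valQ_addT, valQ_toTriple, valQ_toTriple]

theorem computable_mul : Computable₂ ((· * ·) : ℚ → ℚ → ℚ) := by
  have : Computable fun p : ℚ × ℚ => valQ (mulT (toTriple p.1) (toTriple p.2)) :=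
    computable_valQ.comp (primrec_mulT.to_comp.comp (computable_toTriple.comp Computable.fst)
      (computable_toTriple.comp Computable.snd))
  exact this.of_eq fun p => by rw [valQ_mulT, valQ_toTriple, valQ_toTriple]

theorem computable_neg : Computable (fun q : ℚ => -q) := by
  have : Computable fun q : ℚ => valQ (negT (toTriple q)) :=
    computable_valQ.comp (primrec_negT.to_comp.comp computable_toTriple)
  exact this.of_eq fun p => by rw [valQ_negT, valQ_toTriple]

theorem computable_sub : Computable₂ ((· - ·) : ℚ → ℚ → ℚ) := by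
  have : Computable fun p : ℚ × ℚ => p.1 + (-p.2) :=
    computable_add.comp Computable.fst (computable_neg.comp Computable.snd)
  exact this.of_eq fun p => (sub_eq_add_neg p.1 p.2).symm

/-- cast of a natural number to `ℚ` is computable. -/
theorem computable_natCast : Computable (fun n : ℕ => (n : ℚ)) := by
  have : Computable fun n : ℕ => valQ (n, 0, 0) := by
    refine computable_valQ.comp ?_
    exact (Primrec.pair Primrec.id (Primrec.const (0, 0))).to_comp
  exact this.of_eq fun n => by simp [valQ]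

/-- Ceiling of the absolute value, as a natural number: an upper bound. -/
def absBound (q : ℚ) : ℕ := (toTriple q).1 + (toTriple q).2.1

theorem computable_absBound : Computable absBound := by
  unfold absBound
  have h1 : Computable fun q : ℚ => (toTriple q).1 := Computable.fst.comp computable_toTriple
  have h2 : Computable fun q : ℚ => (toTriple q).2.1 :=
    Computable.fst.comp (Computable.snd.comp computable_toTriple)
  exact Primrec.nat_add.to_comp.comp h1 h2

theorem abs_le_absBound (q : ℚ) : |q| ≤ (absBound q : ℚ) := by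
  conv_lhs => rw [← valQ_toTriple q]
  simp only [valQ, absBound]
  set p := (toTriple q).1
  set n := (toTriple q).2.1
  set d := (toTriple q).2.2
  have hd : (1 : ℚ) ≤ (d : ℚ) + 1 := by
    have : (0 : ℚ) ≤ d := by positivity
    linarith
  rw [abs_div, abs_of_pos (by linarith : (0 : ℚ) < (d : ℚ) + 1)]
  rw [div_le_iff₀ (by linarith)]
  have h1 : |(p : ℚ) - n| ≤ (p : ℚ) + n := by
    rw [abs_le]
    constructor
    · have : (0 : ℚ) ≤ p := by positivity
      linarith
    · have : (0 : ℚ) ≤ n := by positivity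
      linarith
  have h2 : (0 : ℚ) ≤ (p : ℚ) + n := by positivity
  push_cast
  nlinarith

end Crest.Agent.Lib.BoxFlowRat
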