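import Crest.Agent.Lib.BoxFlowFabPrim

/-!
# Effective sequences of functions (a function with its derivatives)

A sequence `D : ℕ → ℝ → ℝ` with `(D k)' = D (k + 1)`, effectively approximable at rationals and
with computable global bounds.  Closure under rational affine substitution, sums, scalar multiples,
shift, and multiplication by a linear function for compactly supported `D`.
-/

set_option autoImplicit false

namespace Crest.Agent.Lib.BoxFlowSeq

open Crest.Agent.Lib.BoxFlowRat Crest.Agent.Lib.BoxFlowFab Crest.Agent.Lib.BoxFlowFabEff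
  Crest.Agent.Lib.BoxFlowFabPrim
open scoped ContDiff

/-- A sequence of functions. -/
abbrev Seq := ℕ → ℝ → ℝ

/-- `D (k+1)` is the derivative of `D k`. -/
def Chain (D : Seq) : Prop := ∀ k x, HasDerivAt (D k) (D (k + 1) x) x

/-- Computable approximation at rationals. -/
def Approx (D : Seq) : Prop :=
  ∃ E : ℕ × ℚ × ℕ → ℚ, Computable E ∧
    ∀ (k : ℕ) (q : ℚ) (n : ℕ), |D k (q : ℝ) - ((E (k, q, n) : ℚ) : ℝ)| ≤ 1 / ((n : ℝ) + 1)

/-- Computable global bounds. -/
def Bdd (D : Seq) : Prop := ∃ B : ℕ → ℕ, Computable B ∧ ∀ k x, |D k x| ≤ (B k : ℝ)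

/-- Effective sequence. -/
structure EffSeq (D : Seq) : Prop where
  chain : Chain D
  approx : Approx D
  bdd : Bdd D

/-! ### Computability helpers -/

theorem computable_pow (α : ℚ) : Computable fun k : ℕ => α ^ k := by
  have hh : Computable₂ fun (_ : ℕ) (p : ℕ × ℚ) => p.2 * α :=
    computable_mul.comp (Computable.snd.comp Computable.snd) (Computable.const α)
  have := Computable.nat_rec (f := fun k : ℕ => k) (g := fun _ : ℕ => (1 : ℚ))
    (h := fun (_ : ℕ) (p : ℕ × ℚ) => p.2 * α) Computable.id (Computable.const 1) hh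
  refine this.of_eq fun k => ?_
  induction k with
  | zero => simp
  | succ k ih =>
    simp only [pow_succ] at ih ⊢
    rw [← ih]

/-! ### Approximation -/

theorem Approx.reindex {D : Seq} (h : Approx D) {π : ℕ → ℕ} {g : ℚ → ℚ} {g' : ℝ → ℝ}
    (hπ : Computable π) (hg : Computable g) (hgg : ∀ q : ℚ, g' q = g q) :
    Approx fun k s => D (π k) (g' s) := by
  obtain ⟨E, hE, hap⟩ := h
  have h1 : Computable fun a : ℕ × ℚ × ℕ => (π a.1, g a.2.1, a.2.2) :=
    Computable.pair (hπ.comp Computable.fst) (Computable.pair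
      (hg.comp (Computable.fst.comp Computable.snd)) (Computable.snd.comp Computable.snd))
  refine ⟨fun a => E (π a.1, g a.2.1, a.2.2), hE.comp h1, fun k q n => ?_⟩
  show |D (π k) (g' (q : ℝ)) - ((E (π k, g q, n) : ℚ) : ℝ)| ≤ _
  rw [hgg]
  exact hap _ _ _

theorem half_add_half_le (n : ℕ) {x y : ℝ} (hx : x ≤ 1 / (((2 * n + 1 : ℕ) : ℝ) + 1))
    (hy : y ≤ 1 / (((2 * n + 1 : ℕ) : ℝ) + 1)) : x + y ≤ 1 / ((n : ℝ) + 1) := by
  have e : (1 : ℝ) / (((2 * n + 1 : ℕ) : ℝ) + 1) = (1 / 2) * (1 / ((n : ℝ) + 1)) := by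
    push_cast
    field_simp
    ring
  rw [e] at hx hy
  linarith

theorem Approx.add {D₁ D₂ : Seq} (h₁ : Approx D₁) (h₂ : Approx D₂) :
    Approx fun k s => D₁ k s + D₂ k s := by
  obtain ⟨E₁, hE₁, hap₁⟩ := h₁
  obtain ⟨E₂, hE₂, hap₂⟩ := h₂
  have hn : Computable fun a : ℕ × ℚ × ℕ => 2 * a.2.2 + 1 :=
    Primrec.to_comp (Primrec.succ.comp (Primrec.nat_mul.comp (Primrec.const 2)
      (Primrec.snd.comp Primrec.snd)))
  have h1 : Computable fun a : ℕ × ℚ × ℕ => (a.1, a.2.1, 2 * a.2.2 + 1) :=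
    Computable.pair Computable.fst (Computable.pair (Computable.fst.comp Computable.snd) hn)
  refine ⟨fun a => E₁ (a.1, a.2.1, 2 * a.2.2 + 1) + E₂ (a.1, a.2.1, 2 * a.2.2 + 1),
    computable_add.comp (hE₁.comp h1) (hE₂.comp h1), fun k q n => ?_⟩
  have a1 := hap₁ k q (2 * n + 1)
  have a2 := hap₂ k q (2 * n + 1)
  have : |D₁ k q + D₂ k q - ((E₁ (k, q, 2 * n + 1) + E₂ (k, q, 2 * n + 1) : ℚ) : ℝ)| ≤
      |D₁ k q - (E₁ (k, q, 2 * n + 1) : ℝ)| + |D₂ k q - (E₂ (k, q, 2 * n + 1) : ℝ)| := by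
    push_cast
    have e : D₁ k q + D₂ k q - ((E₁ (k, q, 2 * n + 1) : ℝ) + (E₂ (k, q, 2 * n + 1) : ℝ)) =
        (D₁ k q - (E₁ (k, q, 2 * n + 1) : ℝ)) + (D₂ k q - (E₂ (k, q, 2 * n + 1) : ℝ)) := by ring
    rw [e]
    exact abs_add_le _ _
  exact this.trans (half_add_half_le n a1 a2)

theorem Approx.weight {D : Seq} (h : Approx D) {w : ℕ × ℚ → ℚ} {w' : ℕ → ℝ → ℝ}
    (hw : Computable w) (hww : ∀ (k : ℕ) (q : ℚ), w' k q = w (k, q)) :
    Approx fun k s => w' k s * D k s := by
  obtain ⟨E, hE, hap⟩ := h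
  have hw1 : Computable fun a : ℕ × ℚ × ℕ => w (a.1, a.2.1) :=
    hw.comp (Computable.pair Computable.fst (Computable.fst.comp Computable.snd))
  have hA : Computable fun a : ℕ × ℚ × ℕ => absBound (w (a.1, a.2.1)) :=
    computable_absBound.comp hw1
  have hN : Computable fun a : ℕ × ℚ × ℕ => (a.2.2 + 1) * (absBound (w (a.1, a.2.1)) + 1) :=
    Primrec.nat_mul.to_comp.comp (Primrec.succ.to_comp.comp (Computable.snd.comp Computable.snd))
      (Primrec.succ.to_comp.comp hA)
  have h1 : Computable fun a : ℕ × ℚ × ℕ =>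
      (a.1, a.2.1, (a.2.2 + 1) * (absBound (w (a.1, a.2.1)) + 1)) :=
    Computable.pair Computable.fst (Computable.pair (Computable.fst.comp Computable.snd) hN)
  refine ⟨fun a => w (a.1, a.2.1) * E (a.1, a.2.1, (a.2.2 + 1) * (absBound (w (a.1, a.2.1)) + 1)),
    computable_mul.comp hw1 (hE.comp h1), fun k q n => ?_⟩
  simp only
  rw [hww]
  set A := absBound (w (k, q)) with hAdef
  have hap1 := hap k q ((n + 1) * (A + 1))
  have hwA : |((w (k, q) : ℚ) : ℝ)| ≤ (A : ℝ) := by
    have := abs_le_absBound (w (k, q))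
    have h2 : ((|w (k, q)| : ℚ) : ℝ) ≤ ((A : ℚ) : ℝ) := by exact_mod_cast this
    simpa using h2
  have e : ((w (k, q) : ℚ) : ℝ) * D k q -
      ((w (k, q) * E (k, q, (n + 1) * (A + 1)) : ℚ) : ℝ) =
      ((w (k, q) : ℚ) : ℝ) * (D k q - (E (k, q, (n + 1) * (A + 1)) : ℝ)) := by
    push_cast
    ring
  rw [e, abs_mul]
  have hpos : (0 : ℝ) < (n : ℝ) + 1 := by positivity
  have hApos : (0 : ℝ) ≤ (A : ℝ) := by positivity
  calc |((w (k, q) : ℚ) : ℝ)| * |D k q - (E (k, q, (n + 1) * (A + 1)) : ℝ)|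
      ≤ (A : ℝ) * (1 / ((((n + 1) * (A + 1) : ℕ) : ℝ) + 1)) :=
        mul_le_mul hwA hap1 (abs_nonneg _) hApos
    _ ≤ 1 / ((n : ℝ) + 1) := by
        push_cast
        rw [mul_one_div, div_le_div_iff₀ (by positivity) hpos]
        nlinarith

theorem Approx.const_mul {D : Seq} (h : Approx D) (c : ℚ) : Approx fun k s => (c : ℝ) * D k s :=
  h.weight (w := fun _ => c) (w' := fun _ _ => (c : ℝ)) (Computable.const c) (fun _ _ => rfl)

theorem Approx.sub {D₁ D₂ : Seq} (h₁ : Approx D₁) (h₂ : Approx D₂) :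
    Approx fun k s => D₁ k s - D₂ k s := by
  have h3 := h₂.const_mul (-1)
  have h4 := h₁.add h3
  obtain ⟨E, hE, hap⟩ := h4
  refine ⟨E, hE, fun k q n => ?_⟩
  have := hap k q n
  simp only [Rat.cast_neg, Rat.cast_one, neg_mul, one_mul] at this
  simpa [sub_eq_add_neg] using this

/-! ### Bounds -/

theorem Bdd.reindex {D : Seq} (h : Bdd D) {π : ℕ → ℕ} (g' : ℝ → ℝ) (hπ : Computable π) :
    Bdd fun k s => D (π k) (g' s) := by
  obtain ⟨B, hB, hb⟩ := h
  exact ⟨fun k => B (π k), hB.comp hπ, fun k x => hb _ _⟩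

theorem Bdd.add {D₁ D₂ : Seq} (h₁ : Bdd D₁) (h₂ : Bdd D₂) : Bdd fun k s => D₁ k s + D₂ k s := by
  obtain ⟨B₁, hB₁, hb₁⟩ := h₁
  obtain ⟨B₂, hB₂, hb₂⟩ := h₂
  refine ⟨fun k => B₁ k + B₂ k, Primrec.nat_add.to_comp.comp hB₁ hB₂, fun k x => ?_⟩
  push_cast
  exact (abs_add_le _ _).trans (add_le_add (hb₁ k x) (hb₂ k x))

theorem Bdd.weight {D : Seq} (h : Bdd D) {W : ℕ → ℕ} {w' : ℕ → ℝ → ℝ} (hW : Computable W)
    (hww : ∀ k s, |w' k s| ≤ (W k : ℝ)) : Bdd fun k s => w' k s * D k s := by
  obtain ⟨B, hB, hb⟩ := h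
  refine ⟨fun k => W k * B k, Primrec.nat_mul.to_comp.comp hW hB, fun k x => ?_⟩
  push_cast
  rw [abs_mul]
  exact mul_le_mul (hww k x) (hb k x) (abs_nonneg _) (by positivity)

theorem abs_rat_le_absBound (c : ℚ) : |(c : ℝ)| ≤ (absBound c : ℝ) := by
  have := abs_le_absBound c
  have h2 : ((|c| : ℚ) : ℝ) ≤ ((absBound c : ℚ) : ℝ) := by exact_mod_cast this
  simpa using h2

theorem Bdd.const_mul {D : Seq} (h : Bdd D) (c : ℚ) : Bdd fun k s => (c : ℝ) * D k s :=
  h.weight (W := fun _ => absBound c) (w' := fun _ _ => (c : ℝ)) (Computable.const _)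
    (fun _ _ => abs_rat_le_absBound c)

theorem Bdd.sub {D₁ D₂ : Seq} (h₁ : Bdd D₁) (h₂ : Bdd D₂) : Bdd fun k s => D₁ k s - D₂ k s := by
  obtain ⟨B₁, hB₁, hb₁⟩ := h₁
  obtain ⟨B₂, hB₂, hb₂⟩ := h₂
  refine ⟨fun k => B₁ k + B₂ k, Primrec.nat_add.to_comp.comp hB₁ hB₂, fun k x => ?_⟩
  push_cast
  exact (abs_sub _ _).trans (add_le_add (hb₁ k x) (hb₂ k x))

/-! ### Chains -/

theorem Chain.add {D₁ D₂ : Seq} (h₁ : Chain D₁) (h₂ : Chain D₂) :
    Chain fun k s => D₁ k s + D₂ k s := fun k x => (h₁ k x).add (h₂ k x)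

theorem Chain.sub {D₁ D₂ : Seq} (h₁ : Chain D₁) (h₂ : Chain D₂) :
    Chain fun k s => D₁ k s - D₂ k s := fun k x => (h₁ k x).sub (h₂ k x)

theorem Chain.const_mul {D : Seq} (h : Chain D) (c : ℝ) : Chain fun k s => c * D k s :=
  fun k x => (h k x).const_mul c

theorem Chain.aff {D : Seq} (h : Chain D) (α β : ℝ) :
    Chain fun k s => α ^ k * D k (α * s + β) := by
  intro k x
  have h2 : HasDerivAt (fun s : ℝ => α * s + β) α x := by
    simpa using ((hasDerivAt_id x).const_mul α).add_const β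
  have h3 := (h k (α * x + β)).comp x h2
  have h4 := h3.const_mul (α ^ k)
  refine h4.congr_deriv ?_
  show _ = α ^ (k + 1) * D (k + 1) (α * x + β)
  rw [pow_succ]
  ring

theorem Chain.shift {D : Seq} (h : Chain D) : Chain fun k => D (k + 1) := fun k x => h (k + 1) x

theorem Chain.mulLin {D : Seq} (h : Chain D) (z : ℝ) :
    Chain fun k s => (s - z) * D k s + (k : ℝ) * D (k - 1) s := by
  intro k x
  have h1 : HasDerivAt (fun s : ℝ => s - z) 1 x := (hasDerivAt_id x).sub_const z
  have h2 := h1.mul (h k x)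
  have h3 := (h (k - 1) x).const_mul (k : ℝ)
  have h4 : HasDerivAt (fun s : ℝ => (s - z) * D k s + (k : ℝ) * D (k - 1) s) _ x := h2.add h3
  refine h4.congr_deriv ?_
  rcases k with _ | k
  · simp
    ring
  · simp only [Nat.add_sub_cancel]
    push_cast
    ring

/-- A chain function that is constant on an open set has vanishing higher derivatives there. -/
theorem Chain.succ_eq_zero_of_open {D : Seq} (h : Chain D) {U : Set ℝ} (hU : IsOpen U) {c : ℝ}
    (hc : ∀ x ∈ U, D 0 x = c) : ∀ k, ∀ x ∈ U, D (k + 1) x = 0 := by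
  intro k
  induction k with
  | zero =>
    intro x hx
    have h1 : D 0 =ᶠ[nhds x] fun _ => c := by
      filter_upwards [hU.mem_nhds hx] with y hy using hc y hy
    have h2 := (h 0 x).congr_of_eventuallyEq h1.symm
    exact h2.unique (hasDerivAt_const x c)
  | succ k ih =>
    intro x hx
    have h1 : D (k + 1) =ᶠ[nhds x] fun _ => 0 := by
      filter_upwards [hU.mem_nhds hx] with y hy using ih y hy
    have h2 := (h (k + 1) x).congr_of_eventuallyEq h1.symm
    exact h2.unique (hasDerivAt_const x (0 : ℝ))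

theorem Chain.continuous {D : Seq} (h : Chain D) (k : ℕ) : Continuous (D k) :=
  continuous_iff_continuousAt.2 fun x => (h k x).continuousAt

theorem Chain.contDiff_aux {D : Seq} (h : Chain D) (n : ℕ) : ∀ k, ContDiff ℝ n (D k) := by
  induction n with
  | zero =>
    intro k
    have := (contDiff_zero (𝕜 := ℝ)).2 (h.continuous k)
    simpa using this
  | succ n ih =>
    intro k
    have : ((n + 1 : ℕ) : WithTop ℕ∞) = (n : WithTop ℕ∞) + 1 := by push_cast; rfl
    rw [this, contDiff_succ_iff_deriv]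
    refine ⟨fun x => (h k x).differentiableAt, by simp, ?_⟩
    have : deriv (D k) = D (k + 1) := funext fun x => (h k x).deriv
    rw [this]
    exact ih (k + 1)

theorem Chain.contDiff {D : Seq} (h : Chain D) (k : ℕ) : ContDiff ℝ ∞ (D k) :=
  contDiff_infty.2 fun n => h.contDiff_aux n k

/-! ### The sequence `DF` -/

theorem chain_DF : Chain DF := hasDerivAt_DF

theorem effSeq_DF : EffSeq DF where
  chain := chain_DF
  approx := ⟨EF, computable_EF, fun k q n => by
    have := abs_DF_sub_approxD k (toTriple q) n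
    rw [valQ_toTriple] at this
    exact this⟩
  bdd := ⟨Bd, primrec_Bd.to_comp, abs_DF_le⟩

theorem DF_eq_zero_of_nonpos (k : ℕ) {u : ℝ} (hu : u ≤ 0) : DF k u = 0 := by
  rcases k with _ | k
  · rw [DF_zero]
    exact good_F.left u hu
  · have h1 := chain_DF.succ_eq_zero_of_open (U := Set.Iio 0) isOpen_Iio (c := 0)
      (fun x hx => by
        rw [DF_zero]
        exact good_F.left x (le_of_lt hx)) k
    have h2 : IsClosed {x : ℝ | DF (k + 1) x = 0} := isClosed_eq (chain_DF.continuous _) continuous_const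
    have h3 : closure (Set.Iio (0 : ℝ)) ⊆ {x : ℝ | DF (k + 1) x = 0} :=
      h2.closure_subset_iff.2 fun x hx => h1 x hx
    rw [closure_Iio] at h3
    exact h3 hu

theorem DF_zero_eq_one (u : ℝ) (hu : 1 ≤ u) : DF 0 u = 1 := by
  rw [DF_zero]
  exact good_F.right u hu

theorem DF_succ_eq_zero_of_ge (k : ℕ) {u : ℝ} (hu : 1 ≤ u) : DF (k + 1) u = 0 := by
  have h1 := chain_DF.succ_eq_zero_of_open (U := Set.Ioi 1) isOpen_Ioi (c := 1)
    (fun x hx => DF_zero_eq_one x (le_of_lt hx)) k
  have h2 : IsClosed {x : ℝ | DF (k + 1) x = 0} := isClosed_eq (chain_DF.continuous _) continuous_const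
  have h3 : closure (Set.Ioi (1 : ℝ)) ⊆ {x : ℝ | DF (k + 1) x = 0} :=
    h2.closure_subset_iff.2 fun x hx => h1 x hx
  rw [closure_Ioi] at h3
  exact h3 hu

/-! ### Closure of effective sequences -/

theorem EffSeq.aff {D : Seq} (h : EffSeq D) (α β : ℚ) :
    EffSeq fun k s => (α : ℝ) ^ k * D k ((α : ℝ) * s + (β : ℝ)) where
  chain := h.chain.aff α β
  approx := by
    have h1 := Approx.reindex h.approx (π := fun k => k) (g := fun q => α * q + β)
      (g' := fun s => (α : ℝ) * s + (β : ℝ)) Computable.id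
      (computable_add.comp (computable_mul.comp (Computable.const α) Computable.id)
        (Computable.const β))
      (fun q => by push_cast; rfl)
    exact h1.weight (w := fun a => α ^ a.1) (w' := fun k _ => (α : ℝ) ^ k)
      ((computable_pow α).comp Computable.fst) (fun k q => by push_cast; rfl)
  bdd := by
    have h1 := Bdd.reindex h.bdd (π := fun k => k) (fun s => (α : ℝ) * s + (β : ℝ)) Computable.id
    refine h1.weight (W := fun k => absBound α ^ k) (w' := fun k _ => (α : ℝ) ^ k) ?_ ?_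
    · exact (primrec_pow.comp (Primrec.const _) Primrec.id).to_comp
    · intro k _
      rw [abs_pow]
      push_cast
      exact pow_le_pow_left₀ (abs_nonneg _) (abs_rat_le_absBound α) k

theorem EffSeq.add {D₁ D₂ : Seq} (h₁ : EffSeq D₁) (h₂ : EffSeq D₂) :
    EffSeq fun k s => D₁ k s + D₂ k s where
  chain := h₁.chain.add h₂.chain
  approx := h₁.approx.add h₂.approx
  bdd := h₁.bdd.add h₂.bdd

theorem EffSeq.sub {D₁ D₂ : Seq} (h₁ : EffSeq D₁) (h₂ : EffSeq D₂) :
    EffSeq fun k s => D₁ k s - D₂ k s where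
  chain := h₁.chain.sub h₂.chain
  approx := h₁.approx.sub h₂.approx
  bdd := h₁.bdd.sub h₂.bdd

theorem EffSeq.const_mul {D : Seq} (h : EffSeq D) (c : ℚ) :
    EffSeq fun k s => (c : ℝ) * D k s where
  chain := h.chain.const_mul c
  approx := h.approx.const_mul c
  bdd := h.bdd.const_mul c

theorem EffSeq.shift {D : Seq} (h : EffSeq D) : EffSeq fun k => D (k + 1) where
  chain := h.chain.shift
  approx := by
    have := Approx.reindex h.approx (π := fun k => k + 1) (g := fun q => q) (g' := fun s => s)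
      Primrec.succ.to_comp Computable.id (fun _ => rfl)
    exact this
  bdd := by
    have := Bdd.reindex h.bdd (π := fun k => k + 1) (fun s => s) Primrec.succ.to_comp
    exact this

/-- Vanishing outside an interval. -/
def VanishOut (D : Seq) (lo hi : ℝ) : Prop := ∀ k s, (s ≤ lo ∨ hi ≤ s) → D k s = 0

theorem EffSeq.mulLin {D : Seq} (h : EffSeq D) (z lo hi : ℚ) (hv : VanishOut D lo hi) :
    EffSeq fun k s => (s - (z : ℝ)) * D k s + (k : ℝ) * D (k - 1) s where
  chain := h.chain.mulLin z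
  approx := by
    have h1 : Approx fun k s => (s - (z : ℝ)) * D k s :=
      h.approx.weight (w := fun a => a.2 - z) (w' := fun _ s => s - (z : ℝ))
        (computable_sub.comp Computable.snd (Computable.const z))
        (fun k q => by push_cast; rfl)
    have h2 := Approx.reindex h.approx (π := fun k => k - 1) (g := fun q => q) (g' := fun s => s)
      (Primrec.to_comp Primrec.pred) Computable.id (fun _ => rfl)
    have h3 : Approx fun k s => (k : ℝ) * D (k - 1) s :=
      h2.weight (w := fun a => (a.1 : ℚ)) (w' := fun k _ => (k : ℝ))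
        (computable_natCast.comp Computable.fst) (fun k q => by push_cast; rfl)
    exact h1.add h3
  bdd := by
    obtain ⟨B, hB, hb⟩ := h.bdd
    set R := absBound lo + absBound hi + absBound z with hR
    refine ⟨fun k => R * B k + k * B (k - 1), ?_, fun k s => ?_⟩
    · refine Primrec.nat_add.to_comp.comp (Primrec.nat_mul.to_comp.comp (Computable.const R) hB)
        (Primrec.nat_mul.to_comp.comp Computable.id (hB.comp (Primrec.to_comp Primrec.pred)))
    · have h2 : |(k : ℝ) * D (k - 1) s| ≤ (k : ℝ) * (B (k - 1) : ℝ) := by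
        rw [abs_mul, abs_of_nonneg (by positivity : (0 : ℝ) ≤ (k : ℝ))]
        exact mul_le_mul_of_nonneg_left (hb _ _) (by positivity)
      have h1 : |(s - (z : ℝ)) * D k s| ≤ (R : ℝ) * (B k : ℝ) := by
        by_cases hs : s ≤ lo ∨ hi ≤ s
        · rw [hv k s hs]
          simp only [mul_zero, abs_zero]
          positivity
        · push Not at hs
          rw [abs_mul]
          refine mul_le_mul ?_ (hb k s) (abs_nonneg _) (by positivity)
          have hl := abs_rat_le_absBound lo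
          have hh := abs_rat_le_absBound hi
          have hz := abs_rat_le_absBound z
          have : |s - (z : ℝ)| ≤ (absBound lo : ℝ) + (absBound hi : ℝ) + (absBound z : ℝ) := by
            rw [abs_le] at hl hh hz ⊢
            constructor <;> nlinarith [hs.1, hs.2, hl.1, hl.2, hh.1, hh.2, hz.1, hz.2]
          simpa [hR] using this
      push_cast
      exact (abs_add_le _ _).trans (add_le_add h1 h2)

end Crest.Agent.Lib.BoxFlowSeq
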