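import Crest.Agent.Lib.BoxFlowODE

/-!
# The elementary step: a divergence-free compactly supported field that is, on a block,
# `(κ₀ + κ₁ (x_a - z)) e_c`.
-/

set_option autoImplicit false

namespace Crest.Agent.Lib.BoxFlowStep

open Crest.AnalysisR.BoxFlow
open Crest.Agent.Lib.BoxFlowFabEff Crest.Agent.Lib.BoxFlowFab
  Crest.Agent.Lib.BoxFlowSeq Crest.Agent.Lib.BoxFlowTensor Crest.Agent.Lib.BoxFlowODE
open scoped ContDiff NNReal

/-- The plateau sequence: `1` on `[l, r]`, `0` outside `(l - μ, r + μ)`. -/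
noncomputable def Plat (l r μ : ℚ) : Seq := fun k s =>
  ((1 / μ : ℚ) : ℝ) ^ k * DF k (((1 / μ : ℚ) : ℝ) * s + (((μ - l) / μ : ℚ) : ℝ)) -
  ((1 / μ : ℚ) : ℝ) ^ k * DF k (((1 / μ : ℚ) : ℝ) * s + ((-r / μ : ℚ) : ℝ))

theorem effSeq_Plat (l r μ : ℚ) : EffSeq (Plat l r μ) :=
  (effSeq_DF.aff _ _).sub (effSeq_DF.aff _ _)

theorem Plat_arg1 (l μ : ℚ) (hμ : 0 < μ) (s : ℝ) :
    ((1 / μ : ℚ) : ℝ) * s + (((μ - l) / μ : ℚ) : ℝ) = (s - l + μ) / μ := by
  have h : (μ : ℝ) ≠ 0 := by exact_mod_cast hμ.ne'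
  push_cast
  field_simp
  ring

theorem Plat_arg2 (r μ : ℚ) (hμ : 0 < μ) (s : ℝ) :
    ((1 / μ : ℚ) : ℝ) * s + ((-r / μ : ℚ) : ℝ) = (s - r) / μ := by
  have h : (μ : ℝ) ≠ 0 := by exact_mod_cast hμ.ne'
  push_cast
  field_simp
  ring

theorem Plat_zero_on {l r μ : ℚ} (hμ : 0 < μ) {s : ℝ} (h1 : (l : ℝ) ≤ s) (h2 : s ≤ r) :
    Plat l r μ 0 s = 1 := by
  have hm : (0 : ℝ) < μ := by exact_mod_cast hμ
  unfold Plat
  rw [Plat_arg1 l μ hμ, Plat_arg2 r μ hμ, DF_zero_eq_one, DF_eq_zero_of_nonpos]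
  · simp
  · exact div_nonpos_of_nonpos_of_nonneg (by linarith) hm.le
  · rw [le_div_iff₀ hm]
    linarith

theorem Plat_succ_on {l r μ : ℚ} (hμ : 0 < μ) (k : ℕ) {s : ℝ} (h1 : (l : ℝ) ≤ s) (h2 : s ≤ r) :
    Plat l r μ (k + 1) s = 0 := by
  have hm : (0 : ℝ) < μ := by exact_mod_cast hμ
  unfold Plat
  rw [Plat_arg1 l μ hμ, Plat_arg2 r μ hμ, DF_succ_eq_zero_of_ge, DF_eq_zero_of_nonpos]
  · simp
  · exact div_nonpos_of_nonpos_of_nonneg (by linarith) hm.le
  · rw [le_div_iff₀ hm]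
    linarith

theorem Plat_vanish {l r μ : ℚ} (hμ : 0 < μ) (hlr : l ≤ r) :
    VanishOut (Plat l r μ) ((l - μ : ℚ) : ℝ) ((r + μ : ℚ) : ℝ) := by
  have hm : (0 : ℝ) < μ := by exact_mod_cast hμ
  have hlr' : (l : ℝ) ≤ r := by exact_mod_cast hlr
  intro k s hs
  unfold Plat
  rw [Plat_arg1 l μ hμ, Plat_arg2 r μ hμ]
  push_cast at hs
  rcases hs with hs | hs
  · rw [DF_eq_zero_of_nonpos k, DF_eq_zero_of_nonpos k]
    · simp
    · exact div_nonpos_of_nonpos_of_nonneg (by linarith) hm.le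
    · exact div_nonpos_of_nonpos_of_nonneg (by linarith) hm.le
  · have h1 : 1 ≤ (s - l + μ) / (μ : ℝ) := by
      rw [le_div_iff₀ hm]
      linarith
    have h2 : 1 ≤ (s - r) / (μ : ℝ) := by
      rw [le_div_iff₀ hm]
      linarith
    rcases k with _ | k
    · rw [DF_zero_eq_one _ h1, DF_zero_eq_one _ h2]
      simp
    · rw [DF_succ_eq_zero_of_ge k h1, DF_succ_eq_zero_of_ge k h2]
      simp

/-- multiplication by a linear function. -/
def mulLinSeq (z : ℝ) (D : Seq) : Seq := fun k s => (s - z) * D k s + (k : ℝ) * D (k - 1) s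

theorem VanishOut.mulLin {D : Seq} {lo hi : ℝ} (h : VanishOut D lo hi) (z : ℝ) :
    VanishOut (mulLinSeq z D) lo hi := by
  intro k s hs
  unfold mulLinSeq
  rw [h k s hs, h (k - 1) s hs]
  simp

theorem EffSeq.mulLinSeq {D : Seq} (h : EffSeq D) (z lo hi : ℚ)
    (hv : VanishOut D lo hi) : EffSeq (mulLinSeq z D) :=
  h.mulLin z lo hi hv

/-- `G(s) = κ₀ (s - z) P(s) + κ₁ (s - z)² P(s) / 2`. -/
noncomputable def GSeq (κ₀ κ₁ z l r μ : ℚ) : Seq := fun k s =>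
  (κ₀ : ℝ) * mulLinSeq z (Plat l r μ) k s +
    ((κ₁ / 2 : ℚ) : ℝ) * mulLinSeq z (mulLinSeq z (Plat l r μ)) k s

theorem effSeq_GSeq (κ₀ κ₁ z l r μ : ℚ) (hμ : 0 < μ) (hlr : l ≤ r) :
    EffSeq (GSeq κ₀ κ₁ z l r μ) := by
  have hv := Plat_vanish hμ hlr
  have h1 := EffSeq.mulLinSeq (effSeq_Plat l r μ) z _ _ hv
  have h2 := EffSeq.mulLinSeq h1 z _ _ (VanishOut.mulLin hv z)
  exact (h1.const_mul κ₀).add (h2.const_mul (κ₁ / 2))

theorem GSeq_vanish {κ₀ κ₁ z l r μ : ℚ} (hμ : 0 < μ) (hlr : l ≤ r) :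
    VanishOut (GSeq κ₀ κ₁ z l r μ) ((l - μ : ℚ) : ℝ) ((r + μ : ℚ) : ℝ) := by
  have hv := Plat_vanish hμ hlr
  have h1 := VanishOut.mulLin hv (z : ℝ)
  have h2 := VanishOut.mulLin h1 (z : ℝ)
  intro k s hs
  unfold GSeq
  rw [h1 k s hs, h2 k s hs]
  simp

theorem GSeq_one_on {κ₀ κ₁ z l r μ : ℚ} (hμ : 0 < μ) {s : ℝ} (h1 : (l : ℝ) ≤ s) (h2 : s ≤ r) :
    GSeq κ₀ κ₁ z l r μ 1 s = (κ₀ : ℝ) + κ₁ * (s - z) := by
  have e0 := Plat_zero_on hμ h1 h2
  have e1 := Plat_succ_on hμ 0 h1 h2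
  simp only [zero_add] at e1
  simp only [GSeq, mulLinSeq]
  norm_num
  rw [e0, e1]
  ring

/-! ### Roles -/

/-- A function of `Fin 3` determined by roles. -/
noncomputable def role (a b : Fin 3) (A B C : Seq) : Fin 3 → Seq :=
  fun i => if i = a then A else if i = b then B else C

theorem prod_roles {a b c : Fin 3} (hab : a ≠ b) (hac : a ≠ c) (hbc : b ≠ c) (f : Fin 3 → ℝ) :
    f 0 * f 1 * f 2 = f a * f b * f c := by
  fin_cases a <;> fin_cases b <;> fin_cases c <;>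
    simp [-mul_eq_mul_left_iff, -mul_eq_mul_right_iff] at hab hac hbc ⊢ <;> ring

theorem fin3_roles : ∀ a b c : Fin 3, a ≠ b → a ≠ c → b ≠ c → ∀ i, i = a ∨ i = b ∨ i = c := by
  decide

section step

variable {a b c : Fin 3} (hab : a ≠ b) (hac : a ≠ c) (hbc : b ≠ c) (pc pw : Fin 3 → ℚ)
  (hpw : ∀ i, 0 ≤ pw i) {μ : ℚ} (hμ : 0 < μ) (z κ₀ κ₁ : ℚ)

/-- The plateaus. -/
noncomputable def P (pc pw : Fin 3 → ℚ) (μ : ℚ) (i : Fin 3) : Seq :=
  Plat (pc i - pw i) (pc i + pw i) μ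

/-- The `G` function. -/
noncomputable def G' (pc pw : Fin 3 → ℚ) (μ z κ₀ κ₁ : ℚ) (a : Fin 3) : Seq :=
  GSeq κ₀ κ₁ z (pc a - pw a) (pc a + pw a) μ

/-- The autonomous field. -/
noncomputable def stepField (a b c : Fin 3) (pc pw : Fin 3 → ℚ) (μ z κ₀ κ₁ : ℚ) (x : Sp) : Sp :=
  Pi.single a (-G' pc pw μ z κ₀ κ₁ a 0 (x a) * P pc pw μ b 0 (x b) * P pc pw μ c 1 (x c)) +
    Pi.single c (G' pc pw μ z κ₀ κ₁ a 1 (x a) * P pc pw μ b 0 (x b) * P pc pw μ c 0 (x c))

include hpw hμ in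
theorem P_vanish (i : Fin 3) (k : ℕ) {s : ℝ} (hs : (pw i : ℝ) + μ ≤ |s - pc i|) :
    P pc pw μ i k s = 0 := by
  have hlr : pc i - pw i ≤ pc i + pw i := by linarith [hpw i]
  refine Plat_vanish hμ hlr k s ?_
  push_cast
  rcases le_abs'.1 hs with h | h
  · left; linarith
  · right; linarith

include hpw hμ in
theorem G'_vanish (k : ℕ) {s : ℝ} (hs : (pw a : ℝ) + μ ≤ |s - pc a|) :
    G' pc pw μ z κ₀ κ₁ a k s = 0 := by
  have hlr : pc a - pw a ≤ pc a + pw a := by linarith [hpw a]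
  refine GSeq_vanish hμ hlr k s ?_
  push_cast
  rcases le_abs'.1 hs with h | h
  · left; linarith
  · right; linarith

include hab hac hbc hpw hμ in
theorem stepField_far {x : Sp} (hx : ∃ i, (pw i : ℝ) + μ ≤ |x i - pc i|) :
    stepField a b c pc pw μ z κ₀ κ₁ x = 0 := by
  obtain ⟨i, hi⟩ := hx
  have hi3 : i = a ∨ i = b ∨ i = c := fin3_roles a b c hab hac hbc i
  unfold stepField
  rcases hi3 with rfl | rfl | rfl
  · rw [G'_vanish pc pw hpw hμ z κ₀ κ₁ 0 hi, G'_vanish pc pw hpw hμ z κ₀ κ₁ 1 hi]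
    simp
  · rw [P_vanish pc pw hpw hμ _ 0 hi]
    simp
  · rw [P_vanish pc pw hpw hμ _ 0 hi, P_vanish pc pw hpw hμ _ 1 hi]
    simp

include hμ in
theorem stepField_block {x : Sp}
    (hx : ∀ i, |x i - pc i| ≤ pw i) :
    stepField a b c pc pw μ z κ₀ κ₁ x = Pi.single c ((κ₀ : ℝ) + κ₁ * (x a - z)) := by
  have hbds : ∀ i, ((pc i - pw i : ℚ) : ℝ) ≤ x i ∧ x i ≤ ((pc i + pw i : ℚ) : ℝ) := by
    intro i
    have := abs_le.1 (hx i)
    push_cast
    constructor <;> linarith [this.1, this.2]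
  unfold stepField
  have e1 : P pc pw μ c 1 (x c) = 0 := Plat_succ_on hμ 0 (hbds c).1 (hbds c).2
  have e2 : P pc pw μ c 0 (x c) = 1 := Plat_zero_on hμ (hbds c).1 (hbds c).2
  have e3 : P pc pw μ b 0 (x b) = 1 := Plat_zero_on hμ (hbds b).1 (hbds b).2
  have e4 : G' pc pw μ z κ₀ κ₁ a 1 (x a) = (κ₀ : ℝ) + κ₁ * (x a - z) :=
    GSeq_one_on hμ (hbds a).1 (hbds a).2
  rw [e1, e2, e3, e4]
  simp

theorem contDiff_seq_coord {D : Seq} (h : Chain D) (k : ℕ) (i : Fin 3) :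
    ContDiff ℝ ∞ fun x : Sp => D k (x i) :=
  (h.contDiff k).comp (contDiff_apply ℝ ℝ i)

theorem chain_P (i : Fin 3) : Chain (P pc pw μ i) := (effSeq_Plat _ _ _).chain

include hpw hμ in
theorem effSeq_G' : EffSeq (G' pc pw μ z κ₀ κ₁ a) :=
  effSeq_GSeq _ _ _ _ _ _ hμ (by linarith [hpw a])

include hpw hμ in
theorem contDiff_stepField : ContDiff ℝ ∞ (stepField a b c pc pw μ z κ₀ κ₁) := by
  have hG := (effSeq_G' pc pw hpw hμ z κ₀ κ₁ (a := a)).chain
  have hP := chain_P pc pw (μ := μ)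
  have h1 : ContDiff ℝ ∞ fun x : Sp =>
      -G' pc pw μ z κ₀ κ₁ a 0 (x a) * P pc pw μ b 0 (x b) * P pc pw μ c 1 (x c) :=
    ((contDiff_seq_coord hG 0 a).neg.mul (contDiff_seq_coord (hP b) 0 b)).mul
      (contDiff_seq_coord (hP c) 1 c)
  have h2 : ContDiff ℝ ∞ fun x : Sp =>
      G' pc pw μ z κ₀ κ₁ a 1 (x a) * P pc pw μ b 0 (x b) * P pc pw μ c 0 (x c) :=
    ((contDiff_seq_coord hG 1 a).mul (contDiff_seq_coord (hP b) 0 b)).mul
      (contDiff_seq_coord (hP c) 0 c)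
  exact ((ContinuousLinearMap.single ℝ (fun _ : Fin 3 => ℝ) a).contDiff.comp h1).add
    ((ContinuousLinearMap.single ℝ (fun _ : Fin 3 => ℝ) c).contDiff.comp h2)

/-- The block used for the compact support. -/
def outerSet (pc pw : Fin 3 → ℚ) (μ : ℚ) : Set Sp :=
  Set.pi Set.univ fun i => Set.Icc ((pc i : ℝ) - pw i - μ) ((pc i : ℝ) + pw i + μ)

theorem isCompact_outerSet (pc pw : Fin 3 → ℚ) (μ : ℚ) : IsCompact (outerSet pc pw μ) :=
  isCompact_univ_pi fun _ => isCompact_Icc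

theorem far_of_not_mem {pc pw : Fin 3 → ℚ} {μ : ℚ} {x : Sp} (hx : x ∉ outerSet pc pw μ) :
    ∃ i, (pw i : ℝ) + μ ≤ |x i - pc i| := by
  unfold outerSet at hx
  rw [Set.mem_univ_pi] at hx
  push Not at hx
  obtain ⟨i, hi⟩ := hx
  refine ⟨i, ?_⟩
  rw [Set.mem_Icc, not_and_or] at hi
  rcases hi with hi | hi
  · rw [not_le] at hi
    rw [le_abs]
    right
    linarith
  · rw [not_le] at hi
    rw [le_abs]
    left
    linarith

include hab hac hbc hpw hμ in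
theorem hasCompactSupport_stepField : HasCompactSupport (stepField a b c pc pw μ z κ₀ κ₁) :=
  HasCompactSupport.intro (isCompact_outerSet pc pw μ) fun x hx =>
    stepField_far hab hac hbc pc pw hpw hμ z κ₀ κ₁ (far_of_not_mem hx)

include hab hac hbc in
theorem Tens_role (T A B C : Seq) (c₁ : Fin 4 → ℕ) (p : ℝ × Sp) :
    Tens T (role a b A B C) c₁ p = T (c₁ 0) p.1 *
      (A (c₁ a.succ) (p.2 a) * B (c₁ b.succ) (p.2 b) * C (c₁ c.succ) (p.2 c)) := by
  set f : Fin 3 → ℝ := fun i => role a b A B C i (c₁ i.succ) (p.2 i) with hf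
  have h1 : Tens T (role a b A B C) c₁ p = T (c₁ 0) p.1 * (f 0 * f 1 * f 2) := rfl
  rw [h1, prod_roles hab hac hbc f]
  have ha : f a = A (c₁ a.succ) (p.2 a) := by simp [hf, role]
  have hb : f b = B (c₁ b.succ) (p.2 b) := by simp [hf, role, hab.symm]
  have hc : f c = C (c₁ c.succ) (p.2 c) := by simp [hf, role, hac.symm, hbc.symm]
  rw [ha, hb, hc]

/-- `-G` as a sequence. -/
noncomputable def Gneg (pc pw : Fin 3 → ℚ) (μ z κ₀ κ₁ : ℚ) (a : Fin 3) : Seq :=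
  fun k s => ((-1 : ℚ) : ℝ) * G' pc pw μ z κ₀ κ₁ a k s

include hpw hμ in
theorem effSeq_role1 (b c : Fin 3) (i : Fin 3) :
    EffSeq (role a b (Gneg pc pw μ z κ₀ κ₁ a) (P pc pw μ b) (fun k => P pc pw μ c (k + 1)) i) := by
  unfold role
  split_ifs
  · exact (effSeq_G' pc pw hpw hμ z κ₀ κ₁).const_mul (-1)
  · exact effSeq_Plat _ _ _
  · exact (effSeq_Plat _ _ _).shift

include hpw hμ in
theorem effSeq_role2 (b c : Fin 3) (i : Fin 3) :
    EffSeq (role a b (fun k => G' pc pw μ z κ₀ κ₁ a (k + 1)) (P pc pw μ b) (P pc pw μ c) i) := by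
  unfold role
  split_ifs
  · exact (effSeq_G' pc pw hpw hμ z κ₀ κ₁).shift
  · exact effSeq_Plat _ _ _
  · exact effSeq_Plat _ _ _

include hab hac hbc in
theorem field_eq (s e : ℚ) :
    (fun p : ℝ × Sp => timeSeq s e 1 p.1 • stepField a b c pc pw μ z κ₀ κ₁ p.2) =
      fun p => TF (fun k => timeSeq s e (k + 1))
          (role a b (Gneg pc pw μ z κ₀ κ₁ a) (P pc pw μ b) (fun k => P pc pw μ c (k + 1)))
          (fun _ => 0) a p +
        TF (fun k => timeSeq s e (k + 1))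
          (role a b (fun k => G' pc pw μ z κ₀ κ₁ a (k + 1)) (P pc pw μ b) (P pc pw μ c))
          (fun _ => 0) c p := by
  funext p
  unfold TF stepField
  rw [Tens_role hab hac hbc, Tens_role hab hac hbc, smul_add]
  simp only [Gneg]
  congr 1
  · rw [← Pi.single_smul]
    congr 1
    simp only [smul_eq_mul, Rat.cast_neg, Rat.cast_one]
    ring
  · rw [← Pi.single_smul]
    congr 1

include hab hac hbc hpw hμ in
theorem admissible_stepField : Admissible (stepField a b c pc pw μ z κ₀ κ₁) := by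
  intro s e hse
  have hT : EffSeq fun k => timeSeq s e (k + 1) := (effSeq_timeSeq s e).shift
  have hR1 := effSeq_role1 (a := a) pc pw hpw hμ z κ₀ κ₁ b c
  have hR2 := effSeq_role2 (a := a) pc pw hpw hμ z κ₀ κ₁ b c
  have hs1 := contDiff_TF hT.chain (fun i => (hR1 i).chain) (fun _ => 0) a
  have hs2 := contDiff_TF hT.chain (fun i => (hR2 i).chain) (fun _ => 0) c
  have hV := contDiff_stepField (a := a) (b := b) (c := c) pc pw hpw hμ z κ₀ κ₁
  have hC := hasCompactSupport_stepField hab hac hbc pc pw hpw hμ z κ₀ κ₁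
  refine ⟨?_, ?_, ?_, ?_⟩
  · exact ((effSeq_timeSeq s e).chain.contDiff 1).comp contDiff_fst |>.smul (hV.comp contDiff_snd)
  · refine HasCompactSupport.intro
      ((isCompact_Icc (a := (s : ℝ)) (b := (e : ℝ))).prod (isCompact_outerSet pc pw μ)) ?_
    rintro p hp
    by_cases h1 : p.1 ∈ Set.Icc (s : ℝ) e
    · have h2 : p.2 ∉ outerSet pc pw μ := fun h => hp ⟨h1, h⟩
      simp [stepField_far hab hac hbc pc pw hpw hμ z κ₀ κ₁ (far_of_not_mem h2)]
    · have h3 : timeSeq s e 1 p.1 = 0 := by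
        by_cases h4 : p.1 ≤ s
        · exact timeSeq_before s e hse 1 h4
        · have h5 : (e : ℝ) ≤ p.1 := by
            by_contra h6
            exact h1 ⟨le_of_lt (not_le.1 h4), le_of_lt (not_le.1 h6)⟩
          exact timeSeq_after_succ s e hse 0 h5
      simp [h3]
  · rw [field_eq hab hac hbc]
    exact Effective.add hs1 hs2 (effective_TF hT hR1 a) (effective_TF hT hR2 c)
  · intro p
    rw [field_eq hab hac hbc, spaceDiv_add hs1 hs2, spaceDiv_TF hT.chain (fun i => (hR1 i).chain),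
      spaceDiv_TF hT.chain (fun i => (hR2 i).chain), Tens_role hab hac hbc, Tens_role hab hac hbc]
    have hab' : a.succ ≠ b.succ := fun h => hab (Fin.succ_inj.1 h)
    have hac' : a.succ ≠ c.succ := fun h => hac (Fin.succ_inj.1 h)
    have hbc' : b.succ ≠ c.succ := fun h => hbc (Fin.succ_inj.1 h)
    simp only [Fin.succ_ne_zero, if_false, if_true, hab', hac', hbc'.symm, hac'.symm, Gneg, add_zero,
      zero_add, Rat.cast_neg, Rat.cast_one]
    ring

include hab hac hbc hpw hμ in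
/-- The elementary step. -/
theorem step_motion :
    ∃ M N : Sp → Sp, Motion M N ∧
      (∀ x : Sp, (∀ i, |x i - pc i| ≤ pw i) →
        (∀ i, |(x + Pi.single c ((κ₀ : ℝ) + κ₁ * (x a - z)) : Sp) i - pc i| ≤ pw i) →
        M x = x + Pi.single c ((κ₀ : ℝ) + κ₁ * (x a - z))) ∧
      (∀ x : Sp, (∃ i, (pw i : ℝ) + μ ≤ |x i - pc i|) → M x = x) := by
  have hV := contDiff_stepField (a := a) (b := b) (c := c) pc pw hpw hμ z κ₀ κ₁
  have hC := hasCompactSupport_stepField hab hac hbc pc pw hpw hμ z κ₀ κ₁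
  obtain ⟨K, hK⟩ := ContDiff.lipschitzWith_of_hasCompactSupport (𝕂 := ℝ) hC hV (by simp)
  obtain ⟨C, hCb⟩ := hC.exists_bound_of_continuous hV.continuous
  obtain ⟨φ, hφ⟩ := exists_autoFlow (L := C.toNNReal) hK
    (fun x => (hCb x).trans (Real.le_coe_toNNReal C))
  refine ⟨φ 1, φ (-1), motion_of_auto hK (admissible_stepField hab hac hbc pc pw hpw hμ z κ₀ κ₁) hφ,
    fun x hx hx' => ?_, fun x hx => ?_⟩
  · set w : ℝ := (κ₀ : ℝ) + κ₁ * (x a - z) with hw
    have hγ0 : (fun τ : ℝ => x + τ • (Pi.single c w : Sp)) 0 = x := by simp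
    have hγ1 : (fun τ : ℝ => x + τ • (Pi.single c w : Sp)) 1 = x + Pi.single c w := by simp
    rw [← hγ1]
    refine AutoFlow.unique_right (x := x) (γ := fun τ : ℝ => x + τ • (Pi.single c w : Sp)) hK hφ
      hγ0 fun τ hτ => ?_
    have hd : HasDerivAt (fun τ : ℝ => x + τ • (Pi.single c w : Sp)) (Pi.single c w) τ := by
      simpa using ((hasDerivAt_id τ).smul_const (Pi.single c w : Sp)).const_add x
    refine hd.congr_deriv ?_
    have hmem : ∀ i, |(x + τ • (Pi.single c w : Sp)) i - pc i| ≤ pw i := by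
      intro i
      by_cases hi : i = c
      · subst hi
        have h1 := abs_le.1 (hx i)
        have h2 := abs_le.1 (hx' i)
        simp only [Pi.add_apply, Pi.single_eq_same, Pi.smul_apply, smul_eq_mul] at h2 ⊢
        rw [abs_le]
        have hτ0 := hτ.1
        have hτ1 := hτ.2
        constructor
        · nlinarith [mul_nonneg hτ0 (by linarith [h2.1] : (0 : ℝ) ≤ x i + w - pc i + pw i),
            mul_nonneg (by linarith : (0 : ℝ) ≤ 1 - τ) (by linarith [h1.1] : (0 : ℝ) ≤ x i - pc i + pw i)]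
        · nlinarith [mul_nonneg hτ0 (by linarith [h2.2] : (0 : ℝ) ≤ pc i + pw i - (x i + w)),
            mul_nonneg (by linarith : (0 : ℝ) ≤ 1 - τ) (by linarith [h1.2] : (0 : ℝ) ≤ pc i + pw i - x i)]
      · have : (x + τ • (Pi.single c w : Sp)) i = x i := by
          simp [Pi.single_apply, hi]
        rw [this]
        exact hx i
    rw [stepField_block pc pw hμ z κ₀ κ₁ hmem]
    have hxa : (x + τ • (Pi.single c w : Sp)) a = x a := by
      simp [Pi.single_apply, hac]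
    rw [hxa]
  · have h0 := stepField_far hab hac hbc pc pw hpw hμ z κ₀ κ₁ hx
    have := AutoFlow.unique_right (x := x) (γ := fun _ => x) hK hφ rfl fun τ _ => by
      rw [h0]
      exact hasDerivAt_const τ x
    exact this

end step

end Crest.Agent.Lib.BoxFlowStep
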