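import Crest.Agent.Lib.BoxFlowSeq
import Crest.Prelude.Def_BoxFlow

/-!
# Pure tensors of effective sequences are effective fields
-/

set_option autoImplicit false

namespace Crest.Agent.Lib.BoxFlowTensor

open Crest.AnalysisR.BoxFlow
open Crest.Agent.Lib.BoxFlowRat Crest.Agent.Lib.BoxFlowSeq
open scoped ContDiff

/-- The scalar part of a pure tensor. -/
def Tens (T : Seq) (R : Fin 3 → Seq) (c : Fin 4 → ℕ) (p : ℝ × (Fin 3 → ℝ)) : ℝ :=
  T (c 0) p.1 * (R 0 (c 1) (p.2 0) * R 1 (c 2) (p.2 1) * R 2 (c 3) (p.2 2))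

theorem direction_zero : direction 0 = ((1 : ℝ), (0 : Fin 3 → ℝ)) := rfl
theorem direction_one : direction 1 = ((0 : ℝ), (Pi.single 0 1 : Fin 3 → ℝ)) := rfl
theorem direction_two : direction 2 = ((0 : ℝ), (Pi.single 1 1 : Fin 3 → ℝ)) := rfl
theorem direction_three : direction 3 = ((0 : ℝ), (Pi.single 2 1 : Fin 3 → ℝ)) := rfl

theorem hasFDerivAt_Tens {T : Seq} {R : Fin 3 → Seq} (hT : Chain T) (hR : ∀ i, Chain (R i))
    (c : Fin 4 → ℕ) (p : ℝ × (Fin 3 → ℝ)) :
    ∃ L : (ℝ × (Fin 3 → ℝ)) →L[ℝ] ℝ, HasFDerivAt (Tens T R c) L p ∧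
      ∀ e : Fin 4, L (direction e) = Tens T R (fun d => c d + if e = d then 1 else 0) p := by
  have hp1 : HasFDerivAt (fun p : ℝ × (Fin 3 → ℝ) => p.1)
      (ContinuousLinearMap.fst ℝ ℝ (Fin 3 → ℝ)) p := hasFDerivAt_fst
  have hs : ∀ i : Fin 3, HasFDerivAt (fun p : ℝ × (Fin 3 → ℝ) => p.2 i)
      ((ContinuousLinearMap.proj i).comp (ContinuousLinearMap.snd ℝ ℝ (Fin 3 → ℝ))) p := fun i =>
    ((ContinuousLinearMap.proj (R := ℝ) (φ := fun _ : Fin 3 => ℝ) i).hasFDerivAt).comp p hasFDerivAt_snd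
  have f0 := (hT (c 0) p.1).comp_hasFDerivAt p hp1
  have f1 := (hR 0 (c 1) (p.2 0)).comp_hasFDerivAt p (hs 0)
  have f2 := (hR 1 (c 2) (p.2 1)).comp_hasFDerivAt p (hs 1)
  have f3 := (hR 2 (c 3) (p.2 2)).comp_hasFDerivAt p (hs 2)
  have hprod := f0.mul ((f1.mul f2).mul f3)
  refine ⟨_, hprod, ?_⟩
  intro e
  fin_cases e
  · simp [Tens, direction_zero, -mul_eq_mul_left_iff, -mul_eq_mul_right_iff]
    try ring
  · simp [Tens, direction_one, -mul_eq_mul_left_iff, -mul_eq_mul_right_iff]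
    try ring
  · simp [Tens, direction_two, -mul_eq_mul_left_iff, -mul_eq_mul_right_iff]
    try ring
  · simp [Tens, direction_three, -mul_eq_mul_left_iff, -mul_eq_mul_right_iff]
    try ring


/-- The pure tensor field. -/
def TF (T : Seq) (R : Fin 3 → Seq) (c : Fin 4 → ℕ) (j : Fin 3) : Field :=
  fun p => Pi.single j (Tens T R c p)

theorem hasFDerivAt_TF {T : Seq} {R : Fin 3 → Seq} (hT : Chain T) (hR : ∀ i, Chain (R i))
    (c : Fin 4 → ℕ) (j : Fin 3) (p : ℝ × (Fin 3 → ℝ)) :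
    ∃ L : (ℝ × (Fin 3 → ℝ)) →L[ℝ] (Fin 3 → ℝ), HasFDerivAt (TF T R c j) L p ∧
      ∀ e : Fin 4, L (direction e) =
        Pi.single j (Tens T R (fun d => c d + if e = d then 1 else 0) p) := by
  obtain ⟨L, hL, hLe⟩ := hasFDerivAt_Tens hT hR c p
  refine ⟨(ContinuousLinearMap.single ℝ (fun _ : Fin 3 => ℝ) j).comp L, ?_, fun e => ?_⟩
  · exact (ContinuousLinearMap.single ℝ (fun _ : Fin 3 => ℝ) j).hasFDerivAt.comp p hL
  · simp [hLe]

theorem mixedDeriv_TF {T : Seq} {R : Fin 3 → Seq} (hT : Chain T) (hR : ∀ i, Chain (R i))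
    (j : Fin 3) (ds : List (Fin 4)) (c : Fin 4 → ℕ) :
    mixedDeriv ds (TF T R c j) = TF T R (fun d => c d + ds.count d) j := by
  induction ds with
  | nil => simp [mixedDeriv]
  | cons e ds ih =>
    funext p
    show fderiv ℝ (mixedDeriv ds (TF T R c j)) p (direction e) = _
    rw [ih]
    obtain ⟨L, hL, hLe⟩ := hasFDerivAt_TF hT hR (fun d => c d + ds.count d) j p
    rw [hL.fderiv, hLe]
    show _ = Pi.single j _
    congr 2
    funext d
    rw [List.count_cons]
    by_cases h : e = d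
    · simp [h, add_assoc]
    · simp [h]

theorem contDiff_Tens {T : Seq} {R : Fin 3 → Seq} (hT : Chain T) (hR : ∀ i, Chain (R i))
    (c : Fin 4 → ℕ) : ContDiff ℝ ∞ (Tens T R c) := by
  have h0 : ContDiff ℝ ∞ fun p : ℝ × (Fin 3 → ℝ) => T (c 0) p.1 := (hT.contDiff _).comp contDiff_fst
  have hs : ∀ (i : Fin 3) (k : ℕ), ContDiff ℝ ∞ fun p : ℝ × (Fin 3 → ℝ) => R i k (p.2 i) := fun i k =>
    ((hR i).contDiff _).comp ((contDiff_apply ℝ ℝ i).comp contDiff_snd)
  exact h0.mul (((hs 0 _).mul (hs 1 _)).mul (hs 2 _))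

theorem contDiff_TF {T : Seq} {R : Fin 3 → Seq} (hT : Chain T) (hR : ∀ i, Chain (R i))
    (c : Fin 4 → ℕ) (j : Fin 3) : ContDiff ℝ ∞ (TF T R c j) :=
  (ContinuousLinearMap.single ℝ (fun _ : Fin 3 => ℝ) j).contDiff.comp (contDiff_Tens hT hR c)

/-! ### Computability into `Fin 3 → ℚ` -/

theorem computable_fin3 {α σ : Type} [Primcodable α] [Primcodable σ] {f : α → Fin 3 → σ}
    (h0 : Computable fun a => f a 0) (h1 : Computable fun a => f a 1)
    (h2 : Computable fun a => f a 2) : Computable f := by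
  have hnil : Computable fun _ : α => (List.Vector.nil : List.Vector σ 0) := Computable.const _
  have h3 : Computable fun a => (f a 2 ::ᵥ List.Vector.nil : List.Vector σ 1) :=
    Computable.vector_cons.comp h2 hnil
  have h4 : Computable fun a => (f a 1 ::ᵥ f a 2 ::ᵥ List.Vector.nil : List.Vector σ 2) :=
    Computable.vector_cons.comp h1 h3
  have h5 : Computable fun a => (f a 0 ::ᵥ f a 1 ::ᵥ f a 2 ::ᵥ List.Vector.nil : List.Vector σ 3) :=
    Computable.vector_cons.comp h0 h4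
  have h6 := (Primrec.vector_get' (α := σ) (n := 3)).to_comp.comp h5
  refine h6.of_eq fun a => ?_
  funext i
  fin_cases i <;> rfl

theorem computable_app {α σ : Type} [Primcodable α] [Primcodable σ] {f : α → Fin 3 → σ}
    (hf : Computable f) (i : Fin 3) : Computable fun a => f a i :=
  Computable.fin_app.comp hf (Computable.const i)

/-! ### Scalar effectivity -/

/-- The type of rational space-time points. -/
abbrev Pt := ℚ × (Fin 3 → ℚ)

/-- effectivity of scalar functions depending on a list of directions. -/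
def EffScalar (X : List (Fin 4) → ℝ × (Fin 3 → ℝ) → ℝ) : Prop :=
  ∃ (E : List (Fin 4) × Pt × ℕ → ℚ) (B : List (Fin 4) → ℕ), Computable E ∧ Computable B ∧
    (∀ (ds : List (Fin 4)) (t : ℚ) (q : Fin 3 → ℚ) (n : ℕ),
      |X ds ((t : ℝ), ratPoint q) - ((E (ds, (t, q), n) : ℚ) : ℝ)| ≤ 1 / ((n : ℝ) + 1)) ∧
    ∀ (ds : List (Fin 4)) (p : ℝ × (Fin 3 → ℝ)), |X ds p| ≤ (B ds : ℝ)

theorem foldl_count (e : Fin 4) (ds : List (Fin 4)) (a : ℕ) :
    ds.foldl (fun s b => s + if b = e then 1 else 0) a = a + ds.count e := by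
  induction ds generalizing a with
  | nil => simp
  | cons d ds ih =>
    rw [List.foldl_cons, ih, List.count_cons]
    by_cases h : d = e <;> simp [h] <;> ring

theorem primrec_count (e : Fin 4) : Primrec fun ds : List (Fin 4) => ds.count e := by
  have hb : Primrec fun b : Fin 4 => (if b = e then 1 else 0 : ℕ) := Primrec.dom_finite _
  have hh : Primrec₂ fun (_ : List (Fin 4)) (p : ℕ × Fin 4) => p.1 + if p.2 = e then 1 else 0 :=
    Primrec.nat_add.comp (Primrec.fst.comp Primrec.snd) (hb.comp (Primrec.snd.comp Primrec.snd))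
  have := Primrec.list_foldl (f := fun ds : List (Fin 4) => ds) (g := fun _ => 0)
    (h := fun (_ : List (Fin 4)) (p : ℕ × Fin 4) => p.1 + if p.2 = e then 1 else 0)
    Primrec.id (Primrec.const 0) hh
  refine this.of_eq fun ds => ?_
  have := foldl_count e ds 0
  simpa using this

theorem EffScalar.base {D : Seq} (hap : Approx D) (hbd : Bdd D) (e : Fin 4)
    {cq : Pt → ℚ} {cr : ℝ × (Fin 3 → ℝ) → ℝ} (hq : Computable cq)
    (hcr : ∀ (t : ℚ) (q : Fin 3 → ℚ), cr ((t : ℝ), ratPoint q) = cq (t, q)) :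
    EffScalar fun ds p => D (ds.count e) (cr p) := by
  obtain ⟨E, hE, hE'⟩ := hap
  obtain ⟨B, hB, hB'⟩ := hbd
  have hc : Computable fun ds : List (Fin 4) => ds.count e := (primrec_count e).to_comp
  have h1 : Computable fun a : List (Fin 4) × Pt × ℕ => (a.1.count e, cq a.2.1, a.2.2) :=
    Computable.pair (hc.comp Computable.fst) (Computable.pair
      (hq.comp (Computable.fst.comp Computable.snd)) (Computable.snd.comp Computable.snd))
  refine ⟨fun a => E (a.1.count e, cq a.2.1, a.2.2), fun ds => B (ds.count e), hE.comp h1,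
    hB.comp hc, fun ds t q n => ?_, fun ds p => hB' _ _⟩
  show |D (ds.count e) (cr ((t : ℝ), ratPoint q)) - ((E (ds.count e, cq (t, q), n) : ℚ) : ℝ)| ≤ _
  rw [hcr]
  exact hE' _ _ _

theorem EffScalar.mul {X Y : List (Fin 4) → ℝ × (Fin 3 → ℝ) → ℝ} (hX : EffScalar X)
    (hY : EffScalar Y) : EffScalar fun ds p => X ds p * Y ds p := by
  obtain ⟨E₁, B₁, hE₁, hB₁, ha₁, hb₁⟩ := hX
  obtain ⟨E₂, B₂, hE₂, hB₂, ha₂, hb₂⟩ := hY
  have hN : Computable fun a : List (Fin 4) × Pt × ℕ => (a.2.2 + 1) * (B₁ a.1 + B₂ a.1 + 1) :=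
    Primrec.nat_mul.to_comp.comp (Primrec.succ.to_comp.comp (Computable.snd.comp Computable.snd))
      (Primrec.succ.to_comp.comp (Primrec.nat_add.to_comp.comp (hB₁.comp Computable.fst)
        (hB₂.comp Computable.fst)))
  have h1 : Computable fun a : List (Fin 4) × Pt × ℕ =>
      (a.1, a.2.1, (a.2.2 + 1) * (B₁ a.1 + B₂ a.1 + 1)) :=
    Computable.pair Computable.fst (Computable.pair (Computable.fst.comp Computable.snd) hN)
  refine ⟨fun a => E₁ (a.1, a.2.1, (a.2.2 + 1) * (B₁ a.1 + B₂ a.1 + 1)) *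
      E₂ (a.1, a.2.1, (a.2.2 + 1) * (B₁ a.1 + B₂ a.1 + 1)),
    fun ds => B₁ ds * B₂ ds, computable_mul.comp (hE₁.comp h1) (hE₂.comp h1),
    Primrec.nat_mul.to_comp.comp hB₁ hB₂, fun ds t q n => ?_, fun ds p => ?_⟩
  · simp only
    set N := (n + 1) * (B₁ ds + B₂ ds + 1) with hNdef
    have a1 := ha₁ ds t q N
    have a2 := ha₂ ds t q N
    have b1 := hb₁ ds ((t : ℝ), ratPoint q)
    have b2 := hb₂ ds ((t : ℝ), ratPoint q)
    set x := X ds ((t : ℝ), ratPoint q)
    set y := Y ds ((t : ℝ), ratPoint q)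
    set x' := ((E₁ (ds, (t, q), N) : ℚ) : ℝ)
    set y' := ((E₂ (ds, (t, q), N) : ℚ) : ℝ)
    have hNpos : (0 : ℝ) < (N : ℝ) + 1 := by positivity
    have hN1 : 1 / ((N : ℝ) + 1) ≤ 1 := by
      rw [div_le_one hNpos]
      have : (0 : ℝ) ≤ (N : ℝ) := by positivity
      linarith
    have hx' : |x'| ≤ (B₁ ds : ℝ) + 1 := by
      have h3 : |x'| ≤ |x| + |x - x'| := by
        have : x' = x - (x - x') := by ring
        conv_lhs => rw [this]
        exact abs_sub _ _
      linarith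
    have e : x * y - (((E₁ (ds, (t, q), N) * E₂ (ds, (t, q), N) : ℚ)) : ℝ) =
        (x - x') * y + x' * (y - y') := by
      push_cast
      ring
    rw [e]
    have hB1nn : (0 : ℝ) ≤ (B₁ ds : ℝ) := by positivity
    have hB2nn : (0 : ℝ) ≤ (B₂ ds : ℝ) := by positivity
    have h5 : |(x - x') * y| ≤ (1 / ((N : ℝ) + 1)) * (B₂ ds : ℝ) := by
      rw [abs_mul]
      exact mul_le_mul a1 b2 (abs_nonneg _) (by positivity)
    have h6 : |x' * (y - y')| ≤ ((B₁ ds : ℝ) + 1) * (1 / ((N : ℝ) + 1)) := by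
      rw [abs_mul]
      exact mul_le_mul hx' a2 (abs_nonneg _) (by positivity)
    have h7 := abs_add_le ((x - x') * y) (x' * (y - y'))
    have h8 : (1 / ((N : ℝ) + 1)) * (B₂ ds : ℝ) + ((B₁ ds : ℝ) + 1) * (1 / ((N : ℝ) + 1)) ≤
        1 / ((n : ℝ) + 1) := by
      have hnpos : (0 : ℝ) < (n : ℝ) + 1 := by positivity
      rw [show (1 / ((N : ℝ) + 1)) * (B₂ ds : ℝ) + ((B₁ ds : ℝ) + 1) * (1 / ((N : ℝ) + 1)) =
        ((B₁ ds : ℝ) + (B₂ ds : ℝ) + 1) / ((N : ℝ) + 1) by ring]
      rw [div_le_div_iff₀ hNpos hnpos, hNdef]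
      push_cast
      nlinarith
    linarith
  · push_cast
    rw [abs_mul]
    exact mul_le_mul (hb₁ ds p) (hb₂ ds p) (abs_nonneg _) (by positivity)

/-- effectivity of all derivatives of a tensor. -/
theorem effScalar_Tens {T : Seq} {R : Fin 3 → Seq} (hT : EffSeq T) (hR : ∀ i, EffSeq (R i)) :
    EffScalar fun ds p => Tens T R (fun d => 0 + ds.count d) p := by
  have h0 : EffScalar fun ds p => T (ds.count 0) (p : ℝ × (Fin 3 → ℝ)).1 :=
    EffScalar.base hT.approx hT.bdd 0 (cq := fun a => a.1) (cr := fun p => p.1) Computable.fst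
      (fun _ _ => rfl)
  have hs : ∀ (i : Fin 3) (e : Fin 4), EffScalar fun ds p =>
      R i (ds.count e) ((p : ℝ × (Fin 3 → ℝ)).2 i) := fun i e =>
    EffScalar.base (hR i).approx (hR i).bdd e (cq := fun a => a.2 i) (cr := fun p => p.2 i)
      (computable_app Computable.snd i) (fun _ _ => rfl)
  have := h0.mul (((hs 0 1).mul (hs 1 2)).mul (hs 2 3))
  obtain ⟨E, B, hE, hB, ha, hb⟩ := this
  refine ⟨E, B, hE, hB, fun ds t q n => ?_, fun ds p => ?_⟩
  · have := ha ds t q n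
    simpa [Tens] using this
  · have := hb ds p
    simpa [Tens] using this

theorem effective_TF {T : Seq} {R : Fin 3 → Seq} (hT : EffSeq T) (hR : ∀ i, EffSeq (R i))
    (j : Fin 3) : Effective (TF T R (fun _ => 0) j) := by
  obtain ⟨E, B, hE, hB, ha, hb⟩ := effScalar_Tens hT hR
  have hDer : ∀ ds, mixedDeriv ds (TF T R (fun _ => 0) j) = TF T R (fun d => 0 + ds.count d) j :=
    fun ds => mixedDeriv_TF hT.chain (fun i => (hR i).chain) j ds _
  refine ⟨fun a i => if i = j then E a else 0, B, ?_, hB, fun ds t q n i => ?_, fun ds p i => ?_⟩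
  · refine computable_fin3 ?_ ?_ ?_
    · by_cases h : (0 : Fin 3) = j
      · simpa [h] using hE
      · simpa [h] using Computable.const (0 : ℚ)
    · by_cases h : (1 : Fin 3) = j
      · simpa [h] using hE
      · simpa [h] using Computable.const (0 : ℚ)
    · by_cases h : (2 : Fin 3) = j
      · simpa [h] using hE
      · simpa [h] using Computable.const (0 : ℚ)
  · rw [hDer]
    by_cases h : i = j
    · subst h
      simpa [TF] using ha ds t q n
    · have hp : (0 : ℝ) ≤ 1 / ((n : ℝ) + 1) := by positivity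
      simpa [TF, h, Pi.single_apply] using hp
  · rw [hDer]
    by_cases h : i = j
    · subst h
      simpa [TF] using hb ds p
    · have hp : (0 : ℝ) ≤ (B ds : ℝ) := by positivity
      simpa [TF, h, Pi.single_apply] using hp

/-! ### Closure of `Effective` -/

theorem contDiff_mixedDeriv {U : Field} (hU : ContDiff ℝ ∞ U) (ds : List (Fin 4)) :
    ContDiff ℝ ∞ (mixedDeriv ds U) := by
  induction ds with
  | nil => exact hU
  | cons d ds ih =>
    have h1 : ContDiff ℝ ∞ (fderiv ℝ (mixedDeriv ds U)) := ih.fderiv_right (m := ∞) (by simp)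
    exact h1.clm_apply contDiff_const

theorem mixedDeriv_add {U V : Field} (hU : ContDiff ℝ ∞ U) (hV : ContDiff ℝ ∞ V)
    (ds : List (Fin 4)) :
    mixedDeriv ds (fun p => U p + V p) = fun p => mixedDeriv ds U p + mixedDeriv ds V p := by
  induction ds with
  | nil => rfl
  | cons d ds ih =>
    funext p
    show fderiv ℝ (mixedDeriv ds (fun p => U p + V p)) p (direction d) =
      fderiv ℝ (mixedDeriv ds U) p (direction d) + fderiv ℝ (mixedDeriv ds V) p (direction d)
    rw [ih]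
    have h1 := ((contDiff_mixedDeriv hU ds).differentiable (by simp)) p
    have h2 := ((contDiff_mixedDeriv hV ds).differentiable (by simp)) p
    rw [fderiv_fun_add h1 h2]
    rfl

theorem mixedDeriv_neg (U : Field) (ds : List (Fin 4)) :
    mixedDeriv ds (fun p => -U p) = fun p => -mixedDeriv ds U p := by
  induction ds with
  | nil => rfl
  | cons d ds ih =>
    funext p
    show fderiv ℝ (mixedDeriv ds (fun p => -U p)) p (direction d) =
      -fderiv ℝ (mixedDeriv ds U) p (direction d)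
    rw [ih, fderiv_fun_neg]
    rfl

theorem Effective.add {U V : Field} (hU : ContDiff ℝ ∞ U) (hV : ContDiff ℝ ∞ V)
    (hU' : Effective U) (hV' : Effective V) : Effective fun p => U p + V p := by
  obtain ⟨E₁, B₁, hE₁, hB₁, ha₁, hb₁⟩ := hU'
  obtain ⟨E₂, B₂, hE₂, hB₂, ha₂, hb₂⟩ := hV'
  have hn : Computable fun a : List (Fin 4) × Pt × ℕ => 2 * a.2.2 + 1 :=
    Primrec.to_comp (Primrec.succ.comp (Primrec.nat_mul.comp (Primrec.const 2)
      (Primrec.snd.comp Primrec.snd)))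
  have h1 : Computable fun a : List (Fin 4) × Pt × ℕ => (a.1, a.2.1, 2 * a.2.2 + 1) :=
    Computable.pair Computable.fst (Computable.pair (Computable.fst.comp Computable.snd) hn)
  have h2 : ∀ i : Fin 3, Computable fun a : List (Fin 4) × Pt × ℕ =>
      E₁ (a.1, a.2.1, 2 * a.2.2 + 1) i + E₂ (a.1, a.2.1, 2 * a.2.2 + 1) i := fun i =>
    computable_add.comp (computable_app (hE₁.comp h1) i) (computable_app (hE₂.comp h1) i)
  refine ⟨fun a i => E₁ (a.1, a.2.1, 2 * a.2.2 + 1) i + E₂ (a.1, a.2.1, 2 * a.2.2 + 1) i,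
    fun ds => B₁ ds + B₂ ds, computable_fin3 (h2 0) (h2 1) (h2 2),
    Primrec.nat_add.to_comp.comp hB₁ hB₂, fun ds t q n j => ?_, fun ds p j => ?_⟩
  · rw [mixedDeriv_add hU hV]
    have a1 := ha₁ ds t q (2 * n + 1) j
    have a2 := ha₂ ds t q (2 * n + 1) j
    have e : (mixedDeriv ds U ((t : ℝ), ratPoint q) + mixedDeriv ds V ((t : ℝ), ratPoint q)) j -
        ((E₁ (ds, (t, q), 2 * n + 1) j + E₂ (ds, (t, q), 2 * n + 1) j : ℚ) : ℝ) =
        (mixedDeriv ds U ((t : ℝ), ratPoint q) j - (E₁ (ds, (t, q), 2 * n + 1) j : ℝ)) +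
        (mixedDeriv ds V ((t : ℝ), ratPoint q) j - (E₂ (ds, (t, q), 2 * n + 1) j : ℝ)) := by
      simp only [Pi.add_apply]
      push_cast
      ring
    show |(mixedDeriv ds U ((t : ℝ), ratPoint q) + mixedDeriv ds V ((t : ℝ), ratPoint q)) j -
        ((E₁ (ds, (t, q), 2 * n + 1) j + E₂ (ds, (t, q), 2 * n + 1) j : ℚ) : ℝ)| ≤ _
    rw [e]
    exact (abs_add_le _ _).trans (half_add_half_le n a1 a2)
  · rw [mixedDeriv_add hU hV]
    simp only [Pi.add_apply]
    push_cast
    exact (abs_add_le _ _).trans (add_le_add (hb₁ ds p j) (hb₂ ds p j))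

theorem Effective.neg {U : Field} (hU' : Effective U) : Effective fun p => -U p := by
  obtain ⟨E, B, hE, hB, ha, hb⟩ := hU'
  have h2 : ∀ i : Fin 3, Computable fun a : List (Fin 4) × Pt × ℕ => -E a i := fun i =>
    computable_neg.comp (computable_app hE i)
  refine ⟨fun a i => -E a i, B, computable_fin3 (h2 0) (h2 1) (h2 2), hB, fun ds t q n j => ?_,
    fun ds p j => ?_⟩
  · rw [mixedDeriv_neg]
    have := ha ds t q n j
    rw [← abs_neg] at this
    convert this using 2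
    simp only [Pi.neg_apply]
    push_cast
    ring
  · rw [mixedDeriv_neg]
    simpa using hb ds p j

/-! ### Divergence -/

theorem spaceDiv_TF {T : Seq} {R : Fin 3 → Seq} (hT : Chain T) (hR : ∀ i, Chain (R i))
    (c : Fin 4 → ℕ) (j : Fin 3) (p : ℝ × (Fin 3 → ℝ)) :
    spaceDiv (TF T R c j) p = Tens T R (fun d => c d + if j.succ = d then 1 else 0) p := by
  obtain ⟨L, hL, hLe⟩ := hasFDerivAt_TF hT hR c j p
  unfold spaceDiv
  rw [hL.fderiv]
  have hdir : ∀ i : Fin 3, ((0 : ℝ), (Pi.single i 1 : Fin 3 → ℝ)) = direction i.succ := by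
    intro i
    fin_cases i <;> rfl
  rw [Finset.sum_eq_single j]
  · rw [hdir, hLe]
    simp
  · intro b _ hb
    rw [hdir, hLe]
    simp [Pi.single_apply, hb]
  · simp

theorem spaceDiv_add {U V : Field} (hU : ContDiff ℝ ∞ U) (hV : ContDiff ℝ ∞ V)
    (p : ℝ × (Fin 3 → ℝ)) : spaceDiv (fun p => U p + V p) p = spaceDiv U p + spaceDiv V p := by
  unfold spaceDiv
  have h1 := (hU.differentiable (by simp)) p
  have h2 := (hV.differentiable (by simp)) p
  rw [fderiv_fun_add h1 h2, ← Finset.sum_add_distrib]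
  rfl

theorem spaceDiv_neg (U : Field) (p : ℝ × (Fin 3 → ℝ)) :
    spaceDiv (fun p => -U p) p = -spaceDiv U p := by
  unfold spaceDiv
  rw [fderiv_fun_neg, ← Finset.sum_neg_distrib]
  rfl

end Crest.Agent.Lib.BoxFlowTensor
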