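import Mathlib

/-!
# Quotient of a C⋆-algebra by a closed two-sided ⋆-ideal (row 137, Module D)

For a (unital) `CStarAlgebra A` and `J : Ideal A` with `[IsCStarIdeal J]` (two-sided, closed, star
stable) the quotient `A ⧸ J` carries a `CStarAlgebra` structure for the quotient norm. The proof of
the C⋆-identity avoids approximate units: for `j ∈ J` and `ε > 0` the element
`u = s² (p² + s²)⁻¹`, `p = j j⋆`, satisfies `1 - u ∈ J`, `‖u‖ ≤ 1`, `‖u j‖ ≤ ε`.

Also: the closed two-sided ideal generated by a self-adjoint element (`genIdeal p`), with an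
approximation lemma by finite sums `∑ aᵢ p bᵢ`.
-/

set_option autoImplicit false
set_option linter.unusedVariables false

namespace Crest.Agent.Lib.CStarQuot

open Filter Topology

variable {A : Type*} [CStarAlgebra A]

/-- A closed two-sided star ideal. -/
class IsCStarIdeal (J : Ideal A) : Prop where
  twoSided : J.IsTwoSided
  isClosed : IsClosed (J : Set A)
  star_mem : ∀ x ∈ J, star x ∈ J

attribute [instance] IsCStarIdeal.twoSided
attribute [instance] IsCStarIdeal.isClosed

/-- Key lemma: a self-adjoint "approximate unit complement" for one element of the ideal. -/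
theorem exists_approx_unit_compl (J : Ideal A) [J.IsTwoSided] {j : A} (hj : j ∈ J) {ε : ℝ}
    (hε : 0 < ε) :
    ∃ u : A, IsSelfAdjoint u ∧ 1 - u ∈ J ∧ ‖u‖ ≤ 1 ∧ ‖u * j‖ ≤ ε := by
  set p : A := j * star j with hp
  have hpsa : IsSelfAdjoint p := IsSelfAdjoint.mul_star_self j
  have hpJ : p ∈ J := Ideal.mul_mem_right _ _ hj
  set s : ℝ := 2 * ε ^ 2 with hs
  have hs0 : 0 < s := by positivity
  let g : ℝ → ℝ := fun t => 1 / (t ^ 2 + s ^ 2)
  let f : ℝ → ℝ := fun t => s ^ 2 * g t
  have hden : ∀ t : ℝ, 0 < t ^ 2 + s ^ 2 := fun t => by positivity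
  have hg : Continuous g := by
    refine Continuous.div continuous_const (by fun_prop) fun t => (hden t).ne'
  have hf : Continuous f := continuous_const.mul hg
  set u : A := cfc f p with hu
  refine ⟨u, cfc_predicate f p, ?_, ?_, ?_⟩
  · -- `1 - u = p * (p * g(p))`
    have h1 : 1 - u = p * (p * cfc g p) := by
      have hid : cfc (fun t : ℝ => t) p = p := cfc_id' ℝ p
      have h2 : p * (p * cfc g p) = cfc (fun t => t * (t * g t)) p := by
        rw [cfc_mul (fun t : ℝ => t) (fun t => t * g t) p (by fun_prop) (by fun_prop), hid,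
          cfc_mul (fun t : ℝ => t) g p (by fun_prop) hg.continuousOn, hid]
      have h3 : (1 : A) = cfc (fun _ : ℝ => (1 : ℝ)) p := by
        rw [cfc_const_one ℝ p]
      rw [h2, hu, h3, ← cfc_sub _ _ p (by fun_prop) hf.continuousOn]
      congr 1
      funext t
      have := (hden t).ne'
      simp only [f, g]
      field_simp
      ring
    rw [h1]
    exact Ideal.mul_mem_right _ _ hpJ
  · refine norm_cfc_le zero_le_one fun t _ => ?_
    simp only [f, g]
    rw [Real.norm_eq_abs, abs_of_nonneg (by positivity), mul_one_div, div_le_one (hden t)]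
    nlinarith [sq_nonneg t]
  · -- `‖u j‖² = ‖u p u‖ ≤ s / 2 = ε²`
    have hsa : star u = u := (cfc_predicate f p : IsSelfAdjoint u).star_eq
    have h1 : (u * j) * star (u * j) = u * p * u := by
      rw [star_mul, hsa, hp]; noncomm_ring
    have h2 : u * p * u = cfc (fun t => f t * t * f t) p := by
      rw [cfc_mul (fun t => f t * t) f p (by fun_prop) hf.continuousOn,
        cfc_mul f (fun t : ℝ => t) p hf.continuousOn (by fun_prop), cfc_id' ℝ p]
    have h3 : ‖u * p * u‖ ≤ s / 2 := by
      rw [h2]
      refine norm_cfc_le (by positivity) fun t _ => ?_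
      have hA : |t| * s * 2 ≤ t ^ 2 + s ^ 2 := by
        have := sq_nonneg (|t| - s)
        have h4 : |t| ^ 2 = t ^ 2 := sq_abs t
        nlinarith
      have hft : 0 ≤ f t := by simp only [f, g]; positivity
      have hf1 : f t ≤ 1 := by
        simp only [f, g]
        rw [mul_one_div, div_le_one (hden t)]
        nlinarith [sq_nonneg t]
      have hf2 : f t * |t| ≤ s / 2 := by
        simp only [f, g]
        rw [mul_one_div, div_mul_eq_mul_div, div_le_iff₀ (hden t)]
        have : s ^ 2 * |t| = (s / 2) * (|t| * s * 2) := by ring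
        rw [this]
        exact mul_le_mul_of_nonneg_left hA (by positivity)
      rw [Real.norm_eq_abs, abs_mul, abs_mul, abs_of_nonneg hft]
      calc f t * |t| * f t ≤ (s / 2) * 1 :=
            mul_le_mul hf2 hf1 hft (by positivity)
        _ = s / 2 := mul_one _
    have h5 : ‖u * j‖ * ‖u * j‖ ≤ ε * ε := by
      rw [← CStarRing.norm_self_mul_star, h1]
      calc ‖u * p * u‖ ≤ s / 2 := h3
        _ = ε * ε := by rw [hs]; ring
    exact abs_le_of_sq_le_sq' (by nlinarith) hε.le |>.2

variable (J : Ideal A) [IsCStarIdeal J]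

/-- The projection `A → A ⧸ J`. -/
abbrev qmk : A →+* A ⧸ J := Ideal.Quotient.mk J

lemma norm_qmk_le (a : A) : ‖qmk J a‖ ≤ ‖a‖ := Submodule.Quotient.norm_mk_le J a

lemma exists_lift_norm_lt (x : A ⧸ J) {ε : ℝ} (hε : 0 < ε) :
    ∃ a : A, qmk J a = x ∧ ‖a‖ < ‖x‖ + ε :=
  Submodule.Quotient.norm_mk_lt x hε

noncomputable instance instNormedRingQuot : NormedRing (A ⧸ J) :=
  { Ideal.Quotient.ring J, Submodule.Quotient.normedAddCommGroup J with
    dist_eq := dist_eq_norm_neg_add
    norm_mul_le := fun x y => le_of_forall_pos_le_add fun ε hε => by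
      have := ((Metric.nhds_basis_ball.prod_nhds Metric.nhds_basis_ball).tendsto_iff Metric.nhds_basis_ball).mp
        (continuous_mul.tendsto (‖x‖, ‖y‖)) ε hε
      simp only [Set.mem_prod, Metric.mem_ball, and_imp, Prod.forall, Prod.exists] at this
      rcases this with ⟨ε₁, ε₂, ⟨h₁, h₂⟩, h⟩
      obtain ⟨a, rfl, ha⟩ := exists_lift_norm_lt J x h₁
      obtain ⟨b, rfl, hb⟩ := exists_lift_norm_lt J y h₂
      simp only [Real.dist_eq, abs_sub_lt_iff] at h
      specialize h ‖a‖ ‖b‖ ⟨by linarith, by linarith [norm_qmk_le J a]⟩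
        ⟨by linarith, by linarith [norm_qmk_le J b]⟩
      calc ‖qmk J a * qmk J b‖ = ‖qmk J (a * b)‖ := by rw [map_mul]
        _ ≤ ‖a * b‖ := norm_qmk_le J _
        _ ≤ ‖a‖ * ‖b‖ := norm_mul_le a b
        _ ≤ _ := (sub_lt_iff_lt_add'.mp h.1).le }

/-- Star on the quotient. -/
noncomputable instance instStarQuot : Star (A ⧸ J) where
  star x := Quotient.liftOn' x (fun a => qmk J (star a)) (fun a b h => by
    have h1 : a - b ∈ J := by
      rw [Submodule.quotientRel_def] at h; exact h
    refine Ideal.Quotient.eq.2 ?_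
    have := IsCStarIdeal.star_mem (J := J) _ h1
    rwa [star_sub] at this)

@[simp] lemma star_qmk (a : A) : star (qmk J a) = qmk J (star a) := rfl

noncomputable instance instStarRingQuot : StarRing (A ⧸ J) where
  star_involutive x := by
    obtain ⟨a, rfl⟩ := Ideal.Quotient.mk_surjective x
    change star (qmk J (star a)) = qmk J a
    rw [star_qmk, star_star]
  star_mul x y := by
    obtain ⟨a, rfl⟩ := Ideal.Quotient.mk_surjective x
    obtain ⟨b, rfl⟩ := Ideal.Quotient.mk_surjective y
    change star (qmk J a * qmk J b) = star (qmk J b) * star (qmk J a)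
    rw [← map_mul, star_qmk, star_qmk, star_qmk, star_mul, map_mul]
  star_add x y := by
    obtain ⟨a, rfl⟩ := Ideal.Quotient.mk_surjective x
    obtain ⟨b, rfl⟩ := Ideal.Quotient.mk_surjective y
    change star (qmk J a + qmk J b) = star (qmk J a) + star (qmk J b)
    rw [← map_add, star_qmk, star_qmk, star_qmk, star_add, map_add]

lemma norm_star_le (x : A ⧸ J) : ‖star x‖ ≤ ‖x‖ := by
  refine le_of_forall_pos_le_add fun ε hε => ?_
  obtain ⟨a, rfl, ha⟩ := exists_lift_norm_lt J x hε
  calc ‖star (qmk J a)‖ = ‖qmk J (star a)‖ := rfl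
    _ ≤ ‖star a‖ := norm_qmk_le J _
    _ = ‖a‖ := norm_star a
    _ ≤ _ := ha.le

instance instCStarRingQuot : CStarRing (A ⧸ J) where
  norm_mul_self_le x := by
    obtain ⟨a, rfl⟩ := Ideal.Quotient.mk_surjective x
    change ‖qmk J a‖ * ‖qmk J a‖ ≤ ‖star (qmk J a) * qmk J a‖
    refine le_of_forall_pos_le_add fun ε hε => ?_
    set y := star (qmk J a) * qmk J a with hy
    have hε2 : 0 < ε / 2 := by positivity
    obtain ⟨m, hm, hmn⟩ := exists_lift_norm_lt J y hε2
    set j : A := m - star a * a with hj
    have hjJ : j ∈ J := by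
      refine Ideal.Quotient.eq.1 ?_
      rw [hm, hy, star_qmk, map_mul]
    obtain ⟨u, husa, huJ, hu1, huj⟩ := exists_approx_unit_compl J hjJ hε2
    have hnu : qmk J (a * u) = qmk J a := by
      have : a - a * u ∈ J := by
        have h : a - a * u = a * (1 - u) := by noncomm_ring
        rw [h]; exact Ideal.mul_mem_left _ _ huJ
      exact (Ideal.Quotient.eq.2 this).symm
    have hle : ‖qmk J a‖ ≤ ‖a * u‖ := by rw [← hnu]; exact norm_qmk_le J _
    have h0 : 0 ≤ ‖qmk J a‖ := norm_nonneg _
    have hstar : star (a * u) * (a * u) = u * m * u - u * j * u := by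
      rw [star_mul, husa.star_eq]
      have : m = star a * a + j := by rw [hj]; abel
      rw [this]; noncomm_ring
    have hsq : ‖a * u‖ * ‖a * u‖ ≤ ‖m‖ + ε / 2 := by
      rw [← CStarRing.norm_star_mul_self, hstar]
      calc ‖u * m * u - u * j * u‖ ≤ ‖u * m * u‖ + ‖u * j * u‖ := norm_sub_le _ _
        _ ≤ ‖m‖ + ε / 2 := by
            refine add_le_add ?_ ?_
            · calc ‖u * m * u‖ ≤ ‖u‖ * ‖m‖ * ‖u‖ := norm_mul₃_le
                _ ≤ 1 * ‖m‖ * 1 := by gcongr
                _ = ‖m‖ := by ring
            · calc ‖u * j * u‖ ≤ ‖u * j‖ * ‖u‖ := norm_mul_le _ _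
                _ ≤ ε / 2 * 1 := by gcongr
                _ = ε / 2 := by ring
    calc ‖qmk J a‖ * ‖qmk J a‖ ≤ ‖a * u‖ * ‖a * u‖ := by gcongr
      _ ≤ ‖m‖ + ε / 2 := hsq
      _ ≤ ‖y‖ + ε := by linarith

noncomputable instance instNormedAlgebraQuot : NormedAlgebra ℂ (A ⧸ J) :=
  { Submodule.Quotient.normedSpace J ℂ, Ideal.Quotient.algebra ℂ with }

instance instStarModuleQuot : StarModule ℂ (A ⧸ J) where
  star_smul c x := by
    obtain ⟨a, rfl⟩ := Ideal.Quotient.mk_surjective x
    change star (c • qmk J a) = star c • star (qmk J a)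
    have h1 : c • qmk J a = qmk J (c • a) := rfl
    have h2 : star c • qmk J (star a) = qmk J (star c • star a) := rfl
    rw [h1, star_qmk, star_qmk, h2, star_smul]

noncomputable instance instCStarAlgebraQuot : CStarAlgebra (A ⧸ J) where
  toNormedRing := instNormedRingQuot J
  toStarRing := instStarRingQuot J
  toCompleteSpace := Submodule.Quotient.completeSpace J
  toCStarRing := instCStarRingQuot J
  toNormedAlgebra := instNormedAlgebraQuot J
  toStarModule := instStarModuleQuot J

/-- The quotient map as a star algebra homomorphism. -/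
noncomputable def qStarHom : A →⋆ₐ[ℂ] A ⧸ J where
  toRingHom := qmk J
  commutes' c := rfl
  map_star' a := rfl

@[simp] lemma qStarHom_apply (a : A) : qStarHom J a = qmk J a := rfl

lemma qStarHom_surjective : Function.Surjective (qStarHom J) := Ideal.Quotient.mk_surjective

lemma qmk_eq_zero_iff (a : A) : qmk J a = 0 ↔ a ∈ J := Ideal.Quotient.eq_zero_iff_mem

section gen

/-- The algebraic two-sided ideal generated by `p`, as a left submodule. -/
def alg (p : A) : Submodule A A := Submodule.span A {x | ∃ a b : A, x = a * p * b}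

lemma alg_mul_right (p : A) {x : A} (hx : x ∈ alg p) (c : A) : x * c ∈ alg p := by
  induction hx using Submodule.span_induction with
  | mem x h =>
    obtain ⟨a, b, rfl⟩ := h
    exact Submodule.subset_span ⟨a, b * c, by noncomm_ring⟩
  | zero => simp
  | add x y _ _ hx hy => rw [add_mul]; exact Submodule.add_mem _ hx hy
  | smul r x _ hx => rw [smul_eq_mul, mul_assoc]; exact Submodule.smul_mem _ r hx

lemma alg_star (p : A) (hp : IsSelfAdjoint p) {x : A} (hx : x ∈ alg p) : star x ∈ alg p := by
  induction hx using Submodule.span_induction with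
  | mem x h =>
    obtain ⟨a, b, rfl⟩ := h
    refine Submodule.subset_span ⟨star b, star a, ?_⟩
    simp [star_mul, hp.star_eq, mul_assoc]
  | zero => simp
  | add x y _ _ hx hy => rw [star_add]; exact Submodule.add_mem _ hx hy
  | smul r x _ hx => rw [smul_eq_mul, star_mul]; exact alg_mul_right p hx _

lemma alg_approx (p : A) {x : A} (hx : x ∈ alg p) :
    ∃ (n : ℕ) (a b : Fin n → A), x = ∑ i, a i * p * b i := by
  induction hx using Submodule.span_induction with
  | mem x h =>
    obtain ⟨a, b, rfl⟩ := h
    exact ⟨1, fun _ => a, fun _ => b, by simp⟩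
  | zero => exact ⟨0, Fin.elim0, Fin.elim0, by simp⟩
  | add x y _ _ hx hy =>
    obtain ⟨n, a, b, rfl⟩ := hx
    obtain ⟨m, c, d, rfl⟩ := hy
    refine ⟨n + m, Fin.append a c, Fin.append b d, ?_⟩
    simp [Fin.sum_univ_add, Fin.append_left, Fin.append_right]
  | smul r x _ hx =>
    obtain ⟨n, a, b, rfl⟩ := hx
    refine ⟨n, fun i => r * a i, b, ?_⟩
    simp [Finset.mul_sum, mul_assoc]

/-- The closed two-sided ideal generated by `p`. -/
def genIdeal (p : A) : Ideal A := (alg p).topologicalClosure

lemma mem_genIdeal_self (p : A) : p ∈ genIdeal p :=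
  subset_closure (Submodule.subset_span ⟨1, 1, by simp⟩)

lemma alg_le_genIdeal (p : A) : alg p ≤ genIdeal p := Submodule.le_topologicalClosure _

/-- Elements of the closed ideal are norm limits of finite sums `∑ aᵢ p bᵢ`. -/
lemma genIdeal_approx {p x : A} (hx : x ∈ genIdeal p) {ε : ℝ} (hε : 0 < ε) :
    ∃ (n : ℕ) (a b : Fin n → A), ‖x - ∑ i, a i * p * b i‖ < ε := by
  obtain ⟨y, hy, hxy⟩ := Metric.mem_closure_iff.1 hx ε hε
  obtain ⟨n, a, b, rfl⟩ := alg_approx p hy
  exact ⟨n, a, b, by rwa [← dist_eq_norm]⟩

instance isCStarIdeal_genIdeal (p : A) [hp : Fact (IsSelfAdjoint p)] :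
    IsCStarIdeal (genIdeal p) where
  twoSided := ⟨by
    intro x c hx
    have hcont : Continuous fun y : A => y * c := continuous_mul_const c
    exact map_mem_closure (f := fun y : A => y * c) (t := (alg p : Set A)) hcont hx
      (fun y hy => alg_mul_right p hy c)⟩
  isClosed := Submodule.isClosed_topologicalClosure _
  star_mem x hx := map_mem_closure continuous_star hx (fun y hy => alg_star p hp.out hy)

end gen

section separable

/-- The closed unital star subalgebra generated by a set. -/
noncomputable def closedAdjoin {Q : Type*} [CStarAlgebra Q] (F : Set Q) : StarSubalgebra ℂ Q :=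
  (StarAlgebra.adjoin ℂ F).topologicalClosure

instance isClosed_closedAdjoin {Q : Type*} [CStarAlgebra Q] (F : Set Q) :
    IsClosed ((closedAdjoin F : StarSubalgebra ℂ Q) : Set Q) :=
  StarSubalgebra.isClosed_topologicalClosure _

lemma subset_closedAdjoin {Q : Type*} [CStarAlgebra Q] (F : Set Q) :
    F ⊆ (closedAdjoin F : StarSubalgebra ℂ Q) := fun _ hx =>
  StarSubalgebra.le_topologicalClosure _ (StarAlgebra.subset_adjoin ℂ F hx)

lemma countable_submonoid_closure {M : Type*} [Monoid M] {s : Set M} (hs : s.Countable) :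
    ((Submonoid.closure s : Submonoid M) : Set M).Countable := by
  have : Countable s := hs.to_subtype
  have hsub : ((Submonoid.closure s : Submonoid M) : Set M) ⊆
      Set.range (fun l : List s => (l.map (fun x : s => (x : M))).prod) := by
    rw [Submonoid.closure_eq_image_prod]
    rintro _ ⟨l, hl, rfl⟩
    refine ⟨l.attach.map (fun x => (⟨x.1, hl x.1 x.2⟩ : s)), ?_⟩
    simp [List.map_map, Function.comp_def]
  exact (Set.countable_range _).mono hsub

/-- The closed star subalgebra generated by a countable set is separable. -/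
theorem separable_closedAdjoin {Q : Type*} [CStarAlgebra Q] (F : Set Q) (hF : F.Countable) :
    TopologicalSpace.SeparableSpace (closedAdjoin F : StarSubalgebra ℂ Q) := by
  have h1 : (F ∪ star F).Countable := by
    refine hF.union ?_
    have : star F = star '' F := by
      ext x
      simp only [Set.mem_star, Set.mem_image]
      exact ⟨fun h => ⟨star x, h, star_star x⟩, fun ⟨y, hy, hyx⟩ => by rw [← hyx, star_star]; exact hy⟩
    rw [this]
    exact hF.image _
  have h2 := countable_submonoid_closure h1
  have h3 : TopologicalSpace.IsSeparable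
      ((Submodule.span ℂ ((Submonoid.closure (F ∪ star F) : Submonoid Q) : Set Q) : Submodule ℂ Q) :
        Set Q) :=
    h2.isSeparable.span
  have h4 : ((StarAlgebra.adjoin ℂ F : StarSubalgebra ℂ Q) : Set Q) =
      (Submodule.span ℂ ((Submonoid.closure (F ∪ star F) : Submonoid Q) : Set Q) : Submodule ℂ Q) := by
    have := Algebra.adjoin_eq_span ℂ (F ∪ star F)
    have h5 := StarAlgebra.adjoin_toSubalgebra ℂ F
    ext x
    constructor
    · intro hx
      have hx' : x ∈ (StarAlgebra.adjoin ℂ F).toSubalgebra := hx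
      rw [h5] at hx'
      have hx'' : x ∈ Subalgebra.toSubmodule (Algebra.adjoin ℂ (F ∪ star F)) := hx'
      rw [this] at hx''
      exact hx''
    · intro hx
      have hx'' : x ∈ Subalgebra.toSubmodule (Algebra.adjoin ℂ (F ∪ star F)) := by
        rw [this]; exact hx
      have hx' : x ∈ (StarAlgebra.adjoin ℂ F).toSubalgebra := by
        rw [h5]; exact hx''
      exact hx'
  have h6 : TopologicalSpace.IsSeparable ((closedAdjoin F : StarSubalgebra ℂ Q) : Set Q) := by
    have : ((closedAdjoin F : StarSubalgebra ℂ Q) : Set Q) =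
        closure ((StarAlgebra.adjoin ℂ F : StarSubalgebra ℂ Q) : Set Q) := rfl
    rw [this, h4]
    exact h3.closure
  exact h6.separableSpace

end separable

end Crest.Agent.Lib.CStarQuot
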