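import Mathlib
import Crest.Prelude.Def_DaugavetL1

set_option autoImplicit false

namespace Crest.Agent.Lib.DaugavetL1Sub

open Crest.AnalysisR Crest.AnalysisR.L1Subspace

section Abstract

variable {V : Type*} [NormedAddCommGroup V] [NormedSpace ℝ V]

/-- Slice lemma for a normalised functional and nonzero direction. -/
lemma slice_aux (hD : HasDaugavetProperty V) (φ : V →L[ℝ] ℝ) (hφ : ‖φ‖ = 1) (z : V) (hz : z ≠ 0)
    {κ : ℝ} (hκ : 0 < κ) :
    ∃ u : V, ‖u‖ ≤ 1 ∧ 1 - κ / ‖z‖ < φ u ∧ ‖z‖ + 1 - 2 * κ < ‖z + u‖ := by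
  have hr : 0 < ‖z‖ := norm_pos_iff.mpr hz
  have h1 := hD φ z
  rw [ContinuousLinearMap.norm_smulRight_apply, hφ, one_mul] at h1
  have h2 : 1 + ‖z‖ - κ < ‖ContinuousLinearMap.id ℝ V + φ.smulRight z‖ := by
    rw [h1]; linarith
  obtain ⟨u₀, hu₀, hlt⟩ := ContinuousLinearMap.exists_lt_apply_of_lt_opNorm _ h2
  -- sign change
  obtain ⟨u, hu, hθ, hlt'⟩ : ∃ u : V, ‖u‖ < 1 ∧ 0 ≤ φ u ∧ 1 + ‖z‖ - κ < ‖u + φ u • z‖ := by
    simp only [add_apply, ContinuousLinearMap.id_apply,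
      ContinuousLinearMap.smulRight_apply] at hlt
    rcases le_total 0 (φ u₀) with h | h
    · exact ⟨u₀, hu₀, h, hlt⟩
    · refine ⟨-u₀, by simpa using hu₀, by simpa using h, ?_⟩
      have : -u₀ + φ (-u₀) • z = -(u₀ + φ u₀ • z) := by
        simp only [map_neg, neg_smul, neg_add_rev]; abel
      rw [this, norm_neg]; exact hlt
  have hθ1 : φ u ≤ 1 := by
    have := φ.le_opNorm u
    rw [hφ, one_mul, Real.norm_eq_abs] at this
    exact (le_abs_self _).trans (this.trans hu.le)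
  have h3 : ‖u + φ u • z‖ ≤ 1 + φ u * ‖z‖ := by
    calc ‖u + φ u • z‖ ≤ ‖u‖ + ‖φ u • z‖ := norm_add_le _ _
      _ = ‖u‖ + φ u * ‖z‖ := by rw [norm_smul, Real.norm_eq_abs, abs_of_nonneg hθ]
      _ ≤ 1 + φ u * ‖z‖ := by linarith
  have h4 : (1 - φ u) * ‖z‖ < κ := by nlinarith
  refine ⟨u, hu.le, ?_, ?_⟩
  · rw [sub_lt_comm, lt_div_iff₀ hr]; exact h4
  · have h5 : z + u = (u + φ u • z) + (1 - φ u) • z := by
      simp only [sub_smul, one_smul]; abel
    have h6 : ‖u + φ u • z‖ ≤ ‖z + u‖ + ‖(1 - φ u) • z‖ := by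
      have : u + φ u • z = (z + u) - (1 - φ u) • z := by rw [h5]; abel
      rw [this]; exact norm_sub_le _ _
    have h7 : ‖(1 - φ u) • z‖ = (1 - φ u) * ‖z‖ := by
      rw [norm_smul, Real.norm_eq_abs, abs_of_nonneg (by linarith)]
    rw [h7] at h6
    linarith

/-- Slice lemma: every slice of the ball contains a point almost additive with `z`. -/
lemma slice_point [Nontrivial V] (hD : HasDaugavetProperty V) (φ : V →L[ℝ] ℝ) (z : V)
    {δ ε : ℝ} (hδ : 0 < δ) (hε : 0 < ε) :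
    ∃ u : V, ‖u‖ ≤ 1 ∧ ‖φ‖ - δ < φ u ∧ ‖z‖ + 1 - ε < ‖z + u‖ := by
  -- reduce to a normalised functional
  obtain ⟨φ₀, hφ₀, hδ', hscale⟩ : ∃ φ₀ : V →L[ℝ] ℝ, ‖φ₀‖ = 1 ∧ True ∧
      ∀ δ' : ℝ, 0 < δ' → δ' ≤ 1 → ∀ u : V, ‖φ₀‖ - δ' * (δ / (δ + ‖φ‖ + 1)) < φ₀ u → ‖φ‖ - δ < φ u := by
    by_cases h0 : φ = 0
    · obtain ⟨x, hx⟩ := exists_ne (0 : V)
      obtain ⟨g, hg, _⟩ := exists_dual_vector ℝ x (by simpa using hx)
      refine ⟨g, hg, trivial, ?_⟩
      intro δ' _ _ u _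
      simp [h0, hδ]
    · have hp : 0 < ‖φ‖ := norm_pos_iff.mpr h0
      refine ⟨(‖φ‖⁻¹) • φ, ?_, trivial, ?_⟩
      · rw [norm_smul, norm_inv, norm_norm, inv_mul_cancel₀ hp.ne']
      · intro δ' hδ'0 hδ'1 u hu
        have h1 : ‖(‖φ‖⁻¹) • φ‖ = 1 := by
          rw [norm_smul, norm_inv, norm_norm, inv_mul_cancel₀ hp.ne']
        rw [h1] at hu
        have h2 : ((‖φ‖⁻¹) • φ) u = ‖φ‖⁻¹ * φ u := by simp
        rw [h2] at hu
        have h3 : ‖φ‖ * (‖φ‖⁻¹ * φ u) = φ u := by field_simp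
        have h4 : δ / (δ + ‖φ‖ + 1) ≤ δ / ‖φ‖ := by
          apply div_le_div_of_nonneg_left hδ.le hp (by linarith)
        have h5 : 0 < δ / (δ + ‖φ‖ + 1) := by positivity
        have h6 : δ' * (δ / (δ + ‖φ‖ + 1)) ≤ δ / ‖φ‖ := by
          calc δ' * (δ / (δ + ‖φ‖ + 1)) ≤ 1 * (δ / (δ + ‖φ‖ + 1)) := by
                apply mul_le_mul_of_nonneg_right hδ'1 h5.le
            _ ≤ δ / ‖φ‖ := by rw [one_mul]; exact h4
        have h7 : ‖φ‖ * (1 - δ / ‖φ‖) < φ u := by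
          calc ‖φ‖ * (1 - δ / ‖φ‖) < ‖φ‖ * (‖φ‖⁻¹ * φ u) := by
                apply mul_lt_mul_of_pos_left _ hp
                linarith
            _ = φ u := h3
        have h8 : ‖φ‖ * (1 - δ / ‖φ‖) = ‖φ‖ - δ := by field_simp
        linarith
  set ρ : ℝ := δ / (δ + ‖φ‖ + 1) with hρ
  have hρpos : 0 < ρ := by positivity
  by_cases hz : z = 0
  · -- z = 0: any point of a thin slice
    subst hz
    have h2 : 1 - min (ρ) (ε) < ‖φ₀‖ := by
      rw [hφ₀]; have : 0 < min ρ ε := lt_min hρpos hε; linarith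
    obtain ⟨u, hu, hlt⟩ := φ₀.exists_lt_apply_of_lt_opNorm h2
    obtain ⟨v, hv, hlt'⟩ : ∃ v : V, ‖v‖ < 1 ∧ 1 - min ρ ε < φ₀ v := by
      rw [Real.norm_eq_abs] at hlt
      rcases abs_cases (φ₀ u) with ⟨h, _⟩ | ⟨h, _⟩
      · exact ⟨u, hu, by rw [h] at hlt; exact hlt⟩
      · exact ⟨-u, by simpa using hu, by simpa [h] using hlt⟩
    refine ⟨v, hv.le, ?_, ?_⟩
    · apply hscale 1 one_pos le_rfl
      rw [hφ₀, one_mul]
      have := min_le_left ρ ε
      linarith
    · have h3 : φ₀ v ≤ ‖v‖ := by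
        have := φ₀.le_opNorm v
        rw [hφ₀, one_mul, Real.norm_eq_abs] at this
        exact (le_abs_self _).trans this
      have := min_le_right ρ ε
      simp only [norm_zero, zero_add]
      linarith
  · have hr : 0 < ‖z‖ := norm_pos_iff.mpr hz
    set κ : ℝ := min (ε / 2) (ρ * ‖z‖) with hκdef
    have hκ : 0 < κ := lt_min (by positivity) (by positivity)
    obtain ⟨u, hu, h1, h2⟩ := slice_aux hD φ₀ hφ₀ z hz hκ
    refine ⟨u, hu, ?_, ?_⟩
    · apply hscale 1 one_pos le_rfl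
      rw [hφ₀, one_mul]
      have : κ / ‖z‖ ≤ ρ := by
        rw [div_le_iff₀ hr]; exact min_le_right _ _
      linarith
    · have : κ ≤ ε / 2 := min_le_left _ _
      linarith

/-- Slices at an extreme point of a compact convex set shrink. -/
lemma extreme_slice {W : Type*} [NormedAddCommGroup W] [NormedSpace ℝ W] {K : Set W}
    (hK : IsCompact K) (hc : Convex ℝ K) {e : W} (he : e ∈ K.extremePoints ℝ) {ε : ℝ}
    (hε : 0 < ε) :
    ∃ (ψ : W →L[ℝ] ℝ) (c : ℝ), c < ψ e ∧ ∀ k ∈ K, c < ψ k → ‖k - e‖ < ε := by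
  classical
  have heK : e ∈ K := he.1
  set D : Set W := K \ Metric.ball e ε with hDdef
  have hDc : IsCompact D := hK.diff Metric.isOpen_ball
  obtain ⟨t, ht, hcover⟩ := hDc.elim_nhds_subcover (fun d => Metric.ball d (ε / 2))
    (fun d _ => Metric.ball_mem_nhds d (by positivity))
  -- build L by induction
  have key : ∀ s : Finset W, (∀ d ∈ s, d ∈ D) → ∃ L : Set W, IsCompact L ∧ Convex ℝ L ∧ L ⊆ K ∧
      e ∉ L ∧ ∀ d ∈ s, K ∩ Metric.closedBall d (ε / 2) ⊆ L := by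
    intro s
    induction s using Finset.induction_on with
    | empty =>
      intro _
      exact ⟨∅, isCompact_empty, convex_empty, Set.empty_subset _, by simp, by simp⟩
    | insert d s hd ih =>
      intro hs
      obtain ⟨L, hLc, hLconv, hLK, heL, hLs⟩ := ih (fun x hx => hs x (Finset.mem_insert_of_mem hx))
      have hdD : d ∈ D := hs d (Finset.mem_insert_self _ _)
      set M : Set W := K ∩ Metric.closedBall d (ε / 2) with hMdef
      have hMc : IsCompact M := hK.inter_right Metric.isClosed_closedBall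
      have hMconv : Convex ℝ M := hc.inter (convex_closedBall _ _)
      have hMK : M ⊆ K := Set.inter_subset_left
      have heM : e ∉ M := by
        intro h
        have h1 : dist e d ≤ ε / 2 := h.2
        have h2 : d ∉ Metric.ball e ε := hdD.2
        rw [Metric.mem_ball, dist_comm] at h2
        linarith
      by_cases hL0 : L.Nonempty
      · by_cases hM0 : M.Nonempty
        · -- join
          refine ⟨convexJoin ℝ L M, ?_, hLconv.convexJoin hMconv, ?_, ?_, ?_⟩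
          · -- compactness
            have himg : convexJoin ℝ L M = (fun p : W × W × ℝ => (1 - p.2.2) • p.1 + p.2.2 • p.2.1) ''
                (L ×ˢ (M ×ˢ Set.Icc (0:ℝ) 1)) := by
              ext x
              rw [mem_convexJoin]
              constructor
              · rintro ⟨a, ha, b, hb, hx⟩
                rw [segment_eq_image] at hx
                obtain ⟨θ, hθ, rfl⟩ := hx
                exact ⟨(a, b, θ), ⟨ha, hb, hθ⟩, rfl⟩
              · rintro ⟨⟨a, b, θ⟩, ⟨ha, hb, hθ⟩, rfl⟩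
                refine ⟨a, ha, b, hb, ?_⟩
                rw [segment_eq_image]
                exact ⟨θ, hθ, rfl⟩
            rw [himg]
            apply IsCompact.image (hLc.prod (hMc.prod isCompact_Icc))
            fun_prop
          · exact convexJoin_subset hLK hMK hc
          · intro h
            rw [mem_convexJoin] at h
            obtain ⟨a, ha, b, hb, hseg⟩ := h
            rw [segment_eq_image] at hseg
            obtain ⟨θ, hθ, hθe⟩ := hseg
            rcases eq_or_lt_of_le hθ.1 with h0 | h0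
            · have : e = a := by rw [← hθe, ← h0]; simp
              exact heL (this ▸ ha)
            rcases eq_or_lt_of_le hθ.2 with h1 | h1
            · have : e = b := by rw [← hθe, h1]; simp
              exact heM (this ▸ hb)
            · have hopen : e ∈ openSegment ℝ a b :=
                ⟨1 - θ, θ, by linarith, h0, by ring, hθe⟩
              have hext := he.2 (hLK ha) (hMK hb) hopen
              exact heL (hext.symm ▸ ha)
          · intro x hx
            rcases Finset.mem_insert.mp hx with rfl | hxs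
            · exact subset_convexJoin_right hL0
            · exact (hLs x hxs).trans (subset_convexJoin_left hM0)
        · -- M empty
          rw [Set.not_nonempty_iff_eq_empty] at hM0
          refine ⟨L, hLc, hLconv, hLK, heL, ?_⟩
          intro x hx
          rcases Finset.mem_insert.mp hx with rfl | hxs
          · rw [← hMdef, hM0]; exact Set.empty_subset _
          · exact hLs x hxs
      · rw [Set.not_nonempty_iff_eq_empty] at hL0
        refine ⟨M, hMc, hMconv, hMK, heM, ?_⟩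
        intro x hx
        rcases Finset.mem_insert.mp hx with rfl | hxs
        · exact subset_rfl
        · have := hLs x hxs
          rw [hL0] at this
          exact this.trans (Set.empty_subset _)
  obtain ⟨L, hLc, hLconv, hLK, heL, hLs⟩ := key t ht
  obtain ⟨f, u, hfe, hfL⟩ := geometric_hahn_banach_point_closed hLconv hLc.isClosed heL
  refine ⟨-f, -u, by simpa using hfe, ?_⟩
  intro k hk hlt
  have hkL : k ∉ L := by
    intro h
    have := hfL k h
    simp only [neg_apply] at hlt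
    linarith
  by_contra hne
  have hkD : k ∈ D := by
    refine ⟨hk, ?_⟩
    rw [Metric.mem_ball, dist_eq_norm]
    exact hne
  obtain ⟨d, hd, hkd⟩ := Set.mem_iUnion₂.mp (hcover hkD)
  exact hkL (hLs d hd ⟨hk, Metric.ball_subset_closedBall hkd⟩)

/-- The Shvidkoy-type statement: every point of the closure of the image of the ball under a map to
a finite-dimensional space is approximated by images of points almost additive with any `z`. -/
theorem shvidkoy [Nontrivial V] (hD : HasDaugavetProperty V) {W : Type*} [NormedAddCommGroup W]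
    [NormedSpace ℝ W] [FiniteDimensional ℝ W] (Φ : V →L[ℝ] W) {k : W}
    (hk : k ∈ closure (Φ '' Metric.closedBall (0 : V) 1)) {ε : ℝ} (hε : 0 < ε) (z : V) :
    ∃ u : V, ‖u‖ ≤ 1 ∧ ‖Φ u - k‖ < ε ∧ ‖z‖ + 1 - ε < ‖z + u‖ := by
  haveI : ProperSpace W := FiniteDimensional.proper_real W
  set K : Set W := closure (Φ '' Metric.closedBall (0 : V) 1) with hKdef
  set C : Set W := {k | ∀ ε : ℝ, 0 < ε → ∀ z : V, ∃ u : V, ‖u‖ ≤ 1 ∧ ‖Φ u - k‖ < ε ∧
    ‖z‖ + 1 - ε < ‖z + u‖} with hCdef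
  -- K compact convex
  have hKconv : Convex ℝ K := by
    apply Convex.closure
    apply Convex.linear_image (convex_closedBall _ _) Φ.toLinearMap
  have hKbdd : Bornology.IsBounded K := by
    apply Bornology.IsBounded.closure
    refine (Metric.isBounded_iff_subset_closedBall 0).mpr ⟨‖Φ‖, ?_⟩
    rintro _ ⟨u, hu, rfl⟩
    rw [mem_closedBall_zero_iff] at hu ⊢
    calc ‖Φ u‖ ≤ ‖Φ‖ * ‖u‖ := Φ.le_opNorm u
      _ ≤ ‖Φ‖ * 1 := by gcongr
      _ = ‖Φ‖ := mul_one _
  have hKc : IsCompact K := Metric.isCompact_of_isClosed_isBounded isClosed_closure hKbdd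
  -- C convex
  have hCconv : Convex ℝ C := by
    intro k₁ h₁ k₂ h₂ a b ha hb hab
    intro ε hε z
    rcases eq_or_lt_of_le ha with ha0 | ha0
    · have hb1 : b = 1 := by linarith
      simpa [← ha0, hb1] using h₂ ε hε z
    rcases eq_or_lt_of_le hb with hb0 | hb0
    · have ha1 : a = 1 := by linarith
      simpa [← hb0, ha1] using h₁ ε hε z
    obtain ⟨u₁, hu₁, hΦ₁, hz₁⟩ := h₁ ε hε (a⁻¹ • z)
    set z₁ : V := z + a • u₁ with hz₁def
    obtain ⟨u₂, hu₂, hΦ₂, hz₂⟩ := h₂ ε hε (b⁻¹ • z₁)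
    refine ⟨a • u₁ + b • u₂, ?_, ?_, ?_⟩
    · calc ‖a • u₁ + b • u₂‖ ≤ ‖a • u₁‖ + ‖b • u₂‖ := norm_add_le _ _
        _ = a * ‖u₁‖ + b * ‖u₂‖ := by
            rw [norm_smul, norm_smul, Real.norm_eq_abs, Real.norm_eq_abs, abs_of_pos ha0,
              abs_of_pos hb0]
        _ ≤ a * 1 + b * 1 := by gcongr
        _ = 1 := by linarith
    · have h1 : Φ (a • u₁ + b • u₂) - (a • k₁ + b • k₂) = a • (Φ u₁ - k₁) + b • (Φ u₂ - k₂) := by
        simp only [map_add, map_smul, smul_sub]; abel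
      rw [h1]
      calc ‖a • (Φ u₁ - k₁) + b • (Φ u₂ - k₂)‖ ≤ ‖a • (Φ u₁ - k₁)‖ + ‖b • (Φ u₂ - k₂)‖ :=
            norm_add_le _ _
        _ = a * ‖Φ u₁ - k₁‖ + b * ‖Φ u₂ - k₂‖ := by
            rw [norm_smul, norm_smul, Real.norm_eq_abs, Real.norm_eq_abs, abs_of_pos ha0,
              abs_of_pos hb0]
        _ < a * ε + b * ε := by
            apply add_lt_add
            · exact mul_lt_mul_of_pos_left hΦ₁ ha0
            · exact mul_lt_mul_of_pos_left hΦ₂ hb0
        _ = ε := by rw [← add_mul, hab, one_mul]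
    · -- scaling
      have s1 : ‖z₁‖ = a * ‖a⁻¹ • z + u₁‖ := by
        have : z₁ = a • (a⁻¹ • z + u₁) := by
          rw [hz₁def, smul_add, smul_smul, mul_inv_cancel₀ ha0.ne', one_smul]
        rw [this, norm_smul, Real.norm_eq_abs, abs_of_pos ha0]
      have s2 : ‖a⁻¹ • z‖ = a⁻¹ * ‖z‖ := by
        rw [norm_smul, Real.norm_eq_abs, abs_of_pos (inv_pos.mpr ha0)]
      have s3 : ‖b⁻¹ • z₁‖ = b⁻¹ * ‖z₁‖ := by
        rw [norm_smul, Real.norm_eq_abs, abs_of_pos (inv_pos.mpr hb0)]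
      have s4 : ‖z + (a • u₁ + b • u₂)‖ = b * ‖b⁻¹ • z₁ + u₂‖ := by
        have : z + (a • u₁ + b • u₂) = b • (b⁻¹ • z₁ + u₂) := by
          rw [smul_add, smul_smul, mul_inv_cancel₀ hb0.ne', one_smul, hz₁def]; abel
        rw [this, norm_smul, Real.norm_eq_abs, abs_of_pos hb0]
      have s5 : a * (a⁻¹ * ‖z‖) = ‖z‖ := by field_simp
      have s6 : b * (b⁻¹ * ‖z₁‖) = ‖z₁‖ := by field_simp
      have t1 : ‖z‖ + a - a * ε < ‖z₁‖ := by
        rw [s2] at hz₁
        have := mul_lt_mul_of_pos_left hz₁ ha0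
        rw [← s1] at this
        nlinarith
      have t2 : ‖z₁‖ + b - b * ε < ‖z + (a • u₁ + b • u₂)‖ := by
        rw [s3] at hz₂
        have := mul_lt_mul_of_pos_left hz₂ hb0
        rw [← s4] at this
        nlinarith
      have t3 : a * ε + b * ε = ε := by rw [← add_mul, hab, one_mul]
      linarith
  -- C closed
  have hCclosed : IsClosed C := by
    rw [← closure_subset_iff_isClosed]
    intro k hk ε hε z
    obtain ⟨k', hk', hdist⟩ := Metric.mem_closure_iff.mp hk (ε / 2) (by positivity)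
    obtain ⟨u, hu, hΦ, hz⟩ := hk' (ε / 2) (by positivity) z
    refine ⟨u, hu, ?_, by linarith⟩
    have : Φ u - k = (Φ u - k') + (k' - k) := by abel
    rw [this]
    calc _ ≤ ‖Φ u - k'‖ + ‖k' - k‖ := norm_add_le _ _
      _ < ε / 2 + ε / 2 := by
          apply add_lt_add hΦ
          rw [← dist_eq_norm, dist_comm]; exact hdist
      _ = ε := by ring
  -- extreme points in C
  have hext : K.extremePoints ℝ ⊆ C := by
    intro e he ε hε z
    obtain ⟨ψ, c, hc, hψ⟩ := extreme_slice hKc hKconv he hε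
    set φ : V →L[ℝ] ℝ := ψ.comp Φ with hφdef
    -- some point of the ball is above c
    obtain ⟨u₀, hu₀, hcu₀⟩ : ∃ u₀ : V, ‖u₀‖ ≤ 1 ∧ c < φ u₀ := by
      have hopen : IsOpen {k : W | c < ψ k} := isOpen_lt continuous_const ψ.continuous
      have hmem : e ∈ closure (Φ '' Metric.closedBall (0 : V) 1) := he.1
      obtain ⟨k', hk', hk'u⟩ := mem_closure_iff.mp hmem _ hopen hc
      obtain ⟨u, hu, rfl⟩ := hk'u
      exact ⟨u, by simpa using hu, hk'⟩
    have hlt : c < ‖φ‖ := by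
      have h1 := φ.le_opNorm u₀
      rw [Real.norm_eq_abs] at h1
      have h2 : φ u₀ ≤ ‖φ‖ * ‖u₀‖ := (le_abs_self _).trans h1
      have h3 : ‖φ‖ * ‖u₀‖ ≤ ‖φ‖ * 1 := by gcongr
      linarith
    obtain ⟨u, hu, hu1, hu2⟩ := slice_point hD φ z (sub_pos.mpr hlt) hε
    refine ⟨u, hu, ?_, hu2⟩
    apply hψ _ (subset_closure ⟨u, by simpa using hu, rfl⟩)
    have : φ u = ψ (Φ u) := rfl
    rw [← this]; linarith
  have hKC : K ⊆ C := by
    rw [← closure_convexHull_extremePoints hKc hKconv]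
    exact closure_minimal (convexHull_min hext hCconv) hCclosed
  exact hKC hk ε hε z

/-- Strong-diameter-two form: for a unit vector `x` and a closed finite-codimensional subspace `S`,
there are a vector `w` of the ball and `s ∈ S` close to `w - x` with `‖w - x‖` almost two. -/
theorem exists_mem_near_sub [Nontrivial V] (hD : HasDaugavetProperty V) (S : Submodule ℝ V)
    (hS : IsClosed (S : Set V)) (hfin : FiniteDimensional ℝ (V ⧸ S)) {x : V} (hx : ‖x‖ = 1)
    {ε : ℝ} (hε : 0 < ε) :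
    ∃ (u s : V), ‖u‖ ≤ 1 ∧ s ∈ S ∧ ‖(u - x) - s‖ < ε ∧ 2 - ε < ‖u - x‖ := by
  haveI : IsClosed (S : Set V) := hS
  set Φ : V →L[ℝ] (V ⧸ S) := S.mkQL with hΦ
  have hxball : Φ x ∈ closure (Φ '' Metric.closedBall (0 : V) 1) :=
    subset_closure ⟨x, by simp [hx], rfl⟩
  obtain ⟨u, hu, hu1, hu2⟩ := shvidkoy hD Φ hxball (ε := ε / 2) (by positivity) (-x)
  have h1 : Φ (u - x) = Φ u - Φ x := map_sub _ _ _
  obtain ⟨m, hm, hmn⟩ := Submodule.Quotient.norm_mk_lt (S := S) (Φ (u - x)) (ε := ε / 2) (by positivity)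
  have hms : (u - x) - m ∈ S := by
    have : Submodule.Quotient.mk (u - x) = Submodule.Quotient.mk m := hm.symm
    exact (Submodule.Quotient.eq S).mp this
  refine ⟨u, (u - x) - m, hu, hms, ?_, ?_⟩
  · have : (u - x) - ((u - x) - m) = m := by abel
    rw [this]
    rw [h1] at hmn
    linarith
  · rw [norm_neg, hx] at hu2
    have : -x + u = u - x := by abel
    rw [this] at hu2
    linarith

/-- Upper bound for the one-sided quantity: for `x` unit, `S` closed finite-codimensional, `t > 0`. -/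
theorem upper_bound [Nontrivial V] (hD : HasDaugavetProperty V) (S : Submodule ℝ V)
    (hS : IsClosed (S : Set V)) (hfin : FiniteDimensional ℝ (V ⧸ S)) {x : V} (hx : ‖x‖ = 1)
    {t η : ℝ} (ht : 0 < t) (hη : 0 < η) :
    ∃ y ∈ S, ‖y‖ = 1 ∧ ‖x + t • y‖ ≤ max 1 (t - 1) + η := by
  set ε : ℝ := min (1 / 3) (η / (5 * t)) with hεdef
  have hε : 0 < ε := lt_min (by norm_num) (by positivity)
  have hε13 : ε ≤ 1 / 3 := min_le_left _ _
  have hεη : 5 * t * ε ≤ η := by
    have : ε ≤ η / (5 * t) := min_le_right _ _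
    rw [le_div_iff₀ (by positivity)] at this
    linarith
  obtain ⟨u, s, hu, hs, hclose, hfar⟩ := exists_mem_near_sub hD S hS hfin hx hε
  -- norm of s
  have hsn : 2 - 2 * ε < ‖s‖ := by
    have : ‖u - x‖ ≤ ‖(u - x) - s‖ + ‖s‖ := by
      have h := norm_add_le ((u - x) - s) s
      simpa using h
    linarith
  have hspos : 0 < ‖s‖ := by nlinarith
  have hs1 : 1 ≤ ‖s‖ := by nlinarith
  refine ⟨‖s‖⁻¹ • s, S.smul_mem _ hs, ?_, ?_⟩
  · rw [norm_smul, norm_inv, norm_norm, inv_mul_cancel₀ hspos.ne']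
  set τ : ℝ := t / ‖s‖ with hτ
  have hτpos : 0 < τ := by positivity
  have hτt : τ ≤ t := div_le_self ht.le hs1
  have h1 : x + t • (‖s‖⁻¹ • s) = (1 - τ) • x + τ • u - τ • ((u - x) - s) := by
    have : t • (‖s‖⁻¹ • s) = τ • s := by
      rw [smul_smul, hτ, div_eq_mul_inv]
    rw [this]
    simp only [smul_sub, sub_smul, one_smul]
    abel
  rw [h1]
  have h2 : ‖(1 - τ) • x + τ • u - τ • ((u - x) - s)‖ ≤ |1 - τ| + τ + τ * ε := by
    calc _ ≤ ‖(1 - τ) • x + τ • u‖ + ‖τ • ((u - x) - s)‖ := norm_sub_le _ _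
      _ ≤ ‖(1 - τ) • x‖ + ‖τ • u‖ + ‖τ • ((u - x) - s)‖ := by gcongr; exact norm_add_le _ _
      _ = |1 - τ| * ‖x‖ + τ * ‖u‖ + τ * ‖(u - x) - s‖ := by
          rw [norm_smul, norm_smul, norm_smul, Real.norm_eq_abs, Real.norm_eq_abs,
            abs_of_pos hτpos]
      _ ≤ |1 - τ| * 1 + τ * 1 + τ * ε := by
          rw [hx]
          gcongr
      _ = |1 - τ| + τ + τ * ε := by ring
  refine h2.trans ?_
  -- bound on τ
  have h3 : 2 * τ ≤ t + 3 * t * ε := by
    have h4 : (2 - 2 * ε) * τ ≤ t := by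
      have : ‖s‖ * τ = t := by rw [hτ]; field_simp
      nlinarith
    have h5 : (1 - ε) * (t + 3 * t * ε) ≥ t := by nlinarith [mul_pos ht hε, mul_pos (mul_pos ht hε) hε]
    nlinarith
  rcases le_total τ 1 with hle | hle
  · rw [abs_of_nonneg (by linarith)]
    have : (1 : ℝ) ≤ max 1 (t - 1) := le_max_left _ _
    nlinarith
  · rw [abs_of_nonpos (by linarith)]
    have : t - 1 ≤ max 1 (t - 1) := le_max_right _ _
    nlinarith

end Abstract

end Crest.Agent.Lib.DaugavetL1Sub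

namespace Crest.Agent.Lib.DaugavetL1Sub

open Crest.AnalysisR Crest.AnalysisR.L1Subspace MeasureTheory

/-- Abstract no-AUC statement from the upper bound at `t = 2`. -/
theorem no_auc_of_upper {V : Type*} [NormedAddCommGroup V] [NormedSpace ℝ V] [Nontrivial V]
    (hP : ∀ x : V, ‖x‖ = 1 → ∀ S : Submodule ℝ V, IsClosed (S : Set V) → FiniteDimensional ℝ (V ⧸ S) →
      ∀ η : ℝ, 0 < η → ∃ y ∈ S, ‖y‖ = 1 ∧ ‖x + (2 : ℝ) • y‖ ≤ 1 + η)
    (N : V → ℝ) (hadd : ∀ x y : V, N (x + y) ≤ N x + N y) (hhom : ∀ (a : ℝ) (x : V), N (a • x) = |a| * N x)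
    (a b : ℝ) (ha : 0 < a) (hab : ∀ x : V, a * ‖x‖ ≤ N x ∧ N x ≤ b * ‖x‖)
    (hauc : ∀ t : ℝ, 0 < t → ∃ c : ℝ, 0 < c ∧ ∀ x : V, N x = 1 → ∃ F : Set V,
      (∃ S : Submodule ℝ V, (S : Set V) = F ∧ IsClosed F ∧ FiniteDimensional ℝ (V ⧸ S)) ∧
      ∀ y ∈ F, N y = 1 → c ≤ N (x + t • y) - 1) : False := by
  obtain ⟨v₀, hv₀⟩ := exists_ne (0 : V)
  have hv₀n : 0 < ‖v₀‖ := norm_pos_iff.mpr hv₀
  have hb : 0 < b := by
    have h := hab v₀
    have h1 : a * ‖v₀‖ ≤ b * ‖v₀‖ := h.1.trans h.2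
    have h2 := le_of_mul_le_mul_right h1 hv₀n
    linarith
  set A : Set ℝ := N '' Metric.closedBall (0 : V) 1 with hA
  have hAbdd : BddAbove A := by
    refine ⟨b, ?_⟩
    rintro _ ⟨u, hu, rfl⟩
    have hu' : ‖u‖ ≤ 1 := by simpa using hu
    have := (hab u).2
    nlinarith
  have hAne : A.Nonempty := ⟨N 0, 0, by simp, rfl⟩
  set s : ℝ := sSup A with hs
  have hNle : ∀ u : V, ‖u‖ ≤ 1 → N u ≤ s := fun u hu =>
    le_csSup hAbdd ⟨u, by simpa using hu, rfl⟩
  -- homogeneity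
  have hNs : ∀ u : V, N u ≤ s * ‖u‖ := by
    intro u
    by_cases hu : u = 0
    · subst hu
      have : N 0 = 0 := by
        have h := hhom 0 (0 : V)
        simpa using h
      simp [this]
    · have hun : 0 < ‖u‖ := norm_pos_iff.mpr hu
      have h1 : ‖(‖u‖⁻¹) • u‖ ≤ 1 := by
        rw [norm_smul, norm_inv, norm_norm, inv_mul_cancel₀ hun.ne']
      have h2 := hNle _ h1
      rw [hhom, abs_of_pos (inv_pos.mpr hun), inv_mul_le_iff₀ hun] at h2
      linarith
  have hspos : 0 < s := by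
    have h1 : ‖(‖v₀‖⁻¹) • v₀‖ ≤ 1 := by
      rw [norm_smul, norm_inv, norm_norm, inv_mul_cancel₀ hv₀n.ne']
    have h2 := hNle _ h1
    have h3 := (hab ((‖v₀‖⁻¹) • v₀)).1
    rw [norm_smul, norm_inv, norm_norm, inv_mul_cancel₀ hv₀n.ne'] at h3
    linarith
  obtain ⟨c, hc, hauc⟩ := hauc (2 * a / b) (by positivity)
  set κ : ℝ := c / (2 + c) with hκ
  have hκpos : 0 < κ := by positivity
  have hκ1 : κ < 1 := by
    rw [hκ, div_lt_one (by positivity)]; linarith
  have hκeq : κ * (2 + c) = c := by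
    rw [hκ]; field_simp
  -- almost maximiser
  have hlt : s * (1 - κ) < s := by nlinarith
  obtain ⟨_, ⟨u₀, hu₀, rfl⟩, hu₀lt⟩ := exists_lt_of_lt_csSup hAne hlt
  have hu₀' : ‖u₀‖ ≤ 1 := by simpa using hu₀
  have hsκ : 0 < s * (1 - κ) := mul_pos hspos (by linarith)
  have hu₀ne : u₀ ≠ 0 := by
    rintro rfl
    have h0 : N 0 = 0 := by
      have h := hhom 0 (0 : V)
      simpa using h
    rw [h0] at hu₀lt
    linarith
  have hu₀n : 0 < ‖u₀‖ := norm_pos_iff.mpr hu₀ne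
  set x : V := (‖u₀‖⁻¹) • u₀ with hx
  have hxn : ‖x‖ = 1 := by
    rw [hx, norm_smul, norm_inv, norm_norm, inv_mul_cancel₀ hu₀n.ne']
  have hNx : s * (1 - κ) < N x := by
    rw [hx, hhom, abs_of_pos (inv_pos.mpr hu₀n)]
    have h1 : 1 ≤ ‖u₀‖⁻¹ := (one_le_inv₀ hu₀n).mpr hu₀'
    have hN0 : 0 < N u₀ := by linarith
    nlinarith
  set n : ℝ := N x with hn
  have hnpos : 0 < n := by linarith
  have hnb : n ≤ b := by
    have := (hab x).2
    rw [hxn] at this
    linarith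
  set x' : V := n⁻¹ • x with hx'
  have hNx' : N x' = 1 := by
    rw [hx', hhom, abs_of_pos (inv_pos.mpr hnpos), ← hn, inv_mul_cancel₀ hnpos.ne']
  obtain ⟨F, ⟨S, hSF, hFc, hFf⟩, hF⟩ := hauc x' hNx'
  subst hSF
  obtain ⟨y, hyS, hyn, hynorm⟩ := hP x hxn S hFc hFf κ hκpos
  set m : ℝ := N y with hm
  have hma : a ≤ m := by
    have := (hab y).1
    rw [hyn] at this
    linarith
  have hmpos : 0 < m := by linarith
  set y' : V := m⁻¹ • y with hy'
  have hNy' : N y' = 1 := by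
    rw [hy', hhom, abs_of_pos (inv_pos.mpr hmpos), ← hm, inv_mul_cancel₀ hmpos.ne']
  have hy'S : y' ∈ (S : Set V) := S.smul_mem _ hyS
  have hcy := hF y' hy'S hNy'
  set t₀ : ℝ := 2 * a / b with ht₀
  have ht₀pos : 0 < t₀ := by positivity
  set τ : ℝ := 2 * m / n with hτ
  have hτpos : 0 < τ := by positivity
  have hτt : t₀ ≤ τ := by
    rw [ht₀, hτ]
    apply div_le_div₀ (by positivity) (by linarith) hnpos hnb
  -- convexity
  have hconv : N (x' + t₀ • y') ≤ (1 - t₀ / τ) * 1 + (t₀ / τ) * N (x' + τ • y') := by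
    have gen : ∀ p q : V, p + t₀ • q = (1 - t₀ / τ) • p + (t₀ / τ) • (p + τ • q) := by
      intro p q
      rw [smul_add, smul_smul, div_mul_cancel₀ _ hτpos.ne', sub_smul, one_smul]
      abel
    have hr : 0 ≤ t₀ / τ := by positivity
    have hr1 : 0 ≤ 1 - t₀ / τ := by
      rw [sub_nonneg, div_le_one hτpos]; exact hτt
    calc N (x' + t₀ • y') = N ((1 - t₀ / τ) • x' + (t₀ / τ) • (x' + τ • y')) := by rw [← gen]
      _ ≤ N ((1 - t₀ / τ) • x') + N ((t₀ / τ) • (x' + τ • y')) := hadd _ _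
      _ = (1 - t₀ / τ) * 1 + (t₀ / τ) * N (x' + τ • y') := by
          rw [hhom (1 - t₀ / τ) x', hhom (t₀ / τ) _, abs_of_nonneg hr, abs_of_nonneg hr1, hNx']
  have hge : 1 + c ≤ N (x' + τ • y') := by
    have hr : 0 < t₀ / τ := by positivity
    have hr1 : t₀ / τ ≤ 1 := by
      rw [div_le_one hτpos]; exact hτt
    have h3 : (t₀ / τ) * c ≤ (t₀ / τ) * (N (x' + τ • y') - 1) := by
      have : c ≤ N (x' + t₀ • y') - 1 := hcy
      nlinarith
    have h4 : c ≤ N (x' + τ • y') - 1 := le_of_mul_le_mul_left h3 hr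
    linarith
  have heq : x + (2 : ℝ) • y = n • (x' + τ • y') := by
    rw [smul_add, hx', smul_smul, mul_inv_cancel₀ hnpos.ne', one_smul, smul_smul, hy', smul_smul]
    have : n * τ * m⁻¹ = 2 := by
      rw [hτ]; field_simp
    rw [this]
  have hN1 : n * (1 + c) ≤ N (x + (2 : ℝ) • y) := by
    rw [heq, hhom, abs_of_pos hnpos]
    exact mul_le_mul_of_nonneg_left hge hnpos.le
  have hN2 : N (x + (2 : ℝ) • y) ≤ s * (1 + κ) := by
    calc _ ≤ s * ‖x + (2 : ℝ) • y‖ := hNs _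
      _ ≤ s * (1 + κ) := by gcongr
  have hfinal : s * (1 - κ) * (1 + c) < s * (1 + κ) := by
    calc s * (1 - κ) * (1 + c) < n * (1 + c) := by
          apply mul_lt_mul_of_pos_right hNx (by linarith)
      _ ≤ _ := hN1.trans hN2
  have : (1 - κ) * (1 + c) = 1 + κ := by nlinarith
  have h5 : s * ((1 - κ) * (1 + c)) = s * (1 + κ) := by rw [this]
  nlinarith

section L1

variable {Ω : Type} [MeasurableSpace Ω] {P : Measure Ω} [IsProbabilityMeasure P]

lemma norm_eq_integral_abs (f : Lp ℝ 1 P) : ‖f‖ = ∫ z, |(f : Ω → ℝ) z| ∂P := by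
  rw [L1.norm_eq_integral_norm]
  simp only [Real.norm_eq_abs]

lemma integrable_abs_coe (f : Lp ℝ 1 P) : Integrable (fun z => |(f : Ω → ℝ) z|) P :=
  (L1.integrable_coeFn f).abs

lemma norm_add_smul_eq (x y : Lp ℝ 1 P) (t : ℝ) :
    ‖x + t • y‖ = ∫ z, |(x : Ω → ℝ) z + t * (y : Ω → ℝ) z| ∂P := by
  rw [norm_eq_integral_abs]
  apply integral_congr_ae
  filter_upwards [Lp.coeFn_add x (t • y), Lp.coeFn_smul t y] with z h1 h2
  rw [h1, Pi.add_apply, h2, Pi.smul_apply, smul_eq_mul]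

lemma norm_sub_smul_eq (x y : Lp ℝ 1 P) (t : ℝ) :
    ‖x - t • y‖ = ∫ z, |(x : Ω → ℝ) z - t * (y : Ω → ℝ) z| ∂P := by
  rw [norm_eq_integral_abs]
  apply integral_congr_ae
  filter_upwards [Lp.coeFn_sub x (t • y), Lp.coeFn_smul t y] with z h1 h2
  rw [h1, Pi.sub_apply, h2, Pi.smul_apply, smul_eq_mul]

lemma norm_sub_eq (x y : Lp ℝ 1 P) :
    ‖x - y‖ = ∫ z, |(x : Ω → ℝ) z - (y : Ω → ℝ) z| ∂P := by
  rw [norm_eq_integral_abs]
  apply integral_congr_ae
  filter_upwards [Lp.coeFn_sub x y] with z h1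
  rw [h1, Pi.sub_apply]

/-- The concentration estimate: `y` unit with `‖g‖ ≤ ‖g - y‖`, and `y` within `a` of `g` off `T`. -/
lemma mass_on_T (y g : Lp ℝ 1 P) (hy : ‖y‖ = 1) (hg : ‖g‖ ≤ ‖g - y‖) {a : ℝ} (ha : 0 < a)
    (T : Set Ω) (hT : MeasurableSet T)
    (hoff : ∀ z, z ∉ T → |(y : Ω → ℝ) z - (g : Ω → ℝ) z| ≤ a) :
    1 / 2 - a ≤ ∫ z in T, |(y : Ω → ℝ) z| ∂P := by
  have hiy := integrable_abs_coe y
  have hig := integrable_abs_coe g
  have hyT : 1 = (∫ z in T, |(y : Ω → ℝ) z| ∂P) + ∫ z in Tᶜ, |(y : Ω → ℝ) z| ∂P := by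
    rw [integral_add_compl hT hiy, ← norm_eq_integral_abs, hy]
  have hgT : ‖g‖ = (∫ z in T, |(g : Ω → ℝ) z| ∂P) + ∫ z in Tᶜ, |(g : Ω → ℝ) z| ∂P := by
    rw [integral_add_compl hT hig, ← norm_eq_integral_abs]
  have hmeas : (P Tᶜ).toReal ≤ 1 := by
    have : P Tᶜ ≤ 1 := prob_le_one
    have h2 := ENNReal.toReal_mono ENNReal.one_ne_top this
    simpa using h2
  have hconst : ∫ z in Tᶜ, a ∂P ≤ a := by
    rw [setIntegral_const, smul_eq_mul]
    have : P.real Tᶜ ≤ 1 := hmeas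
    nlinarith
  have hintc : IntegrableOn (fun _ : Ω => a) Tᶜ P :=
    (integrable_const a).integrableOn
  have h1 : ∫ z in Tᶜ, |(y : Ω → ℝ) z| ∂P ≤ (∫ z in Tᶜ, |(g : Ω → ℝ) z| ∂P) + a := by
    calc _ ≤ ∫ z in Tᶜ, (|(g : Ω → ℝ) z| + a) ∂P := by
          apply setIntegral_mono_on hiy.integrableOn (hig.integrableOn.add hintc) hT.compl
          intro z hz
          have := hoff z hz
          have h2 : |(y : Ω → ℝ) z| ≤ |(y : Ω → ℝ) z - (g : Ω → ℝ) z| + |(g : Ω → ℝ) z| := by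
            have := abs_add_le ((y : Ω → ℝ) z - (g : Ω → ℝ) z) ((g : Ω → ℝ) z)
            simpa using this
          simp only [Pi.add_apply]
          linarith
      _ = (∫ z in Tᶜ, |(g : Ω → ℝ) z| ∂P) + ∫ z in Tᶜ, a ∂P := by
          rw [integral_add hig.integrableOn hintc]
      _ ≤ _ := by linarith
  have hidiff : Integrable (fun z => |(g : Ω → ℝ) z - (y : Ω → ℝ) z|) P :=
    ((L1.integrable_coeFn g).sub (L1.integrable_coeFn y)).abs
  have h2 : ‖g - y‖ ≤ (∫ z in T, |(g : Ω → ℝ) z| ∂P) + (∫ z in T, |(y : Ω → ℝ) z| ∂P) + a := by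
    rw [norm_sub_eq, ← integral_add_compl hT hidiff]
    have h3 : ∫ z in T, |(g : Ω → ℝ) z - (y : Ω → ℝ) z| ∂P ≤
        (∫ z in T, |(g : Ω → ℝ) z| ∂P) + (∫ z in T, |(y : Ω → ℝ) z| ∂P) := by
      rw [← integral_add hig.integrableOn hiy.integrableOn]
      apply setIntegral_mono hidiff.integrableOn (hig.integrableOn.add hiy.integrableOn)
      intro z
      exact abs_sub _ _
    have h4 : ∫ z in Tᶜ, |(g : Ω → ℝ) z - (y : Ω → ℝ) z| ∂P ≤ a := by
      calc _ ≤ ∫ z in Tᶜ, a ∂P := by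
            apply setIntegral_mono_on hidiff.integrableOn hintc hT.compl
            intro z hz
            rw [abs_sub_comm]
            exact hoff z hz
        _ ≤ a := hconst
    linarith
  linarith

/-- The lower bound for the average, given the mass of `y` on `T`. -/
lemma avg_lower (x y : Lp ℝ 1 P) {t : ℝ} (ht : 0 < t) (T : Set Ω) (hT : MeasurableSet T) :
    2 * (‖x‖ - ∫ z in T, |(x : Ω → ℝ) z| ∂P + t * ∫ z in T, |(y : Ω → ℝ) z| ∂P) ≤
      ‖x + t • y‖ + ‖x - t • y‖ := by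
  have hix := integrable_abs_coe x
  have hiy := integrable_abs_coe y
  have hx := L1.integrable_coeFn x
  have hy := L1.integrable_coeFn y
  have hip : Integrable (fun z => |(x : Ω → ℝ) z + t * (y : Ω → ℝ) z|) P := (hx.add (hy.const_mul t)).abs
  have him : Integrable (fun z => |(x : Ω → ℝ) z - t * (y : Ω → ℝ) z|) P := (hx.sub (hy.const_mul t)).abs
  have hsum : Integrable (fun z => |(x : Ω → ℝ) z + t * (y : Ω → ℝ) z| +
      |(x : Ω → ℝ) z - t * (y : Ω → ℝ) z|) P := hip.add him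
  rw [norm_add_smul_eq, norm_sub_smul_eq, ← integral_add hip him,
    ← integral_add_compl hT hsum]
  have h1 : ∫ z in T, (2 * t * |(y : Ω → ℝ) z|) ∂P ≤ ∫ z in T,
      (|(x : Ω → ℝ) z + t * (y : Ω → ℝ) z| + |(x : Ω → ℝ) z - t * (y : Ω → ℝ) z|) ∂P := by
    apply setIntegral_mono (hiy.const_mul _).integrableOn hsum.integrableOn
    intro z
    have h3 : |t * (y : Ω → ℝ) z| = t * |(y : Ω → ℝ) z| := by
      rw [abs_mul, abs_of_pos ht]
    have h4 : 2 * |t * (y : Ω → ℝ) z| ≤ |(x : Ω → ℝ) z + t * (y : Ω → ℝ) z| +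
        |(x : Ω → ℝ) z - t * (y : Ω → ℝ) z| := by
      have := abs_sub ((x : Ω → ℝ) z + t * (y : Ω → ℝ) z) ((x : Ω → ℝ) z - t * (y : Ω → ℝ) z)
      have h5 : (x : Ω → ℝ) z + t * (y : Ω → ℝ) z - ((x : Ω → ℝ) z - t * (y : Ω → ℝ) z) =
          2 * (t * (y : Ω → ℝ) z) := by ring
      rw [h5, abs_mul, abs_of_pos (by norm_num : (0:ℝ) < 2)] at this
      exact this
    rw [h3] at h4
    linarith
  have h2 : ∫ z in Tᶜ, (2 * |(x : Ω → ℝ) z|) ∂P ≤ ∫ z in Tᶜ,
      (|(x : Ω → ℝ) z + t * (y : Ω → ℝ) z| + |(x : Ω → ℝ) z - t * (y : Ω → ℝ) z|) ∂P := by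
    apply setIntegral_mono (hix.const_mul _).integrableOn hsum.integrableOn
    intro z
    have h4 : 2 * |(x : Ω → ℝ) z| ≤ |(x : Ω → ℝ) z + t * (y : Ω → ℝ) z| +
        |(x : Ω → ℝ) z - t * (y : Ω → ℝ) z| := by
      have := abs_add_le ((x : Ω → ℝ) z + t * (y : Ω → ℝ) z) ((x : Ω → ℝ) z - t * (y : Ω → ℝ) z)
      have h5 : (x : Ω → ℝ) z + t * (y : Ω → ℝ) z + ((x : Ω → ℝ) z - t * (y : Ω → ℝ) z) =
          2 * ((x : Ω → ℝ) z) := by ring
      rw [h5, abs_mul, abs_of_pos (by norm_num : (0:ℝ) < 2)] at this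
      exact this
    linarith
  have h3 : ‖x‖ = (∫ z in T, |(x : Ω → ℝ) z| ∂P) + ∫ z in Tᶜ, |(x : Ω → ℝ) z| ∂P := by
    rw [integral_add_compl hT hix, ← norm_eq_integral_abs]
  rw [integral_const_mul] at h1 h2
  have h6 : 2 * t * ∫ z in T, |(y : Ω → ℝ) z| ∂P = 2 * (t * ∫ z in T, |(y : Ω → ℝ) z| ∂P) := by ring
  linarith

/-- Extraction from the measure distance. -/
lemma exists_of_measureDist_lt (f g : Lp ℝ 1 P) {ε : ℝ} (h : measureDist P f g < ε) :
    ∃ a : ℝ, 0 < a ∧ a < ε ∧ P {z | a < |(f : Ω → ℝ) z - (g : Ω → ℝ) z|} < ENNReal.ofReal a := by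
  have hne : {a : ℝ | 0 < a ∧ P {z | a < |(f : Ω → ℝ) z - (g : Ω → ℝ) z|} < ENNReal.ofReal a}.Nonempty := by
    refine ⟨2, by norm_num, ?_⟩
    calc _ ≤ 1 := prob_le_one
      _ < ENNReal.ofReal 2 := by
        rw [← ENNReal.ofReal_one]
        exact (ENNReal.ofReal_lt_ofReal_iff (by norm_num)).mpr (by norm_num)
  obtain ⟨a, ha, halt⟩ := exists_lt_of_csInf_lt hne h
  exact ⟨a, ha.1, halt, ha.2⟩

/-- Absolute continuity of the integral of a fixed `L¹` class. -/
lemma exists_delta (x : Lp ℝ 1 P) {η : ℝ} (hη : 0 < η) :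
    ∃ δ : ℝ, 0 < δ ∧ ∀ T : Set Ω, P T < ENNReal.ofReal δ → ∫ z in T, |(x : Ω → ℝ) z| ∂P < η := by
  have hfin : ∫⁻ z, ENNReal.ofReal |(x : Ω → ℝ) z| ∂P ≠ ⊤ := by
    have := (integrable_abs_coe x).2
    rw [hasFiniteIntegral_iff_ofReal (Filter.Eventually.of_forall fun z => abs_nonneg _)] at this
    exact this.ne
  obtain ⟨δ', hδ', hδ⟩ := exists_pos_setLIntegral_lt_of_measure_lt hfin
    (ε := ENNReal.ofReal η) (by simpa using hη)
  have hmin : min δ' 1 ≠ ⊤ := (lt_of_le_of_lt (min_le_right _ _) ENNReal.one_lt_top).ne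
  have hminpos : 0 < min δ' 1 := lt_min hδ' one_pos
  refine ⟨(min δ' 1).toReal, ENNReal.toReal_pos hminpos.ne' hmin, ?_⟩
  intro T hT
  rw [ENNReal.ofReal_toReal hmin] at hT
  have hlt := hδ T (lt_of_lt_of_le hT (min_le_left _ _))
  rw [← ofReal_integral_eq_lintegral_ofReal (integrable_abs_coe x).integrableOn
    (Filter.Eventually.of_forall fun z => abs_nonneg _)] at hlt
  exact (ENNReal.ofReal_lt_ofReal_iff hη).mp hlt

end L1

/-- For a finite subset of a normed space there is a closed finite-codimensional subspace `S`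
such that `‖g‖ ≤ ‖g - y‖` for all `g` in the set, `y ∈ S`. -/
lemma exists_finCodim_norming {V : Type*} [NormedAddCommGroup V] [NormedSpace ℝ V] (s : Finset V) :
    ∃ S : Submodule ℝ V, IsClosed (S : Set V) ∧ FiniteDimensional ℝ (V ⧸ S) ∧
      ∀ y ∈ S, ∀ g ∈ s, ‖g‖ ≤ ‖g - y‖ := by
  have hex : ∀ g : V, ∃ φ : V →L[ℝ] ℝ, ‖φ‖ ≤ 1 ∧ φ g = ‖g‖ := by
    intro g
    by_cases hg : g = 0
    · refine ⟨0, by simp, by simp [hg]⟩
    · obtain ⟨φ, hφ, hφg⟩ := exists_dual_vector ℝ g (by simpa using hg)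
      exact ⟨φ, hφ.le, by simpa using hφg⟩
  choose φ hφ1 hφg using hex
  set Φ : V →L[ℝ] (↥s → ℝ) := ContinuousLinearMap.pi (fun g : ↥s => φ g) with hΦ
  refine ⟨LinearMap.ker Φ.toLinearMap, ?_, ?_, ?_⟩
  · exact ContinuousLinearMap.isClosed_ker Φ
  · have e := (LinearMap.quotKerEquivRange Φ.toLinearMap)
    exact e.symm.finiteDimensional
  · intro y hy g hg
    have h0 : φ g y = 0 := by
      have : Φ y = 0 := hy
      have h2 := congrFun this ⟨g, hg⟩
      simpa [hΦ] using h2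
    have h1 : φ g (g - y) = ‖g‖ := by rw [map_sub, h0, hφg, sub_zero]
    calc ‖g‖ = φ g (g - y) := h1.symm
      _ ≤ |φ g (g - y)| := le_abs_self _
      _ ≤ ‖φ g‖ * ‖g - y‖ := by
          have := (φ g).le_opNorm (g - y)
          rwa [Real.norm_eq_abs] at this
      _ ≤ 1 * ‖g - y‖ := by gcongr; exact hφ1 g
      _ = ‖g - y‖ := one_mul _

lemma coe_norm_sub {W : Type*} [NormedAddCommGroup W] [Module ℝ W] {E : Submodule ℝ W} (a b : E) :
    ‖a - b‖ = ‖(a : W) - (b : W)‖ := rfl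

lemma coe_norm_add_smul {W : Type*} [NormedAddCommGroup W] [Module ℝ W] {E : Submodule ℝ W}
    (a b : E) (t : ℝ) : ‖a + t • b‖ = ‖(a : W) + t • (b : W)‖ := rfl

lemma coe_norm_sub_smul {W : Type*} [NormedAddCommGroup W] [Module ℝ W] {E : Submodule ℝ W}
    (a b : E) (t : ℝ) : ‖a - t • b‖ = ‖(a : W) - t • (b : W)‖ := rfl

section Main

variable {Ω : Type} [MeasurableSpace Ω] {P : Measure Ω} [IsProbabilityMeasure P]

/-- The midpoint lower bound. -/
theorem midpoint_lower (E : Submodule ℝ (Lp ℝ 1 P)) (htb : UnitBallTotallyBoundedInMeasure P E)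
    {x : E} (hx : ‖x‖ = 1) {t η : ℝ} (ht : 0 < t) (hη : 0 < η) :
    ∃ S : Submodule ℝ E, IsClosed (S : Set E) ∧ FiniteDimensional ℝ (E ⧸ S) ∧
      ∀ y ∈ S, ‖y‖ = 1 → max (t / 2) (t - 1) - η ≤ (‖x + t • y‖ + ‖x - t • y‖) / 2 - 1 := by
  classical
  obtain ⟨δ, hδ, hδT⟩ := exists_delta (x : Lp ℝ 1 P) (η := η / 4) (by positivity)
  set ε₀ : ℝ := min δ (η / (4 * t)) with hε₀
  have hε₀pos : 0 < ε₀ := lt_min hδ (by positivity)
  obtain ⟨s, hs, hnet⟩ := htb ε₀ hε₀pos
  obtain ⟨S, hSc, hSf, hSn⟩ := exists_finCodim_norming (s.subtype (· ∈ E))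
  refine ⟨S, hSc, hSf, ?_⟩
  intro y hy hyn
  apply sub_le_iff_le_add.mpr
  apply max_le
  · -- main part
    have hyn' : ‖(y : Lp ℝ 1 P)‖ = 1 := by rw [← Submodule.coe_norm]; exact hyn
    obtain ⟨g, hg, hgd⟩ := hnet (y : Lp ℝ 1 P) y.2 hyn'.le
    obtain ⟨a, ha, haε, hPa⟩ := exists_of_measureDist_lt _ _ hgd
    have hgE : g ∈ E := (hs g hg).1
    have hgsub : (⟨g, hgE⟩ : E) ∈ s.subtype (· ∈ E) := by
      rw [Finset.mem_subtype]; exact hg
    have hnorm : ‖g‖ ≤ ‖g - (y : Lp ℝ 1 P)‖ := by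
      have h := hSn y hy _ hgsub
      rw [coe_norm_sub, Submodule.coe_norm] at h
      exact h
    set T : Set Ω := {z | a < |((y : Lp ℝ 1 P) : Ω → ℝ) z - (g : Ω → ℝ) z|} with hTdef
    have hTm : MeasurableSet T := by
      have h1 := (Lp.stronglyMeasurable (y : Lp ℝ 1 P)).measurable
      have h2 := (Lp.stronglyMeasurable g).measurable
      exact measurableSet_lt measurable_const (h1.sub h2).abs
    have hoff : ∀ z, z ∉ T → |((y : Lp ℝ 1 P) : Ω → ℝ) z - (g : Ω → ℝ) z| ≤ a := by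
      intro z hz
      exact not_lt.mp hz
    have hmass := mass_on_T (y : Lp ℝ 1 P) g hyn' hnorm ha T hTm hoff
    have havg := avg_lower (x : Lp ℝ 1 P) (y : Lp ℝ 1 P) ht T hTm
    have hPδ : P T < ENNReal.ofReal δ := by
      refine lt_of_lt_of_le hPa (ENNReal.ofReal_le_ofReal ?_)
      exact haε.le.trans (min_le_left _ _)
    have hxT := hδT T hPδ
    have hat : t * a ≤ η / 4 := by
      have h1 : a ≤ η / (4 * t) := haε.le.trans (min_le_right _ _)
      rw [le_div_iff₀ (by positivity)] at h1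
      nlinarith
    have hxn' : ‖(x : Lp ℝ 1 P)‖ = 1 := by rw [← Submodule.coe_norm]; exact hx
    rw [hxn'] at havg
    rw [coe_norm_add_smul, coe_norm_sub_smul]
    have hmul := mul_le_mul_of_nonneg_left hmass ht.le
    nlinarith
  · -- trivial part
    have h1 : ‖(2 * t : ℝ) • y‖ ≤ ‖x + t • y‖ + ‖x - t • y‖ := by
      have : (2 * t : ℝ) • y = (x + t • y) - (x - t • y) := by
        rw [two_mul, add_smul]; abel
      rw [this]
      exact norm_sub_le _ _
    rw [norm_smul, hyn, Real.norm_eq_abs, abs_of_pos (by positivity)] at h1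
    linarith

/-- Summary of the theorem in terms of `E`. -/
theorem one_sided_lower {V : Type*} [NormedAddCommGroup V] [NormedSpace ℝ V] {x : V} (hx : ‖x‖ = 1)
    {t η : ℝ} (ht : 0 < t) (hη : 0 < η) :
    ∃ S : Submodule ℝ V, IsClosed (S : Set V) ∧ FiniteDimensional ℝ (V ⧸ S) ∧
      ∀ y ∈ S, ‖y‖ = 1 → max 0 (t - 2) - η ≤ ‖x + t • y‖ - 1 := by
  have hxne : ‖x‖ ≠ 0 := by rw [hx]; norm_num
  obtain ⟨φ, hφ, hφx⟩ := exists_dual_vector ℝ x hxne
  refine ⟨LinearMap.ker φ.toLinearMap, ContinuousLinearMap.isClosed_ker φ, ?_, ?_⟩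
  · have e := (LinearMap.quotKerEquivRange φ.toLinearMap)
    exact e.symm.finiteDimensional
  · intro y hy hyn
    apply sub_le_iff_le_add.mpr
    apply max_le
    · have h0 : φ y = 0 := hy
      have h1 : φ (x + t • y) = 1 := by
        rw [map_add, map_smul, h0, hφx, hx]; simp
      have h2 : φ (x + t • y) ≤ ‖x + t • y‖ := by
        have := φ.le_opNorm (x + t • y)
        rw [hφ, one_mul, Real.norm_eq_abs] at this
        exact (le_abs_self _).trans this
      linarith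
    · have h1 : ‖t • y‖ ≤ ‖x + t • y‖ + ‖x‖ := by
        have h := norm_sub_le (x + t • y) x
        have h' : (x + t • y) - x = t • y := by abel
        rwa [h'] at h
      rw [norm_smul, hyn, Real.norm_eq_abs, abs_of_pos ht, hx] at h1
      linarith

end Main

end Crest.Agent.Lib.DaugavetL1Sub
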