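import Mathlib
import Crest.Prelude.Def_Diamond

/-!
Spaces with the strong midpoint property: the depth-`k` countably branching diamond needs distortion
`D` with `1 + k / 4 ≤ D ^ 2`.
-/

set_option autoImplicit false

namespace Crest.Agent.Lib.DiamondBound

open Crest.AnalysisR

/-- The strong midpoint property of a normed space. -/
def StrongMidpoint (V : Type*) [NormedAddCommGroup V] [NormedSpace ℝ V] : Prop :=
  ∀ x : V, ∀ ε : ℝ, 0 < ε → ∃ S : Submodule ℝ V, IsClosed (S : Set V) ∧
    FiniteDimensional ℝ (V ⧸ S) ∧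
      ∀ y ∈ S, Real.sqrt (‖x‖ ^ 2 + ‖y‖ ^ 2 / 4) - ε ≤ (‖x + y‖ + ‖x - y‖) / 2

section Graph

/-- Old vertices. -/
def vInl (k : ℕ) (u : DiamondVertex k) : DiamondVertex (k + 1) := Sum.inl u

/-- New vertices. -/
def vInr (k : ℕ) (e : DiamondEdge k) (i : ℕ) : DiamondVertex (k + 1) := Sum.inr (e, i)

/-- First half edge. -/
def eIn (k : ℕ) (e : DiamondEdge k) (i : ℕ) : DiamondEdge (k + 1) := (e, i, false)

/-- Second half edge. -/
def eOut (k : ℕ) (e : DiamondEdge k) (i : ℕ) : DiamondEdge (k + 1) := (e, i, true)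

@[simp] lemma src_eIn (k : ℕ) (e : DiamondEdge k) (i : ℕ) :
    diamondSrc (k + 1) (eIn k e i) = vInl k (diamondSrc k e) := rfl

@[simp] lemma tgt_eIn (k : ℕ) (e : DiamondEdge k) (i : ℕ) :
    diamondTgt (k + 1) (eIn k e i) = vInr k e i := rfl

@[simp] lemma src_eOut (k : ℕ) (e : DiamondEdge k) (i : ℕ) :
    diamondSrc (k + 1) (eOut k e i) = vInr k e i := rfl

@[simp] lemma tgt_eOut (k : ℕ) (e : DiamondEdge k) (i : ℕ) :
    diamondTgt (k + 1) (eOut k e i) = vInl k (diamondTgt k e) := rfl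

/-- Some edge. -/
def edge_default : (k : ℕ) → DiamondEdge k
  | 0 => ()
  | k + 1 => eIn k (edge_default k) 0

lemma edge_cases (k : ℕ) (e' : DiamondEdge (k + 1)) :
    (∃ e i, e' = eIn k e i) ∨ (∃ e i, e' = eOut k e i) := by
  obtain ⟨e, i, b⟩ := e'
  cases b
  · exact Or.inl ⟨e, i, rfl⟩
  · exact Or.inr ⟨e, i, rfl⟩

lemma vertex_cases (k : ℕ) (v : DiamondVertex (k + 1)) :
    (∃ u, v = vInl k u) ∨ (∃ e i, v = vInr k e i) := by
  rcases v with u | ⟨e, i⟩
  · exact Or.inl ⟨u, rfl⟩
  · exact Or.inr ⟨e, i, rfl⟩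

lemma vInl_ne_vInr (k : ℕ) (u : DiamondVertex k) (e : DiamondEdge k) (i : ℕ) :
    vInl k u ≠ vInr k e i := by
  intro h
  exact Sum.inl_ne_inr h

lemma src_ne_tgt : ∀ (k : ℕ) (e : DiamondEdge k), diamondSrc k e ≠ diamondTgt k e
  | 0, _ => by
    intro h
    exact Bool.noConfusion h
  | k + 1, e' => by
    rcases edge_cases k e' with ⟨e, i, rfl⟩ | ⟨e, i, rfl⟩
    · simpa using vInl_ne_vInr k _ e i
    · simpa using (vInl_ne_vInr k _ e i).symm

lemma adj_edge (k : ℕ) (e : DiamondEdge k) :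
    (diamondGraph k).Adj (diamondSrc k e) (diamondTgt k e) := by
  unfold diamondGraph
  rw [SimpleGraph.fromRel_adj]
  exact ⟨src_ne_tgt k e, Or.inl ⟨e, rfl, rfl⟩⟩

lemma adj_cases {k : ℕ} {u v : DiamondVertex k} (h : (diamondGraph k).Adj u v) :
    ∃ e, (diamondSrc k e = u ∧ diamondTgt k e = v) ∨ (diamondSrc k e = v ∧ diamondTgt k e = u) := by
  unfold diamondGraph at h
  rw [SimpleGraph.fromRel_adj] at h
  rcases h.2 with ⟨e, h1, h2⟩ | ⟨e, h1, h2⟩
  · exact ⟨e, Or.inl ⟨h1, h2⟩⟩
  · exact ⟨e, Or.inr ⟨h1, h2⟩⟩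

lemma reachable_lift {k : ℕ} {u v : DiamondVertex k} (h : (diamondGraph k).Reachable u v) :
    (diamondGraph (k + 1)).Reachable (vInl k u) (vInl k v) := by
  have hedge : ∀ e : DiamondEdge k, (diamondGraph (k + 1)).Reachable
      (vInl k (diamondSrc k e)) (vInl k (diamondTgt k e)) := by
    intro e
    have h1 := adj_edge (k + 1) (eIn k e 0)
    have h2 := adj_edge (k + 1) (eOut k e 0)
    simp only [src_eIn, tgt_eIn, src_eOut, tgt_eOut] at h1 h2
    exact h1.reachable.trans h2.reachable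
  obtain ⟨p⟩ := h
  induction p with
  | nil => exact SimpleGraph.Reachable.refl _
  | cons hadj p ih =>
    refine SimpleGraph.Reachable.trans ?_ ih
    obtain ⟨e, ⟨h1, h2⟩ | ⟨h1, h2⟩⟩ := adj_cases hadj
    · rw [← h1, ← h2]
      exact hedge e
    · rw [← h1, ← h2]
      exact (hedge e).symm

/-- The base point. -/
def root : (k : ℕ) → DiamondVertex k
  | 0 => false
  | k + 1 => vInl k (root k)

lemma reachable_root : ∀ (k : ℕ) (v : DiamondVertex k), (diamondGraph k).Reachable v (root k)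
  | 0, v => by
    have h1 := adj_edge 0 ()
    cases v with
    | false => exact SimpleGraph.Reachable.refl _
    | true => exact h1.reachable.symm
  | k + 1, v => by
    rcases vertex_cases k v with ⟨u, rfl⟩ | ⟨e, i, rfl⟩
    · exact reachable_lift (reachable_root k u)
    · have h1 := adj_edge (k + 1) (eIn k e i)
      simp only [src_eIn, tgt_eIn] at h1
      exact h1.reachable.symm.trans (reachable_lift (reachable_root k _))

lemma connected (k : ℕ) : (diamondGraph k).Connected := by
  haveI : Nonempty (DiamondVertex k) := ⟨root k⟩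
  exact ⟨fun a b => (reachable_root k a).trans (reachable_root k b).symm⟩

lemma dist_edge (k : ℕ) (e : DiamondEdge k) : diamondDist k (diamondTgt k e) (diamondSrc k e) = 1 :=
  SimpleGraph.dist_eq_one_iff_adj.mpr (adj_edge k e).symm

/-- A function with increments at most one along edges is `1`-Lipschitz. -/
lemma lipschitz_of_edges {k : ℕ} (ψ : DiamondVertex k → ℝ)
    (hψ : ∀ e, |ψ (diamondSrc k e) - ψ (diamondTgt k e)| ≤ 1) (u v : DiamondVertex k) :
    |ψ u - ψ v| ≤ diamondDist k u v := by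
  obtain ⟨p, hp⟩ := (connected k).exists_walk_length_eq_dist u v
  have hwalk : ∀ {a b : DiamondVertex k} (q : (diamondGraph k).Walk a b),
      |ψ a - ψ b| ≤ q.length := by
    intro a b q
    induction q with
    | nil => simp
    | @cons a c b hadj q ih =>
      have h1 : |ψ a - ψ c| ≤ 1 := by
        obtain ⟨e, ⟨h1, h2⟩ | ⟨h1, h2⟩⟩ := adj_cases hadj
        · rw [← h1, ← h2]
          exact hψ e
        · rw [← h1, ← h2, abs_sub_comm]
          exact hψ e
      have h2 : |ψ a - ψ b| ≤ |ψ a - ψ c| + |ψ c - ψ b| := abs_sub_le _ _ _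
      simp only [SimpleGraph.Walk.length_cons]
      push_cast
      linarith
  have := hwalk p
  rw [hp] at this
  exact this

/-- The distance is `1`-Lipschitz along edges. -/
lemma dist_edge_lip (k : ℕ) (u : DiamondVertex k) (e : DiamondEdge k) :
    |(diamondDist k u (diamondSrc k e) : ℝ) - (diamondDist k u (diamondTgt k e) : ℝ)| ≤ 1 := by
  have h1 : (diamondGraph k).dist u (diamondSrc k e) ≤
      (diamondGraph k).dist u (diamondTgt k e) + (diamondGraph k).dist (diamondTgt k e) (diamondSrc k e) :=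
    (connected k).dist_triangle
  have h2 : (diamondGraph k).dist u (diamondTgt k e) ≤
      (diamondGraph k).dist u (diamondSrc k e) + (diamondGraph k).dist (diamondSrc k e) (diamondTgt k e) :=
    (connected k).dist_triangle
  have h3 : (diamondGraph k).dist (diamondTgt k e) (diamondSrc k e) = 1 := dist_edge k e
  have h4 : (diamondGraph k).dist (diamondSrc k e) (diamondTgt k e) = 1 :=
    SimpleGraph.dist_eq_one_iff_adj.mpr (adj_edge k e)
  rw [h3] at h1
  rw [h4] at h2
  have h1' : ((diamondGraph k).dist u (diamondSrc k e) : ℝ) ≤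
      (diamondGraph k).dist u (diamondTgt k e) + 1 := by exact_mod_cast h1
  have h2' : ((diamondGraph k).dist u (diamondTgt k e) : ℝ) ≤
      (diamondGraph k).dist u (diamondSrc k e) + 1 := by exact_mod_cast h2
  rw [abs_le]
  unfold diamondDist
  constructor <;> linarith

/-- Subdividing doubles distances between old vertices (lower bound). -/
lemma two_dist_le (k : ℕ) (u v : DiamondVertex k) :
    2 * (diamondDist k u v : ℝ) ≤ diamondDist (k + 1) (vInl k u) (vInl k v) := by
  set ψ : DiamondVertex k → ℝ := fun w => (diamondDist k u w : ℝ) with hψ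
  set ψ' : DiamondVertex (k + 1) → ℝ :=
    Sum.elim (fun w => 2 * ψ w) (fun p => ψ (diamondSrc k p.1) + ψ (diamondTgt k p.1)) with hψ'
  have hlip : ∀ e', |ψ' (diamondSrc (k + 1) e') - ψ' (diamondTgt (k + 1) e')| ≤ 1 := by
    intro e'
    have hb := fun e => dist_edge_lip k u e
    rcases edge_cases k e' with ⟨e, i, rfl⟩ | ⟨e, i, rfl⟩
    · simp only [src_eIn, tgt_eIn]
      have h1 : ψ' (vInl k (diamondSrc k e)) = 2 * ψ (diamondSrc k e) := rfl
      have h2 : ψ' (vInr k e i) = ψ (diamondSrc k e) + ψ (diamondTgt k e) := rfl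
      rw [h1, h2]
      have := hb e
      have h3 : 2 * ψ (diamondSrc k e) - (ψ (diamondSrc k e) + ψ (diamondTgt k e)) =
          (diamondDist k u (diamondSrc k e) : ℝ) - (diamondDist k u (diamondTgt k e) : ℝ) := by
        simp only [hψ]
        ring
      rw [h3]
      exact this
    · simp only [src_eOut, tgt_eOut]
      have h1 : ψ' (vInl k (diamondTgt k e)) = 2 * ψ (diamondTgt k e) := rfl
      have h2 : ψ' (vInr k e i) = ψ (diamondSrc k e) + ψ (diamondTgt k e) := rfl
      rw [h1, h2]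
      have := hb e
      have h3 : (ψ (diamondSrc k e) + ψ (diamondTgt k e)) - 2 * ψ (diamondTgt k e) =
          (diamondDist k u (diamondSrc k e) : ℝ) - (diamondDist k u (diamondTgt k e) : ℝ) := by
        simp only [hψ]
        ring
      rw [h3]
      exact this
  have h := lipschitz_of_edges ψ' hlip (vInl k u) (vInl k v)
  have h1 : ψ' (vInl k u) = 2 * ψ u := rfl
  have h2 : ψ' (vInl k v) = 2 * ψ v := rfl
  rw [h1, h2] at h
  have h3 : ψ u = 0 := by
    simp [hψ, diamondDist]
  have h4 : ψ v = diamondDist k u v := rfl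
  rw [h3, h4] at h
  have h5 : |2 * (0 : ℝ) - 2 * (diamondDist k u v : ℝ)| = 2 * (diamondDist k u v : ℝ) := by
    rw [mul_zero, zero_sub, abs_neg, abs_of_nonneg]
    positivity
  rw [h5] at h
  exact h

/-- Distinct middle vertices of the same edge are at distance at least two. -/
lemma two_le_dist_mid (k : ℕ) (e : DiamondEdge k) {i j : ℕ} (hij : i ≠ j) :
    (2 : ℝ) ≤ diamondDist (k + 1) (vInr k e i) (vInr k e j) := by
  classical
  set ψ' : DiamondVertex (k + 1) → ℝ :=
    Sum.elim (fun _ => 0) (fun p => if p = (e, i) then 1 else if p = (e, j) then -1 else 0) with hψ'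
  have hbd : ∀ (e₁ : DiamondEdge k) (i₁ : ℕ), |ψ' (vInr k e₁ i₁)| ≤ 1 := by
    intro e₁ i₁
    change |(if (e₁, i₁) = (e, i) then (1 : ℝ) else if (e₁, i₁) = (e, j) then -1 else 0)| ≤ 1
    split_ifs <;> simp
  have hlip : ∀ e', |ψ' (diamondSrc (k + 1) e') - ψ' (diamondTgt (k + 1) e')| ≤ 1 := by
    intro e'
    have hz : ∀ u, ψ' (vInl k u) = 0 := fun _ => rfl
    rcases edge_cases k e' with ⟨e₁, i₁, rfl⟩ | ⟨e₁, i₁, rfl⟩
    · simp only [src_eIn, tgt_eIn, hz, zero_sub, abs_neg]
      exact hbd _ _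
    · simp only [src_eOut, tgt_eOut, hz, sub_zero]
      exact hbd _ _
  have h := lipschitz_of_edges ψ' hlip (vInr k e i) (vInr k e j)
  have h1 : ψ' (vInr k e i) = 1 := by
    change (if (e, i) = (e, i) then (1 : ℝ) else if (e, i) = (e, j) then -1 else 0) = 1
    simp
  have h2 : ψ' (vInr k e j) = -1 := by
    change (if (e, j) = (e, i) then (1 : ℝ) else if (e, j) = (e, j) then -1 else 0) = -1
    have : (e, j) ≠ (e, i) := fun h => hij (Prod.ext_iff.mp h).2.symm
    simp [this]
  rw [h1, h2] at h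
  have h3 : |(1 : ℝ) - -1| = 2 := by norm_num
  rw [h3] at h
  exact h

end Graph

section Pigeonhole

variable {V : Type*} [NormedAddCommGroup V] [NormedSpace ℝ V]

/-- Two terms of a bounded sequence differ by an element close to a closed
finite-codimensional subspace. -/
lemma exists_pair_close (S : Submodule ℝ V) (hS : IsClosed (S : Set V))
    (hfin : FiniteDimensional ℝ (V ⧸ S)) (m : ℕ → V) (C : ℝ) (hm : ∀ i, ‖m i‖ ≤ C) {ε : ℝ}
    (hε : 0 < ε) :
    ∃ i j, i ≠ j ∧ ∃ y ∈ S, ‖(1 / 2 : ℝ) • (m j - m i) - y‖ < ε := by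
  haveI : IsClosed (S : Set V) := hS
  haveI : ProperSpace (V ⧸ S) := FiniteDimensional.proper_real _
  set π : V →L[ℝ] (V ⧸ S) := S.mkQL with hπ
  have hbd : ∀ i, π (m i) ∈ Metric.closedBall (0 : V ⧸ S) C := by
    intro i
    rw [mem_closedBall_zero_iff]
    exact (Submodule.Quotient.norm_mk_le S (m i)).trans (hm i)
  obtain ⟨a, _, φ, hφ, hlim⟩ := tendsto_subseq_of_bounded Metric.isBounded_closedBall hbd
  have hcauchy := hlim.cauchySeq
  rw [Metric.cauchySeq_iff] at hcauchy
  obtain ⟨N, hN⟩ := hcauchy ε hε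
  have hdist := hN (N + 1) (by omega) N le_rfl
  refine ⟨φ N, φ (N + 1), (hφ (Nat.lt_succ_self N)).ne, ?_⟩
  have h1 : ‖π (m (φ (N + 1))) - π (m (φ N))‖ < ε := by
    rw [← dist_eq_norm]
    exact hdist
  set w : V := (1 / 2 : ℝ) • (m (φ (N + 1)) - m (φ N)) with hw
  have h2 : ‖π w‖ ≤ (1 / 2) * ε := by
    have : π w = (1 / 2 : ℝ) • (π (m (φ (N + 1))) - π (m (φ N))) := by
      rw [hw, map_smul, map_sub]
    rw [this, norm_smul]
    have h3 : ‖(1 / 2 : ℝ)‖ = 1 / 2 := by norm_num
    rw [h3]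
    linarith
  obtain ⟨r, hr, hrn⟩ := Submodule.Quotient.norm_mk_lt (S := S) (π w) (ε := ε / 2) (by positivity)
  have hy : w - r ∈ S := by
    have h4 : Submodule.Quotient.mk w = Submodule.Quotient.mk r := hr.symm
    exact (Submodule.Quotient.eq S).mp h4
  refine ⟨w - r, hy, ?_⟩
  have h5 : w - (w - r) = r := by abel
  rw [h5]
  linarith

end Pigeonhole

section Main

variable {V : Type*} [NormedAddCommGroup V] [NormedSpace ℝ V]

/-- The key induction. -/
theorem key (hV : StrongMidpoint V) : ∀ (k : ℕ) (f : DiamondVertex k → V) (s C : ℝ), 0 < s →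
    (∀ u v, s * (diamondDist k u v : ℝ) ≤ ‖f u - f v‖) →
    (∀ e, ‖f (diamondTgt k e) - f (diamondSrc k e)‖ ≤ C) →
    ∀ δ : ℝ, 0 < δ → ∃ e, s ^ 2 * (1 + (k : ℝ) / 4 - δ) ≤ ‖f (diamondTgt k e) - f (diamondSrc k e)‖ ^ 2 := by
  intro k
  induction k with
  | zero =>
    intro f s C hs hlow _ δ hδ
    refine ⟨(), ?_⟩
    have h1 := hlow (diamondTgt 0 ()) (diamondSrc 0 ())
    rw [dist_edge, Nat.cast_one, mul_one] at h1
    have h2 : s ^ 2 ≤ ‖f (diamondTgt 0 ()) - f (diamondSrc 0 ())‖ ^ 2 := by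
      apply pow_le_pow_left₀ hs.le h1
    have h3 : 0 < s ^ 2 := by positivity
    have h4 : s ^ 2 * (1 + ((0 : ℕ) : ℝ) / 4 - δ) ≤ s ^ 2 := by
      have : (1 + ((0 : ℕ) : ℝ) / 4 - δ) ≤ 1 := by
        simp only [Nat.cast_zero, zero_div, add_zero]
        linarith
      nlinarith
    linarith
  | succ k ih =>
    intro f s C hs hlow hup δ hδ
    set T : ℝ := s ^ 2 * (1 + ((k + 1 : ℕ) : ℝ) / 4 - δ) with hT
    by_contra hne
    push Not at hne
    have hT0 : 0 < T := by
      by_contra hle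
      push Not at hle
      have := hne (edge_default (k + 1))
      have h0 := sq_nonneg ‖f (diamondTgt (k + 1) (edge_default (k + 1))) -
        f (diamondSrc (k + 1) (edge_default (k + 1)))‖
      linarith
    set a : ℝ := Real.sqrt T with ha
    have ha0 : 0 < a := Real.sqrt_pos.mpr hT0
    have haT : a ^ 2 = T := Real.sq_sqrt hT0.le
    -- edges are short
    have hshort : ∀ e', ‖f (diamondTgt (k + 1) e') - f (diamondSrc (k + 1) e')‖ < a := by
      intro e'
      have := hne e'
      exact lt_of_pow_lt_pow_left₀ 2 ha0.le (by rw [haT]; exact this)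
    -- the coarse map
    set g : DiamondVertex k → V := fun u => f (vInl k u) with hg
    have hglow : ∀ u v, (2 * s) * (diamondDist k u v : ℝ) ≤ ‖g u - g v‖ := by
      intro u v
      have h1 := hlow (vInl k u) (vInl k v)
      have h2 := two_dist_le k u v
      calc (2 * s) * (diamondDist k u v : ℝ) = s * (2 * (diamondDist k u v : ℝ)) := by ring
        _ ≤ s * (diamondDist (k + 1) (vInl k u) (vInl k v) : ℝ) := by gcongr
        _ ≤ _ := h1
    have hgup : ∀ e, ‖g (diamondTgt k e) - g (diamondSrc k e)‖ ≤ 2 * C := by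
      intro e
      have h1 := hup (eOut k e 0)
      have h2 := hup (eIn k e 0)
      simp only [src_eIn, tgt_eIn, src_eOut, tgt_eOut] at h1 h2
      have h3 : g (diamondTgt k e) - g (diamondSrc k e) =
          (f (vInl k (diamondTgt k e)) - f (vInr k e 0)) +
            (f (vInr k e 0) - f (vInl k (diamondSrc k e))) := by
        simp only [hg]
        abel
      rw [h3]
      refine (norm_add_le _ _).trans ?_
      linarith
    obtain ⟨e, he⟩ := ih g (2 * s) (2 * C) (by positivity) hglow hgup (δ / 2) (by positivity)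
    set p : V := g (diamondSrc k e) with hp
    set q : V := g (diamondTgt k e) with hq
    set x : V := (1 / 2 : ℝ) • (q - p) with hx
    have hxn : ‖x‖ = (1 / 2) * ‖q - p‖ := by
      rw [hx, norm_smul]
      norm_num
    have hxsq : s ^ 2 * (1 + (k : ℝ) / 4 - δ / 2) ≤ ‖x‖ ^ 2 := by
      rw [hxn]
      nlinarith
    -- parameters
    set B : ℝ := s / 2 + 4 * a + 4 * s with hB
    have hBpos : 0 < B := by positivity
    set ε : ℝ := min s (s ^ 2 * δ / 2 / B) with hε
    have hεpos : 0 < ε := lt_min hs (by positivity)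
    have hεs : ε ≤ s := min_le_left _ _
    have hεB : ε * B ≤ s ^ 2 * δ / 2 := by
      have : ε ≤ s ^ 2 * δ / 2 / B := min_le_right _ _
      rwa [le_div_iff₀ hBpos] at this
    obtain ⟨S, hSc, hSf, hS⟩ := hV x ε hεpos
    -- middle vertices
    set m : ℕ → V := fun i => f (vInr k e i) with hm
    have hmbd : ∀ i, ‖m i‖ ≤ C + ‖p‖ := by
      intro i
      have h1 := hup (eIn k e i)
      simp only [src_eIn, tgt_eIn] at h1
      have h2 : m i = (f (vInr k e i) - f (vInl k (diamondSrc k e))) + p := by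
        simp only [hp, hg]
        abel
      rw [h2]
      refine (norm_add_le _ _).trans ?_
      linarith
    obtain ⟨i, j, hij, y', hy', hyclose⟩ := exists_pair_close S hSc hSf m _ hmbd hεpos
    set y : V := (1 / 2 : ℝ) • (m j - m i) with hy
    -- `y` is long
    have hyn : s ≤ ‖y‖ := by
      have h1 := hlow (vInr k e j) (vInr k e i)
      have h2 := two_le_dist_mid k e hij.symm
      have h3 : s * 2 ≤ ‖m j - m i‖ := by
        calc s * 2 ≤ s * (diamondDist (k + 1) (vInr k e j) (vInr k e i) : ℝ) := by gcongr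
          _ ≤ _ := h1
      rw [hy, norm_smul]
      have h4 : ‖(1 / 2 : ℝ)‖ = 1 / 2 := by norm_num
      rw [h4]
      linarith
    have hy'n : s - ε ≤ ‖y'‖ := by
      have h1 : ‖y‖ ≤ ‖y - y'‖ + ‖y'‖ := by
        have := norm_add_le (y - y') y'
        simpa using this
      linarith
    -- midpoints
    have hplus : ‖x + y‖ < a := by
      have h1 := hshort (eOut k e i)
      have h2 := hshort (eIn k e j)
      simp only [src_eIn, tgt_eIn, src_eOut, tgt_eOut] at h1 h2
      have h3 : x + y = (1 / 2 : ℝ) • ((f (vInl k (diamondTgt k e)) - f (vInr k e i)) +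
          (f (vInr k e j) - f (vInl k (diamondSrc k e)))) := by
        simp only [hx, hy, hp, hq, hg, hm, smul_add, smul_sub]
        abel
      rw [h3, norm_smul]
      have h4 : ‖(1 / 2 : ℝ)‖ = 1 / 2 := by norm_num
      rw [h4]
      have h5 := norm_add_le (f (vInl k (diamondTgt k e)) - f (vInr k e i))
        (f (vInr k e j) - f (vInl k (diamondSrc k e)))
      linarith
    have hminus : ‖x - y‖ < a := by
      have h1 := hshort (eOut k e j)
      have h2 := hshort (eIn k e i)
      simp only [src_eIn, tgt_eIn, src_eOut, tgt_eOut] at h1 h2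
      have h3 : x - y = (1 / 2 : ℝ) • ((f (vInl k (diamondTgt k e)) - f (vInr k e j)) +
          (f (vInr k e i) - f (vInl k (diamondSrc k e)))) := by
        simp only [hx, hy, hp, hq, hg, hm, smul_add, smul_sub]
        abel
      rw [h3, norm_smul]
      have h4 : ‖(1 / 2 : ℝ)‖ = 1 / 2 := by norm_num
      rw [h4]
      have h5 := norm_add_le (f (vInl k (diamondTgt k e)) - f (vInr k e j))
        (f (vInr k e i) - f (vInl k (diamondSrc k e)))
      linarith
    have hplus' : ‖x + y'‖ ≤ ‖x + y‖ + ε := by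
      have h1 : x + y' = (x + y) - (y - y') := by abel
      rw [h1]
      refine (norm_sub_le _ _).trans ?_
      linarith
    have hminus' : ‖x - y'‖ ≤ ‖x - y‖ + ε := by
      have h1 : x - y' = (x - y) + (y - y') := by abel
      rw [h1]
      refine (norm_add_le _ _).trans ?_
      linarith
    have hmid := hS y' hy'
    -- the lower bound of the square root
    have hsq : (a + 2 * ε) ^ 2 ≤ ‖x‖ ^ 2 + ‖y'‖ ^ 2 / 4 := by
      have h1 : (s - ε) ^ 2 ≤ ‖y'‖ ^ 2 := pow_le_pow_left₀ (by linarith) hy'n 2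
      have h2 : a ^ 2 = s ^ 2 * (1 + (k : ℝ) / 4 + 1 / 4 - δ) := by
        rw [haT, hT]
        push_cast
        ring
      have h3 : ε * (4 * a + 4 * ε + s / 2) ≤ s ^ 2 * δ / 2 := by
        have : ε * (4 * a + 4 * ε + s / 2) ≤ ε * B := by
          apply mul_le_mul_of_nonneg_left _ hεpos.le
          simp only [hB]
          linarith
        linarith
      nlinarith
    have hroot : a + 2 * ε ≤ Real.sqrt (‖x‖ ^ 2 + ‖y'‖ ^ 2 / 4) := Real.le_sqrt_of_sq_le hsq
    linarith

/-- The diamond bound. -/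
theorem diamond_bound (h : StrongMidpoint V) (k : ℕ) (f : DiamondVertex k → V) (D s : ℝ) (hs : 0 < s)
    (hf : ∀ u v, s * (diamondDist k u v : ℝ) ≤ ‖f u - f v‖ ∧
      ‖f u - f v‖ ≤ D * s * (diamondDist k u v : ℝ)) : 1 + (k : ℝ) / 4 ≤ D ^ 2 := by
  have hup : ∀ e, ‖f (diamondTgt k e) - f (diamondSrc k e)‖ ≤ D * s := by
    intro e
    have := (hf (diamondTgt k e) (diamondSrc k e)).2
    rw [dist_edge, Nat.cast_one, mul_one] at this
    exact this
  apply le_of_forall_pos_le_add
  intro δ hδ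
  obtain ⟨e, he⟩ := key h k f s (D * s) hs (fun u v => (hf u v).1) hup δ hδ
  have h1 := hup e
  have h2 : ‖f (diamondTgt k e) - f (diamondSrc k e)‖ ^ 2 ≤ (D * s) ^ 2 :=
    pow_le_pow_left₀ (norm_nonneg _) h1 2
  have h3 : s ^ 2 * (1 + (k : ℝ) / 4 - δ) ≤ s ^ 2 * D ^ 2 := by
    calc _ ≤ _ := he
      _ ≤ (D * s) ^ 2 := h2
      _ = _ := by ring
  have h4 := le_of_mul_le_mul_left h3 (by positivity)
  linarith

end Main

end Crest.Agent.Lib.DiamondBound
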