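import Crest.Agent.Lib.GasCoreDefs
import Crest.Agent.Lib.GasCoreStab
import Crest.Agent.Lib.GasCoreBase
import Crest.Agent.Lib.GasCoreRep
import Crest.Agent.Lib.GasCoreTest

/-!
# The core of the potential: stability and base estimates (row 149)

Re-exports the parts: `GasCoreDefs` (`CoreHyp`, `sideS`, `jj`, `adm_core`), `GasCoreStab`
(`superstable`, `adm_pot`, `fe_pot_le`), `GasCoreBase` (`fe_base_steep`, `fe_base_quad`),
`GasCoreRep` (`fe_base_rep`), `GasCoreTest` (`fe_base_test_L`, `fe_base_test_S`).
-/
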