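import Mathlib

/-!
The `ℓ²`-sum of a sequence of reflexive normed spaces is reflexive; the `ℓ²`-sum of separable normed
spaces is separable.
-/

set_option autoImplicit false

namespace Crest.Agent.Lib.LpSumReflexive

open scoped ENNReal
open Filter Topology

variable {X : ℕ → Type*} [∀ h, NormedAddCommGroup (X h)]

lemma sum_sq_le (z : lp X 2) (A : Finset ℕ) : ∑ h ∈ A, ‖z h‖ ^ 2 ≤ ‖z‖ ^ 2 := by
  have := lp.sum_rpow_le_norm_rpow (p := 2) (by norm_num) z A
  simpa using this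

/-- A nonnegative quantity bounded by `K √c`. -/
lemma le_sq_of_le_mul_sqrt {c K : ℝ} (hc : 0 ≤ c) (hK : 0 ≤ K) (h : c ≤ K * Real.sqrt c) :
    c ≤ K ^ 2 := by
  have hr := Real.sq_sqrt hc
  have hr0 := Real.sqrt_nonneg c
  rcases hr0.eq_or_lt with h0 | hpos
  · rw [← h0] at hr
    nlinarith
  · have h' : Real.sqrt c ^ 2 ≤ K * Real.sqrt c := by rw [hr]; exact h
    have : Real.sqrt c ≤ K := by nlinarith
    rw [← hr]
    exact pow_le_pow_left₀ hr0 this 2

variable [∀ h, NormedSpace ℝ (X h)]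

/-- The coordinate map. -/
noncomputable def coordCLM (h : ℕ) : lp X 2 →L[ℝ] X h :=
  LinearMap.mkContinuous
    { toFun := fun z => z h
      map_add' := fun a b => rfl
      map_smul' := fun c a => rfl } 1
    (fun z => by
      rw [one_mul]
      exact lp.norm_apply_le_norm (by norm_num) z h)

@[simp] lemma coordCLM_apply (h : ℕ) (z : lp X 2) : coordCLM h z = z h := rfl

/-- The inclusion of a coordinate. -/
noncomputable def singleCLM (h : ℕ) : X h →L[ℝ] lp X 2 :=
  LinearMap.mkContinuous (lp.lsingle (𝕜 := ℝ) (E := X) 2 h) 1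
    (fun z => by
      rw [one_mul]
      exact (lp.norm_single (by norm_num) h z).le)

@[simp] lemma singleCLM_apply (h : ℕ) (w : X h) : singleCLM h w = lp.single 2 h w := rfl

/-- Elementary norm bound for finite sums of singles. -/
lemma norm_sum_single_le (A : Finset ℕ) (w : ∀ h, X h) :
    ‖∑ h ∈ A, lp.single 2 h (w h)‖ ≤ Real.sqrt (∑ h ∈ A, ‖w h‖ ^ 2) := by
  have hc : 0 ≤ ∑ h ∈ A, ‖w h‖ ^ 2 := Finset.sum_nonneg fun _ _ => by positivity
  apply lp.norm_le_of_forall_sum_le (p := 2) (by norm_num) (Real.sqrt_nonneg _)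
  intro s
  simp only [ENNReal.toReal_ofNat, Real.rpow_two]
  rw [Real.sq_sqrt hc]
  have hcoord : ∀ j, (∑ h ∈ A, lp.single 2 h (w h) : lp X 2) j = if j ∈ A then w j else 0 := by
    intro j
    rw [lp.coeFn_sum, Finset.sum_apply]
    simp only [lp.coeFn_single]
    rw [Finset.sum_pi_single]
  have h1 : ∑ j ∈ s, ‖(∑ h ∈ A, lp.single 2 h (w h) : lp X 2) j‖ ^ 2 =
      ∑ j ∈ s ∩ A, ‖w j‖ ^ 2 := by
    rw [← Finset.sum_filter_add_sum_filter_not s (fun j => j ∈ A)]
    have h2 : ∑ j ∈ s.filter (fun j => j ∉ A),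
        ‖(∑ h ∈ A, lp.single 2 h (w h) : lp X 2) j‖ ^ 2 = 0 := by
      apply Finset.sum_eq_zero
      intro j hj
      have hjA := (Finset.mem_filter.mp hj).2
      rw [hcoord, if_neg hjA]
      simp
    rw [h2, add_zero, Finset.filter_mem_eq_inter]
    apply Finset.sum_congr rfl
    intro j hj
    rw [hcoord, if_pos (Finset.mem_inter.mp hj).2]
  rw [h1]
  exact Finset.sum_le_sum_of_subset_of_nonneg Finset.inter_subset_right
    (fun _ _ _ => by positivity)

/-- Cauchy-Schwarz bound for finite sums of coordinate functionals. -/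
lemma norm_sum_comp_coord_le (A : Finset ℕ) (φ : ∀ h, StrongDual ℝ (X h)) :
    ‖∑ h ∈ A, (φ h).comp (coordCLM h)‖ ≤ Real.sqrt (∑ h ∈ A, ‖φ h‖ ^ 2) := by
  apply ContinuousLinearMap.opNorm_le_bound _ (Real.sqrt_nonneg _)
  intro z
  rw [ContinuousLinearMap.sum_apply, Real.norm_eq_abs]
  have h1 : |∑ h ∈ A, ((φ h).comp (coordCLM h)) z| ≤ ∑ h ∈ A, ‖φ h‖ * ‖z h‖ := by
    refine (Finset.abs_sum_le_sum_abs _ _).trans (Finset.sum_le_sum fun h _ => ?_)
    have := (φ h).le_opNorm (z h)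
    rwa [Real.norm_eq_abs] at this
  refine h1.trans ?_
  have h2 : ∑ h ∈ A, ‖φ h‖ * ‖z h‖ ≤
      Real.sqrt (∑ h ∈ A, ‖φ h‖ ^ 2) * Real.sqrt (∑ h ∈ A, ‖z h‖ ^ 2) :=
    Real.sum_mul_le_sqrt_mul_sqrt _ _ _
  refine h2.trans ?_
  apply mul_le_mul_of_nonneg_left _ (Real.sqrt_nonneg _)
  have := sum_sq_le z A
  exact Real.sqrt_le_iff.mpr ⟨norm_nonneg _, this⟩

/-- The square sum of the components of a functional. -/
lemma sum_norm_comp_single_sq_le (ψ : StrongDual ℝ (lp X 2)) (A : Finset ℕ) :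
    ∑ h ∈ A, ‖ψ.comp (singleCLM h)‖ ^ 2 ≤ ‖ψ‖ ^ 2 := by
  set c : ℝ := ∑ h ∈ A, ‖ψ.comp (singleCLM h)‖ ^ 2 with hc
  have hc0 : 0 ≤ c := Finset.sum_nonneg fun _ _ => by positivity
  apply le_sq_of_le_mul_sqrt hc0 (norm_nonneg _)
  set S : ℝ := ∑ h ∈ A, ‖ψ.comp (singleCLM h)‖ with hS
  have hS0 : 0 ≤ S := Finset.sum_nonneg fun _ _ => norm_nonneg _
  apply le_of_forall_pos_le_add
  intro ε' hε'
  set ε : ℝ := ε' / (S + 1) with hε
  have hεpos : 0 < ε := by positivity
  have hεS : ε * S ≤ ε' := by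
    rw [hε, div_mul_eq_mul_div, div_le_iff₀ (by positivity)]
    nlinarith
  -- almost norming vectors
  have hex : ∀ h, ∃ u : X h, ‖u‖ ≤ 1 ∧ ‖ψ.comp (singleCLM h)‖ - ε ≤ (ψ.comp (singleCLM h)) u := by
    intro h
    have hlt : ‖ψ.comp (singleCLM h)‖ - ε < ‖ψ.comp (singleCLM h)‖ := by linarith
    obtain ⟨u, hu, hlt'⟩ := (ψ.comp (singleCLM h)).exists_lt_apply_of_lt_opNorm hlt
    rw [Real.norm_eq_abs] at hlt'
    rcases abs_cases ((ψ.comp (singleCLM h)) u) with ⟨h1, _⟩ | ⟨h1, _⟩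
    · exact ⟨u, hu.le, by rw [h1] at hlt'; exact hlt'.le⟩
    · refine ⟨-u, by simpa using hu.le, ?_⟩
      rw [map_neg]
      rw [h1] at hlt'
      exact hlt'.le
  choose u hu1 hu2 using hex
  set w : ∀ h, X h := fun h => ‖ψ.comp (singleCLM h)‖ • u h with hw
  set z : lp X 2 := ∑ h ∈ A, lp.single 2 h (w h) with hz
  have hzn : ‖z‖ ≤ Real.sqrt c := by
    refine (norm_sum_single_le A w).trans (Real.sqrt_le_sqrt ?_)
    apply Finset.sum_le_sum
    intro h _
    apply pow_le_pow_left₀ (norm_nonneg _)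
    rw [hw]
    simp only [norm_smul, norm_norm]
    exact mul_le_of_le_one_right (norm_nonneg _) (hu1 h)
  have hψz : ψ z = ∑ h ∈ A, ‖ψ.comp (singleCLM h)‖ * (ψ.comp (singleCLM h)) (u h) := by
    rw [hz, map_sum]
    apply Finset.sum_congr rfl
    intro h _
    have : lp.single 2 h (w h) = singleCLM h (w h) := rfl
    rw [this, hw]
    simp only [map_smul, smul_eq_mul, ContinuousLinearMap.comp_apply]
  have hlow : c - ε * S ≤ ψ z := by
    rw [hψz, hc, hS, Finset.mul_sum, ← Finset.sum_sub_distrib]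
    apply Finset.sum_le_sum
    intro h _
    have := hu2 h
    have h0 := norm_nonneg (ψ.comp (singleCLM h))
    nlinarith
  have hup : ψ z ≤ ‖ψ‖ * Real.sqrt c := by
    calc ψ z ≤ |ψ z| := le_abs_self _
      _ ≤ ‖ψ‖ * ‖z‖ := by
          have := ψ.le_opNorm z
          rwa [Real.norm_eq_abs] at this
      _ ≤ ‖ψ‖ * Real.sqrt c := by gcongr
  linarith

/-- The functional is the sum of its components. -/
lemma hasSum_apply (ψ : StrongDual ℝ (lp X 2)) (z : lp X 2) :
    HasSum (fun h => (ψ.comp (singleCLM h)) (z h)) (ψ z) :=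
  ψ.hasSum (lp.hasSum_single (by norm_num) z)

/-- Finite truncations of a functional converge in norm. -/
lemma tendsto_trunc (ψ : StrongDual ℝ (lp X 2)) :
    Tendsto (fun A : Finset ℕ => ∑ h ∈ A, (ψ.comp (singleCLM h)).comp (coordCLM h)) atTop (𝓝 ψ) := by
  have hsummable : Summable (fun h => ‖ψ.comp (singleCLM h)‖ ^ 2) := by
    apply summable_of_sum_le (c := ‖ψ‖ ^ 2) (fun _ => by positivity)
    exact sum_norm_comp_single_sq_le ψ
  rw [Metric.tendsto_atTop]
  intro ε hε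
  obtain ⟨A₀, hA₀⟩ := summable_iff_vanishing_norm.mp hsummable ((ε / 2) ^ 2) (by positivity)
  refine ⟨A₀, fun A hA => ?_⟩
  rw [dist_eq_norm]
  have hbound : ‖∑ h ∈ A, (ψ.comp (singleCLM h)).comp (coordCLM h) - ψ‖ ≤ ε / 2 := by
    apply ContinuousLinearMap.opNorm_le_bound _ (by positivity)
    intro z
    -- partial sums
    have hts : Tendsto (fun B : Finset ℕ => ∑ h ∈ B, (ψ.comp (singleCLM h)) (z h)) atTop
        (𝓝 (ψ z)) := by
      have := hasSum_apply ψ z
      rwa [HasSum, SummationFilter.unconditional_filter] at this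
    have hlim2 : Tendsto (fun B : Finset ℕ => ∑ h ∈ B, (ψ.comp (singleCLM h)) (z h) -
        ∑ h ∈ A, (ψ.comp (singleCLM h)) (z h)) atTop
        (𝓝 (ψ z - ∑ h ∈ A, (ψ.comp (singleCLM h)) (z h))) :=
      hts.sub tendsto_const_nhds
    have hev : ∀ᶠ B : Finset ℕ in atTop, |∑ h ∈ B, (ψ.comp (singleCLM h)) (z h) -
        ∑ h ∈ A, (ψ.comp (singleCLM h)) (z h)| ≤ ε / 2 * ‖z‖ := by
      filter_upwards [eventually_ge_atTop A] with B hB
      have hdiff : ∑ h ∈ B, (ψ.comp (singleCLM h)) (z h) -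
          ∑ h ∈ A, (ψ.comp (singleCLM h)) (z h) =
          (∑ h ∈ B \ A, (ψ.comp (singleCLM h)).comp (coordCLM h)) z := by
        rw [← Finset.sum_sdiff hB, add_sub_cancel_right, ContinuousLinearMap.sum_apply]
        rfl
      rw [hdiff]
      have h1 := ContinuousLinearMap.le_opNorm
        (∑ h ∈ B \ A, (ψ.comp (singleCLM h)).comp (coordCLM h)) z
      rw [Real.norm_eq_abs] at h1
      refine h1.trans ?_
      apply mul_le_mul_of_nonneg_right _ (norm_nonneg _)
      refine (norm_sum_comp_coord_le (B \ A) (fun h => ψ.comp (singleCLM h))).trans ?_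
      apply Real.sqrt_le_iff.mpr ⟨by positivity, ?_⟩
      have hdisj : Disjoint (B \ A) A₀ :=
        Finset.disjoint_of_subset_right hA Finset.sdiff_disjoint
      have := hA₀ (B \ A) hdisj
      rw [Real.norm_eq_abs] at this
      exact (le_abs_self _).trans this.le
    have hfinal := le_of_tendsto hlim2.abs hev
    rw [← norm_neg, Real.norm_eq_abs]
    have heq : -(∑ h ∈ A, (ψ.comp (singleCLM h)).comp (coordCLM h) - ψ) z =
        ψ z - ∑ h ∈ A, (ψ.comp (singleCLM h)) (z h) := by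
      simp only [ContinuousLinearMap.neg_apply, ContinuousLinearMap.sub_apply,
        ContinuousLinearMap.sum_apply, neg_sub]
      rfl
    rw [heq]
    exact hfinal
  linarith

/-- Reflexivity of the `ℓ²`-sum. -/
theorem lp_two_reflexive
    (hX : ∀ h, Function.Surjective (NormedSpace.inclusionInDoubleDual ℝ (X h))) :
    Function.Surjective (NormedSpace.inclusionInDoubleDual ℝ (lp X 2)) := by
  intro Φ
  -- the coordinates
  have hex : ∀ h, ∃ x : X h, ∀ φ : StrongDual ℝ (X h), φ x = Φ (φ.comp (coordCLM h)) := by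
    intro h
    set pre : StrongDual ℝ (X h) →L[ℝ] StrongDual ℝ (lp X 2) :=
      (ContinuousLinearMap.compL ℝ (lp X 2) (X h) ℝ).flip (coordCLM h) with hpre
    obtain ⟨x, hx⟩ := hX h (Φ.comp pre)
    refine ⟨x, fun φ => ?_⟩
    have := congrArg (fun F => F φ) hx
    simpa [hpre] using this
  choose x hx using hex
  -- the square sum
  have hsq : ∀ A : Finset ℕ, ∑ h ∈ A, ‖x h‖ ^ 2 ≤ ‖Φ‖ ^ 2 := by
    intro A
    set c : ℝ := ∑ h ∈ A, ‖x h‖ ^ 2 with hc
    have hc0 : 0 ≤ c := Finset.sum_nonneg fun _ _ => by positivity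
    apply le_sq_of_le_mul_sqrt hc0 (ContinuousLinearMap.opNorm_nonneg Φ)
    have hdual : ∀ h, ∃ φ : StrongDual ℝ (X h), ‖φ‖ ≤ 1 ∧ φ (x h) = ‖x h‖ := by
      intro h
      by_cases h0 : x h = 0
      · exact ⟨0, by simp, by simp [h0]⟩
      · obtain ⟨φ, hφ, hφx⟩ := exists_dual_vector ℝ (x h) (by simpa using h0)
        exact ⟨φ, hφ.le, by simpa using hφx⟩
    choose φ hφ1 hφ2 using hdual
    set φ' : ∀ h, StrongDual ℝ (X h) := fun h => ‖x h‖ • φ h with hφ'
    set ψ : StrongDual ℝ (lp X 2) := ∑ h ∈ A, (φ' h).comp (coordCLM h) with hψ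
    have hψn : ‖ψ‖ ≤ Real.sqrt c := by
      refine (norm_sum_comp_coord_le A φ').trans (Real.sqrt_le_sqrt ?_)
      apply Finset.sum_le_sum
      intro h _
      apply pow_le_pow_left₀ (norm_nonneg _)
      rw [hφ', norm_smul, norm_norm]
      exact mul_le_of_le_one_right (norm_nonneg _) (hφ1 h)
    have hΦψ : Φ ψ = c := by
      rw [hψ, map_sum, hc]
      apply Finset.sum_congr rfl
      intro h _
      rw [← hx h, hφ']
      simp only [ContinuousLinearMap.smul_apply, smul_eq_mul, hφ2]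
      ring
    calc c = Φ ψ := hΦψ.symm
      _ ≤ |Φ ψ| := le_abs_self _
      _ ≤ ‖Φ‖ * ‖ψ‖ := by
          have := Φ.le_opNorm ψ
          rwa [Real.norm_eq_abs] at this
      _ ≤ ‖Φ‖ * Real.sqrt c := by gcongr
  -- the limit element
  have hmem : Memℓp x 2 := by
    apply memℓp_gen' (C := ‖Φ‖ ^ 2)
    intro s
    simpa using hsq s
  refine ⟨⟨x, hmem⟩, ?_⟩
  ext ψ
  change ψ ⟨x, hmem⟩ = Φ ψ
  -- both sides are limits
  have h1 : Tendsto (fun A : Finset ℕ => Φ (∑ h ∈ A, (ψ.comp (singleCLM h)).comp (coordCLM h)))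
      atTop (𝓝 (Φ ψ)) :=
    (Φ.continuous.tendsto ψ).comp (tendsto_trunc ψ)
  have h2 : Tendsto (fun A : Finset ℕ => ∑ h ∈ A, (ψ.comp (singleCLM h)) (x h)) atTop
      (𝓝 (ψ ⟨x, hmem⟩)) := by
    have := hasSum_apply ψ ⟨x, hmem⟩
    rwa [HasSum, SummationFilter.unconditional_filter] at this
  have h3 : (fun A : Finset ℕ => Φ (∑ h ∈ A, (ψ.comp (singleCLM h)).comp (coordCLM h))) =
      (fun A : Finset ℕ => ∑ h ∈ A, (ψ.comp (singleCLM h)) (x h)) := by
    funext A
    rw [map_sum]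
    apply Finset.sum_congr rfl
    intro h _
    rw [hx h]
  rw [h3] at h1
  exact tendsto_nhds_unique h2 h1

/-- Separability of the `ℓ²`-sum. -/
theorem lp_two_separable {Y : ℕ → Type*} [∀ h, NormedAddCommGroup (Y h)]
    [∀ h, TopologicalSpace.SeparableSpace (Y h)] : TopologicalSpace.SeparableSpace (lp Y 2) := by
  classical
  set P : ℕ → Set (lp Y 2) := fun n => Nat.rec {0}
    (fun k Sk => (fun p : lp Y 2 × lp Y 2 => p.1 + p.2) '' (Sk ×ˢ Set.range (lp.single 2 k))) n with hP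
  have hsingle : ∀ k, Continuous (lp.single (E := Y) 2 k) := by
    intro k
    have hiso : Isometry (lp.single (E := Y) 2 k) := by
      apply AddMonoidHomClass.isometry_of_norm (lp.singleAddMonoidHom (E := Y) 2 k)
      intro x
      exact lp.norm_single (by norm_num) k x
    exact hiso.continuous
  have hPsep : ∀ n, TopologicalSpace.IsSeparable (P n) := by
    intro n
    induction n with
    | zero => exact (Set.countable_singleton _).isSeparable
    | succ k ih =>
      have h1 : TopologicalSpace.IsSeparable (Set.range (lp.single (E := Y) 2 k)) :=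
        TopologicalSpace.isSeparable_range (hsingle k)
      exact (ih.prod h1).image (by fun_prop)
  have hU : TopologicalSpace.IsSeparable (⋃ n, P n) :=
    TopologicalSpace.IsSeparable.iUnion hPsep
  have hmem : ∀ (z : lp Y 2) (n : ℕ), ∑ i ∈ Finset.range n, lp.single 2 i (z i) ∈ P n := by
    intro z n
    induction n with
    | zero => simp [hP]
    | succ k ih =>
      rw [Finset.sum_range_succ]
      exact ⟨(_, _), ⟨ih, ⟨_, rfl⟩⟩, rfl⟩
  have hdense : (Set.univ : Set (lp Y 2)) ⊆ closure (⋃ n, P n) := by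
    intro z _
    have hlim := (lp.hasSum_single (p := 2) (by norm_num) z).tendsto_sum_nat
    exact mem_closure_of_tendsto hlim
      (Filter.Eventually.of_forall fun n => Set.mem_iUnion.mpr ⟨n, hmem z n⟩)
  exact TopologicalSpace.isSeparable_univ_iff.mp (hU.closure.mono hdense)

end Crest.Agent.Lib.LpSumReflexive
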