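import Crest.Agent.Lib.MarkovCotypeCore

/-! Time averages: from the one base point estimates to the estimate for the averaged smoothing. -/

set_option autoImplicit false

namespace Crest.Agent.Lib.MarkovCotype

open Finset

variable {V : Type*} [Fintype V] [DecidableEq V]
variable {w : V → ℝ} {A : Matrix V V ℝ}
variable {H : Type*} [NormedAddCommGroup H] [InnerProductSpace ℝ H]

/-- Fourth moment of the distance at time `s`. -/
noncomputable def EE (w : V → ℝ) (A : Matrix V V ℝ) (u : V → H) (s : ℕ) : ℝ :=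
  ∑ i, ∑ k, w i * (A ^ s) i k * (dd u i k) ^ 2

/-- Expected distance between independent walkers at times `a`, `b` from `i`. -/
noncomputable def WW (A : Matrix V V ℝ) (u : V → H) (a b : ℕ) (i : V) : ℝ :=
  ∑ k, ∑ l, (A ^ a) i k * (A ^ b) i l * dd u k l

/-- Expected distance from the start at time `a`. -/
noncomputable def Rr (A : Matrix V V ℝ) (u : V → H) (a : ℕ) (i : V) : ℝ :=
  ∑ k, (A ^ a) i k * dd u i k

section

variable (h : RevChain w A) (u : V → H)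

include h

lemma EE_nonneg (s : ℕ) : 0 ≤ EE w A u s :=
  Finset.sum_nonneg fun i _ => Finset.sum_nonneg fun k _ =>
    mul_nonneg (mul_nonneg (h.hw i) (h.pow_nonneg s i k)) (sq_nonneg _)

omit h in
lemma EE_zero : EE w A u 0 = 0 := by
  simp only [EE, pow_zero]
  refine Finset.sum_eq_zero fun i _ => Finset.sum_eq_zero fun k _ => ?_
  by_cases hik : i = k
  · subst hik; simp [dd]
  · simp [Matrix.one_apply, hik]

lemma WW_nonneg (a b : ℕ) (i : V) : 0 ≤ WW A u a b i :=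
  Finset.sum_nonneg fun k _ => Finset.sum_nonneg fun l _ =>
    mul_nonneg (mul_nonneg (h.pow_nonneg a i k) (h.pow_nonneg b i l)) (dd_nonneg u k l)

lemma Rr_nonneg (a : ℕ) (i : V) : 0 ≤ Rr A u a i :=
  Finset.sum_nonneg fun k _ => mul_nonneg (h.pow_nonneg a i k) (dd_nonneg u i k)

lemma sum_weight_nn (s : ℕ) : ∑ p, w p * nn A u p s p = EE w A u s := by
  simp only [nn, EE, Finset.mul_sum, mul_assoc]

/-- The predictable estimate. -/
lemma lemmaA (m : ℕ) :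
    ∑ q ∈ Finset.HasAntidiagonal.antidiagonal m,
      ∑ i, w i * WW A u q.1 (q.2 + 1) i * alpha A u q.2 i ≤ 2 * EE w A u (m + 1) := by
  have h1 : ∑ p, w p * ll A u p (m + 1) p ≤ ∑ p, w p * (2 * nn A u p (m + 1) p) :=
    Finset.sum_le_sum fun p _ => mul_le_mul_of_nonneg_left (ll_le h u p (m + 1) p) (h.hw p)
  have h2 : ∑ p, w p * (2 * nn A u p (m + 1) p) = 2 * EE w A u (m + 1) := by
    rw [← sum_weight_nn h u, Finset.mul_sum]
    refine Finset.sum_congr rfl fun p _ => ?_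
    ring
  rw [h2] at h1
  refine le_trans (le_of_eq ?_) h1
  symm
  simp only [ll, acc_succ_eq, Finset.mul_sum]
  rw [Finset.sum_comm]
  refine Finset.sum_congr rfl fun q _ => ?_
  rw [Finset.sum_comm]
  refine Finset.sum_congr rfl fun i _ => ?_
  have e : ∀ p, w p * ((A ^ q.1) p i * (alpha A u q.2 i * NN A u p (q.2 + 1) i))
      = w i * alpha A u q.2 i * ∑ l, (A ^ q.1) i p * (A ^ (q.2 + 1)) i l * dd u p l := by
    intro p
    have h3 := h.pow_rev q.1 p i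
    simp only [NN, Finset.mul_sum]
    refine Finset.sum_congr rfl fun l _ => ?_
    calc w p * ((A ^ q.1) p i * (alpha A u q.2 i * ((A ^ (q.2 + 1)) i l * dd u p l)))
        = (w p * (A ^ q.1) p i) * (alpha A u q.2 i * ((A ^ (q.2 + 1)) i l * dd u p l)) := by ring
      _ = (w i * (A ^ q.1) i p) * (alpha A u q.2 i * ((A ^ (q.2 + 1)) i l * dd u p l)) := by
          rw [h3]
      _ = _ := by ring
  simp only [e]
  rw [← Finset.mul_sum]
  simp only [WW]
  ring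

/-- The fourth power estimate. -/
lemma lemmaB (m : ℕ) :
    ∑ s ∈ Finset.range (m + 1),
      ∑ i, w i * ∑ j, A i j * ‖vs A u s j - vs A u (s + 1) i‖ ^ 4 ≤ 12 * EE w A u (m + 1) := by
  have h1 : ∑ p, w p * b4 A u (m + 1) p ≤ ∑ p, w p * (12 * nn A u p (m + 1) p) :=
    Finset.sum_le_sum fun p _ => mul_le_mul_of_nonneg_left (b4_le h u p (m + 1) p) (h.hw p)
  have h2 : ∑ p, w p * (12 * nn A u p (m + 1) p) = 12 * EE w A u (m + 1) := by
    rw [← sum_weight_nn h u, Finset.mul_sum]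
    refine Finset.sum_congr rfl fun p _ => ?_
    ring
  rw [h2] at h1
  refine le_trans (le_of_eq ?_) h1
  simp only [b4, acc_succ_eq]
  have e : ∑ p, w p * ∑ q ∈ Finset.HasAntidiagonal.antidiagonal m,
      ∑ k, (A ^ q.1) p k * ∑ j, A k j * ‖vs A u q.2 j - vs A u (q.2 + 1) k‖ ^ 4
      = ∑ q ∈ Finset.HasAntidiagonal.antidiagonal m,
        ∑ k, w k * ∑ j, A k j * ‖vs A u q.2 j - vs A u (q.2 + 1) k‖ ^ 4 := by
    simp only [Finset.mul_sum]
    rw [Finset.sum_comm]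
    refine Finset.sum_congr rfl fun q _ => ?_
    rw [Finset.sum_comm]
    refine Finset.sum_congr rfl fun k _ => ?_
    have h3 := h.stationary q.1 k
    calc ∑ p, ∑ j, w p * ((A ^ q.1) p k * (A k j * ‖vs A u q.2 j - vs A u (q.2 + 1) k‖ ^ 4))
        = ∑ j, ∑ p, (w p * (A ^ q.1) p k) * (A k j * ‖vs A u q.2 j - vs A u (q.2 + 1) k‖ ^ 4) := by
          rw [Finset.sum_comm]
          refine Finset.sum_congr rfl fun j _ => ?_
          refine Finset.sum_congr rfl fun p _ => ?_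
          ring
      _ = ∑ j, w k * (A k j * ‖vs A u q.2 j - vs A u (q.2 + 1) k‖ ^ 4) := by
          refine Finset.sum_congr rfl fun j _ => ?_
          rw [← Finset.sum_mul, h3]
  rw [e]
  set g : ℕ → ℝ := fun s => ∑ i, w i * ∑ j, A i j * ‖vs A u s j - vs A u (s + 1) i‖ ^ 4 with hg
  have e2 := Finset.Nat.sum_antidiagonal_swap (n := m) (f := fun q : ℕ × ℕ => g q.1)
  simp only [Prod.fst_swap] at e2
  rw [e2, Finset.Nat.sum_antidiagonal_eq_sum_range_succ_mk (fun q : ℕ × ℕ => g q.1) m]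

end

/-- Jensen for squares and probability vectors. -/
lemma sq_wavg_le {ι : Type*} (S : Finset ι) (c x : ι → ℝ) (hc : ∀ k ∈ S, 0 ≤ c k)
    (h1 : ∑ k ∈ S, c k = 1) : (∑ k ∈ S, c k * x k) ^ 2 ≤ ∑ k ∈ S, c k * x k ^ 2 := by
  set xbar := ∑ k ∈ S, c k * x k with hx
  have h2 : 0 ≤ ∑ k ∈ S, c k * (x k - xbar) ^ 2 :=
    Finset.sum_nonneg fun k hk => mul_nonneg (hc k hk) (sq_nonneg _)
  have h3 : ∑ k ∈ S, c k * (x k - xbar) ^ 2
      = ∑ k ∈ S, c k * x k ^ 2 - 2 * xbar * xbar + xbar ^ 2 * ∑ k ∈ S, c k := by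
    have e : ∀ k ∈ S, c k * (x k - xbar) ^ 2
        = c k * x k ^ 2 - 2 * xbar * (c k * x k) + xbar ^ 2 * c k := fun k _ => by ring
    rw [Finset.sum_congr rfl e, Finset.sum_add_distrib, Finset.sum_sub_distrib,
      ← Finset.mul_sum, ← Finset.mul_sum, ← hx]
  rw [h3, h1] at h2
  nlinarith

/-- Jensen for the average over `range τ`. -/
lemma sq_avg_le (τ : ℕ) (hτ : 0 < τ) (x : ℕ → ℝ) :
    ((1 / (τ : ℝ)) * ∑ s ∈ Finset.range τ, x s) ^ 2
      ≤ (1 / (τ : ℝ)) * ∑ s ∈ Finset.range τ, x s ^ 2 := by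
  have hτ' : (0 : ℝ) < τ := by exact_mod_cast hτ
  have := sq_wavg_le (Finset.range τ) (fun _ => 1 / (τ : ℝ)) x (fun _ _ => by positivity)
    (by simp; field_simp)
  simpa [Finset.mul_sum] using this

/-- Jensen for vector valued averages over `range τ`. -/
lemma norm_avg_sq_le (τ : ℕ) (hτ : 0 < τ) (a : ℕ → H) :
    ‖(1 / (τ : ℝ)) • ∑ s ∈ Finset.range τ, a s‖ ^ 2
      ≤ (1 / (τ : ℝ)) * ∑ s ∈ Finset.range τ, ‖a s‖ ^ 2 := by
  have hτ' : (0 : ℝ) < τ := by exact_mod_cast hτ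
  have h1 : ‖(1 / (τ : ℝ)) • ∑ s ∈ Finset.range τ, a s‖
      ≤ (1 / (τ : ℝ)) * ∑ s ∈ Finset.range τ, ‖a s‖ := by
    rw [norm_smul, Real.norm_of_nonneg (by positivity)]
    exact mul_le_mul_of_nonneg_left (norm_sum_le _ _) (by positivity)
  calc ‖(1 / (τ : ℝ)) • ∑ s ∈ Finset.range τ, a s‖ ^ 2
      ≤ ((1 / (τ : ℝ)) * ∑ s ∈ Finset.range τ, ‖a s‖) ^ 2 :=
        pow_le_pow_left₀ (norm_nonneg _) h1 2
    _ ≤ _ := sq_avg_le τ hτ _

/-- The averaged kernel. -/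
noncomputable def PP (A : Matrix V V ℝ) (τ : ℕ) (i k : V) : ℝ :=
  (1 / (τ : ℝ)) * ∑ s ∈ Finset.range τ, (A ^ s) i k

/-- The averaged smoothing. -/
noncomputable def vbar (A : Matrix V V ℝ) (u : V → H) (τ : ℕ) (i : V) : H :=
  (1 / (τ : ℝ)) • ∑ s ∈ Finset.range τ, vs A u s i

/-- Half of the mean distance between two independent samples of the averaged kernel. -/
noncomputable def Vi (A : Matrix V V ℝ) (u : V → H) (τ : ℕ) (i : V) : ℝ :=
  (1 / 2) * ∑ k, ∑ l, PP A τ i k * PP A τ i l * dd u k l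

/-- Squared difference of the averaged smoothing. -/
noncomputable def QQ (A : Matrix V V ℝ) (u : V → H) (τ : ℕ) (i j : V) : ℝ :=
  ‖vbar A u τ i - vbar A u τ j‖ ^ 2

/-- Averaged martingale increment. -/
noncomputable def zbar (A : Matrix V V ℝ) (u : V → H) (τ : ℕ) (i j : V) : H :=
  (1 / (τ : ℝ)) • ∑ s ∈ Finset.range τ, (vs A u s j - vs A u (s + 1) i)

/-- Telescoped drift. -/
noncomputable def dlt (A : Matrix V V ℝ) (u : V → H) (τ : ℕ) (i : V) : H :=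
  (1 / (τ : ℝ)) • (vs A u τ i - vs A u 0 i)

/-- Sum of the fourth moments up to the window. -/
noncomputable def SS (w : V → ℝ) (A : Matrix V V ℝ) (u : V → H) (τ : ℕ) : ℝ :=
  ∑ T ∈ Finset.range (2 * τ), EE w A u T

lemma vbar_sub (A : Matrix V V ℝ) (u : V → H) (τ : ℕ) (i j : V) :
    vbar A u τ j - vbar A u τ i = zbar A u τ i j + dlt A u τ i := by
  simp only [vbar, zbar, dlt]
  rw [← smul_sub, ← smul_add, ← Finset.sum_sub_distrib]
  congr 1
  have : ∑ s ∈ Finset.range τ, (vs A u (s + 1) i - vs A u s i) = vs A u τ i - vs A u 0 i :=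
    Finset.sum_range_sub (fun s => vs A u s i) τ
  rw [← this, ← Finset.sum_add_distrib]
  refine Finset.sum_congr rfl fun s _ => ?_
  abel

section

variable (h : RevChain w A) (u : V → H)

include h

lemma WW_comm (a b : ℕ) (i : V) : WW A u a b i = WW A u b a i := by
  simp only [WW]
  rw [Finset.sum_comm]
  refine Finset.sum_congr rfl fun k _ => Finset.sum_congr rfl fun l _ => ?_
  rw [dd_comm]; ring

lemma WW_tri (htri : ∀ k l q, dd u k l ≤ dd u k q + dd u q l) (a b c : ℕ) (i : V) :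
    WW A u a b i ≤ WW A u a c i + WW A u c b i := by
  have e1 : WW A u a b i = ∑ k, ∑ l, ∑ q, (A ^ a) i k * (A ^ b) i l * (A ^ c) i q * dd u k l := by
    simp only [WW]
    refine Finset.sum_congr rfl fun k _ => Finset.sum_congr rfl fun l _ => ?_
    have : ∑ q, (A ^ a) i k * (A ^ b) i l * (A ^ c) i q * dd u k l
        = (A ^ a) i k * (A ^ b) i l * (∑ q, (A ^ c) i q) * dd u k l := by
      rw [Finset.mul_sum, Finset.sum_mul]
    rw [this, h.pow_sum]; ring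
  have e2 : ∑ k, ∑ l, ∑ q, (A ^ a) i k * (A ^ b) i l * (A ^ c) i q * dd u k q = WW A u a c i := by
    simp only [WW]
    refine Finset.sum_congr rfl fun k _ => ?_
    rw [Finset.sum_comm]
    refine Finset.sum_congr rfl fun q _ => ?_
    have : ∑ l, (A ^ a) i k * (A ^ b) i l * (A ^ c) i q * dd u k q
        = (A ^ a) i k * (∑ l, (A ^ b) i l) * (A ^ c) i q * dd u k q := by
      rw [Finset.mul_sum, Finset.sum_mul, Finset.sum_mul]
    rw [this, h.pow_sum]; ring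
  have e3 : ∑ k, ∑ l, ∑ q, (A ^ a) i k * (A ^ b) i l * (A ^ c) i q * dd u q l = WW A u c b i := by
    simp only [WW]
    rw [Finset.sum_comm]
    have : ∀ l, ∑ k, ∑ q, (A ^ a) i k * (A ^ b) i l * (A ^ c) i q * dd u q l
        = ∑ q, (A ^ c) i q * (A ^ b) i l * dd u q l := by
      intro l
      rw [Finset.sum_comm]
      refine Finset.sum_congr rfl fun q _ => ?_
      have : ∑ k, (A ^ a) i k * (A ^ b) i l * (A ^ c) i q * dd u q l
          = (∑ k, (A ^ a) i k) * (A ^ b) i l * (A ^ c) i q * dd u q l := by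
        rw [Finset.sum_mul, Finset.sum_mul, Finset.sum_mul]
      rw [this, h.pow_sum]; ring
    simp only [this]
    rw [Finset.sum_comm]
  rw [e1, ← e2, ← e3, ← Finset.sum_add_distrib]
  refine Finset.sum_le_sum fun k _ => ?_
  rw [← Finset.sum_add_distrib]
  refine Finset.sum_le_sum fun l _ => ?_
  rw [← Finset.sum_add_distrib]
  refine Finset.sum_le_sum fun q _ => ?_
  have := htri k l q
  have h0 : 0 ≤ (A ^ a) i k * (A ^ b) i l * (A ^ c) i q :=
    mul_nonneg (mul_nonneg (h.pow_nonneg _ _ _) (h.pow_nonneg _ _ _)) (h.pow_nonneg _ _ _)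
  nlinarith [mul_le_mul_of_nonneg_left this h0]

omit h in
lemma Vi_eq (τ : ℕ) (i : V) :
    Vi A u τ i = (1 / 2) * ((1 / (τ : ℝ)) * (1 / (τ : ℝ))
      * ∑ a ∈ Finset.range τ, ∑ b ∈ Finset.range τ, WW A u a b i) := by
  have swap : ∀ F : ℕ → ℕ → V → V → ℝ,
      ∑ a ∈ Finset.range τ, ∑ b ∈ Finset.range τ, ∑ k, ∑ l, F a b k l
        = ∑ k, ∑ l, ∑ a ∈ Finset.range τ, ∑ b ∈ Finset.range τ, F a b k l := by
    intro F
    calc ∑ a ∈ Finset.range τ, ∑ b ∈ Finset.range τ, ∑ k, ∑ l, F a b k l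
        = ∑ a ∈ Finset.range τ, ∑ k, ∑ b ∈ Finset.range τ, ∑ l, F a b k l :=
          Finset.sum_congr rfl fun a _ => Finset.sum_comm
      _ = ∑ a ∈ Finset.range τ, ∑ k, ∑ l, ∑ b ∈ Finset.range τ, F a b k l :=
          Finset.sum_congr rfl fun a _ => Finset.sum_congr rfl fun k _ => Finset.sum_comm
      _ = ∑ k, ∑ a ∈ Finset.range τ, ∑ l, ∑ b ∈ Finset.range τ, F a b k l := Finset.sum_comm
      _ = ∑ k, ∑ l, ∑ a ∈ Finset.range τ, ∑ b ∈ Finset.range τ, F a b k l :=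
          Finset.sum_congr rfl fun k _ => Finset.sum_comm
  simp only [Vi, WW]
  congr 1
  rw [swap (fun a b k l => (A ^ a) i k * (A ^ b) i l * dd u k l)]
  have key : ∀ k l, PP A τ i k * PP A τ i l * dd u k l = (1 / (τ : ℝ) * (1 / (τ : ℝ))) *
      ∑ a ∈ Finset.range τ, ∑ b ∈ Finset.range τ, (A ^ a) i k * (A ^ b) i l * dd u k l := by
    intro k l
    have : (∑ a ∈ Finset.range τ, ∑ b ∈ Finset.range τ, (A ^ a) i k * (A ^ b) i l * dd u k l)
        = ((∑ s ∈ Finset.range τ, (A ^ s) i k) * (∑ s ∈ Finset.range τ, (A ^ s) i l)) * dd u k l := by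
      rw [Finset.sum_mul_sum, Finset.sum_mul]
      refine Finset.sum_congr rfl fun a _ => ?_
      rw [Finset.sum_mul]
    rw [this]
    simp only [PP]
    ring
  simp only [key, ← Finset.mul_sum]

lemma Vi_le (htri : ∀ k l q, dd u k l ≤ dd u k q + dd u q l) (τ : ℕ) (hτ : 0 < τ) (c : ℕ) (i : V) :
    Vi A u τ i ≤ (1 / (τ : ℝ)) * ∑ a ∈ Finset.range τ, WW A u a c i := by
  have hτ' : (0 : ℝ) < τ := by exact_mod_cast hτ
  have h1 : ∑ a ∈ Finset.range τ, ∑ b ∈ Finset.range τ, WW A u a b i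
      ≤ ∑ a ∈ Finset.range τ, ∑ b ∈ Finset.range τ, (WW A u a c i + WW A u b c i) := by
    refine Finset.sum_le_sum fun a _ => Finset.sum_le_sum fun b _ => ?_
    have := WW_tri h u htri a b c i
    rwa [WW_comm h u c b] at this
  have h2 : ∑ a ∈ Finset.range τ, ∑ b ∈ Finset.range τ, (WW A u a c i + WW A u b c i)
      = 2 * (τ : ℝ) * ∑ a ∈ Finset.range τ, WW A u a c i := by
    simp only [Finset.sum_add_distrib, Finset.sum_const, Finset.card_range, nsmul_eq_mul]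
    rw [← Finset.mul_sum]
    ring
  rw [Vi_eq]
  rw [h2] at h1
  have h3 : (1 / 2) * ((1 / (τ : ℝ)) * (1 / (τ : ℝ))
      * ∑ a ∈ Finset.range τ, ∑ b ∈ Finset.range τ, WW A u a b i)
      ≤ (1 / 2) * ((1 / (τ : ℝ)) * (1 / (τ : ℝ))
        * (2 * (τ : ℝ) * ∑ a ∈ Finset.range τ, WW A u a c i)) := by
    apply mul_le_mul_of_nonneg_left _ (by norm_num)
    exact mul_le_mul_of_nonneg_left h1 (by positivity)
  refine le_trans h3 (le_of_eq ?_)
  field_simp

lemma PP_nonneg (τ : ℕ) (i k : V) : 0 ≤ PP A τ i k := by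
  unfold PP
  have : 0 ≤ ∑ s ∈ Finset.range τ, (A ^ s) i k :=
    Finset.sum_nonneg fun s _ => h.pow_nonneg s i k
  positivity

lemma Vi_nonneg (τ : ℕ) (i : V) : 0 ≤ Vi A u τ i := by
  unfold Vi
  have : 0 ≤ ∑ k, ∑ l, PP A τ i k * PP A τ i l * dd u k l :=
    Finset.sum_nonneg fun k _ => Finset.sum_nonneg fun l _ =>
      mul_nonneg (mul_nonneg (PP_nonneg h τ i k) (PP_nonneg h τ i l)) (dd_nonneg u k l)
  positivity

lemma WW_zero (a : ℕ) (i : V) : WW A u a 0 i = Rr A u a i := by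
  simp only [WW, Rr, pow_zero, Matrix.one_apply]
  refine Finset.sum_congr rfl fun k _ => ?_
  simp [dd_comm u i k]

lemma Rr_sq_sum (a : ℕ) : ∑ i, w i * Rr A u a i ^ 2 ≤ EE w A u a := by
  simp only [EE]
  refine Finset.sum_le_sum fun i _ => ?_
  have h1 := sq_wavg_le Finset.univ (fun k => (A ^ a) i k) (fun k => dd u i k)
    (fun k _ => h.pow_nonneg a i k) (h.pow_sum a i)
  calc w i * Rr A u a i ^ 2 ≤ w i * ∑ k, (A ^ a) i k * dd u i k ^ 2 :=
        mul_le_mul_of_nonneg_left h1 (h.hw i)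
    _ = _ := by
        rw [Finset.mul_sum]
        refine Finset.sum_congr rfl fun k _ => ?_
        ring

lemma Vi_sq_sum (htri : ∀ k l q, dd u k l ≤ dd u k q + dd u q l) (τ : ℕ) (hτ : 0 < τ) :
    ∑ i, w i * Vi A u τ i ^ 2 ≤ (1 / (τ : ℝ)) * ∑ a ∈ Finset.range τ, EE w A u a := by
  have hτ' : (0 : ℝ) < τ := by exact_mod_cast hτ
  have h1 : ∀ i, Vi A u τ i ^ 2 ≤ (1 / (τ : ℝ)) * ∑ a ∈ Finset.range τ, Rr A u a i ^ 2 := by
    intro i
    have h2 := Vi_le h u htri τ hτ 0 i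
    simp only [WW_zero h u] at h2
    calc Vi A u τ i ^ 2 ≤ ((1 / (τ : ℝ)) * ∑ a ∈ Finset.range τ, Rr A u a i) ^ 2 :=
          pow_le_pow_left₀ (Vi_nonneg h u τ i) h2 2
      _ ≤ _ := sq_avg_le τ hτ _
  calc ∑ i, w i * Vi A u τ i ^ 2
      ≤ ∑ i, w i * ((1 / (τ : ℝ)) * ∑ a ∈ Finset.range τ, Rr A u a i ^ 2) :=
        Finset.sum_le_sum fun i _ => mul_le_mul_of_nonneg_left (h1 i) (h.hw i)
    _ = (1 / (τ : ℝ)) * ∑ a ∈ Finset.range τ, ∑ i, w i * Rr A u a i ^ 2 := by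
        simp only [Finset.mul_sum]
        rw [Finset.sum_comm]
        refine Finset.sum_congr rfl fun a _ => Finset.sum_congr rfl fun i _ => ?_
        ring
    _ ≤ _ := by
        apply mul_le_mul_of_nonneg_left _ (by positivity)
        exact Finset.sum_le_sum fun a _ => Rr_sq_sum h u a

lemma SS_nonneg (τ : ℕ) : 0 ≤ SS w A u τ :=
  Finset.sum_nonneg fun T _ => EE_nonneg h u T

lemma EE_le_SS (τ T : ℕ) (hT : T < 2 * τ) : EE w A u T ≤ SS w A u τ :=
  Finset.single_le_sum (f := fun T => EE w A u T) (fun T _ => EE_nonneg h u T)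
    (Finset.mem_range.mpr hT)

lemma sum_range_EE_le (τ : ℕ) (hτ : 0 < τ) :
    (1 / (τ : ℝ)) * ∑ a ∈ Finset.range τ, EE w A u a ≤ SS w A u τ := by
  have hτ' : (1 : ℝ) ≤ τ := by exact_mod_cast hτ
  have h1 : ∑ a ∈ Finset.range τ, EE w A u a ≤ SS w A u τ := by
    apply Finset.sum_le_sum_of_subset_of_nonneg
    · intro a ha
      simp only [Finset.mem_range] at ha ⊢
      omega
    · intro T _ _
      exact EE_nonneg h u T
  have h2 : 1 / (τ : ℝ) ≤ 1 := by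
    rw [div_le_one (by linarith)]; exact hτ'
  have h3 := SS_nonneg h u τ
  have h4 : 0 ≤ ∑ a ∈ Finset.range τ, EE w A u a :=
    Finset.sum_nonneg fun T _ => EE_nonneg h u T
  have h5 : (0 : ℝ) ≤ 1 / (τ : ℝ) := by positivity
  nlinarith

lemma sum_xx_le (τ : ℕ) (hτ : 0 < τ) (i : V) :
    ∑ j, A i j * ‖zbar A u τ i j‖ ^ 2 ≤ (1 / (τ : ℝ)) * ∑ s ∈ Finset.range τ, alpha A u s i := by
  have hτ' : (0 : ℝ) < τ := by exact_mod_cast hτ
  calc ∑ j, A i j * ‖zbar A u τ i j‖ ^ 2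
      ≤ ∑ j, A i j * ((1 / (τ : ℝ)) * ∑ s ∈ Finset.range τ, ‖vs A u s j - vs A u (s + 1) i‖ ^ 2) :=
        Finset.sum_le_sum fun j _ =>
          mul_le_mul_of_nonneg_left (norm_avg_sq_le τ hτ _) (h.hA i j)
    _ = _ := by
        simp only [alpha, Finset.mul_sum]
        rw [Finset.sum_comm]
        refine Finset.sum_congr rfl fun s _ => Finset.sum_congr rfl fun j _ => ?_
        ring

lemma dlt_sq_le (τ : ℕ) (hτ : 0 < τ) (i : V) :
    ‖dlt A u τ i‖ ^ 2 ≤ (1 / (τ : ℝ)) ^ 2 * Rr A u τ i := by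
  have hτ' : (0 : ℝ) < τ := by exact_mod_cast hτ
  have h1 := variance_identity (fun k => (A ^ τ) i k) (h.pow_sum τ i) u (u i)
  have h2 : ‖vs A u τ i - u i‖ ^ 2 ≤ Rr A u τ i := by
    have h3 : 0 ≤ ∑ j, (A ^ τ) i j * ‖u j - ∑ j', (A ^ τ) i j' • u j'‖ ^ 2 :=
      Finset.sum_nonneg fun j _ => mul_nonneg (h.pow_nonneg τ i j) (by positivity)
    have h4 : Rr A u τ i = ∑ j, (A ^ τ) i j * ‖u j - u i‖ ^ 2 := by
      simp only [Rr, dd, norm_sub_rev]
    rw [h4, h1]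
    simp only [vs]
    linarith
  simp only [dlt, vs_zero]
  rw [norm_smul, mul_pow, Real.norm_of_nonneg (by positivity)]
  exact mul_le_mul_of_nonneg_left h2 (by positivity)

lemma QQ_le (τ : ℕ) (i j : V) :
    QQ A u τ i j ≤ 2 * ‖zbar A u τ i j‖ ^ 2 + 2 * ‖dlt A u τ i‖ ^ 2 := by
  have h1 : QQ A u τ i j = ‖zbar A u τ i j + dlt A u τ i‖ ^ 2 := by
    rw [← vbar_sub, QQ, norm_sub_rev]
  rw [h1]
  have h2 := norm_add_le (zbar A u τ i j) (dlt A u τ i)
  have h3 := sq_nonneg (‖zbar A u τ i j‖ - ‖dlt A u τ i‖)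
  have h4 := norm_nonneg (zbar A u τ i j + dlt A u τ i)
  have h5 := norm_nonneg (zbar A u τ i j)
  have h6 := norm_nonneg (dlt A u τ i)
  nlinarith

omit h in
/-- Square versus antidiagonal sums. -/
lemma sum_square_le_antidiag (τ : ℕ) (hτ : 0 < τ) (f : ℕ × ℕ → ℝ) (hf : ∀ q, 0 ≤ f q) :
    ∑ a ∈ Finset.range τ, ∑ s ∈ Finset.range τ, f (a, s)
      ≤ ∑ T ∈ Finset.range (2 * τ - 1), ∑ q ∈ Finset.HasAntidiagonal.antidiagonal T, f q := by
  rw [← Finset.sum_product' (f := fun a s => f (a, s))]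
  rw [← Finset.sum_biUnion]
  · apply Finset.sum_le_sum_of_subset_of_nonneg
    · rintro ⟨a, s⟩ hq
      simp only [Finset.mem_product, Finset.mem_range] at hq
      simp only [Finset.mem_biUnion, Finset.mem_range, Finset.HasAntidiagonal.mem_antidiagonal]
      exact ⟨a + s, by omega, rfl⟩
    · intro q _ _
      exact hf q
  · intro T _ T' _ hTT'
    simp only [Function.onFun]
    rw [Finset.disjoint_left]
    intro q hq hq'
    simp only [Finset.HasAntidiagonal.mem_antidiagonal] at hq hq'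
    exact hTT' (hq.symm.trans hq')

lemma A1_bound (htri : ∀ k l q, dd u k l ≤ dd u k q + dd u q l) (τ : ℕ) (hτ : 0 < τ) :
    ∑ i, w i * Vi A u τ i * ∑ j, A i j * ‖zbar A u τ i j‖ ^ 2
      ≤ 2 * ((1 / (τ : ℝ)) ^ 2 * SS w A u τ) := by
  have hτ' : (0 : ℝ) < τ := by exact_mod_cast hτ
  set e : ℕ × ℕ → ℝ := fun q => ∑ i, w i * WW A u q.1 (q.2 + 1) i * alpha A u q.2 i with he
  have he0 : ∀ q, 0 ≤ e q := fun q => Finset.sum_nonneg fun i _ =>
    mul_nonneg (mul_nonneg (h.hw i) (WW_nonneg h u _ _ i)) (alpha_nonneg h u _ i)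
  have h1 : ∑ i, w i * Vi A u τ i * ∑ j, A i j * ‖zbar A u τ i j‖ ^ 2
      ≤ (1 / (τ : ℝ)) ^ 2 * ∑ a ∈ Finset.range τ, ∑ s ∈ Finset.range τ, e (a, s) := by
    have hpt : ∀ i, w i * Vi A u τ i * ∑ j, A i j * ‖zbar A u τ i j‖ ^ 2
        ≤ (1 / (τ : ℝ)) ^ 2 * ∑ a ∈ Finset.range τ, ∑ s ∈ Finset.range τ,
            w i * WW A u a (s + 1) i * alpha A u s i := by
      intro i
      have h2 := sum_xx_le h u τ hτ i
      have h3 : 0 ≤ w i * Vi A u τ i := mul_nonneg (h.hw i) (Vi_nonneg h u τ i)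
      calc w i * Vi A u τ i * ∑ j, A i j * ‖zbar A u τ i j‖ ^ 2
          ≤ w i * Vi A u τ i * ((1 / (τ : ℝ)) * ∑ s ∈ Finset.range τ, alpha A u s i) :=
            mul_le_mul_of_nonneg_left h2 h3
        _ = (1 / (τ : ℝ)) * ∑ s ∈ Finset.range τ, w i * Vi A u τ i * alpha A u s i := by
            rw [Finset.mul_sum, Finset.mul_sum, Finset.mul_sum]
            refine Finset.sum_congr rfl fun s _ => ?_
            ring
        _ ≤ (1 / (τ : ℝ)) * ∑ s ∈ Finset.range τ,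
              w i * ((1 / (τ : ℝ)) * ∑ a ∈ Finset.range τ, WW A u a (s + 1) i) * alpha A u s i := by
            apply mul_le_mul_of_nonneg_left _ (by positivity)
            refine Finset.sum_le_sum fun s _ => ?_
            apply mul_le_mul_of_nonneg_right _ (alpha_nonneg h u s i)
            exact mul_le_mul_of_nonneg_left (Vi_le h u htri τ hτ (s + 1) i) (h.hw i)
        _ = _ := by
            rw [pow_two, mul_assoc, Finset.sum_comm]
            simp only [Finset.mul_sum, Finset.sum_mul]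
            refine Finset.sum_congr rfl fun a _ => Finset.sum_congr rfl fun s _ => ?_
            ring
    calc _ ≤ ∑ i, (1 / (τ : ℝ)) ^ 2 * ∑ a ∈ Finset.range τ, ∑ s ∈ Finset.range τ,
            w i * WW A u a (s + 1) i * alpha A u s i := Finset.sum_le_sum fun i _ => hpt i
      _ = _ := by
          rw [← Finset.mul_sum]
          congr 1
          simp only [he]
          rw [Finset.sum_comm]
          refine Finset.sum_congr rfl fun a _ => ?_
          rw [Finset.sum_comm]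
  have h2 : ∑ a ∈ Finset.range τ, ∑ s ∈ Finset.range τ, e (a, s) ≤ 2 * SS w A u τ := by
    refine le_trans (sum_square_le_antidiag τ hτ e he0) ?_
    have h3 : ∀ T, ∑ q ∈ Finset.HasAntidiagonal.antidiagonal T, e q ≤ 2 * EE w A u (T + 1) :=
      fun T => lemmaA h u T
    calc ∑ T ∈ Finset.range (2 * τ - 1), ∑ q ∈ Finset.HasAntidiagonal.antidiagonal T, e q
        ≤ ∑ T ∈ Finset.range (2 * τ - 1), 2 * EE w A u (T + 1) :=
          Finset.sum_le_sum fun T _ => h3 T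
      _ = 2 * ∑ T ∈ Finset.range (2 * τ - 1), EE w A u (T + 1) := by rw [Finset.mul_sum]
      _ ≤ 2 * SS w A u τ := by
          apply mul_le_mul_of_nonneg_left _ (by norm_num)
          have e4 : 2 * τ = (2 * τ - 1) + 1 := by omega
          simp only [SS]
          rw [e4, Finset.sum_range_succ']
          have := EE_nonneg h u 0
          simp only [Nat.add_sub_cancel]
          linarith
  calc _ ≤ (1 / (τ : ℝ)) ^ 2 * ∑ a ∈ Finset.range τ, ∑ s ∈ Finset.range τ, e (a, s) := h1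
    _ ≤ (1 / (τ : ℝ)) ^ 2 * (2 * SS w A u τ) :=
        mul_le_mul_of_nonneg_left h2 (by positivity)
    _ = _ := by ring

/-- The fourth power of the increments at level `s`. -/
noncomputable def BB (w : V → ℝ) (A : Matrix V V ℝ) (u : V → H) (s : ℕ) : ℝ :=
  ∑ i, w i * ∑ j, A i j * ‖vs A u s j - vs A u (s + 1) i‖ ^ 4

lemma BB_nonneg (s : ℕ) : 0 ≤ BB w A u s :=
  Finset.sum_nonneg fun i _ => mul_nonneg (h.hw i)
    (Finset.sum_nonneg fun j _ => mul_nonneg (h.hA i j) (by positivity))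

lemma sum_BB_le (τ : ℕ) (hτ : 0 < τ) :
    (1 / (τ : ℝ)) * ∑ s ∈ Finset.range τ, BB w A u s ≤ 12 * ((1 / (τ : ℝ)) ^ 2 * SS w A u τ) := by
  have hτ' : (0 : ℝ) < τ := by exact_mod_cast hτ
  set X := ∑ s ∈ Finset.range τ, BB w A u s with hX
  have h1 : ∀ T ∈ Finset.Ico τ (2 * τ), X ≤ 12 * EE w A u T := by
    intro T hT
    simp only [Finset.mem_Ico] at hT
    obtain ⟨m, rfl⟩ : ∃ m, T = m + 1 := ⟨T - 1, by omega⟩
    refine le_trans ?_ (lemmaB h u m)
    apply Finset.sum_le_sum_of_subset_of_nonneg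
    · intro a ha
      simp only [Finset.mem_range] at ha ⊢
      omega
    · intro s _ _
      exact BB_nonneg h u s
  have h2 : (τ : ℝ) * X ≤ 12 * SS w A u τ := by
    have h3 : ∑ T ∈ Finset.Ico τ (2 * τ), X ≤ ∑ T ∈ Finset.Ico τ (2 * τ), 12 * EE w A u T :=
      Finset.sum_le_sum h1
    have h4 : ∑ T ∈ Finset.Ico τ (2 * τ), X = (τ : ℝ) * X := by
      rw [Finset.sum_const, Nat.card_Ico, nsmul_eq_mul]
      congr 2
      omega
    have h5 : ∑ T ∈ Finset.Ico τ (2 * τ), 12 * EE w A u T ≤ 12 * SS w A u τ := by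
      rw [← Finset.mul_sum]
      apply mul_le_mul_of_nonneg_left _ (by norm_num)
      apply Finset.sum_le_sum_of_subset_of_nonneg
      · intro a ha
        simp only [Finset.mem_Ico, Finset.mem_range] at ha ⊢
        omega
      · intro s _ _
        exact EE_nonneg h u s
    linarith
  have h6 : (1 / (τ : ℝ)) * X = (1 / (τ : ℝ)) ^ 2 * ((τ : ℝ) * X) := by
    field_simp
  rw [h6]
  calc (1 / (τ : ℝ)) ^ 2 * ((τ : ℝ) * X) ≤ (1 / (τ : ℝ)) ^ 2 * (12 * SS w A u τ) :=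
        mul_le_mul_of_nonneg_left h2 (by positivity)
    _ = _ := by ring

lemma B1_bound (τ : ℕ) (hτ : 0 < τ) :
    ∑ i, w i * ∑ j, A i j * (‖zbar A u τ i j‖ ^ 2) ^ 2
      ≤ 12 * ((1 / (τ : ℝ)) ^ 2 * SS w A u τ) := by
  have hτ' : (0 : ℝ) < τ := by exact_mod_cast hτ
  refine le_trans ?_ (sum_BB_le h u τ hτ)
  have hpt : ∀ i j, (‖zbar A u τ i j‖ ^ 2) ^ 2
      ≤ (1 / (τ : ℝ)) * ∑ s ∈ Finset.range τ, ‖vs A u s j - vs A u (s + 1) i‖ ^ 4 := by
    intro i j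
    have h1 := norm_avg_sq_le τ hτ (fun s => vs A u s j - vs A u (s + 1) i)
    calc (‖zbar A u τ i j‖ ^ 2) ^ 2
        ≤ ((1 / (τ : ℝ)) * ∑ s ∈ Finset.range τ, ‖vs A u s j - vs A u (s + 1) i‖ ^ 2) ^ 2 :=
          pow_le_pow_left₀ (by positivity) h1 2
      _ ≤ (1 / (τ : ℝ)) * ∑ s ∈ Finset.range τ, (‖vs A u s j - vs A u (s + 1) i‖ ^ 2) ^ 2 :=
          sq_avg_le τ hτ _
      _ = _ := by
          congr 1
          refine Finset.sum_congr rfl fun s _ => ?_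
          ring
  calc ∑ i, w i * ∑ j, A i j * (‖zbar A u τ i j‖ ^ 2) ^ 2
      ≤ ∑ i, w i * ∑ j, A i j * ((1 / (τ : ℝ)) * ∑ s ∈ Finset.range τ,
          ‖vs A u s j - vs A u (s + 1) i‖ ^ 4) :=
        Finset.sum_le_sum fun i _ => mul_le_mul_of_nonneg_left
          (Finset.sum_le_sum fun j _ => mul_le_mul_of_nonneg_left (hpt i j) (h.hA i j)) (h.hw i)
    _ = _ := by
        have e : ∀ i, w i * ∑ j, A i j * ((1 / (τ : ℝ)) * ∑ s ∈ Finset.range τ,
            ‖vs A u s j - vs A u (s + 1) i‖ ^ 4)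
            = (1 / (τ : ℝ)) * ∑ s ∈ Finset.range τ, w i * ∑ j, A i j *
              ‖vs A u s j - vs A u (s + 1) i‖ ^ 4 := by
          intro i
          simp only [Finset.mul_sum]
          rw [Finset.sum_comm]
          refine Finset.sum_congr rfl fun s _ => Finset.sum_congr rfl fun j _ => ?_
          ring
        simp only [e]
        rw [← Finset.mul_sum, Finset.sum_comm]
        simp only [BB]

lemma A2_bound (htri : ∀ k l q, dd u k l ≤ dd u k q + dd u q l) (τ : ℕ) (hτ : 0 < τ) :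
    ∑ i, w i * Vi A u τ i * ‖dlt A u τ i‖ ^ 2 ≤ (1 / (τ : ℝ)) ^ 2 * SS w A u τ := by
  have hτ' : (0 : ℝ) < τ := by exact_mod_cast hτ
  have h1 : ∀ i, w i * Vi A u τ i * ‖dlt A u τ i‖ ^ 2
      ≤ (1 / (τ : ℝ)) ^ 2 * ((1 / 2) * (w i * Vi A u τ i ^ 2 + w i * Rr A u τ i ^ 2)) := by
    intro i
    have h2 := dlt_sq_le h u τ hτ i
    have h3 : 0 ≤ w i * Vi A u τ i := mul_nonneg (h.hw i) (Vi_nonneg h u τ i)
    have h4 : w i * (Vi A u τ i * Rr A u τ i) ≤ w i * ((1 / 2) * (Vi A u τ i ^ 2 + Rr A u τ i ^ 2)) := by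
      apply mul_le_mul_of_nonneg_left _ (h.hw i)
      nlinarith [sq_nonneg (Vi A u τ i - Rr A u τ i)]
    calc w i * Vi A u τ i * ‖dlt A u τ i‖ ^ 2
        ≤ w i * Vi A u τ i * ((1 / (τ : ℝ)) ^ 2 * Rr A u τ i) :=
          mul_le_mul_of_nonneg_left h2 h3
      _ = (1 / (τ : ℝ)) ^ 2 * (w i * (Vi A u τ i * Rr A u τ i)) := by ring
      _ ≤ (1 / (τ : ℝ)) ^ 2 * (w i * ((1 / 2) * (Vi A u τ i ^ 2 + Rr A u τ i ^ 2))) :=
          mul_le_mul_of_nonneg_left h4 (by positivity)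
      _ = _ := by ring
  have h5 := Vi_sq_sum h u htri τ hτ
  have h6 := Rr_sq_sum h u τ
  have h7 := sum_range_EE_le h u τ hτ
  have h8 := EE_le_SS h u τ τ (by omega)
  calc _ ≤ ∑ i, (1 / (τ : ℝ)) ^ 2 * ((1 / 2) * (w i * Vi A u τ i ^ 2 + w i * Rr A u τ i ^ 2)) :=
        Finset.sum_le_sum fun i _ => h1 i
    _ = (1 / (τ : ℝ)) ^ 2 * ((1 / 2) * (∑ i, w i * Vi A u τ i ^ 2 + ∑ i, w i * Rr A u τ i ^ 2)) := by
        rw [← Finset.mul_sum, ← Finset.mul_sum, Finset.sum_add_distrib]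
    _ ≤ _ := by
        apply mul_le_mul_of_nonneg_left _ (by positivity)
        linarith

lemma B2_bound (τ : ℕ) (hτ : 0 < τ) :
    ∑ i, w i * (‖dlt A u τ i‖ ^ 2) ^ 2 ≤ (1 / (τ : ℝ)) ^ 2 * SS w A u τ := by
  have hτ' : (1 : ℝ) ≤ τ := by exact_mod_cast hτ
  have hτ0 : (0 : ℝ) < τ := by linarith
  have h0 : (1 / (τ : ℝ)) ^ 2 ≤ 1 := by
    have : 1 / (τ : ℝ) ≤ 1 := by rw [div_le_one hτ0]; exact hτ'
    have h' : 0 ≤ 1 / (τ : ℝ) := by positivity
    nlinarith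
  have h1 : ∀ i, w i * (‖dlt A u τ i‖ ^ 2) ^ 2
      ≤ (1 / (τ : ℝ)) ^ 2 * (w i * Rr A u τ i ^ 2) := by
    intro i
    have h2 := dlt_sq_le h u τ hτ i
    have h3 := Rr_nonneg h u τ i
    have h4 : (‖dlt A u τ i‖ ^ 2) ^ 2 ≤ ((1 / (τ : ℝ)) ^ 2 * Rr A u τ i) ^ 2 :=
      pow_le_pow_left₀ (by positivity) h2 2
    have h5 : ((1 / (τ : ℝ)) ^ 2 * Rr A u τ i) ^ 2 ≤ (1 / (τ : ℝ)) ^ 2 * Rr A u τ i ^ 2 := by
      have h6 : 0 ≤ (1 / (τ : ℝ)) ^ 2 := by positivity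
      have h7 : 0 ≤ Rr A u τ i ^ 2 := by positivity
      calc ((1 / (τ : ℝ)) ^ 2 * Rr A u τ i) ^ 2
          = (1 / (τ : ℝ)) ^ 2 * ((1 / (τ : ℝ)) ^ 2 * Rr A u τ i ^ 2) := by ring
        _ ≤ (1 / (τ : ℝ)) ^ 2 * (1 * Rr A u τ i ^ 2) := by
            apply mul_le_mul_of_nonneg_left _ h6
            exact mul_le_mul_of_nonneg_right h0 h7
        _ = _ := by ring
    calc w i * (‖dlt A u τ i‖ ^ 2) ^ 2 ≤ w i * ((1 / (τ : ℝ)) ^ 2 * Rr A u τ i ^ 2) :=
          mul_le_mul_of_nonneg_left (h4.trans h5) (h.hw i)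
      _ = _ := by ring
  calc _ ≤ ∑ i, (1 / (τ : ℝ)) ^ 2 * (w i * Rr A u τ i ^ 2) := Finset.sum_le_sum fun i _ => h1 i
    _ = (1 / (τ : ℝ)) ^ 2 * ∑ i, w i * Rr A u τ i ^ 2 := by rw [Finset.mul_sum]
    _ ≤ _ := by
        apply mul_le_mul_of_nonneg_left _ (by positivity)
        exact (Rr_sq_sum h u τ).trans (EE_le_SS h u τ τ (by omega))

/-- The main estimate of the averaged smoothing. -/
theorem main_avg (htri : ∀ k l q, dd u k l ≤ dd u k q + dd u q l) (τ : ℕ) (hτ : 0 < τ) :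
    ∑ i, ∑ j, w i * A i j * (18 * (Vi A u τ i * QQ A u τ i j) + 2 * QQ A u τ i j ^ 2)
      ≤ 316 * ((1 / (τ : ℝ)) ^ 2 * SS w A u τ) := by
  have hA1 := A1_bound h u htri τ hτ
  have hA2 := A2_bound h u htri τ hτ
  have hB1 := B1_bound h u τ hτ
  have hB2 := B2_bound h u τ hτ
  have hpt : ∀ i j, w i * A i j * (18 * (Vi A u τ i * QQ A u τ i j) + 2 * QQ A u τ i j ^ 2)
      ≤ 36 * (w i * Vi A u τ i * (A i j * ‖zbar A u τ i j‖ ^ 2))
        + 36 * (w i * Vi A u τ i * ‖dlt A u τ i‖ ^ 2 * A i j)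
        + 16 * (w i * (A i j * (‖zbar A u τ i j‖ ^ 2) ^ 2))
        + 16 * (w i * (‖dlt A u τ i‖ ^ 2) ^ 2 * A i j) := by
    intro i j
    have h0 : 0 ≤ w i * A i j := mul_nonneg (h.hw i) (h.hA i j)
    set x := ‖zbar A u τ i j‖ ^ 2 with hx
    set y := ‖dlt A u τ i‖ ^ 2 with hy
    set Q := QQ A u τ i j with hQ
    set V' := Vi A u τ i with hV
    have hx0 : 0 ≤ x := by positivity
    have hy0 : 0 ≤ y := by positivity
    have hQ0 : 0 ≤ Q := by rw [hQ]; unfold QQ; positivity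
    have hV0 : 0 ≤ V' := Vi_nonneg h u τ i
    have hQ1 : Q ≤ 2 * x + 2 * y := QQ_le h u τ i j
    have h1 : 18 * (V' * Q) + 2 * Q ^ 2 ≤ 36 * (V' * x) + 36 * (V' * y) + 16 * x ^ 2 + 16 * y ^ 2 := by
      have h2 : V' * Q ≤ V' * (2 * x + 2 * y) := mul_le_mul_of_nonneg_left hQ1 hV0
      have h3 : Q ^ 2 ≤ (2 * x + 2 * y) ^ 2 := pow_le_pow_left₀ hQ0 hQ1 2
      nlinarith [sq_nonneg (x - y)]
    calc w i * A i j * (18 * (V' * Q) + 2 * Q ^ 2)
        ≤ w i * A i j * (36 * (V' * x) + 36 * (V' * y) + 16 * x ^ 2 + 16 * y ^ 2) :=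
          mul_le_mul_of_nonneg_left h1 h0
      _ = _ := by ring
  calc _ ≤ ∑ i, ∑ j, (36 * (w i * Vi A u τ i * (A i j * ‖zbar A u τ i j‖ ^ 2))
        + 36 * (w i * Vi A u τ i * ‖dlt A u τ i‖ ^ 2 * A i j)
        + 16 * (w i * (A i j * (‖zbar A u τ i j‖ ^ 2) ^ 2))
        + 16 * (w i * (‖dlt A u τ i‖ ^ 2) ^ 2 * A i j)) :=
        Finset.sum_le_sum fun i _ => Finset.sum_le_sum fun j _ => hpt i j
    _ = 36 * (∑ i, w i * Vi A u τ i * ∑ j, A i j * ‖zbar A u τ i j‖ ^ 2)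
        + 36 * (∑ i, w i * Vi A u τ i * ‖dlt A u τ i‖ ^ 2)
        + 16 * (∑ i, w i * ∑ j, A i j * (‖zbar A u τ i j‖ ^ 2) ^ 2)
        + 16 * (∑ i, w i * (‖dlt A u τ i‖ ^ 2) ^ 2) := by
        simp only [Finset.mul_sum, ← Finset.sum_add_distrib]
        refine Finset.sum_congr rfl fun i _ => ?_
        simp only [Finset.sum_add_distrib, ← Finset.mul_sum, ← Finset.sum_mul, h.hA1 i, mul_one]
    _ ≤ 36 * (2 * ((1 / (τ : ℝ)) ^ 2 * SS w A u τ)) + 36 * ((1 / (τ : ℝ)) ^ 2 * SS w A u τ)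
        + 16 * (12 * ((1 / (τ : ℝ)) ^ 2 * SS w A u τ)) + 16 * ((1 / (τ : ℝ)) ^ 2 * SS w A u τ) := by
        linarith
    _ = _ := by ring

lemma sum_PP_sq_le (τ : ℕ) (hτ : 0 < τ) :
    ∑ i, ∑ k, w i * PP A τ i k * dd u i k ^ 2 ≤ (1 / (τ : ℝ)) * SS w A u τ := by
  have hτ' : (0 : ℝ) < τ := by exact_mod_cast hτ
  have h1 : ∑ a ∈ Finset.range τ, EE w A u a ≤ SS w A u τ := by
    apply Finset.sum_le_sum_of_subset_of_nonneg
    · intro a ha
      simp only [Finset.mem_range] at ha ⊢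
      omega
    · intro T _ _
      exact EE_nonneg h u T
  have e : ∑ i, ∑ k, w i * PP A τ i k * dd u i k ^ 2
      = (1 / (τ : ℝ)) * ∑ a ∈ Finset.range τ, EE w A u a := by
    have key : ∀ i k, w i * PP A τ i k * dd u i k ^ 2
        = (1 / (τ : ℝ)) * ∑ a ∈ Finset.range τ, w i * (A ^ a) i k * dd u i k ^ 2 := by
      intro i k
      simp only [PP, Finset.mul_sum, Finset.sum_mul]
      refine Finset.sum_congr rfl fun a _ => ?_
      ring
    simp only [key, ← Finset.mul_sum, EE]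
    congr 1
    calc ∑ i, ∑ k, ∑ a ∈ Finset.range τ, w i * (A ^ a) i k * dd u i k ^ 2
        = ∑ i, ∑ a ∈ Finset.range τ, ∑ k, w i * (A ^ a) i k * dd u i k ^ 2 :=
          Finset.sum_congr rfl fun i _ => Finset.sum_comm
      _ = _ := Finset.sum_comm
  rw [e]
  exact mul_le_mul_of_nonneg_left h1 (by positivity)

end

end Crest.Agent.Lib.MarkovCotype
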