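import Mathlib

/-! Finite reversible Markov chains acting on Hilbert-space valued maps: the second moment
estimates behind the metric Markov cotype of `ℓ₁`.  All statements are proved by backward
recursion on the remaining time, so no path space is needed. -/

set_option autoImplicit false

namespace Crest.Agent.Lib.MarkovCotype

open Finset

variable {V : Type*} [Fintype V] [DecidableEq V]

/-- A reversible stochastic matrix. -/
structure RevChain (w : V → ℝ) (A : Matrix V V ℝ) : Prop where
  hw : ∀ i, 0 ≤ w i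
  hA : ∀ i j, 0 ≤ A i j
  hA1 : ∀ i, ∑ j, A i j = 1
  hrev : ∀ i j, w i * A i j = w j * A j i

variable {w : V → ℝ} {A : Matrix V V ℝ}

lemma pow_succ_apply (A : Matrix V V ℝ) (s : ℕ) (i k : V) :
    (A ^ (s + 1)) i k = ∑ j, A i j * (A ^ s) j k := by
  rw [pow_succ', Matrix.mul_apply]

lemma pow_succ_apply' (A : Matrix V V ℝ) (s : ℕ) (i k : V) :
    (A ^ (s + 1)) i k = ∑ j, (A ^ s) i j * A j k := by
  rw [pow_succ, Matrix.mul_apply]

lemma pow_zero_apply (A : Matrix V V ℝ) (i k : V) :
    (A ^ 0) i k = if i = k then 1 else 0 := by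
  simp [Matrix.one_apply]

namespace RevChain

lemma pow_nonneg (h : RevChain w A) (s : ℕ) (i k : V) : 0 ≤ (A ^ s) i k := by
  induction s generalizing i with
  | zero =>
    rw [pow_zero_apply]
    split_ifs <;> norm_num
  | succ s ih =>
    rw [pow_succ_apply]
    exact Finset.sum_nonneg fun j _ => mul_nonneg (h.hA i j) (ih j)

lemma pow_sum (h : RevChain w A) (s : ℕ) (i : V) : ∑ k, (A ^ s) i k = 1 := by
  induction s generalizing i with
  | zero =>
    simp [Matrix.one_apply]
  | succ s ih =>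
    simp only [pow_succ_apply]
    rw [Finset.sum_comm]
    simp only [← Finset.mul_sum, ih, mul_one, h.hA1]

lemma pow_rev (h : RevChain w A) (s : ℕ) (i k : V) :
    w i * (A ^ s) i k = w k * (A ^ s) k i := by
  induction s generalizing i k with
  | zero =>
    simp only [pow_zero_apply]
    by_cases hik : i = k
    · subst hik; rfl
    · have hki : ¬ k = i := fun h => hik h.symm
      simp [hik, hki]
  | succ s ih =>
    rw [pow_succ_apply, pow_succ_apply']
    rw [Finset.mul_sum, Finset.mul_sum]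
    refine Finset.sum_congr rfl fun j _ => ?_
    calc w i * (A i j * (A ^ s) j k) = (w i * A i j) * (A ^ s) j k := by ring
      _ = w j * A j i * (A ^ s) j k := by rw [h.hrev]
      _ = (w j * (A ^ s) j k) * A j i := by ring
      _ = w k * (A ^ s) k j * A j i := by rw [ih]
      _ = w k * ((A ^ s) k j * A j i) := by ring

lemma stationary (h : RevChain w A) (s : ℕ) (k : V) : ∑ i, w i * (A ^ s) i k = w k := by
  calc ∑ i, w i * (A ^ s) i k = ∑ i, w k * (A ^ s) k i :=
        Finset.sum_congr rfl fun i _ => h.pow_rev s i k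
    _ = w k := by rw [← Finset.mul_sum, h.pow_sum, mul_one]

end RevChain

/-- Accumulation of an additive functional along the chain by backward recursion: `acc f s i` is
the expected value of `∑ f` over `s` steps started from `i`. -/
noncomputable def acc (A : Matrix V V ℝ) (f : ℕ → V → ℝ) : ℕ → V → ℝ
  | 0, _ => 0
  | s + 1, i => f s i + ∑ j, A i j * acc A f s j

/-- Closed form of `acc`. -/
lemma acc_succ_eq (A : Matrix V V ℝ) (f : ℕ → V → ℝ) (m : ℕ) (i : V) :
    acc A f (m + 1) i =
      ∑ q ∈ Finset.HasAntidiagonal.antidiagonal m, ∑ k, (A ^ q.1) i k * f q.2 k := by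
  induction m generalizing i with
  | zero =>
    simp [acc, Matrix.one_apply]
  | succ m ih =>
    rw [Finset.Nat.sum_antidiagonal_succ]
    have h1 : ∑ k, (A ^ (0 : ℕ)) i k * f (m + 1) k = f (m + 1) i := by
      simp [Matrix.one_apply]
    rw [h1, acc]
    congr 1
    simp only [ih]
    simp only [Finset.mul_sum]
    rw [Finset.sum_comm]
    refine Finset.sum_congr rfl fun q _ => ?_
    simp only [pow_succ_apply, Finset.sum_mul]
    rw [Finset.sum_comm]
    refine Finset.sum_congr rfl fun k _ => ?_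
    refine Finset.sum_congr rfl fun j _ => ?_
    ring

variable {H : Type*} [NormedAddCommGroup H] [InnerProductSpace ℝ H]

/-- The variance identity for a probability vector. -/
lemma variance_identity (c : V → ℝ) (hc : ∑ j, c j = 1) (a : V → H) (b : H) :
    ∑ j, c j * ‖a j - b‖ ^ 2 =
      ‖(∑ j, c j • a j) - b‖ ^ 2 + ∑ j, c j * ‖a j - ∑ j', c j' • a j'‖ ^ 2 := by
  set abar : H := ∑ j, c j • a j with habar
  have h0 : ∑ j, c j • (a j - abar) = 0 := by
    simp only [smul_sub, Finset.sum_sub_distrib, ← Finset.sum_smul, hc, one_smul, ← habar, sub_self]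
  have key : ∀ j, ‖a j - b‖ ^ 2 = ‖a j - abar‖ ^ 2 + 2 * inner ℝ (a j - abar) (abar - b)
      + ‖abar - b‖ ^ 2 := by
    intro j
    have : a j - b = (a j - abar) + (abar - b) := by abel
    rw [this, @norm_add_sq_real]
  have hinner : ∑ j, c j * inner ℝ (a j - abar) (abar - b) = 0 := by
    have : ∑ j, c j * inner ℝ (a j - abar) (abar - b) = inner ℝ (∑ j, c j • (a j - abar)) (abar - b) := by
      rw [sum_inner]
      refine Finset.sum_congr rfl fun j _ => ?_
      rw [real_inner_smul_left]
    rw [this, h0, inner_zero_left]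
  calc ∑ j, c j * ‖a j - b‖ ^ 2
      = ∑ j, (c j * ‖a j - abar‖ ^ 2 + 2 * (c j * inner ℝ (a j - abar) (abar - b))
          + c j * ‖abar - b‖ ^ 2) := by
        refine Finset.sum_congr rfl fun j _ => ?_
        rw [key j]; ring
    _ = ‖abar - b‖ ^ 2 + ∑ j, c j * ‖a j - abar‖ ^ 2 := by
        rw [Finset.sum_add_distrib, Finset.sum_add_distrib, ← Finset.mul_sum, hinner,
          ← Finset.sum_mul, hc]
        ring

/-- Smoothing of `u` by `A ^ s`. -/
noncomputable def vs (A : Matrix V V ℝ) (u : V → H) (s : ℕ) (i : V) : H :=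
  ∑ k, (A ^ s) i k • u k

lemma vs_zero (A : Matrix V V ℝ) (u : V → H) (i : V) : vs A u 0 i = u i := by
  simp [vs, Matrix.one_apply, ite_smul]

lemma vs_succ (A : Matrix V V ℝ) (u : V → H) (s : ℕ) (i : V) :
    vs A u (s + 1) i = ∑ j, A i j • vs A u s j := by
  simp only [vs, Finset.smul_sum, smul_smul, pow_succ_apply, Finset.sum_smul]
  rw [Finset.sum_comm]

/-- Squared distance. -/
noncomputable def dd (u : V → H) (k l : V) : ℝ := ‖u k - u l‖ ^ 2

lemma dd_comm (u : V → H) (k l : V) : dd u k l = dd u l k := by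
  simp only [dd, norm_sub_rev]

lemma dd_nonneg (u : V → H) (k l : V) : 0 ≤ dd u k l := by
  unfold dd; positivity

/-- Smoothed squared distance from the base point `p`. -/
noncomputable def NN (A : Matrix V V ℝ) (u : V → H) (p : V) (s : ℕ) (i : V) : ℝ :=
  ∑ k, (A ^ s) i k * dd u p k

/-- Squared distance of the smoothed map from the base point. -/
noncomputable def UU (A : Matrix V V ℝ) (u : V → H) (p : V) (s : ℕ) (i : V) : ℝ :=
  ‖vs A u s i - u p‖ ^ 2

/-- One step conditional variance. -/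
noncomputable def alpha (A : Matrix V V ℝ) (u : V → H) (s : ℕ) (i : V) : ℝ :=
  ∑ j, A i j * ‖vs A u s j - vs A u (s + 1) i‖ ^ 2

/-- Smoothed fourth power of the distance. -/
noncomputable def nn (A : Matrix V V ℝ) (u : V → H) (p : V) (s : ℕ) (i : V) : ℝ :=
  ∑ k, (A ^ s) i k * (dd u p k) ^ 2

section fixedBase

variable (h : RevChain w A) (u : V → H) (p : V)

include h

lemma NN_zero (i : V) : NN A u p 0 i = dd u p i := by
  simp [NN, Matrix.one_apply]

omit h in
lemma NN_succ (s : ℕ) (i : V) : NN A u p (s + 1) i = ∑ j, A i j * NN A u p s j := by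
  simp only [NN, pow_succ_apply, Finset.mul_sum, Finset.sum_mul]
  rw [Finset.sum_comm]
  refine Finset.sum_congr rfl fun k _ => ?_
  refine Finset.sum_congr rfl fun j _ => ?_
  ring

lemma NN_nonneg (s : ℕ) (i : V) : 0 ≤ NN A u p s i :=
  Finset.sum_nonneg fun k _ => mul_nonneg (h.pow_nonneg s i k) (dd_nonneg u p k)

omit h in
lemma UU_zero (i : V) : UU A u p 0 i = dd u p i := by
  simp [UU, vs_zero, dd, norm_sub_rev]

omit h in
lemma UU_nonneg (s : ℕ) (i : V) : 0 ≤ UU A u p s i := by
  unfold UU; positivity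

lemma alpha_nonneg (s : ℕ) (i : V) : 0 ≤ alpha A u s i :=
  Finset.sum_nonneg fun j _ => mul_nonneg (h.hA i j) (by positivity)

lemma UU_step (s : ℕ) (i : V) :
    ∑ j, A i j * UU A u p s j = UU A u p (s + 1) i + alpha A u s i := by
  simp only [UU, alpha]
  have := variance_identity (fun j => A i j) (h.hA1 i) (fun j => vs A u s j) (u p)
  simpa [vs_succ] using this

lemma UU_le_NN (s : ℕ) (i : V) : UU A u p s i ≤ NN A u p s i := by
  induction s generalizing i with
  | zero => rw [UU_zero, NN_zero h]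
  | succ s ih =>
    have h1 := UU_step h u p s i
    have h2 : ∑ j, A i j * UU A u p s j ≤ ∑ j, A i j * NN A u p s j :=
      Finset.sum_le_sum fun j _ => mul_le_mul_of_nonneg_left (ih j) (h.hA i j)
    rw [NN_succ]
    have h3 := alpha_nonneg h u s i
    linarith

omit h in
lemma nn_succ (s : ℕ) (i : V) : nn A u p (s + 1) i = ∑ j, A i j * nn A u p s j := by
  simp only [nn, pow_succ_apply, Finset.mul_sum, Finset.sum_mul]
  rw [Finset.sum_comm]
  refine Finset.sum_congr rfl fun k _ => ?_
  refine Finset.sum_congr rfl fun j _ => ?_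
  ring

lemma nn_zero (i : V) : nn A u p 0 i = (dd u p i) ^ 2 := by
  simp [nn, Matrix.one_apply]

/-- `cc = NN - UU`: the expected remaining variance. -/
noncomputable def cc (A : Matrix V V ℝ) (u : V → H) (p : V) (s : ℕ) (i : V) : ℝ :=
  NN A u p s i - UU A u p s i

lemma cc_zero (i : V) : cc A u p 0 i = 0 := by
  simp [cc, NN_zero h, UU_zero]

lemma cc_succ (s : ℕ) (i : V) :
    cc A u p (s + 1) i = alpha A u s i + ∑ j, A i j * cc A u p s j := by
  simp only [cc, mul_sub, Finset.sum_sub_distrib]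
  rw [UU_step h u p s i, NN_succ]
  ring

/-- The functional `E[∑ α · N_T]`. -/
noncomputable def ll (A : Matrix V V ℝ) (u : V → H) (p : V) : ℕ → V → ℝ :=
  acc A (fun s i => alpha A u s i * NN A u p (s + 1) i)

/-- The functional `E[(∑ α)²]`. -/
noncomputable def HH (A : Matrix V V ℝ) (u : V → H) (p : V) : ℕ → V → ℝ
  | 0, _ => 0
  | s + 1, i => alpha A u s i ^ 2 + 2 * alpha A u s i * (∑ j, A i j * cc A u p s j)
      + ∑ j, A i j * HH A u p s j

lemma second_moment (s : ℕ) (i : V) (x : ℝ) :
    x * NN A u p s i + ll A u p s i - (1 / 4) * (x ^ 2 + 2 * x * cc A u p s i + HH A u p s i)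
      ≤ nn A u p s i := by
  induction s generalizing i x with
  | zero =>
    simp only [ll, acc, HH, cc_zero h, NN_zero h, nn_zero h]
    nlinarith [sq_nonneg (x / 2 - dd u p i)]
  | succ s ih =>
    set a := alpha A u s i with ha
    have key : ∑ j, A i j * ((x + a) * NN A u p s j + ll A u p s j
        - (1 / 4) * ((x + a) ^ 2 + 2 * (x + a) * cc A u p s j + HH A u p s j))
        ≤ ∑ j, A i j * nn A u p s j :=
      Finset.sum_le_sum fun j _ => mul_le_mul_of_nonneg_left (ih j _) (h.hA i j)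
    rw [← nn_succ] at key
    have e : ∑ j, A i j * ((x + a) * NN A u p s j + ll A u p s j
        - (1 / 4) * ((x + a) ^ 2 + 2 * (x + a) * cc A u p s j + HH A u p s j))
        = (x + a) * (∑ j, A i j * NN A u p s j) + (∑ j, A i j * ll A u p s j)
          - (1 / 4) * ((x + a) ^ 2 * (∑ j, A i j) + 2 * (x + a) * (∑ j, A i j * cc A u p s j)
            + (∑ j, A i j * HH A u p s j)) := by
      simp only [Finset.mul_sum, Finset.sum_mul, ← Finset.sum_add_distrib, ← Finset.sum_sub_distrib]
      refine Finset.sum_congr rfl fun j _ => ?_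
      ring
    rw [e, h.hA1 i, ← NN_succ] at key
    have h1 : ll A u p (s + 1) i = a * NN A u p (s + 1) i + ∑ j, A i j * ll A u p s j := rfl
    have h2 : HH A u p (s + 1) i = a ^ 2 + 2 * a * (∑ j, A i j * cc A u p s j)
        + ∑ j, A i j * HH A u p s j := rfl
    have h3 := cc_succ h u p s i
    rw [h1, h2, h3]
    rw [← ha] 
    nlinarith [key]

lemma HH_le (s : ℕ) (i : V) : HH A u p s i ≤ 2 * ll A u p s i := by
  induction s generalizing i with
  | zero => simp [HH, ll, acc]
  | succ s ih =>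
    set a := alpha A u s i with ha
    have h1 : ll A u p (s + 1) i = a * NN A u p (s + 1) i + ∑ j, A i j * ll A u p s j := rfl
    have h2 : HH A u p (s + 1) i = a ^ 2 + 2 * a * (∑ j, A i j * cc A u p s j)
        + ∑ j, A i j * HH A u p s j := rfl
    have h3 := cc_succ h u p s i
    have h4 : ∑ j, A i j * HH A u p s j ≤ ∑ j, A i j * (2 * ll A u p s j) :=
      Finset.sum_le_sum fun j _ => mul_le_mul_of_nonneg_left (ih j) (h.hA i j)
    have h5 : ∑ j, A i j * (2 * ll A u p s j) = 2 * ∑ j, A i j * ll A u p s j := by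
      rw [Finset.mul_sum]
      refine Finset.sum_congr rfl fun j _ => ?_
      ring
    have ha0 : 0 ≤ a := alpha_nonneg h u s i
    have h6 : cc A u p (s + 1) i ≤ NN A u p (s + 1) i := by
      have := UU_nonneg (A := A) u p (s + 1) i
      simp only [cc]; linarith
    rw [← ha] at h3
    rw [h1, h2]
    have h7 : a * (cc A u p (s + 1) i) ≤ a * NN A u p (s + 1) i :=
      mul_le_mul_of_nonneg_left h6 ha0
    nlinarith [sq_nonneg a]

lemma ll_le (s : ℕ) (i : V) : ll A u p s i ≤ 2 * nn A u p s i := by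
  have h1 := second_moment h u p s i 0
  have h2 := HH_le h u p s i
  simp only [zero_mul, zero_add, mul_zero, ne_eq, OfNat.ofNat_ne_zero, not_false_eq_true,
    zero_pow, add_zero] at h1
  linarith

/-- The weight function of the fourth moment estimate. -/
noncomputable def Psi (A : Matrix V V ℝ) (u : V → H) (p : V) (s : ℕ) (i : V) : ℝ :=
  NN A u p s i * UU A u p s i + NN A u p s i ^ 2

lemma Psi_nonneg (s : ℕ) (i : V) : 0 ≤ Psi A u p s i := by
  have h1 := NN_nonneg h u p s i
  have h2 := UU_nonneg (A := A) u p s i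
  unfold Psi
  positivity

lemma step_ineq (s : ℕ) (i : V) :
    ∑ j, A i j * (NN A u p s j * ‖vs A u s j - vs A u (s + 1) i‖ ^ 2)
      ≤ ∑ j, A i j * Psi A u p s j - Psi A u p (s + 1) i
        + UU A u p (s + 1) i * alpha A u s i := by
  set abar := vs A u (s + 1) i with habar
  set ξ := abar - u p with hξ
  set N' := NN A u p (s + 1) i with hN'
  have hU : UU A u p (s + 1) i = ‖ξ‖ ^ 2 := rfl
  have hsum : ∑ j, A i j • (vs A u s j - abar) = 0 := by
    simp only [smul_sub, Finset.sum_sub_distrib, ← Finset.sum_smul, h.hA1 i, one_smul]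
    rw [habar, vs_succ, sub_self]
  have hb0 : ∑ j, A i j * inner ℝ ξ (vs A u s j - abar) = 0 := by
    have : ∑ j, A i j * inner ℝ ξ (vs A u s j - abar)
        = inner ℝ ξ (∑ j, A i j • (vs A u s j - abar)) := by
      rw [inner_sum]
      refine Finset.sum_congr rfl fun j _ => ?_
      rw [real_inner_smul_right]
    rw [this, hsum, inner_zero_right]
  have hU' : ∀ j, UU A u p s j = ‖ξ‖ ^ 2 + 2 * inner ℝ ξ (vs A u s j - abar)
      + ‖vs A u s j - abar‖ ^ 2 := by
    intro j
    have : vs A u s j - u p = ξ + (vs A u s j - abar) := by rw [hξ]; abel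
    simp only [UU]
    rw [this, @norm_add_sq_real]
  have hpoint : ∀ j, A i j * (NN A u p s j * ‖vs A u s j - abar‖ ^ 2)
      ≤ A i j * Psi A u p s j - A i j * (‖ξ‖ ^ 2 * NN A u p s j)
        - 2 * N' * (A i j * inner ℝ ξ (vs A u s j - abar))
        - 2 * N' * (A i j * NN A u p s j) + A i j * N' ^ 2
        + ‖ξ‖ ^ 2 * (A i j * ‖vs A u s j - abar‖ ^ 2) := by
    intro j
    have hAij := h.hA i j
    set N := NN A u p s j
    set b := inner ℝ ξ (vs A u s j - abar) with hb
    set z := ‖vs A u s j - abar‖ ^ 2 with hz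
    have hcs : b ^ 2 ≤ ‖ξ‖ ^ 2 * z := by
      have := abs_real_inner_le_norm ξ (vs A u s j - abar)
      have h2 : b ^ 2 = |b| ^ 2 := (sq_abs b).symm
      rw [h2, hz, ← mul_pow]
      exact pow_le_pow_left₀ (abs_nonneg _) this 2
    have hPsi : Psi A u p s j = N * (‖ξ‖ ^ 2 + 2 * b + z) + N ^ 2 := by
      simp only [Psi]
      rw [hU' j]
    rw [hPsi]
    -- reduce to a scalar inequality
    have hmain : N * z ≤ N * (‖ξ‖ ^ 2 + 2 * b + z) + N ^ 2 - ‖ξ‖ ^ 2 * N - 2 * N' * b - 2 * N' * N
        + N' ^ 2 + ‖ξ‖ ^ 2 * z := by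
      nlinarith [sq_nonneg (N - N' + b), hcs]
    calc A i j * (N * z) ≤ A i j * (N * (‖ξ‖ ^ 2 + 2 * b + z) + N ^ 2 - ‖ξ‖ ^ 2 * N - 2 * N' * b
          - 2 * N' * N + N' ^ 2 + ‖ξ‖ ^ 2 * z) := mul_le_mul_of_nonneg_left hmain hAij
      _ = _ := by ring
  have hsumN : ∑ j, A i j * NN A u p s j = N' := by rw [hN', NN_succ]
  calc ∑ j, A i j * (NN A u p s j * ‖vs A u s j - abar‖ ^ 2)
      ≤ ∑ j, (A i j * Psi A u p s j - A i j * (‖ξ‖ ^ 2 * NN A u p s j)
        - 2 * N' * (A i j * inner ℝ ξ (vs A u s j - abar))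
        - 2 * N' * (A i j * NN A u p s j) + A i j * N' ^ 2
        + ‖ξ‖ ^ 2 * (A i j * ‖vs A u s j - abar‖ ^ 2)) := Finset.sum_le_sum fun j _ => hpoint j
    _ = ∑ j, A i j * Psi A u p s j - ‖ξ‖ ^ 2 * N' - 2 * N' * 0 - 2 * N' * N' + N' ^ 2
        + ‖ξ‖ ^ 2 * alpha A u s i := by
        rw [Finset.sum_add_distrib, Finset.sum_add_distrib, Finset.sum_sub_distrib,
          Finset.sum_sub_distrib, Finset.sum_sub_distrib]
        rw [← Finset.mul_sum, ← Finset.mul_sum, ← Finset.sum_mul, ← Finset.mul_sum, hb0, h.hA1 i,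
          hsumN]
        have e1 : ∑ j, A i j * (‖ξ‖ ^ 2 * NN A u p s j) = ‖ξ‖ ^ 2 * N' := by
          rw [← hsumN, Finset.mul_sum]
          refine Finset.sum_congr rfl fun j _ => ?_
          ring
        rw [e1]
        simp only [alpha, ← habar]
        ring
    _ = ∑ j, A i j * Psi A u p s j - Psi A u p (s + 1) i
        + UU A u p (s + 1) i * alpha A u s i := by
        simp only [Psi, hU, ← hN']
        ring

/-- The fourth power functional. -/
noncomputable def b4 (A : Matrix V V ℝ) (u : V → H) : ℕ → V → ℝ :=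
  acc A (fun s i => ∑ j, A i j * ‖vs A u s j - vs A u (s + 1) i‖ ^ 4)

lemma fourth_step (s : ℕ) (i : V) :
    ∑ j, A i j * ‖vs A u s j - vs A u (s + 1) i‖ ^ 4
      ≤ 2 * ∑ j, A i j * (NN A u p s j * ‖vs A u s j - vs A u (s + 1) i‖ ^ 2)
        + 2 * (UU A u p (s + 1) i * alpha A u s i) := by
  have hpoint : ∀ j, A i j * ‖vs A u s j - vs A u (s + 1) i‖ ^ 4
      ≤ 2 * (A i j * (NN A u p s j * ‖vs A u s j - vs A u (s + 1) i‖ ^ 2))
        + 2 * UU A u p (s + 1) i * (A i j * ‖vs A u s j - vs A u (s + 1) i‖ ^ 2) := by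
    intro j
    have hAij := h.hA i j
    set z := ‖vs A u s j - vs A u (s + 1) i‖ ^ 2 with hz
    have hz0 : 0 ≤ z := by positivity
    have h4 : ‖vs A u s j - vs A u (s + 1) i‖ ^ 4 = z ^ 2 := by rw [hz]; ring
    have htri : z ≤ 2 * UU A u p s j + 2 * UU A u p (s + 1) i := by
      have e : vs A u s j - vs A u (s + 1) i
          = (vs A u s j - u p) - (vs A u (s + 1) i - u p) := by abel
      have h1 : ‖vs A u s j - vs A u (s + 1) i‖
          ≤ ‖vs A u s j - u p‖ + ‖vs A u (s + 1) i - u p‖ := by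
        rw [e]; exact norm_sub_le _ _
      have h2 := sq_nonneg (‖vs A u s j - u p‖ - ‖vs A u (s + 1) i - u p‖)
      simp only [UU]
      rw [hz]
      nlinarith [norm_nonneg (vs A u s j - vs A u (s + 1) i),
        norm_nonneg (vs A u s j - u p), norm_nonneg (vs A u (s + 1) i - u p)]
    have hN := UU_le_NN h u p s j
    rw [h4]
    have h5 : z ^ 2 ≤ 2 * (NN A u p s j * z) + 2 * UU A u p (s + 1) i * z := by
      have : z ≤ 2 * NN A u p s j + 2 * UU A u p (s + 1) i := by linarith
      nlinarith [mul_le_mul_of_nonneg_right this hz0]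
    calc A i j * z ^ 2 ≤ A i j * (2 * (NN A u p s j * z) + 2 * UU A u p (s + 1) i * z) :=
          mul_le_mul_of_nonneg_left h5 hAij
      _ = _ := by ring
  calc ∑ j, A i j * ‖vs A u s j - vs A u (s + 1) i‖ ^ 4
      ≤ ∑ j, (2 * (A i j * (NN A u p s j * ‖vs A u s j - vs A u (s + 1) i‖ ^ 2))
        + 2 * UU A u p (s + 1) i * (A i j * ‖vs A u s j - vs A u (s + 1) i‖ ^ 2)) :=
        Finset.sum_le_sum fun j _ => hpoint j
    _ = _ := by
        rw [Finset.sum_add_distrib, ← Finset.mul_sum, ← Finset.mul_sum]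
        simp only [alpha]
        ring

lemma b4_add_Psi_le (s : ℕ) (i : V) :
    b4 A u s i + 2 * Psi A u p s i ≤ 4 * nn A u p s i + 4 * ll A u p s i := by
  induction s generalizing i with
  | zero =>
    simp only [b4, ll, acc, Psi, NN_zero h, UU_zero, nn_zero h]
    nlinarith
  | succ s ih =>
    have h1 : b4 A u (s + 1) i = ∑ j, A i j * ‖vs A u s j - vs A u (s + 1) i‖ ^ 4
        + ∑ j, A i j * b4 A u s j := rfl
    have h2 : ll A u p (s + 1) i = alpha A u s i * NN A u p (s + 1) i
        + ∑ j, A i j * ll A u p s j := rfl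
    have h3 := fourth_step h u p s i
    have h4 := step_ineq h u p s i
    have h5 : ∑ j, A i j * (b4 A u s j + 2 * Psi A u p s j)
        ≤ ∑ j, A i j * (4 * nn A u p s j + 4 * ll A u p s j) :=
      Finset.sum_le_sum fun j _ => mul_le_mul_of_nonneg_left (ih j) (h.hA i j)
    have h6 : ∑ j, A i j * (b4 A u s j + 2 * Psi A u p s j)
        = ∑ j, A i j * b4 A u s j + 2 * ∑ j, A i j * Psi A u p s j := by
      rw [Finset.mul_sum, ← Finset.sum_add_distrib]
      refine Finset.sum_congr rfl fun j _ => ?_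
      ring
    have h7 : ∑ j, A i j * (4 * nn A u p s j + 4 * ll A u p s j)
        = 4 * nn A u p (s + 1) i + 4 * ∑ j, A i j * ll A u p s j := by
      rw [nn_succ, Finset.mul_sum, Finset.mul_sum, ← Finset.sum_add_distrib]
      refine Finset.sum_congr rfl fun j _ => ?_
      ring
    have h8 : UU A u p (s + 1) i * alpha A u s i ≤ NN A u p (s + 1) i * alpha A u s i :=
      mul_le_mul_of_nonneg_right (UU_le_NN h u p (s + 1) i) (alpha_nonneg h u s i)
    rw [h1, h2]
    rw [h6, h7] at h5
    nlinarith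

lemma b4_le (s : ℕ) (i : V) : b4 A u s i ≤ 12 * nn A u p s i := by
  have h1 := b4_add_Psi_le h u p s i
  have h2 := ll_le h u p s i
  have h3 := Psi_nonneg h u p s i
  linarith

end fixedBase

end Crest.Agent.Lib.MarkovCotype
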