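import Crest.Agent.Lib.MarkovCotypeAvg

/-! Cut metrics: the inequality of metric Markov cotype for a nonnegative combination of cuts of a
finite set, with the nonlinear smoothing `φ(s) = 3 s² - 2 s³` of the averaged indicator of each
cut (the mean of the median of three independent samples). -/

set_option autoImplicit false

namespace Crest.Agent.Lib.MarkovCotype

open Finset

variable {V : Type*} [Fintype V] [DecidableEq V]
variable {w : V → ℝ} {A : Matrix V V ℝ}

/-- Indicator of a subset. -/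
noncomputable def ind (S : Finset V) (k : V) : ℝ := if k ∈ S then 1 else 0

lemma ind_mem (S : Finset V) (k : V) : ind S k = 0 ∨ ind S k = 1 := by
  unfold ind; split_ifs <;> simp

lemma ind_sq (S : Finset V) (k : V) : ind S k ^ 2 = ind S k := by
  rcases ind_mem S k with h | h <;> simp [h]

lemma ind_nonneg (S : Finset V) (k : V) : 0 ≤ ind S k := by
  rcases ind_mem S k with h | h <;> simp [h]

lemma ind_le_one (S : Finset V) (k : V) : ind S k ≤ 1 := by
  rcases ind_mem S k with h | h <;> simp [h]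

lemma ind_sub_sq (S : Finset V) (k l : V) : (ind S k - ind S l) ^ 2 = |ind S k - ind S l| := by
  rcases ind_mem S k with h | h <;> rcases ind_mem S l with h' | h' <;> rw [h, h'] <;> norm_num

/-- The Hilbert space embedding of the cut metric. -/
noncomputable def uu (m : Finset V → ℝ) (k : V) : EuclideanSpace ℝ (Finset V) :=
  WithLp.toLp 2 fun S => Real.sqrt (m S) * ind S k

/-- The cut metric. -/
noncomputable def cutDist (m : Finset V → ℝ) (k l : V) : ℝ :=
  ∑ S, m S * |ind S k - ind S l|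

section

variable (m : Finset V → ℝ) (hm : ∀ S, 0 ≤ m S)

include hm

lemma dd_uu (k l : V) : dd (uu m) k l = cutDist m k l := by
  simp only [dd, cutDist, EuclideanSpace.norm_sq_eq]
  refine Finset.sum_congr rfl fun S _ => ?_
  simp only [uu, WithLp.ofLp_sub, Pi.sub_apply, Real.norm_eq_abs, sq_abs]
  rw [← mul_sub, mul_pow, Real.sq_sqrt (hm S), ind_sub_sq]

lemma cutDist_tri (k l q : V) : cutDist m k l ≤ cutDist m k q + cutDist m q l := by
  simp only [cutDist]
  rw [← Finset.sum_add_distrib]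
  refine Finset.sum_le_sum fun S _ => ?_
  rw [← mul_add]
  apply mul_le_mul_of_nonneg_left _ (hm S)
  exact abs_sub_le _ _ _

lemma cutDist_nonneg (k l : V) : 0 ≤ cutDist m k l :=
  Finset.sum_nonneg fun S _ => mul_nonneg (hm S) (abs_nonneg _)

omit hm in
/-- Averaged indicator. -/
noncomputable def gg (A : Matrix V V ℝ) (τ : ℕ) (S : Finset V) (i : V) : ℝ :=
  ∑ k, PP A τ i k * ind S k

omit hm in
lemma vbar_apply (A : Matrix V V ℝ) (τ : ℕ) (i : V) (S : Finset V) :
    (vbar A (uu m) τ i).ofLp S = Real.sqrt (m S) * gg A τ S i := by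
  simp only [vbar, vs, gg, PP, uu]
  simp only [WithLp.ofLp_smul, WithLp.ofLp_sum, Pi.smul_apply, Finset.sum_apply, smul_eq_mul]
  simp only [Finset.mul_sum, Finset.sum_mul]
  rw [Finset.sum_comm]
  refine Finset.sum_congr rfl fun k _ => Finset.sum_congr rfl fun s _ => ?_
  ring

lemma QQ_uu (A : Matrix V V ℝ) (τ : ℕ) (i j : V) :
    QQ A (uu m) τ i j = ∑ S, m S * (gg A τ S i - gg A τ S j) ^ 2 := by
  simp only [QQ, EuclideanSpace.norm_sq_eq]
  refine Finset.sum_congr rfl fun S _ => ?_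
  simp only [WithLp.ofLp_sub, Pi.sub_apply, vbar_apply, Real.norm_eq_abs, sq_abs]
  rw [← mul_sub, mul_pow, Real.sq_sqrt (hm S)]

end

section

variable (h : RevChain w A) (m : Finset V → ℝ) (hm : ∀ S, 0 ≤ m S)

include h

lemma PP_sum (τ : ℕ) (hτ : 0 < τ) (i : V) : ∑ k, PP A τ i k = 1 := by
  have hτ' : (τ : ℝ) ≠ 0 := by exact_mod_cast hτ.ne'
  simp only [PP]
  rw [← Finset.mul_sum, Finset.sum_comm]
  simp only [h.pow_sum, Finset.sum_const, Finset.card_range, nsmul_eq_mul, mul_one]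
  field_simp

lemma gg_nonneg (τ : ℕ) (S : Finset V) (i : V) : 0 ≤ gg A τ S i :=
  Finset.sum_nonneg fun k _ => mul_nonneg (PP_nonneg h τ i k) (ind_nonneg S k)

lemma gg_le_one (τ : ℕ) (hτ : 0 < τ) (S : Finset V) (i : V) : gg A τ S i ≤ 1 := by
  calc gg A τ S i ≤ ∑ k, PP A τ i k * 1 :=
        Finset.sum_le_sum fun k _ => mul_le_mul_of_nonneg_left (ind_le_one S k) (PP_nonneg h τ i k)
    _ = 1 := by simp only [mul_one, PP_sum h τ hτ i]

include hm

lemma Vi_uu (τ : ℕ) (hτ : 0 < τ) (i : V) :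
    Vi A (uu m) τ i = ∑ S, m S * (gg A τ S i * (1 - gg A τ S i)) := by
  have hP := PP_sum h τ hτ i
  have key : ∀ S, ∑ k, ∑ l, PP A τ i k * PP A τ i l * (ind S k - ind S l) ^ 2
      = 2 * (gg A τ S i * (1 - gg A τ S i)) := by
    intro S
    set g := gg A τ S i with hg
    have e1 : ∀ k l, PP A τ i k * PP A τ i l * (ind S k - ind S l) ^ 2
        = PP A τ i l * (PP A τ i k * ind S k) - 2 * ((PP A τ i k * ind S k) * (PP A τ i l * ind S l))
          + PP A τ i k * (PP A τ i l * ind S l) := by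
      intro k l
      have h1 := ind_sq S k
      have h2 := ind_sq S l
      calc PP A τ i k * PP A τ i l * (ind S k - ind S l) ^ 2
          = PP A τ i k * PP A τ i l * (ind S k ^ 2 - 2 * (ind S k * ind S l) + ind S l ^ 2) := by ring
        _ = _ := by rw [h1, h2]; ring
    simp only [e1, Finset.sum_add_distrib, Finset.sum_sub_distrib]
    have e2 : ∀ k, ∑ l, PP A τ i l * (PP A τ i k * ind S k) = PP A τ i k * ind S k := by
      intro k
      rw [← Finset.sum_mul, hP, one_mul]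
    have e3 : ∀ k, ∑ l, 2 * ((PP A τ i k * ind S k) * (PP A τ i l * ind S l))
        = 2 * ((PP A τ i k * ind S k) * g) := by
      intro k
      rw [← Finset.mul_sum, ← Finset.mul_sum]
      rfl
    have e4 : ∀ k, ∑ l, PP A τ i k * (PP A τ i l * ind S l) = PP A τ i k * g := by
      intro k
      rw [← Finset.mul_sum]
      rfl
    simp only [e2, e3, e4]
    rw [← Finset.mul_sum, ← Finset.sum_mul, ← Finset.sum_mul, hP]
    change g - 2 * (g * g) + 1 * g = _
    ring
  simp only [Vi, dd_uu m hm, cutDist]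
  have e5 : ∀ k l, PP A τ i k * PP A τ i l * ∑ S, m S * |ind S k - ind S l|
      = ∑ S, m S * (PP A τ i k * PP A τ i l * (ind S k - ind S l) ^ 2) := by
    intro k l
    rw [Finset.mul_sum]
    refine Finset.sum_congr rfl fun S _ => ?_
    rw [ind_sub_sq]
    ring
  simp only [e5]
  have e6 : ∑ k, ∑ l, ∑ S, m S * (PP A τ i k * PP A τ i l * (ind S k - ind S l) ^ 2)
      = ∑ S, m S * ∑ k, ∑ l, PP A τ i k * PP A τ i l * (ind S k - ind S l) ^ 2 := by
    calc _ = ∑ k, ∑ S, ∑ l, m S * (PP A τ i k * PP A τ i l * (ind S k - ind S l) ^ 2) :=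
          Finset.sum_congr rfl fun k _ => Finset.sum_comm
      _ = ∑ S, ∑ k, ∑ l, m S * (PP A τ i k * PP A τ i l * (ind S k - ind S l) ^ 2) :=
          Finset.sum_comm
      _ = _ := by
          refine Finset.sum_congr rfl fun S _ => ?_
          rw [Finset.mul_sum]
          refine Finset.sum_congr rfl fun k _ => ?_
          rw [Finset.mul_sum]
  rw [e6, Finset.mul_sum]
  refine Finset.sum_congr rfl fun S _ => ?_
  rw [key]
  ring

end

/-- The nonlinearity: mean of the majority of three independent bits. -/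
noncomputable def phi (s : ℝ) : ℝ := 3 * s ^ 2 - 2 * s ^ 3

lemma phi_sub (a b : ℝ) (ha0 : 0 ≤ a) (ha1 : a ≤ 1) (hb0 : 0 ≤ b) (hb1 : b ≤ 1) :
    |phi a - phi b| ≤ 3 * (|a - b| * (a * (1 - a) + b * (1 - b))) + (a - b) ^ 2 := by
  have e : phi a - phi b = (a - b) * (3 * (a * (1 - a) + b * (1 - b)) + (a - b) ^ 2) := by
    unfold phi; ring
  have h0 : 0 ≤ 3 * (a * (1 - a) + b * (1 - b)) + (a - b) ^ 2 := by
    have h1 : 0 ≤ a * (1 - a) := mul_nonneg ha0 (by linarith)
    have h2 : 0 ≤ b * (1 - b) := mul_nonneg hb0 (by linarith)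
    positivity
  rw [e, abs_mul, abs_of_nonneg h0]
  have h3 : |a - b| ≤ 1 := by
    rw [abs_le]; constructor <;> linarith
  have h4 : |a - b| * (a - b) ^ 2 ≤ 1 * (a - b) ^ 2 :=
    mul_le_mul_of_nonneg_right h3 (sq_nonneg _)
  nlinarith

lemma phi_approx (x g : ℝ) (hx : x = 0 ∨ x = 1) (hg0 : 0 ≤ g) (hg1 : g ≤ 1) :
    |x - phi g| ≤ 2 * |x - g| := by
  unfold phi
  rcases hx with rfl | rfl
  · have h1 : 0 ≤ 3 * g ^ 2 - 2 * g ^ 3 := by
      have : 0 ≤ g ^ 2 * (1 - g) := mul_nonneg (sq_nonneg _) (by linarith)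
      nlinarith
    rw [zero_sub, abs_neg, abs_of_nonneg h1, zero_sub, abs_neg, abs_of_nonneg hg0]
    nlinarith [mul_nonneg hg0 (sub_nonneg.mpr hg1), sq_nonneg g,
      mul_nonneg (mul_nonneg hg0 hg0) (sub_nonneg.mpr hg1)]
  · have h1 : 0 ≤ 1 - (3 * g ^ 2 - 2 * g ^ 3) := by
      have : 1 - (3 * g ^ 2 - 2 * g ^ 3) = (1 - g) ^ 2 * (1 + 2 * g) := by ring
      rw [this]; positivity
    rw [abs_of_nonneg h1, abs_of_nonneg (by linarith : (0:ℝ) ≤ 1 - g)]
    have : 1 - (3 * g ^ 2 - 2 * g ^ 3) = (1 - g) * ((1 - g) * (1 + 2 * g)) := by ring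
    rw [this]
    have h2 : (1 - g) * (1 + 2 * g) ≤ 2 := by nlinarith
    nlinarith [mul_le_mul_of_nonneg_left h2 (by linarith : (0:ℝ) ≤ 1 - g)]

/-- Smoothed cut. -/
noncomputable def FF (A : Matrix V V ℝ) (τ : ℕ) (S : Finset V) (i : V) : ℝ := phi (gg A τ S i)

/-- Total smoothed distance on an edge. -/
noncomputable def EdgeE (A : Matrix V V ℝ) (m : Finset V → ℝ) (τ : ℕ) (i j : V) : ℝ :=
  ∑ S, m S * |FF A τ S i - FF A τ S j|

/-- Total displacement. -/
noncomputable def DispD (A : Matrix V V ℝ) (m : Finset V → ℝ) (τ : ℕ) (i : V) : ℝ :=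
  ∑ S, m S * |ind S i - FF A τ S i|

section

variable (h : RevChain w A) (m : Finset V → ℝ) (hm : ∀ S, 0 ≤ m S)

include h hm

lemma EdgeE_sq_le (τ : ℕ) (hτ : 0 < τ) (i j : V) :
    EdgeE A m τ i j ^ 2 ≤ 9 * ((Vi A (uu m) τ i + Vi A (uu m) τ j) * QQ A (uu m) τ i j)
      + 2 * QQ A (uu m) τ i j ^ 2 := by
  set Q := QQ A (uu m) τ i j with hQ
  have hQ' : Q = ∑ S, m S * (gg A τ S i - gg A τ S j) ^ 2 := QQ_uu m hm A τ i j
  have hQ0 : 0 ≤ Q := by
    rw [hQ']; exact Finset.sum_nonneg fun S _ => mul_nonneg (hm S) (sq_nonneg _)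
  set r : Finset V → ℝ := fun S =>
    gg A τ S i * (1 - gg A τ S i) + gg A τ S j * (1 - gg A τ S j) with hr
  have hr0 : ∀ S, 0 ≤ r S := fun S => by
    have h1 := gg_nonneg h τ S i
    have h2 := gg_le_one h τ hτ S i
    have h3 := gg_nonneg h τ S j
    have h4 := gg_le_one h τ hτ S j
    have h5 : 0 ≤ gg A τ S i * (1 - gg A τ S i) := mul_nonneg h1 (by linarith)
    have h6 : 0 ≤ gg A τ S j * (1 - gg A τ S j) := mul_nonneg h3 (by linarith)
    simp only [hr]; linarith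
  have hr1 : ∀ S, r S ≤ 1 / 2 := fun S => by
    simp only [hr]
    nlinarith [sq_nonneg (gg A τ S i - 1 / 2), sq_nonneg (gg A τ S j - 1 / 2)]
  set X := ∑ S, m S * (|gg A τ S i - gg A τ S j| * r S) with hX
  have hX0 : 0 ≤ X := Finset.sum_nonneg fun S _ =>
    mul_nonneg (hm S) (mul_nonneg (abs_nonneg _) (hr0 S))
  have h1 : EdgeE A m τ i j ≤ 3 * X + Q := by
    rw [hQ', hX, Finset.mul_sum, ← Finset.sum_add_distrib]
    refine Finset.sum_le_sum fun S _ => ?_
    have := phi_sub (gg A τ S i) (gg A τ S j) (gg_nonneg h τ S i) (gg_le_one h τ hτ S i)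
      (gg_nonneg h τ S j) (gg_le_one h τ hτ S j)
    calc m S * |FF A τ S i - FF A τ S j|
        ≤ m S * (3 * (|gg A τ S i - gg A τ S j| * r S) + (gg A τ S i - gg A τ S j) ^ 2) :=
          mul_le_mul_of_nonneg_left this (hm S)
      _ = _ := by ring
  have h0 : 0 ≤ EdgeE A m τ i j :=
    Finset.sum_nonneg fun S _ => mul_nonneg (hm S) (abs_nonneg _)
  have h2 : X ^ 2 ≤ (∑ S, m S * r S) * (∑ S, m S * (r S * (gg A τ S i - gg A τ S j) ^ 2)) := by
    have := Finset.sum_mul_sq_le_sq_mul_sq Finset.univ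
      (fun S => Real.sqrt (m S * r S))
      (fun S => Real.sqrt (m S * r S) * |gg A τ S i - gg A τ S j|)
    have e1 : ∀ S, Real.sqrt (m S * r S) * (Real.sqrt (m S * r S) * |gg A τ S i - gg A τ S j|)
        = m S * (|gg A τ S i - gg A τ S j| * r S) := by
      intro S
      rw [← mul_assoc, Real.mul_self_sqrt (mul_nonneg (hm S) (hr0 S))]
      ring
    have e2 : ∀ S, Real.sqrt (m S * r S) ^ 2 = m S * r S := fun S =>
      Real.sq_sqrt (mul_nonneg (hm S) (hr0 S))
    have e3 : ∀ S, (Real.sqrt (m S * r S) * |gg A τ S i - gg A τ S j|) ^ 2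
        = m S * (r S * (gg A τ S i - gg A τ S j) ^ 2) := by
      intro S
      rw [mul_pow, e2, sq_abs]
      ring
    simpa only [e1, e2, e3] using this
  have h3 : ∑ S, m S * r S = Vi A (uu m) τ i + Vi A (uu m) τ j := by
    rw [Vi_uu h m hm τ hτ i, Vi_uu h m hm τ hτ j, ← Finset.sum_add_distrib]
    refine Finset.sum_congr rfl fun S _ => ?_
    simp only [hr]; ring
  have h4 : ∑ S, m S * (r S * (gg A τ S i - gg A τ S j) ^ 2) ≤ (1 / 2) * Q := by
    rw [hQ', Finset.mul_sum]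
    refine Finset.sum_le_sum fun S _ => ?_
    have := mul_le_mul_of_nonneg_right (hr1 S) (sq_nonneg (gg A τ S i - gg A τ S j))
    calc m S * (r S * (gg A τ S i - gg A τ S j) ^ 2)
        ≤ m S * (1 / 2 * (gg A τ S i - gg A τ S j) ^ 2) :=
          mul_le_mul_of_nonneg_left this (hm S)
      _ = _ := by ring
  have hV0 : 0 ≤ Vi A (uu m) τ i + Vi A (uu m) τ j :=
    add_nonneg (Vi_nonneg h _ τ i) (Vi_nonneg h _ τ j)
  rw [h3] at h2
  have h5 : X ^ 2 ≤ (Vi A (uu m) τ i + Vi A (uu m) τ j) * ((1 / 2) * Q) :=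
    h2.trans (mul_le_mul_of_nonneg_left h4 hV0)
  have h6 : EdgeE A m τ i j ^ 2 ≤ (3 * X + Q) ^ 2 := pow_le_pow_left₀ h0 h1 2
  nlinarith [sq_nonneg (3 * X - Q)]

lemma DispD_le (τ : ℕ) (hτ : 0 < τ) (i : V) :
    DispD A m τ i ≤ 2 * ∑ k, PP A τ i k * cutDist m i k := by
  have hP := PP_sum h τ hτ i
  have h1 : ∀ S, |ind S i - FF A τ S i| ≤ 2 * ∑ k, PP A τ i k * |ind S i - ind S k| := by
    intro S
    have h2 := phi_approx (ind S i) (gg A τ S i) (ind_mem S i) (gg_nonneg h τ S i)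
      (gg_le_one h τ hτ S i)
    refine h2.trans ?_
    apply mul_le_mul_of_nonneg_left _ (by norm_num)
    have e : ind S i - gg A τ S i = ∑ k, PP A τ i k * (ind S i - ind S k) := by
      simp only [gg, mul_sub, Finset.sum_sub_distrib]
      rw [← Finset.sum_mul, hP, one_mul]
    rw [e]
    refine (Finset.abs_sum_le_sum_abs _ _).trans (le_of_eq ?_)
    refine Finset.sum_congr rfl fun k _ => ?_
    rw [abs_mul, abs_of_nonneg (PP_nonneg h τ i k)]
  calc DispD A m τ i ≤ ∑ S, m S * (2 * ∑ k, PP A τ i k * |ind S i - ind S k|) :=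
        Finset.sum_le_sum fun S _ => mul_le_mul_of_nonneg_left (h1 S) (hm S)
    _ = _ := by
        simp only [cutDist, Finset.mul_sum]
        rw [Finset.sum_comm]
        refine Finset.sum_congr rfl fun k _ => Finset.sum_congr rfl fun S _ => ?_
        ring

lemma sum_DispD_sq_le (τ : ℕ) (hτ : 0 < τ) :
    ∑ i, w i * DispD A m τ i ^ 2 ≤ 4 * ((1 / (τ : ℝ)) * SS w A (uu m) τ) := by
  have hpt : ∀ i, w i * DispD A m τ i ^ 2
      ≤ 4 * ∑ k, w i * PP A τ i k * dd (uu m) i k ^ 2 := by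
    intro i
    have h0 : 0 ≤ DispD A m τ i :=
      Finset.sum_nonneg fun S _ => mul_nonneg (hm S) (abs_nonneg _)
    have h1 := DispD_le h m hm τ hτ i
    have h2 := sq_wavg_le Finset.univ (fun k => PP A τ i k) (fun k => cutDist m i k)
      (fun k _ => PP_nonneg h τ i k) (PP_sum h τ hτ i)
    have h3 : DispD A m τ i ^ 2 ≤ 4 * ∑ k, PP A τ i k * cutDist m i k ^ 2 := by
      calc DispD A m τ i ^ 2 ≤ (2 * ∑ k, PP A τ i k * cutDist m i k) ^ 2 :=
            pow_le_pow_left₀ h0 h1 2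
        _ = 4 * (∑ k, PP A τ i k * cutDist m i k) ^ 2 := by ring
        _ ≤ _ := mul_le_mul_of_nonneg_left h2 (by norm_num)
    calc w i * DispD A m τ i ^ 2 ≤ w i * (4 * ∑ k, PP A τ i k * cutDist m i k ^ 2) :=
          mul_le_mul_of_nonneg_left h3 (h.hw i)
      _ = _ := by
          simp only [dd_uu m hm, Finset.mul_sum]
          refine Finset.sum_congr rfl fun k _ => ?_
          ring
  calc _ ≤ ∑ i, 4 * ∑ k, w i * PP A τ i k * dd (uu m) i k ^ 2 :=
        Finset.sum_le_sum fun i _ => hpt i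
    _ = 4 * ∑ i, ∑ k, w i * PP A τ i k * dd (uu m) i k ^ 2 := by rw [Finset.mul_sum]
    _ ≤ _ := mul_le_mul_of_nonneg_left (sum_PP_sq_le h (uu m) τ hτ) (by norm_num)

lemma sum_EdgeE_sq_le (τ : ℕ) (hτ : 0 < τ) :
    ∑ i, ∑ j, w i * A i j * EdgeE A m τ i j ^ 2
      ≤ 316 * ((1 / (τ : ℝ)) ^ 2 * SS w A (uu m) τ) := by
  have htri : ∀ k l q, dd (uu m) k l ≤ dd (uu m) k q + dd (uu m) q l := by
    intro k l q
    simp only [dd_uu m hm]
    exact cutDist_tri m hm k l q
  have hmain := main_avg h (uu m) htri τ hτ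
  refine le_trans ?_ hmain
  have hQsym : ∀ i j, QQ A (uu m) τ i j = QQ A (uu m) τ j i := by
    intro i j
    simp only [QQ, norm_sub_rev]
  have hsymm : ∑ i, ∑ j, w i * A i j * (Vi A (uu m) τ j * QQ A (uu m) τ i j)
      = ∑ i, ∑ j, w i * A i j * (Vi A (uu m) τ i * QQ A (uu m) τ i j) := by
    rw [Finset.sum_comm]
    refine Finset.sum_congr rfl fun i _ => Finset.sum_congr rfl fun j _ => ?_
    rw [h.hrev j i, hQsym j i]
  have hle : ∀ i j, w i * A i j * EdgeE A m τ i j ^ 2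
      ≤ w i * A i j * (9 * (Vi A (uu m) τ i * QQ A (uu m) τ i j)
        + 9 * (Vi A (uu m) τ j * QQ A (uu m) τ i j) + 2 * QQ A (uu m) τ i j ^ 2) := by
    intro i j
    apply mul_le_mul_of_nonneg_left _ (mul_nonneg (h.hw i) (h.hA i j))
    have := EdgeE_sq_le h m hm τ hτ i j
    linarith
  calc ∑ i, ∑ j, w i * A i j * EdgeE A m τ i j ^ 2
      ≤ ∑ i, ∑ j, w i * A i j * (9 * (Vi A (uu m) τ i * QQ A (uu m) τ i j)
        + 9 * (Vi A (uu m) τ j * QQ A (uu m) τ i j) + 2 * QQ A (uu m) τ i j ^ 2) :=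
        Finset.sum_le_sum fun i _ => Finset.sum_le_sum fun j _ => hle i j
    _ = 9 * ∑ i, ∑ j, w i * A i j * (Vi A (uu m) τ i * QQ A (uu m) τ i j)
        + 9 * ∑ i, ∑ j, w i * A i j * (Vi A (uu m) τ j * QQ A (uu m) τ i j)
        + 2 * ∑ i, ∑ j, w i * A i j * QQ A (uu m) τ i j ^ 2 := by
        simp only [Finset.mul_sum, ← Finset.sum_add_distrib]
        refine Finset.sum_congr rfl fun i _ => Finset.sum_congr rfl fun j _ => ?_
        ring
    _ = 18 * ∑ i, ∑ j, w i * A i j * (Vi A (uu m) τ i * QQ A (uu m) τ i j)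
        + 2 * ∑ i, ∑ j, w i * A i j * QQ A (uu m) τ i j ^ 2 := by
        rw [hsymm]; ring
    _ = _ := by
        simp only [Finset.mul_sum, ← Finset.sum_add_distrib]
        refine Finset.sum_congr rfl fun i _ => Finset.sum_congr rfl fun j _ => ?_
        ring

/-- The inequality at the level of cuts. -/
theorem cut_main (t : ℕ) (ht : 1 ≤ t) :
    ∑ i, w i * DispD A m ((t + 1) / 2) i ^ 2
        + t * ∑ i, ∑ j, w i * A i j * EdgeE A m ((t + 1) / 2) i j ^ 2
      ≤ 3024 * ((1 / (t : ℝ)) * ∑ s ∈ Finset.Icc 1 t, EE w A (uu m) s) := by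
  set τ := (t + 1) / 2 with hτdef
  have hτ : 0 < τ := by omega
  have hτ' : (0 : ℝ) < τ := by exact_mod_cast hτ
  have ht' : (0 : ℝ) < t := by exact_mod_cast (by omega : 0 < t)
  have h2τ : (t : ℝ) ≤ 2 * τ := by
    have : t ≤ 2 * τ := by omega
    exact_mod_cast this
  set R := (1 / (t : ℝ)) * ∑ s ∈ Finset.Icc 1 t, EE w A (uu m) s with hR
  have hS : SS w A (uu m) τ ≤ t * R := by
    have e : (t : ℝ) * R = ∑ s ∈ Finset.Icc 1 t, EE w A (uu m) s := by
      rw [hR]; field_simp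
    rw [e]
    have e4 : 2 * τ = (2 * τ - 1) + 1 := by omega
    simp only [SS]
    rw [e4, Finset.sum_range_succ', EE_zero, add_zero]
    have hsub : (Finset.range (2 * τ - 1)).image (· + 1) ⊆ Finset.Icc 1 t := by
      intro a ha
      simp only [Finset.mem_image, Finset.mem_range] at ha
      obtain ⟨b, hb, rfl⟩ := ha
      simp only [Finset.mem_Icc]
      omega
    calc ∑ k ∈ Finset.range (2 * τ - 1), EE w A (uu m) (k + 1)
        = ∑ k ∈ (Finset.range (2 * τ - 1)).image (· + 1), EE w A (uu m) k := by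
          rw [Finset.sum_image]
          intro a _ b _ hab
          simpa using hab
      _ ≤ _ := Finset.sum_le_sum_of_subset_of_nonneg hsub fun T _ _ => EE_nonneg h _ T
  have hS0 := SS_nonneg h (uu m) τ
  have hR0 : 0 ≤ R := by
    have : 0 ≤ (t : ℝ) * R := hS0.trans hS
    exact nonneg_of_mul_nonneg_right this ht'
  have h1 := sum_DispD_sq_le h m hm τ hτ
  have h2 := sum_EdgeE_sq_le h m hm τ hτ
  have h3 : (t : ℝ) * ∑ i, ∑ j, w i * A i j * EdgeE A m τ i j ^ 2
      ≤ t * (316 * ((1 / (τ : ℝ)) ^ 2 * (t * R))) := by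
    apply mul_le_mul_of_nonneg_left _ ht'.le
    refine h2.trans ?_
    apply mul_le_mul_of_nonneg_left _ (by norm_num)
    exact mul_le_mul_of_nonneg_left hS (by positivity)
  have h4 : 4 * ((1 / (τ : ℝ)) * SS w A (uu m) τ) ≤ 4 * ((1 / (τ : ℝ)) * (t * R)) := by
    apply mul_le_mul_of_nonneg_left _ (by norm_num)
    exact mul_le_mul_of_nonneg_left hS (by positivity)
  have hr : (t : ℝ) / τ ≤ 2 := by
    rw [div_le_iff₀ hτ']; linarith
  have hr0 : 0 ≤ (t : ℝ) / τ := by positivity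
  have e1 : t * (316 * ((1 / (τ : ℝ)) ^ 2 * (t * R))) = 316 * (((t : ℝ) / τ) ^ 2 * R) := by
    field_simp
  have e2 : 4 * ((1 / (τ : ℝ)) * (t * R)) = 4 * (((t : ℝ) / τ) * R) := by
    field_simp
  rw [e1] at h3
  rw [e2] at h4
  have h5 : ((t : ℝ) / τ) ^ 2 ≤ 4 := by nlinarith
  have h6 : ((t : ℝ) / τ) ^ 2 * R ≤ 4 * R := mul_le_mul_of_nonneg_right h5 hR0
  have h7 : ((t : ℝ) / τ) * R ≤ 2 * R := mul_le_mul_of_nonneg_right hr hR0
  linarith

end

end Crest.Agent.Lib.MarkovCotype
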