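import Crest.Agent.Lib.MarkovCotypeL1

/-! The metric Markov cotype inequality for `ℓ₁` in final form. -/

set_option autoImplicit false

namespace Crest.Agent.Lib.MarkovCotype

theorem l1_markov_cotype (n t : ℕ) (ht : 1 ≤ t)
    (w : Fin n → ℝ) (A : Matrix (Fin n) (Fin n) ℝ) (hw : ∀ i, 0 ≤ w i)
    (hA : ∀ i j, 0 ≤ A i j) (hA1 : ∀ i, ∑ j, A i j = 1) (hrev : ∀ i j, w i * A i j = w j * A j i)
    (x : Fin n → lp (fun _ : ℕ => ℝ) 1) :
    ∃ y : Fin n → lp (fun _ : ℕ => ℝ) 1,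
      ∑ i, w i * dist (x i) (y i) ^ 2 + t * ∑ i, ∑ j, w i * A i j * dist (y i) (y j) ^ 2 ≤
        (12 * Real.sqrt 21) ^ 2 *
          ∑ i, ∑ j, w i * ((1 / (t : ℝ)) • ∑ s ∈ Finset.Icc 1 t, A ^ s) i j * dist (x i) (x j) ^ 2 := by
  have hchain : RevChain w A := ⟨hw, hA, hA1, hrev⟩
  set τ := (t + 1) / 2 with hτ
  obtain ⟨m, y, hm, hd, hD, hE⟩ := exists_smoothed x (fun S i => FF A τ S i)
  refine ⟨y, ?_⟩
  have hmain := cut_main hchain m hm t ht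
  rw [← hτ] at hmain
  have hconst : (12 * Real.sqrt 21) ^ 2 = 3024 := by
    rw [mul_pow, Real.sq_sqrt (by norm_num)]; norm_num
  have hRHS : ∑ i, ∑ j, w i * ((1 / (t : ℝ)) • ∑ s ∈ Finset.Icc 1 t, A ^ s) i j * dist (x i) (x j) ^ 2
      = (1 / (t : ℝ)) * ∑ s ∈ Finset.Icc 1 t, EE w A (uu m) s := by
    have key : ∀ i j, w i * ((1 / (t : ℝ)) • ∑ s ∈ Finset.Icc 1 t, A ^ s) i j * dist (x i) (x j) ^ 2
        = (1 / (t : ℝ)) * ∑ s ∈ Finset.Icc 1 t, w i * (A ^ s) i j * dd (uu m) i j ^ 2 := by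
      intro i j
      rw [dd_uu m hm, ← hd]
      simp only [Matrix.smul_apply, Matrix.sum_apply, smul_eq_mul, Finset.mul_sum, Finset.sum_mul]
      refine Finset.sum_congr rfl fun s _ => ?_
      ring
    simp only [key, ← Finset.mul_sum, EE]
    congr 1
    calc ∑ i, ∑ j, ∑ s ∈ Finset.Icc 1 t, w i * (A ^ s) i j * dd (uu m) i j ^ 2
        = ∑ i, ∑ s ∈ Finset.Icc 1 t, ∑ j, w i * (A ^ s) i j * dd (uu m) i j ^ 2 :=
          Finset.sum_congr rfl fun i _ => Finset.sum_comm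
      _ = _ := Finset.sum_comm
  rw [hconst, hRHS]
  refine le_trans ?_ hmain
  have ht0 : (0 : ℝ) ≤ t := Nat.cast_nonneg t
  have hsq : ∀ a b : ℝ, 0 ≤ a → a ≤ b → a ^ 2 ≤ b ^ 2 := fun a b h0 h1 => pow_le_pow_left₀ h0 h1 2
  apply add_le_add
  · refine Finset.sum_le_sum fun i _ => mul_le_mul_of_nonneg_left (hsq _ _ dist_nonneg ?_) (hw i)
    exact hD i
  · apply mul_le_mul_of_nonneg_left _ ht0
    refine Finset.sum_le_sum fun i _ => Finset.sum_le_sum fun j _ => ?_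
    exact mul_le_mul_of_nonneg_left (hsq _ _ dist_nonneg (hE i j)) (mul_nonneg (hw i) (hA i j))

end Crest.Agent.Lib.MarkovCotype
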