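import Crest.Agent.Lib.MarkovCotypeCut

/-! Passing from cuts to `ℓ₁`. -/

set_option autoImplicit false

namespace Crest.Agent.Lib.MarkovCotype

open Finset

variable {V : Type*} [Fintype V] [DecidableEq V]

/-- Cut decomposition of a real function on a finite set. -/
theorem real_cut_decomp (f : V → ℝ) :
    ∃ lam : Finset V → ℝ, (∀ S, 0 ≤ lam S) ∧
      (∀ i j, f i - f j = ∑ S, lam S * (ind S i - ind S j)) ∧
      (∀ i j, |f i - f j| = ∑ S, lam S * |ind S i - ind S j|) := by
  induction' hn : (Finset.univ.image f).card using Nat.strong_induction_on with n ih generalizing f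
  by_cases hc : ∀ i j, f i = f j
  · refine ⟨fun _ => 0, fun _ => le_rfl, fun i j => ?_, fun i j => ?_⟩
    · simp [hc i j]
    · simp [hc i j]
  · push Not at hc
    obtain ⟨i0, j0, hij⟩ := hc
    set s := Finset.univ.image f with hs
    have hmem : ∀ i, f i ∈ s := fun i => Finset.mem_image_of_mem f (Finset.mem_univ i)
    have hne : s.Nonempty := ⟨f i0, hmem i0⟩
    set m0 := s.min' hne with hm0
    have hm0le : ∀ i, m0 ≤ f i := fun i => Finset.min'_le _ _ (hmem i)
    have hm0mem : m0 ∈ s := Finset.min'_mem _ _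
    have hne2 : (s.erase m0).Nonempty := by
      by_cases h1 : f i0 = m0
      · exact ⟨f j0, Finset.mem_erase.mpr ⟨fun h2 => hij (h1.trans h2.symm), hmem j0⟩⟩
      · exact ⟨f i0, Finset.mem_erase.mpr ⟨h1, hmem i0⟩⟩
    set m1 := (s.erase m0).min' hne2 with hm1
    have hm1mem : m1 ∈ s.erase m0 := Finset.min'_mem _ _
    have hm1ne : m1 ≠ m0 := (Finset.mem_erase.mp hm1mem).1
    have hm1s : m1 ∈ s := (Finset.mem_erase.mp hm1mem).2
    have hgap : m0 < m1 := lt_of_le_of_ne (Finset.min'_le _ _ hm1s) (Ne.symm hm1ne)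
    set S : Finset V := Finset.univ.filter fun i => m0 < f i with hS
    have hS_mem : ∀ i, i ∈ S ↔ m0 < f i := by
      intro i; simp [hS]
    have hge : ∀ i, i ∈ S → m1 ≤ f i := by
      intro i hi
      have h1 := (hS_mem i).mp hi
      exact Finset.min'_le _ _ (Finset.mem_erase.mpr ⟨ne_of_gt h1, hmem i⟩)
    have heq0 : ∀ i, i ∉ S → f i = m0 := by
      intro i hi
      have h1 : ¬ m0 < f i := fun h2 => hi ((hS_mem i).mpr h2)
      exact le_antisymm (not_lt.mp h1) (hm0le i)
    set gap := m1 - m0 with hgapdef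
    have hgap0 : 0 < gap := by rw [hgapdef]; linarith
    set f' : V → ℝ := fun i => if i ∈ S then f i - gap else f i with hf'
    have hcard : (Finset.univ.image f').card < n := by
      set h' : ℝ → ℝ := fun v => if m0 < v then v - gap else v with hh'
      have himg : Finset.univ.image f' = s.image h' := by
        rw [hs, Finset.image_image]
        refine Finset.image_congr fun i _ => ?_
        simp only [hf', hh', Function.comp, hS_mem]
      rw [himg, ← hn]
      refine lt_of_le_of_ne Finset.card_image_le fun hcardeq => ?_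
      have hinj := Finset.card_image_iff.mp hcardeq
      have e1 : h' m0 = m0 := by simp [hh']
      have e2 : h' m1 = m0 := by
        simp only [hh', hgap, if_true, hgapdef]; ring
      exact hm1ne (hinj hm1s hm0mem (e2.trans e1.symm))
    obtain ⟨lam', h0, h1, h2⟩ := ih _ hcard f' rfl
    have hf : ∀ i, f i = f' i + gap * ind S i := by
      intro i
      by_cases hi : i ∈ S
      · simp [hf', ind, hi]
      · simp [hf', ind, hi]
    have habs : ∀ i j, |f i - f j| = |f' i - f' j| + gap * |ind S i - ind S j| := by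
      intro i j
      by_cases hi : i ∈ S <;> by_cases hj : j ∈ S
      · simp [hf', ind, hi, hj]
      · have e1 := heq0 j hj
        have e2 := hge i hi
        have e3 : 0 ≤ f i - gap - m0 := by rw [hgapdef]; linarith
        simp only [hf', ind, hi, hj, if_true, if_false, e1, sub_zero, abs_one, mul_one]
        rw [abs_of_nonneg e3, abs_of_nonneg (by linarith)]
        ring
      · have e1 := heq0 i hi
        have e2 := hge j hj
        have e3 : 0 ≤ f j - gap - m0 := by rw [hgapdef]; linarith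
        simp only [hf', ind, hi, hj, if_true, if_false, e1, zero_sub, abs_neg, abs_one, mul_one]
        rw [abs_sub_comm, abs_of_nonneg (by linarith : 0 ≤ f j - m0),
          abs_sub_comm, abs_of_nonneg e3]
        ring
      · have e1 := heq0 i hi
        have e2 := heq0 j hj
        simp [hf', ind, hi, hj, e1, e2]
    refine ⟨fun T => lam' T + if T = S then gap else 0, fun T => ?_, fun i j => ?_, fun i j => ?_⟩
    · have := h0 T
      show 0 ≤ lam' T + if T = S then gap else 0
      split_ifs <;> linarith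
    · simp only [add_mul, ite_mul, zero_mul, Finset.sum_add_distrib, Finset.sum_ite_eq',
        Finset.mem_univ, if_true]
      rw [← h1 i j, hf i, hf j]
      ring
    · simp only [add_mul, ite_mul, zero_mul, Finset.sum_add_distrib, Finset.sum_ite_eq',
        Finset.mem_univ, if_true]
      rw [← h2 i j, habs i j]

local notation "ℓ¹" => lp (fun _ : ℕ => ℝ) 1

lemma l1_norm_eq (f : ℓ¹) : ‖f‖ = ∑' n, |(f : ℕ → ℝ) n| := by
  have h := lp.norm_eq_tsum_rpow (p := 1) (by norm_num) f
  simpa using h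

lemma l1_summable (f : ℓ¹) : Summable fun n => |(f : ℕ → ℝ) n| := by
  have h := (lp.memℓp f).summable (by norm_num : 0 < (1 : ENNReal).toReal)
  simpa using h

lemma l1_mem (g : ℕ → ℝ) (hg : Summable fun n => |g n|) : Memℓp g 1 := by
  apply memℓp_gen
  simpa using hg

/-- The data of the cut decomposition of finitely many points of `ℓ¹`. -/
theorem exists_cut_system (x : V → ℓ¹) :
    ∃ Lam : ℕ → Finset V → ℝ, (∀ ω S, 0 ≤ Lam ω S) ∧ (∀ S, Summable fun ω => Lam ω S) ∧
      (∀ ω, Lam ω ∅ = 0) ∧ (∀ ω, Lam ω Finset.univ = 0) ∧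
      (∀ ω i j, (x i : ℕ → ℝ) ω - (x j : ℕ → ℝ) ω = ∑ S, Lam ω S * (ind S i - ind S j)) ∧
      (∀ ω i j, |(x i : ℕ → ℝ) ω - (x j : ℕ → ℝ) ω| = ∑ S, Lam ω S * |ind S i - ind S j|) := by
  choose lam h0 h1 h2 using fun ω => real_cut_decomp (fun i => (x i : ℕ → ℝ) ω)
  classical
  set Lam : ℕ → Finset V → ℝ := fun ω S => if S = ∅ ∨ S = Finset.univ then 0 else lam ω S with hLam
  have hind : ∀ S : Finset V, (S = ∅ ∨ S = Finset.univ) → ∀ i j, ind S i - ind S j = 0 := by
    intro S hS i j
    rcases hS with rfl | rfl <;> simp [ind]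
  have hterm : ∀ ω S (g : ℝ), (∀ hS : S = ∅ ∨ S = Finset.univ, g = 0) →
      Lam ω S * g = lam ω S * g := by
    intro ω S g hg
    by_cases hS : S = ∅ ∨ S = Finset.univ
    · simp [hg hS]
    · simp [hLam, hS]
  have hs1 : ∀ ω i j, (x i : ℕ → ℝ) ω - (x j : ℕ → ℝ) ω = ∑ S, Lam ω S * (ind S i - ind S j) := by
    intro ω i j
    rw [h1 ω i j]
    refine Finset.sum_congr rfl fun S _ => (hterm ω S _ fun hS => hind S hS i j).symm
  have hs2 : ∀ ω i j, |(x i : ℕ → ℝ) ω - (x j : ℕ → ℝ) ω| = ∑ S, Lam ω S * |ind S i - ind S j| := by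
    intro ω i j
    rw [h2 ω i j]
    refine Finset.sum_congr rfl fun S _ => (hterm ω S _ fun hS => ?_).symm
    rw [hind S hS i j, abs_zero]
  have hL0 : ∀ ω S, 0 ≤ Lam ω S := by
    intro ω S
    simp only [hLam]
    split_ifs
    · exact le_rfl
    · exact h0 ω S
  refine ⟨Lam, hL0, fun S => ?_, fun ω => by simp [hLam], fun ω => by simp [hLam], hs1, hs2⟩
  by_cases hS : S = ∅ ∨ S = Finset.univ
  · simp only [hLam, hS, if_true]
    exact summable_zero
  · push Not at hS
    obtain ⟨k, hk⟩ := hS.1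
    have hne : ∃ l, l ∉ S := by
      by_contra hcon
      push Not at hcon
      exact hS.2 (Finset.eq_univ_iff_forall.mpr hcon)
    obtain ⟨l, hl⟩ := hne
    have hsum : Summable fun ω => |((x k - x l : ℓ¹) : ℕ → ℝ) ω| := l1_summable _
    refine Summable.of_nonneg_of_le (fun ω => hL0 ω S) (fun ω => ?_) hsum
    have e : ((x k - x l : ℓ¹) : ℕ → ℝ) ω = (x k : ℕ → ℝ) ω - (x l : ℕ → ℝ) ω := rfl
    rw [e, hs2 ω k l]
    have h3 : Lam ω S * |ind S k - ind S l| = Lam ω S := by
      simp [ind, hk, hl]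
    calc Lam ω S = Lam ω S * |ind S k - ind S l| := h3.symm
      _ ≤ _ := Finset.single_le_sum (f := fun S => Lam ω S * |ind S k - ind S l|)
          (fun T _ => mul_nonneg (hL0 ω T) (abs_nonneg _)) (Finset.mem_univ S)

/-- Construction of the smoothed points in `ℓ¹` from any family `F` of functions, with the
resulting bounds on distances. -/
theorem exists_smoothed (x : V → ℓ¹) (F : Finset V → V → ℝ) :
    ∃ (m : Finset V → ℝ) (y : V → ℓ¹), (∀ S, 0 ≤ m S) ∧
      (∀ i j, dist (x i) (x j) = cutDist m i j) ∧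
      (∀ i, dist (x i) (y i) ≤ ∑ S, m S * |ind S i - F S i|) ∧
      (∀ i j, dist (y i) (y j) ≤ ∑ S, m S * |F S i - F S j|) := by
  obtain ⟨Lam, hL0, hLs, hLe, hLu, hs1, hs2⟩ := exists_cut_system x
  set m : Finset V → ℝ := fun S => ∑' ω, Lam ω S with hm
  have hm0 : ∀ S, 0 ≤ m S := fun S => tsum_nonneg fun ω => hL0 ω S
  have htsum : ∀ G : Finset V → ℝ, ∑' ω, ∑ S, Lam ω S * G S = ∑ S, m S * G S := by
    intro G
    rw [Summable.tsum_finsetSum]
    · refine Finset.sum_congr rfl fun S _ => ?_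
      rw [tsum_mul_right]
    · exact fun S _ => (hLs S).mul_right _
  have hsumm : ∀ G : Finset V → ℝ, Summable fun ω => ∑ S, Lam ω S * G S := by
    intro G
    exact summable_sum fun S _ => (hLs S).mul_right _
  -- the displacement vectors
  set z : V → ℕ → ℝ := fun i ω => ∑ S, Lam ω S * (F S i - ind S i) with hz
  have hzabs : ∀ i ω, |z i ω| ≤ ∑ S, Lam ω S * |ind S i - F S i| := by
    intro i ω
    refine (Finset.abs_sum_le_sum_abs _ _).trans (le_of_eq ?_)
    refine Finset.sum_congr rfl fun S _ => ?_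
    rw [abs_mul, abs_of_nonneg (hL0 ω S), abs_sub_comm]
  have hzs : ∀ i, Summable fun ω => |z i ω| := fun i =>
    Summable.of_nonneg_of_le (fun ω => abs_nonneg _) (hzabs i) (hsumm _)
  set Z : V → ℓ¹ := fun i => ⟨z i, l1_mem _ (hzs i)⟩ with hZ
  set y : V → ℓ¹ := fun i => x i + Z i with hy
  refine ⟨m, y, hm0, fun i j => ?_, fun i => ?_, fun i j => ?_⟩
  · rw [dist_eq_norm, l1_norm_eq]
    have : ∀ ω, |((x i - x j : ℓ¹) : ℕ → ℝ) ω| = ∑ S, Lam ω S * |ind S i - ind S j| := fun ω =>
      hs2 ω i j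
    simp only [this, cutDist]
    exact htsum _
  · rw [dist_eq_norm]
    have e : x i - y i = - Z i := by simp [hy]
    rw [e, norm_neg, l1_norm_eq, ← htsum]
    exact (Summable.tsum_le_tsum (hzabs i) (hzs i) (hsumm _))
  · rw [dist_eq_norm, l1_norm_eq, ← htsum]
    have hcoord : ∀ ω, ((y i - y j : ℓ¹) : ℕ → ℝ) ω = ∑ S, Lam ω S * (F S i - F S j) := by
      intro ω
      have e1 : ((y i - y j : ℓ¹) : ℕ → ℝ) ω
          = ((x i : ℕ → ℝ) ω - (x j : ℕ → ℝ) ω) + (z i ω - z j ω) := by
        have : ((y i - y j : ℓ¹) : ℕ → ℝ) ω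
            = ((x i : ℕ → ℝ) ω + z i ω) - ((x j : ℕ → ℝ) ω + z j ω) := rfl
        rw [this]; ring
      rw [e1, hs1 ω i j]
      simp only [hz]
      rw [← Finset.sum_sub_distrib, ← Finset.sum_add_distrib]
      refine Finset.sum_congr rfl fun S _ => ?_
      ring
    have hle : ∀ ω, |((y i - y j : ℓ¹) : ℕ → ℝ) ω| ≤ ∑ S, Lam ω S * |F S i - F S j| := by
      intro ω
      rw [hcoord]
      refine (Finset.abs_sum_le_sum_abs _ _).trans (le_of_eq ?_)
      refine Finset.sum_congr rfl fun S _ => ?_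
      rw [abs_mul, abs_of_nonneg (hL0 ω S)]
    exact Summable.tsum_le_tsum hle (l1_summable _) (hsumm _)

end Crest.Agent.Lib.MarkovCotype
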