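import Mathlib
import Crest.Prelude.Def_AsymptoticConvexity

/-!
Abstract obstruction to asymptotically uniformly convex renormings: a norm-bounded set, bounded
away from zero, from each point of which one can make a step of size at least `δ` that stays in the
set and is arbitrarily close to any given closed finite-codimensional subspace.
-/

set_option autoImplicit false

namespace Crest.Agent.Lib.NoAUC

open Crest.AnalysisR

variable (E : RealBanach)

/-- One step: convexity along a line.  If `N` is a seminorm-like function with `N x = 1`,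
`N (x + t y) ≥ 1 + c` and `t ≤ s`, `0 < t`, then `N (x + s y) ≥ 1 + c`. -/
theorem convex_step {X : Type*} [AddCommGroup X] [Module ℝ X] (N : X → ℝ)
    (hadd : ∀ x y : X, N (x + y) ≤ N x + N y) (hsmul : ∀ (a : ℝ) (x : X), N (a • x) = |a| * N x)
    (x y : X) (hx : N x = 1) (t s c : ℝ) (ht : 0 < t) (hts : t ≤ s) (hc : 0 ≤ c)
    (h : 1 + c ≤ N (x + t • y)) : 1 + c ≤ N (x + s • y) := by
  have hs : 0 < s := lt_of_lt_of_le ht hts
  -- x + t y = (1 - t/s) x + (t/s) (x + s y)
  have key : x + t • y = (1 - t / s) • x + (t / s) • (x + s • y) := by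
    have : t = (t / s) * s := by field_simp
    rw [smul_add, smul_smul, ← this, sub_smul, one_smul]
    abel
  have h1 : N (x + t • y) ≤ (1 - t / s) * 1 + (t / s) * N (x + s • y) := by
    rw [key]
    refine (hadd _ _).trans ?_
    rw [hsmul, hsmul, hx]
    have hq : 0 ≤ t / s := by positivity
    have hq1 : t / s ≤ 1 := (div_le_one hs).mpr hts
    rw [abs_of_nonneg (by linarith : 0 ≤ 1 - t / s), abs_of_nonneg hq]
  have hq : 0 < t / s := by positivity
  have hq1 : t / s ≤ 1 := (div_le_one hs).mpr hts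
  have h2 : 1 + c ≤ (1 - t / s) + (t / s) * N (x + s • y) := by linarith
  -- so (t/s) * N(x + s y) ≥ t/s + c ≥ (t/s)(1 + c)
  have h3 : (t / s) * (1 + c) ≤ (t / s) * N (x + s • y) := by
    nlinarith
  exact le_of_mul_le_mul_left h3 hq

/-- The gain of one step.  Given an equivalent norm with constants `a, b`, a point `x` with
`κ ≤ ‖x‖ ≤ C`, and an AUC constant `c` at scale `t = a δ / (2 b C)`, a step `x'` with
`δ ≤ ‖x' - x‖` and within `ε` of the AUC subspace gains at least `a κ c / 2` in `N`. -/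
theorem no_auc_of_steps (E : RealBanach) (G : Set E.X) (C κ δ : ℝ) (hκ : 0 < κ) (hδ : 0 < δ)
    (hne : G.Nonempty)
    (hG : letI := E.normed; ∀ x ∈ G, κ ≤ ‖x‖ ∧ ‖x‖ ≤ C)
    (hstep : letI := E.normed; letI := E.space;
      ∀ x ∈ G, ∀ F : Set E.X, E.IsCof F → ∀ ε : ℝ, 0 < ε →
        ∃ x' ∈ G, δ ≤ ‖x' - x‖ ∧ ∃ y ∈ F, ‖x' - x - y‖ < ε)
    (N : E.X → ℝ) (hN : E.IsEquivNorm N) : ¬ E.IsAUC N := by
  let _ := E.normed
  let _ := E.space
  intro hAUC
  obtain ⟨hadd, hsmul, a, b, ha, hab⟩ := hN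
  obtain ⟨x₀, hx₀⟩ := hne
  have hκC : κ ≤ C := (hG x₀ hx₀).1.trans (hG x₀ hx₀).2
  have hC : 0 < C := lt_of_lt_of_le hκ hκC
  have hb : 0 < b := by
    have h1 := hab x₀
    have h2 : 0 < ‖x₀‖ := lt_of_lt_of_le hκ (hG x₀ hx₀).1
    have h3 : a ≤ b := le_of_mul_le_mul_right (h1.1.trans h1.2) h2
    linarith
  have hNle : ∀ x : E.X, N x ≤ b * ‖x‖ := fun x => (hab x).2
  have hNge : ∀ x : E.X, a * ‖x‖ ≤ N x := fun x => (hab x).1
  have hN0 : N (0 : E.X) = 0 := by
    have := hsmul 0 (0 : E.X)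
    simpa using this
  have hNneg : ∀ x : E.X, N (-x) = N x := by
    intro x
    have := hsmul (-1) x
    simpa using this
  have hNpos : ∀ x ∈ G, a * κ ≤ N x := fun x hx =>
    (mul_le_mul_of_nonneg_left (hG x hx).1 ha.le).trans (hNge x)
  have hNub : ∀ x ∈ G, N x ≤ b * C := fun x hx =>
    (hNle x).trans (mul_le_mul_of_nonneg_left (hG x hx).2 hb.le)
  set t : ℝ := a * δ / (2 * (b * C)) with ht_def
  have ht : 0 < t := by positivity
  obtain ⟨c, hc, hAUCt⟩ := hAUC t ht
  set g : ℝ := a * κ * c / 2 with hg_def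
  have hg : 0 < g := by positivity
  -- one step
  have step : ∀ x ∈ G, ∃ x' ∈ G, N x + g ≤ N x' := by
    intro x hx
    have hM : 0 < N x := lt_of_lt_of_le (by positivity) (hNpos x hx)
    set M := N x with hM_def
    set xu : E.X := M⁻¹ • x with hxu
    have hxu1 : N xu = 1 := by
      rw [hxu, hsmul, abs_of_pos (inv_pos.mpr hM), ← hM_def, inv_mul_cancel₀ hM.ne']
    obtain ⟨F, hF, hFy⟩ := hAUCt xu hxu1
    set ε : ℝ := min (a * δ / (2 * b)) (a * κ * c / (2 * b)) with hε_def
    have hε : 0 < ε := by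
      rw [hε_def]
      positivity
    obtain ⟨x', hx', hdist, y, hyF, hy⟩ := hstep x hx F hF ε hε
    refine ⟨x', hx', ?_⟩
    have hbε1 : b * ε ≤ a * δ / 2 := by
      have : ε ≤ a * δ / (2 * b) := min_le_left _ _
      calc b * ε ≤ b * (a * δ / (2 * b)) := mul_le_mul_of_nonneg_left this hb.le
        _ = a * δ / 2 := by field_simp
    have hbε2 : b * ε ≤ a * κ * c / 2 := by
      have : ε ≤ a * κ * c / (2 * b) := min_le_right _ _
      calc b * ε ≤ b * (a * κ * c / (2 * b)) := mul_le_mul_of_nonneg_left this hb.le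
        _ = a * κ * c / 2 := by field_simp
    -- lower bound for `N y`
    have hNdiff : N (x' - x - y) ≤ b * ε :=
      (hNle _).trans (mul_le_mul_of_nonneg_left hy.le hb.le)
    have hNd : a * δ ≤ N (x' - x) :=
      (mul_le_mul_of_nonneg_left hdist ha.le).trans (hNge _)
    have hNy : a * δ / 2 ≤ N y := by
      have h1 : N (x' - x) ≤ N (x' - x - y) + N y := by
        have := hadd (x' - x - y) y
        simpa using this
      linarith
    have hNypos : 0 < N y := lt_of_lt_of_le (by positivity) hNy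
    set yu : E.X := (N y)⁻¹ • y with hyu
    have hyu1 : N yu = 1 := by
      rw [hyu, hsmul, abs_of_pos (inv_pos.mpr hNypos), inv_mul_cancel₀ hNypos.ne']
    have hyuF : yu ∈ F := by
      obtain ⟨S, rfl, -, -⟩ := hF
      exact S.smul_mem _ hyF
    have hc1 : c ≤ N (xu + t • yu) - 1 := hFy yu hyuF hyu1
    -- scale
    set τ : ℝ := N y / M with hτ
    have hτt : t ≤ τ := by
      have hMle : M ≤ b * C := hNub x hx
      rw [ht_def, hτ, div_le_div_iff₀ (by positivity) hM]
      have : a * δ * M ≤ a * δ * (b * C) := mul_le_mul_of_nonneg_left hMle (by positivity)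
      nlinarith
    have hc2 : 1 + c ≤ N (xu + τ • yu) :=
      convex_step N hadd hsmul xu yu hxu1 t τ c ht hτt hc.le (by linarith)
    have hscale : M • (xu + τ • yu) = x + y := by
      rw [smul_add, hxu, hyu, smul_smul, smul_smul, smul_smul, mul_inv_cancel₀ hM.ne', one_smul, hτ]
      have : M * (N y / M) * (N y)⁻¹ = 1 := by field_simp
      rw [this, one_smul]
    have hNxy : M * (1 + c) ≤ N (x + y) := by
      rw [← hscale, hsmul, abs_of_pos hM]
      exact mul_le_mul_of_nonneg_left hc2 hM.le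
    have hMlb : a * κ ≤ M := hNpos x hx
    have hxy : N (x + y) ≤ N x' + N (x' - x - y) := by
      have := hadd x' (-(x' - x - y))
      rw [hNneg] at this
      have e : x' + -(x' - x - y) = x + y := by abel
      rwa [e] at this
    have hcM : a * κ * c ≤ M * c := mul_le_mul_of_nonneg_right hMlb hc.le
    have : M + g ≤ N x' := by
      rw [hg_def]
      nlinarith
    exact this
  -- iterate
  have iter : ∀ k : ℕ, ∃ x ∈ G, a * κ + k * g ≤ N x := by
    intro k
    induction k with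
    | zero => exact ⟨x₀, hx₀, by simpa using hNpos x₀ hx₀⟩
    | succ k ih =>
      obtain ⟨x, hx, hk⟩ := ih
      obtain ⟨x', hx', h'⟩ := step x hx
      refine ⟨x', hx', ?_⟩
      push_cast
      nlinarith
  obtain ⟨k, hk⟩ := exists_nat_gt (b * C / g)
  obtain ⟨x, hx, hxk⟩ := iter k
  have h1 : N x ≤ b * C := hNub x hx
  have h2 : b * C < k * g := by
    rwa [div_lt_iff₀ hg] at hk
  have h3 : 0 < a * κ := by positivity
  linarith

open Filter Topology Finset in
/-- A bounded sequence all of whose subsequences are Cesàro-null in norm comes arbitrarily close to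
any closed finite-codimensional subspace. -/
theorem exists_close_of_cesaro {X : Type*} [NormedAddCommGroup X] [NormedSpace ℝ X]
    (d : ℕ → X) (C : ℝ) (hbd : ∀ n, ‖d n‖ ≤ C)
    (hces : ∀ φ : ℕ → ℕ, StrictMono φ →
      Tendsto (fun n : ℕ => ‖(n : ℝ)⁻¹ • ∑ i ∈ range n, d (φ i)‖) atTop (𝓝 0))
    (S : Submodule ℝ X) (hcl : IsClosed (S : Set X)) (hfd : FiniteDimensional ℝ (X ⧸ S))
    (ε : ℝ) (hε : 0 < ε) : ∃ n, ∃ y ∈ S, ‖d n - y‖ < ε := by
  haveI : IsClosed (S : Set X) := hcl
  haveI : FiniteDimensional ℝ (X ⧸ S) := hfd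
  haveI : ProperSpace (X ⧸ S) := FiniteDimensional.proper_real _
  set z : ℕ → X ⧸ S := fun n => Submodule.Quotient.mk (d n) with hz
  have hzb : ∀ n, z n ∈ Metric.closedBall (0 : X ⧸ S) C := by
    intro n
    rw [mem_closedBall_zero_iff]
    exact (Submodule.Quotient.norm_mk_le _ _).trans (hbd n)
  obtain ⟨w, -, φ, hφ, hw⟩ := tendsto_subseq_of_bounded Metric.isBounded_closedBall hzb
  have h1 : Tendsto (fun n : ℕ => (n : ℝ)⁻¹ • ∑ i ∈ range n, (z ∘ φ) i) atTop (𝓝 w) :=
    hw.cesaro_smul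
  have h2 : Tendsto (fun n : ℕ => (n : ℝ)⁻¹ • ∑ i ∈ range n, (z ∘ φ) i) atTop (𝓝 0) := by
    rw [tendsto_zero_iff_norm_tendsto_zero]
    refine squeeze_zero (fun _ => norm_nonneg _) (fun n => ?_) (hces φ hφ)
    have e : (n : ℝ)⁻¹ • ∑ i ∈ range n, (z ∘ φ) i =
        Submodule.Quotient.mk ((n : ℝ)⁻¹ • ∑ i ∈ range n, d (φ i)) := by
      simp only [Function.comp, hz]
      rw [Submodule.Quotient.mk_smul]
      congr 1
      exact (map_sum S.mkQ (fun i => d (φ i)) (range n)).symm
    rw [e]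
    exact Submodule.Quotient.norm_mk_le _ _
  have hw0 : w = 0 := tendsto_nhds_unique h1 h2
  subst hw0
  rw [tendsto_zero_iff_norm_tendsto_zero] at hw
  have h3 : ∀ᶠ k in atTop, ‖(z ∘ φ) k‖ < ε / 2 := hw.eventually (gt_mem_nhds (half_pos hε))
  obtain ⟨k, hk⟩ := h3.exists
  obtain ⟨m, hm, hm'⟩ := Submodule.Quotient.norm_mk_lt (z (φ k)) (half_pos hε)
  refine ⟨φ k, d (φ k) - m, ?_, ?_⟩
  · have : (Submodule.Quotient.mk (d (φ k) - m) : X ⧸ S) = 0 := by
      rw [Submodule.Quotient.mk_sub, hm]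
      simp [hz]
    exact (Submodule.Quotient.mk_eq_zero S).mp this
  · have e : d (φ k) - (d (φ k) - m) = m := by abel
    rw [e]
    simp only [Function.comp] at hk
    linarith

end Crest.Agent.Lib.NoAUC
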