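import Crest.Agent.Lib.NoAUC

/-!
Graded variant of the abstract obstruction to asymptotically uniformly convex renormings: chains
of arbitrary finite length instead of infinitely many steps from each point.
-/

set_option autoImplicit false

namespace Crest.Agent.Lib.NoAUC

open Crest.AnalysisR

/-- The gain of one step.  Given an equivalent norm with constants `a, b`, a point `x` with
`κ ≤ ‖x‖ ≤ C`, and an AUC constant `c` at scale `t = a δ / (2 b C)`, a step `x'` with
`δ ≤ ‖x' - x‖` and within `ε` of the AUC subspace gains at least `a κ c / 2` in `N`. -/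
theorem no_auc_of_graded_steps (E : RealBanach) (G : ℕ → Set E.X) (C κ δ : ℝ) (hκ : 0 < κ) (hδ : 0 < δ)
    (hne : ∀ k, (G k).Nonempty)
    (hG : letI := E.normed; ∀ k, ∀ x ∈ G k, κ ≤ ‖x‖ ∧ ‖x‖ ≤ C)
    (hstep : letI := E.normed; letI := E.space;
      ∀ k, ∀ x ∈ G (k + 1), ∀ F : Set E.X, E.IsCof F → ∀ ε : ℝ, 0 < ε →
        ∃ x' ∈ G k, δ ≤ ‖x' - x‖ ∧ ∃ y ∈ F, ‖x' - x - y‖ < ε)
    (N : E.X → ℝ) (hN : E.IsEquivNorm N) : ¬ E.IsAUC N := by
  let _ := E.normed
  let _ := E.space
  intro hAUC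
  obtain ⟨hadd, hsmul, a, b, ha, hab⟩ := hN
  obtain ⟨x₀, hx₀⟩ := hne 0
  have hκC : κ ≤ C := (hG 0 x₀ hx₀).1.trans (hG 0 x₀ hx₀).2
  have hC : 0 < C := lt_of_lt_of_le hκ hκC
  have hb : 0 < b := by
    have h1 := hab x₀
    have h2 : 0 < ‖x₀‖ := lt_of_lt_of_le hκ (hG 0 x₀ hx₀).1
    have h3 : a ≤ b := le_of_mul_le_mul_right (h1.1.trans h1.2) h2
    linarith
  have hNle : ∀ x : E.X, N x ≤ b * ‖x‖ := fun x => (hab x).2
  have hNge : ∀ x : E.X, a * ‖x‖ ≤ N x := fun x => (hab x).1
  have hN0 : N (0 : E.X) = 0 := by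
    have := hsmul 0 (0 : E.X)
    simpa using this
  have hNneg : ∀ x : E.X, N (-x) = N x := by
    intro x
    have := hsmul (-1) x
    simpa using this
  have hNpos : ∀ k, ∀ x ∈ G k, a * κ ≤ N x := fun k x hx =>
    (mul_le_mul_of_nonneg_left (hG k x hx).1 ha.le).trans (hNge x)
  have hNub : ∀ k, ∀ x ∈ G k, N x ≤ b * C := fun k x hx =>
    (hNle x).trans (mul_le_mul_of_nonneg_left (hG k x hx).2 hb.le)
  set t : ℝ := a * δ / (2 * (b * C)) with ht_def
  have ht : 0 < t := by positivity
  obtain ⟨c, hc, hAUCt⟩ := hAUC t ht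
  set g : ℝ := a * κ * c / 2 with hg_def
  have hg : 0 < g := by positivity
  -- one step
  have step : ∀ k, ∀ x ∈ G (k + 1), ∃ x' ∈ G k, N x + g ≤ N x' := by
    intro k x hx
    have hM : 0 < N x := lt_of_lt_of_le (by positivity) (hNpos _ x hx)
    set M := N x with hM_def
    set xu : E.X := M⁻¹ • x with hxu
    have hxu1 : N xu = 1 := by
      rw [hxu, hsmul, abs_of_pos (inv_pos.mpr hM), ← hM_def, inv_mul_cancel₀ hM.ne']
    obtain ⟨F, hF, hFy⟩ := hAUCt xu hxu1
    set ε : ℝ := min (a * δ / (2 * b)) (a * κ * c / (2 * b)) with hε_def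
    have hε : 0 < ε := by
      rw [hε_def]
      positivity
    obtain ⟨x', hx', hdist, y, hyF, hy⟩ := hstep k x hx F hF ε hε
    refine ⟨x', hx', ?_⟩
    have hbε1 : b * ε ≤ a * δ / 2 := by
      have : ε ≤ a * δ / (2 * b) := min_le_left _ _
      calc b * ε ≤ b * (a * δ / (2 * b)) := mul_le_mul_of_nonneg_left this hb.le
        _ = a * δ / 2 := by field_simp
    have hbε2 : b * ε ≤ a * κ * c / 2 := by
      have : ε ≤ a * κ * c / (2 * b) := min_le_right _ _
      calc b * ε ≤ b * (a * κ * c / (2 * b)) := mul_le_mul_of_nonneg_left this hb.le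
        _ = a * κ * c / 2 := by field_simp
    -- lower bound for `N y`
    have hNdiff : N (x' - x - y) ≤ b * ε :=
      (hNle _).trans (mul_le_mul_of_nonneg_left hy.le hb.le)
    have hNd : a * δ ≤ N (x' - x) :=
      (mul_le_mul_of_nonneg_left hdist ha.le).trans (hNge _)
    have hNy : a * δ / 2 ≤ N y := by
      have h1 : N (x' - x) ≤ N (x' - x - y) + N y := by
        have := hadd (x' - x - y) y
        simpa using this
      linarith
    have hNypos : 0 < N y := lt_of_lt_of_le (by positivity) hNy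
    set yu : E.X := (N y)⁻¹ • y with hyu
    have hyu1 : N yu = 1 := by
      rw [hyu, hsmul, abs_of_pos (inv_pos.mpr hNypos), inv_mul_cancel₀ hNypos.ne']
    have hyuF : yu ∈ F := by
      obtain ⟨S, rfl, -, -⟩ := hF
      exact S.smul_mem _ hyF
    have hc1 : c ≤ N (xu + t • yu) - 1 := hFy yu hyuF hyu1
    -- scale
    set τ : ℝ := N y / M with hτ
    have hτt : t ≤ τ := by
      have hMle : M ≤ b * C := hNub _ x hx
      rw [ht_def, hτ, div_le_div_iff₀ (by positivity) hM]
      have : a * δ * M ≤ a * δ * (b * C) := mul_le_mul_of_nonneg_left hMle (by positivity)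
      nlinarith
    have hc2 : 1 + c ≤ N (xu + τ • yu) :=
      convex_step N hadd hsmul xu yu hxu1 t τ c ht hτt hc.le (by linarith)
    have hscale : M • (xu + τ • yu) = x + y := by
      rw [smul_add, hxu, hyu, smul_smul, smul_smul, smul_smul, mul_inv_cancel₀ hM.ne', one_smul, hτ]
      have : M * (N y / M) * (N y)⁻¹ = 1 := by field_simp
      rw [this, one_smul]
    have hNxy : M * (1 + c) ≤ N (x + y) := by
      rw [← hscale, hsmul, abs_of_pos hM]
      exact mul_le_mul_of_nonneg_left hc2 hM.le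
    have hMlb : a * κ ≤ M := hNpos _ x hx
    have hxy : N (x + y) ≤ N x' + N (x' - x - y) := by
      have := hadd x' (-(x' - x - y))
      rw [hNneg] at this
      have e : x' + -(x' - x - y) = x + y := by abel
      rwa [e] at this
    have hcM : a * κ * c ≤ M * c := mul_le_mul_of_nonneg_right hMlb hc.le
    have : M + g ≤ N x' := by
      rw [hg_def]
      nlinarith
    exact this
  -- iterate
  have iter : ∀ j k : ℕ, ∃ x ∈ G k, a * κ + j * g ≤ N x := by
    intro j
    induction j with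
    | zero =>
      intro k
      obtain ⟨x, hx⟩ := hne k
      exact ⟨x, hx, by simpa using hNpos k x hx⟩
    | succ j ih =>
      intro k
      obtain ⟨x, hx, hk⟩ := ih (k + 1)
      obtain ⟨x', hx', h'⟩ := step k x hx
      refine ⟨x', hx', ?_⟩
      push_cast
      nlinarith
  obtain ⟨j, hj⟩ := exists_nat_gt (b * C / g)
  obtain ⟨x, hx, hxk⟩ := iter j 0
  have h1 : N x ≤ b * C := hNub 0 x hx
  have h2 : b * C < j * g := by
    rwa [div_lt_iff₀ hg] at hj
  have h3 : 0 < a * κ := by positivity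
  linarith

end Crest.Agent.Lib.NoAUC
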