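import Mathlib

/-!
# Computable arithmetic on ℤ and ℚ

Mathlib gives `ℤ` and `ℚ` the `Primcodable` structures coming from their `Denumerable` instances.
For `ℚ` this is the enumeration `Denumerable.ofEncodableOfInfinite ℚ`.  This file proves that the
usual arithmetic operations are `Primrec` (on `ℤ`) and `Computable` (on `ℚ`) for these encodings.
-/

set_option autoImplicit false

namespace Crest.Agent.Lib.QQCompute

open Encodable Denumerable

/-! ## Integers -/

section Int

theorem enc_ofNat (n : ℕ) : encode (Int.ofNat n) = 2 * n := rfl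
theorem enc_negSucc (n : ℕ) : encode (Int.negSucc n) = 2 * n + 1 := rfl

theorem ofNat_int_even (k : ℕ) : ofNat ℤ (2 * k) = Int.ofNat k := by
  rw [← enc_ofNat k]; exact ofNat_encode _

theorem ofNat_int_odd (k : ℕ) : ofNat ℤ (2 * k + 1) = Int.negSucc k := by
  rw [← enc_negSucc k]; exact ofNat_encode _

theorem ofNat_int (n : ℕ) :
    ofNat ℤ n = if n % 2 = 0 then Int.ofNat (n / 2) else Int.negSucc (n / 2) := by
  rcases Nat.even_or_odd' n with ⟨k, rfl | rfl⟩
  · have h1 : 2 * k % 2 = 0 := by omega
    have h2 : 2 * k / 2 = k := by omega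
    rw [if_pos h1, h2, ofNat_int_even]
  · have h1 : ¬ (2 * k + 1) % 2 = 0 := by omega
    have h2 : (2 * k + 1) / 2 = k := by omega
    rw [if_neg h1, h2, ofNat_int_odd]

private theorem primrecPred_even : PrimrecPred (fun n : ℕ => n % 2 = 0) :=
  Primrec.eq.comp (Primrec.nat_mod.comp Primrec.id (Primrec.const 2)) (Primrec.const 0)

/-- positive part of an integer -/
theorem primrec_pos : Primrec (fun z : ℤ => z.toNat) := by
  rw [Primrec.ofNat_iff]
  refine (Primrec.ite primrecPred_even
    (Primrec.nat_div.comp Primrec.id (Primrec.const 2)) (Primrec.const 0)).of_eq fun n => ?_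
  rw [ofNat_int]
  split_ifs
  · rfl
  · rfl

/-- negative part of an integer -/
theorem primrec_neg : Primrec (fun z : ℤ => (-z).toNat) := by
  rw [Primrec.ofNat_iff]
  refine (Primrec.ite primrecPred_even (Primrec.const 0)
    (Primrec.succ.comp (Primrec.nat_div.comp Primrec.id (Primrec.const 2)))).of_eq fun n => ?_
  rw [ofNat_int]
  split_ifs
  · show 0 = (-((n / 2 : ℕ) : ℤ)).toNat
    omega
  · simp only [Int.neg_negSucc]
    rfl

theorem primrec_natCast : Primrec (fun n : ℕ => (n : ℤ)) := by
  rw [← Primrec.encode_iff]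
  exact Primrec.nat_double.of_eq fun n => (enc_ofNat n).symm

/-- `a - b`, as an integer. -/
theorem primrec_ofDiff : Primrec₂ (fun a b : ℕ => (a : ℤ) - b) := by
  rw [← Primrec₂.encode_iff]
  have hle : PrimrecRel (fun a b : ℕ => b ≤ a) := Primrec.nat_le.comp Primrec.snd Primrec.fst
  refine (Primrec.ite hle
    (Primrec.nat_double.comp (Primrec.nat_sub.comp Primrec.fst Primrec.snd))
    (Primrec.nat_double_succ.comp
      (Primrec.nat_sub.comp (Primrec.nat_sub.comp Primrec.snd Primrec.fst)
        (Primrec.const 1)))).of_eq fun p => ?_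
  obtain ⟨a, b⟩ := p
  simp only
  split_ifs with h
  · have : (a : ℤ) - b = Int.ofNat (a - b) := by simp [Nat.cast_sub h]
    rw [this, enc_ofNat]
  · have : (a : ℤ) - b = Int.negSucc (b - a - 1) := by
      rw [Int.negSucc_eq]; push Not at h; omega
    rw [this, enc_negSucc]

theorem sub_decomp (z : ℤ) : ((z.toNat : ℤ) - ((-z).toNat : ℤ)) = z := by omega

theorem primrec_add : Primrec₂ ((· + ·) : ℤ → ℤ → ℤ) := by
  refine (primrec_ofDiff.comp
    (Primrec.nat_add.comp (primrec_pos.comp Primrec.fst) (primrec_pos.comp Primrec.snd))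
    (Primrec.nat_add.comp (primrec_neg.comp Primrec.fst) (primrec_neg.comp Primrec.snd))).of_eq
    fun p => ?_
  obtain ⟨a, b⟩ := p
  simp only [Nat.cast_add]
  omega

theorem primrec_intNeg : Primrec (fun z : ℤ => -z) := by
  refine (primrec_ofDiff.comp primrec_neg primrec_pos).of_eq fun z => ?_
  omega

theorem primrec_intSub : Primrec₂ ((· - ·) : ℤ → ℤ → ℤ) := by
  refine (primrec_add.comp Primrec.fst (primrec_intNeg.comp Primrec.snd)).of_eq fun p => ?_
  obtain ⟨a, b⟩ := p
  simp [sub_eq_add_neg]

theorem primrec_intMul : Primrec₂ ((· * ·) : ℤ → ℤ → ℤ) := by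
  have h1 : Primrec (fun p : ℤ × ℤ => p.1.toNat * p.2.toNat + (-p.1).toNat * (-p.2).toNat) :=
    Primrec.nat_add.comp
      (Primrec.nat_mul.comp (primrec_pos.comp Primrec.fst) (primrec_pos.comp Primrec.snd))
      (Primrec.nat_mul.comp (primrec_neg.comp Primrec.fst) (primrec_neg.comp Primrec.snd))
  have h2 : Primrec (fun p : ℤ × ℤ => p.1.toNat * (-p.2).toNat + (-p.1).toNat * p.2.toNat) :=
    Primrec.nat_add.comp
      (Primrec.nat_mul.comp (primrec_pos.comp Primrec.fst) (primrec_neg.comp Primrec.snd))
      (Primrec.nat_mul.comp (primrec_neg.comp Primrec.fst) (primrec_pos.comp Primrec.snd))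
  refine (primrec_ofDiff.comp h1 h2).of_eq fun p => ?_
  obtain ⟨a, b⟩ := p
  simp only [Nat.cast_add, Nat.cast_mul]
  nth_rewrite 5 [← sub_decomp a]
  nth_rewrite 5 [← sub_decomp b]
  ring

theorem primrec_natAbs : Primrec (fun z : ℤ => z.natAbs) := by
  refine (Primrec.nat_add.comp primrec_pos primrec_neg).of_eq fun z => ?_
  omega

/-- Comparison of integers. -/
theorem primrecRel_intLt : PrimrecRel ((· < ·) : ℤ → ℤ → Prop) := by
  refine (Primrec.nat_lt.comp
    (Primrec.nat_add.comp (primrec_pos.comp Primrec.fst) (primrec_neg.comp Primrec.snd))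
    (Primrec.nat_add.comp (primrec_pos.comp Primrec.snd) (primrec_neg.comp Primrec.fst))).of_eq
    fun p => ?_
  obtain ⟨a, b⟩ := p
  simp only
  omega

theorem primrecRel_intLe : PrimrecRel ((· ≤ ·) : ℤ → ℤ → Prop) := by
  refine (Primrec.nat_le.comp
    (Primrec.nat_add.comp (primrec_pos.comp Primrec.fst) (primrec_neg.comp Primrec.snd))
    (Primrec.nat_add.comp (primrec_pos.comp Primrec.snd) (primrec_neg.comp Primrec.fst))).of_eq
    fun p => ?_
  obtain ⟨a, b⟩ := p
  simp only
  omega

end Int

/-! ## gcd and coprimality -/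

section Gcd

theorem primrecRel_dvd : PrimrecRel (fun d a : ℕ => d ∣ a) := by
  refine (Primrec.eq.comp (Primrec.nat_mod.comp Primrec.snd Primrec.fst)
    (Primrec.const 0)).of_eq fun p => ?_
  obtain ⟨d, a⟩ := p
  exact (Nat.dvd_iff_mod_eq_zero).symm

theorem primrec_gcd : Primrec₂ Nat.gcd := by
  have hp : PrimrecRel (fun (p : ℕ × ℕ) (d : ℕ) => d ∣ p.1 ∧ d ∣ p.2) := by
    refine PrimrecPred.and ?_ ?_
    · exact primrecRel_dvd.comp Primrec.snd (Primrec.fst.comp Primrec.fst)
    · exact primrecRel_dvd.comp Primrec.snd (Primrec.snd.comp Primrec.fst)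
  have hfg : Primrec (fun p : ℕ × ℕ => Nat.findGreatest (fun d => d ∣ p.1 ∧ d ∣ p.2) p.2) :=
    Primrec.nat_findGreatest Primrec.snd hp
  have hz : PrimrecPred (fun p : ℕ × ℕ => p.2 = 0) :=
    Primrec.eq.comp Primrec.snd (Primrec.const 0)
  refine (Primrec.ite hz Primrec.fst hfg).of_eq fun p => ?_
  obtain ⟨a, b⟩ := p
  simp only
  split_ifs with hb
  · simp [hb]
  · have hbpos : 0 < b := Nat.pos_of_ne_zero hb
    have hg : Nat.gcd a b ≤ b := Nat.gcd_le_right a hbpos
    have hP : (Nat.gcd a b) ∣ a ∧ (Nat.gcd a b) ∣ b := ⟨Nat.gcd_dvd_left a b, Nat.gcd_dvd_right a b⟩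
    have h1 : Nat.gcd a b ≤ Nat.findGreatest (fun d => d ∣ a ∧ d ∣ b) b :=
      Nat.le_findGreatest hg hP
    have h2 := @Nat.findGreatest_spec (Nat.gcd a b) (fun d => d ∣ a ∧ d ∣ b) _ b hg hP
    have h3 : Nat.findGreatest (fun d => d ∣ a ∧ d ∣ b) b ∣ Nat.gcd a b :=
      Nat.dvd_gcd h2.1 h2.2
    have hgpos : 0 < Nat.gcd a b := Nat.gcd_pos_of_pos_right a hbpos
    exact le_antisymm (Nat.le_of_dvd hgpos h3) h1

theorem primrecRel_coprime : PrimrecRel Nat.Coprime := by
  refine (Primrec.eq.comp primrec_gcd (Primrec.const 1)).of_eq fun p => ?_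
  rfl

end Gcd

/-! ## Rational numbers -/

section Rat

/-- The underlying (non-denumerable) encoding of rationals. -/
def baseEnc (q : ℚ) : ℕ := Nat.pair (encode q.num) q.den

theorem encode_base (q : ℚ) : @encode ℚ Rat.instEncodable q = baseEnc q := by
  obtain ⟨a, b, c, d⟩ := q
  rfl

/-- The code of a rational for the `Primcodable` structure Mathlib puts on `ℚ`. -/
def cd (q : ℚ) : ℕ := @encode ℚ (Primcodable.ofDenumerable ℚ).toEncodable q

/-- The predicate "`m` is the base encoding of a rational". -/
def IsCode (m : ℕ) : Prop :=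
  0 < (Nat.unpair m).2 ∧ Nat.Coprime (ofNat ℤ (Nat.unpair m).1).natAbs (Nat.unpair m).2

instance : DecidablePred IsCode := fun m => by
  unfold IsCode
  infer_instance

theorem isCode_baseEnc (q : ℚ) : IsCode (baseEnc q) := by
  unfold IsCode baseEnc
  rw [Nat.unpair_pair]
  simp only [ofNat_encode]
  exact ⟨q.den_pos, q.reduced⟩

/-- The rational with a given code. -/
def ofCode (m : ℕ) (h : IsCode m) : ℚ :=
  ⟨ofNat ℤ (Nat.unpair m).1, (Nat.unpair m).2, Nat.pos_iff_ne_zero.mp h.1, h.2⟩

theorem baseEnc_ofCode (m : ℕ) (h : IsCode m) : baseEnc (ofCode m h) = m := by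
  unfold baseEnc ofCode
  simp only [encode_ofNat, Nat.pair_unpair]

theorem isCode_iff_mem (m : ℕ) : IsCode m ↔ m ∈ Set.range baseEnc :=
  ⟨fun h => ⟨ofCode m h, baseEnc_ofCode m h⟩, fun ⟨q, hq⟩ => hq ▸ isCode_baseEnc q⟩

theorem baseEnc_injective : Function.Injective baseEnc := by
  intro q r h
  have := Rat.instEncodable.encodek q
  have h2 := Rat.instEncodable.encodek r
  rw [encode_base] at this h2
  rw [h] at this
  exact Option.some.inj (this.symm.trans h2)

theorem primrecPred_isCode : PrimrecPred IsCode := by
  refine PrimrecPred.and ?_ ?_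
  · exact Primrec.nat_lt.comp (Primrec.const 0) (Primrec.snd.comp Primrec.unpair)
  · exact primrecRel_coprime.comp
      (primrec_natAbs.comp ((Primrec.ofNat ℤ).comp (Primrec.fst.comp Primrec.unpair)))
      (Primrec.snd.comp Primrec.unpair)

theorem countP_range_eq_count (P : ℕ → Prop) [DecidablePred P] (dec : DecidablePred P) (n : ℕ) :
    (List.range n).countP (fun y => @decide (P y) (dec y)) = Nat.count P n := by
  induction n with
  | zero => simp
  | succ k ih =>
    rw [List.range_succ, List.countP_append, ih, Nat.count_succ]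
    simp only [List.countP_cons, List.countP_nil]
    by_cases h : P k <;> simp [h]

theorem cd_eq_count (q : ℚ) : cd q = Nat.count IsCode (baseEnc q) := by
  have h1 : cd q = (List.range (@encode ℚ Rat.instEncodable q)).countP
      (fun y => @decide (y ∈ Set.range (@encode ℚ Rat.instEncodable))
        (decidableRangeEncode ℚ y)) := rfl
  rw [h1, encode_base]
  have h2 : (Set.range (@encode ℚ Rat.instEncodable)) = Set.range baseEnc := by
    ext m
    simp only [Set.mem_range, encode_base]
  have key : ∀ (n : ℕ) (dec : ∀ y, Decidable (y ∈ Set.range (@encode ℚ Rat.instEncodable))),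
      (List.range n).countP (fun y => @decide _ (dec y)) = Nat.count IsCode n := by
    intro n dec
    induction n with
    | zero => simp
    | succ k ih =>
      rw [List.range_succ, List.countP_append, ih, Nat.count_succ]
      simp only [List.countP_cons, List.countP_nil]
      have : k ∈ Set.range (@encode ℚ Rat.instEncodable) ↔ IsCode k := by
        rw [h2, isCode_iff_mem]
      by_cases hk : IsCode k
      · have hk' := this.mpr hk
        simp [hk, hk']
      · have hk' : ¬ _ := fun h => hk (this.mp h)
        simp [hk, hk']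
  exact key _ _

theorem primrec_count : Primrec (Nat.count IsCode) := by
  have : Primrec (fun n : ℕ => (Nat.rec 0 (fun k IH => IH + if IsCode k then 1 else 0) n : ℕ)) := by
    refine Primrec.nat_rec' (α := ℕ) (β := ℕ) (f := fun n => n) (g := fun _ => 0)
      (h := fun _ p => p.2 + if IsCode p.1 then 1 else 0) Primrec.id (Primrec.const 0) ?_
    refine Primrec.nat_add.comp (Primrec.snd.comp Primrec.snd) ?_
    refine Primrec.ite (primrecPred_isCode.comp (Primrec.fst.comp Primrec.snd))
      (Primrec.const 1) (Primrec.const 0)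
  refine this.of_eq fun n => ?_
  induction n with
  | zero => rfl
  | succ k ih =>
    rw [Nat.count_succ, ← ih]

/-- `cd` as a `Computable` function is just `encode`. -/
theorem computable_cd : Computable cd := Computable.encode

theorem ofNat_cd (q : ℚ) : ofNat ℚ (cd q) = q := ofNat_encode q

theorem cd_ofNat (n : ℕ) : cd (ofNat ℚ n) = n := encode_ofNat n

/-- `baseEnc ∘ ofNat` is computable: search for the unique code with the right count. -/
theorem computable_baseEnc_ofNat : Computable (fun n : ℕ => baseEnc (ofNat ℚ n)) := by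
  have hdec : Primrec (fun p : ℕ × ℕ => decide (IsCode p.2 ∧ Nat.count IsCode p.2 = p.1)) := by
    refine PrimrecPred.decide ?_
    refine PrimrecPred.and (primrecPred_isCode.comp Primrec.snd) ?_
    exact Primrec.eq.comp (primrec_count.comp Primrec.snd) Primrec.fst
  have hp : Partrec₂ (fun (n m : ℕ) =>
      (Part.some (decide (IsCode m ∧ Nat.count IsCode m = n)) : Part Bool)) := by
    exact hdec.to_comp.partrec
  refine (Partrec.rfind hp).of_eq_tot fun n => ?_
  rw [Nat.mem_rfind]
  constructor
  · simp only [Part.mem_some_iff]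
    symm
    rw [decide_eq_true_eq]
    exact ⟨isCode_baseEnc _, by rw [← cd_eq_count, cd_ofNat]⟩
  · intro m hm
    simp only [Part.mem_some_iff]
    symm
    rw [decide_eq_false_iff_not]
    rintro ⟨hc, hcount⟩
    obtain ⟨q, rfl⟩ := (isCode_iff_mem m).mp hc
    rw [← cd_eq_count] at hcount
    have : q = ofNat ℚ n := by rw [← hcount, ofNat_cd]
    rw [this] at hm
    exact lt_irrefl _ hm

theorem computable_baseEnc : Computable baseEnc := by
  refine (computable_baseEnc_ofNat.comp computable_cd).of_eq fun q => ?_
  simp only [ofNat_cd]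

/-- The numerator is computable. -/
theorem computable_num : Computable (fun q : ℚ => q.num) := by
  have h1 : Computable (fun q : ℚ => (Nat.unpair (baseEnc q)).1) :=
    Computable.fst.comp (Computable.unpair.comp computable_baseEnc)
  refine ((Computable.ofNat ℤ).comp h1).of_eq fun q => ?_
  simp only [baseEnc, Nat.unpair_pair, ofNat_encode]

/-- The denominator is computable. -/
theorem computable_den : Computable (fun q : ℚ => q.den) := by
  refine (Computable.snd.comp (Computable.unpair.comp computable_baseEnc)).of_eq fun q => ?_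
  simp [baseEnc]

/-- Reduced form of a fraction `z / d`. -/
def normDen (p : ℤ × ℕ) : ℕ := if p.2 = 0 then 1 else p.2 / Nat.gcd p.1.natAbs p.2

def normNum (p : ℤ × ℕ) : ℤ :=
  if p.2 = 0 then 0 else
    ((p.1.toNat / Nat.gcd p.1.natAbs p.2 : ℕ) : ℤ) - (((-p.1).toNat / Nat.gcd p.1.natAbs p.2 : ℕ) : ℤ)

theorem primrec_normDen : Primrec normDen := by
  refine Primrec.ite (Primrec.eq.comp Primrec.snd (Primrec.const 0)) (Primrec.const 1) ?_
  exact Primrec.nat_div.comp Primrec.snd
    (primrec_gcd.comp (primrec_natAbs.comp Primrec.fst) Primrec.snd)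

theorem primrec_normNum : Primrec normNum := by
  refine Primrec.ite (Primrec.eq.comp Primrec.snd (Primrec.const 0)) (Primrec.const 0) ?_
  refine primrec_ofDiff.comp ?_ ?_
  · exact Primrec.nat_div.comp (primrec_pos.comp Primrec.fst)
      (primrec_gcd.comp (primrec_natAbs.comp Primrec.fst) Primrec.snd)
  · exact Primrec.nat_div.comp (primrec_neg.comp Primrec.fst)
      (primrec_gcd.comp (primrec_natAbs.comp Primrec.fst) Primrec.snd)

theorem normNum_spec (p : ℤ × ℕ) (hp : p.2 ≠ 0) :
    normNum p = p.1 / (Nat.gcd p.1.natAbs p.2 : ℤ) := by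
  obtain ⟨z, d⟩ := p
  simp only at hp
  simp only [normNum, if_neg hp]
  have hgpos : 0 < Nat.gcd z.natAbs d := Nat.gcd_pos_of_pos_right _ (Nat.pos_of_ne_zero hp)
  have hgdvd : ((Nat.gcd z.natAbs d : ℕ) : ℤ) ∣ z := by
    have : Nat.gcd z.natAbs d ∣ z.natAbs := Nat.gcd_dvd_left _ _
    exact Int.natCast_dvd.mpr this
  generalize Nat.gcd z.natAbs d = g at hgpos hgdvd ⊢
  obtain ⟨k, rfl⟩ := hgdvd
  have hg0 : (g : ℤ) ≠ 0 := by exact_mod_cast hgpos.ne'
  rw [Int.mul_ediv_cancel_left _ hg0]
  rcases le_total 0 k with hk | hk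
  · have e1 : ((g : ℤ) * k).toNat = g * k.toNat := by
      have : (g : ℤ) * k = ((g * k.toNat : ℕ) : ℤ) := by
        push_cast; rw [Int.toNat_of_nonneg hk]
      rw [this, Int.toNat_natCast]
    have e2 : (-((g : ℤ) * k)).toNat = 0 := by
      have : 0 ≤ (g : ℤ) * k := mul_nonneg (by positivity) hk
      omega
    rw [e1, e2, Nat.mul_div_cancel_left _ hgpos]
    simp [Int.toNat_of_nonneg hk]
  · have e2 : (-((g : ℤ) * k)).toNat = g * (-k).toNat := by
      have : -((g : ℤ) * k) = ((g * (-k).toNat : ℕ) : ℤ) := by
        push_cast; rw [Int.toNat_of_nonneg (by omega)]; ring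
      rw [this, Int.toNat_natCast]
    have e1 : ((g : ℤ) * k).toNat = 0 := by
      have : (g : ℤ) * k ≤ 0 := mul_nonpos_of_nonneg_of_nonpos (by positivity) hk
      omega
    rw [e1, e2, Nat.mul_div_cancel_left _ hgpos]
    simp only [Nat.zero_div, Nat.cast_zero, zero_sub]
    rw [Int.toNat_of_nonneg (by omega)]
    ring

theorem norm_num_den (p : ℤ × ℕ) :
    ((p.1 : ℚ) / (p.2 : ℚ)).num = normNum p ∧ ((p.1 : ℚ) / (p.2 : ℚ)).den = normDen p := by
  obtain ⟨z, d⟩ := p
  by_cases hd : d = 0
  · subst hd
    simp [normNum, normDen]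
  · have hdpos : 0 < d := Nat.pos_of_ne_zero hd
    have hn : normNum (z, d) = z / ((Nat.gcd z.natAbs d : ℕ) : ℤ) := normNum_spec (z, d) hd
    have hdn : normDen (z, d) = d / Nat.gcd z.natAbs d := by simp [normDen, hd]
    have hgpos : 0 < Nat.gcd z.natAbs d := Nat.gcd_pos_of_pos_right _ hdpos
    have hgz : ((Nat.gcd z.natAbs d : ℕ) : ℤ) ∣ z := Int.natCast_dvd.mpr (Nat.gcd_dvd_left _ _)
    have hgd : Nat.gcd z.natAbs d ∣ d := Nat.gcd_dvd_right _ _
    simp only at hn hdn ⊢
    rw [hn, hdn]
    generalize hg : Nat.gcd z.natAbs d = g at hgpos hgz hgd ⊢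
    obtain ⟨k, rfl⟩ := hgz
    obtain ⟨m, rfl⟩ := hgd
    have hg0 : (g : ℤ) ≠ 0 := by exact_mod_cast hgpos.ne'
    have hgq : (g : ℚ) ≠ 0 := by exact_mod_cast hgpos.ne'
    have hmpos : 0 < m := by
      rcases Nat.eq_zero_or_pos m with h | h
      · subst h; simp at hd
      · exact h
    have hcop : Nat.Coprime k.natAbs m := by
      have h1 : Nat.gcd (g * k.natAbs) (g * m) = g := by
        have h := hg
        rwa [Int.natAbs_mul, Int.natAbs_natCast] at h
      rw [Nat.gcd_mul_left] at h1
      have : Nat.gcd k.natAbs m = 1 := by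
        apply Nat.eq_of_mul_eq_mul_left hgpos
        rw [h1, Nat.mul_one]
      exact this
    have e : (((g : ℤ) * k : ℤ) : ℚ) / ((g * m : ℕ) : ℚ) = (k : ℚ) / ((m : ℤ) : ℚ) := by
      push_cast
      rw [mul_div_mul_left _ _ hgq]
    rw [Int.mul_ediv_cancel_left _ hg0, Nat.mul_div_cancel_left _ hgpos, e]
    constructor
    · exact Rat.num_div_eq_of_coprime (by exact_mod_cast hmpos) (by simpa using hcop)
    · have := Rat.den_div_eq_of_coprime (a := k) (b := (m : ℤ)) (by exact_mod_cast hmpos)
        (by simpa using hcop)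
      exact_mod_cast this

theorem baseEnc_div (p : ℤ × ℕ) :
    baseEnc ((p.1 : ℚ) / (p.2 : ℚ)) = Nat.pair (encode (normNum p)) (normDen p) := by
  unfold baseEnc
  rw [(norm_num_den p).1, (norm_num_den p).2]

/-- The fraction map `(z, d) ↦ z / d` is computable. -/
theorem computable_div : Computable (fun p : ℤ × ℕ => (p.1 : ℚ) / (p.2 : ℚ)) := by
  rw [← Computable.encode_iff]
  have h : Primrec (fun p : ℤ × ℕ => Nat.count IsCode (Nat.pair (encode (normNum p)) (normDen p))) :=
    primrec_count.comp (Primrec₂.natPair.comp (Primrec.encode.comp primrec_normNum) primrec_normDen)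
  refine h.to_comp.of_eq fun p => ?_
  rw [← baseEnc_div, ← cd_eq_count]
  rfl

/-- Useful repackaging. -/
theorem computable_mk {α : Type*} [Primcodable α] {f : α → ℤ} {g : α → ℕ}
    (hf : Computable f) (hg : Computable g) :
    Computable (fun a => (f a : ℚ) / (g a : ℚ)) :=
  Computable.comp (f := fun p : ℤ × ℕ => (p.1 : ℚ) / (p.2 : ℚ)) (g := fun a => (f a, g a))
    computable_div (hf.pair hg)

theorem primrec_toComp_intAdd : Computable₂ ((· + ·) : ℤ → ℤ → ℤ) := primrec_add.to_comp
theorem primrec_toComp_intMul : Computable₂ ((· * ·) : ℤ → ℤ → ℤ) := primrec_intMul.to_comp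

theorem computable_natCastInt : Computable (fun n : ℕ => (n : ℤ)) := primrec_natCast.to_comp

/-! ### Field operations -/

theorem computable_add : Computable₂ ((· + ·) : ℚ → ℚ → ℚ) := by
  have hn1 : Computable (fun p : ℚ × ℚ => p.1.num) := computable_num.comp Computable.fst
  have hn2 : Computable (fun p : ℚ × ℚ => p.2.num) := computable_num.comp Computable.snd
  have hd1 : Computable (fun p : ℚ × ℚ => p.1.den) := computable_den.comp Computable.fst
  have hd2 : Computable (fun p : ℚ × ℚ => p.2.den) := computable_den.comp Computable.snd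
  have hz : Computable (fun p : ℚ × ℚ => p.1.num * (p.2.den : ℤ) + p.2.num * (p.1.den : ℤ)) :=
    primrec_toComp_intAdd.comp
      (primrec_toComp_intMul.comp hn1 (computable_natCastInt.comp hd2))
      (primrec_toComp_intMul.comp hn2 (computable_natCastInt.comp hd1))
  have hdd : Computable (fun p : ℚ × ℚ => p.1.den * p.2.den) :=
    Primrec.nat_mul.to_comp.comp hd1 hd2
  refine (computable_mk hz hdd).of_eq fun p => ?_
  obtain ⟨a, b⟩ := p
  simp only
  have ha : (a.den : ℚ) ≠ 0 := by exact_mod_cast a.den_nz
  have hb : (b.den : ℚ) ≠ 0 := by exact_mod_cast b.den_nz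
  conv_rhs => rw [← Rat.num_div_den a, ← Rat.num_div_den b]
  push_cast
  field_simp

theorem computable_mul : Computable₂ ((· * ·) : ℚ → ℚ → ℚ) := by
  have hn1 : Computable (fun p : ℚ × ℚ => p.1.num) := computable_num.comp Computable.fst
  have hn2 : Computable (fun p : ℚ × ℚ => p.2.num) := computable_num.comp Computable.snd
  have hd1 : Computable (fun p : ℚ × ℚ => p.1.den) := computable_den.comp Computable.fst
  have hd2 : Computable (fun p : ℚ × ℚ => p.2.den) := computable_den.comp Computable.snd
  have hz : Computable (fun p : ℚ × ℚ => p.1.num * p.2.num) :=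
    primrec_toComp_intMul.comp hn1 hn2
  have hdd : Computable (fun p : ℚ × ℚ => p.1.den * p.2.den) :=
    Primrec.nat_mul.to_comp.comp hd1 hd2
  refine (computable_mk hz hdd).of_eq fun p => ?_
  obtain ⟨a, b⟩ := p
  simp only
  have ha : (a.den : ℚ) ≠ 0 := by exact_mod_cast a.den_nz
  have hb : (b.den : ℚ) ≠ 0 := by exact_mod_cast b.den_nz
  conv_rhs => rw [← Rat.num_div_den a, ← Rat.num_div_den b]
  push_cast
  field_simp

theorem computable_ratNeg : Computable (fun q : ℚ => -q) := by
  have hz : Computable (fun q : ℚ => -q.num) :=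
    primrec_intNeg.to_comp.comp computable_num
  refine (computable_mk hz computable_den).of_eq fun q => ?_
  have hq : (q.den : ℚ) ≠ 0 := by exact_mod_cast q.den_nz
  conv_rhs => rw [← Rat.num_div_den q]
  push_cast
  ring

theorem computable_ratSub : Computable₂ ((· - ·) : ℚ → ℚ → ℚ) := by
  refine (computable_add.comp Computable.fst (computable_ratNeg.comp Computable.snd)).of_eq
    fun p => ?_
  simp [sub_eq_add_neg]

theorem computable_ratInv : Computable (fun q : ℚ => q⁻¹) := by
  have hz : Computable (fun q : ℚ => (q.den : ℤ) * q.num) :=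
    primrec_toComp_intMul.comp (computable_natCastInt.comp computable_den) computable_num
  have hd : Computable (fun q : ℚ => q.num.natAbs * q.num.natAbs) :=
    Primrec.nat_mul.to_comp.comp (primrec_natAbs.to_comp.comp computable_num)
      (primrec_natAbs.to_comp.comp computable_num)
  refine (computable_mk hz hd).of_eq fun q => ?_
  have hq : (q.den : ℚ) ≠ 0 := by exact_mod_cast q.den_nz
  by_cases hn : q.num = 0
  · have : q = 0 := Rat.num_eq_zero.mp hn
    subst this
    simp
  · have hnq : (q.num : ℚ) ≠ 0 := by exact_mod_cast hn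
    have habs : ((q.num.natAbs * q.num.natAbs : ℕ) : ℚ) = (q.num : ℚ) * q.num := by
      rw [Nat.cast_mul, Nat.cast_natAbs, Int.cast_abs]
      exact abs_mul_abs_self _
    rw [habs]
    conv_rhs => rw [← Rat.num_div_den q]
    push_cast
    field_simp

theorem computable_ratDiv : Computable₂ ((· / ·) : ℚ → ℚ → ℚ) := by
  refine (computable_mul.comp Computable.fst (computable_ratInv.comp Computable.snd)).of_eq
    fun p => ?_
  simp [div_eq_mul_inv]

theorem computable_ratAbs : Computable (fun q : ℚ => |q|) := by
  have hz : Computable (fun q : ℚ => ((q.num.natAbs : ℕ) : ℤ)) :=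
    computable_natCastInt.comp (primrec_natAbs.to_comp.comp computable_num)
  refine (computable_mk hz computable_den).of_eq fun q => ?_
  have hq : (0 : ℚ) < q.den := by exact_mod_cast q.den_pos
  conv_rhs => rw [← Rat.num_div_den q]
  rw [abs_div, abs_of_pos hq]
  congr 1
  have : ((q.num.natAbs : ℕ) : ℤ) = |q.num| := Int.natCast_natAbs _
  rw [this]
  push_cast
  rfl

theorem computable_natCast : Computable (fun n : ℕ => (n : ℚ)) := by
  have h := computable_mk (α := ℕ) (f := fun n => (n : ℤ)) (g := fun _ => 1)
    computable_natCastInt (Computable.const 1)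
  refine h.of_eq fun n => ?_
  simp

theorem computable_intCast : Computable (fun n : ℤ => (n : ℚ)) := by
  have h := computable_mk (α := ℤ) (f := fun n => n) (g := fun _ => 1)
    Computable.id (Computable.const 1)
  refine h.of_eq fun n => ?_
  simp

/-- Decidable comparison. -/
theorem computable_lt : Computable₂ (fun a b : ℚ => decide (a < b)) := by
  have h : Primrec (fun p : (ℤ × ℕ) × (ℤ × ℕ) =>
      decide (p.1.1 * (p.2.2 : ℤ) < p.2.1 * (p.1.2 : ℤ))) := by
    refine PrimrecPred.decide ?_
    refine primrecRel_intLt.comp ?_ ?_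
    · exact primrec_intMul.comp (Primrec.fst.comp Primrec.fst)
        (primrec_natCast.comp (Primrec.snd.comp Primrec.snd))
    · exact primrec_intMul.comp (Primrec.fst.comp Primrec.snd)
        (primrec_natCast.comp (Primrec.snd.comp Primrec.fst))
  have h2 : Computable (fun p : ℚ × ℚ => ((p.1.num, p.1.den), (p.2.num, p.2.den))) :=
    ((computable_num.comp Computable.fst).pair (computable_den.comp Computable.fst)).pair
      ((computable_num.comp Computable.snd).pair (computable_den.comp Computable.snd))
  refine (h.to_comp.comp h2).of_eq fun p => ?_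
  obtain ⟨a, b⟩ := p
  simp only [Rat.lt_iff]

theorem computable_le : Computable₂ (fun a b : ℚ => decide (a ≤ b)) := by
  have h : Primrec (fun p : (ℤ × ℕ) × (ℤ × ℕ) =>
      decide (p.1.1 * (p.2.2 : ℤ) ≤ p.2.1 * (p.1.2 : ℤ))) := by
    refine PrimrecPred.decide ?_
    refine primrecRel_intLe.comp ?_ ?_
    · exact primrec_intMul.comp (Primrec.fst.comp Primrec.fst)
        (primrec_natCast.comp (Primrec.snd.comp Primrec.snd))
    · exact primrec_intMul.comp (Primrec.fst.comp Primrec.snd)
        (primrec_natCast.comp (Primrec.snd.comp Primrec.fst))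
  have h2 : Computable (fun p : ℚ × ℚ => ((p.1.num, p.1.den), (p.2.num, p.2.den))) :=
    ((computable_num.comp Computable.fst).pair (computable_den.comp Computable.fst)).pair
      ((computable_num.comp Computable.snd).pair (computable_den.comp Computable.snd))
  refine (h.to_comp.comp h2).of_eq fun p => ?_
  obtain ⟨a, b⟩ := p
  simp only [Rat.le_iff]

/-! ### Closure lemmas in usable form -/

section Closure

variable {α : Type*} [Primcodable α]

theorem Computable.ratAdd {f g : α → ℚ} (hf : Computable f) (hg : Computable g) :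
    Computable (fun a => f a + g a) := computable_add.comp hf hg

theorem Computable.ratMul {f g : α → ℚ} (hf : Computable f) (hg : Computable g) :
    Computable (fun a => f a * g a) := computable_mul.comp hf hg

theorem Computable.ratSub {f g : α → ℚ} (hf : Computable f) (hg : Computable g) :
    Computable (fun a => f a - g a) := computable_ratSub.comp hf hg

theorem Computable.ratDiv {f g : α → ℚ} (hf : Computable f) (hg : Computable g) :
    Computable (fun a => f a / g a) := computable_ratDiv.comp hf hg

theorem Computable.ratNeg {f : α → ℚ} (hf : Computable f) :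
    Computable (fun a => - f a) := computable_ratNeg.comp hf

theorem Computable.ratInv {f : α → ℚ} (hf : Computable f) :
    Computable (fun a => (f a)⁻¹) := computable_ratInv.comp hf

theorem Computable.ratAbs {f : α → ℚ} (hf : Computable f) :
    Computable (fun a => |f a|) := computable_ratAbs.comp hf

theorem Computable.ratNatCast {f : α → ℕ} (hf : Computable f) :
    Computable (fun a => (f a : ℚ)) := computable_natCast.comp hf

theorem Computable.ratIntCast {f : α → ℤ} (hf : Computable f) :
    Computable (fun a => (f a : ℚ)) := computable_intCast.comp hf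

theorem Computable.ratIte {c : α → Prop} [DecidablePred c] {f g : α → ℚ}
    (hc : Computable (fun a => decide (c a))) (hf : Computable f) (hg : Computable g) :
    Computable (fun a => if c a then f a else g a) := by
  refine (Computable.cond hc hf hg).of_eq fun a => ?_
  by_cases h : c a <;> simp [h]

theorem Computable.ite' {σ : Type*} [Primcodable σ] {c : α → Prop} [DecidablePred c] {f g : α → σ}
    (hc : Computable (fun a => decide (c a))) (hf : Computable f) (hg : Computable g) :
    Computable (fun a => if c a then f a else g a) := by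
  refine (Computable.cond hc hf hg).of_eq fun a => ?_
  by_cases h : c a <;> simp [h]

theorem Computable.ratLt {f g : α → ℚ} (hf : Computable f) (hg : Computable g) :
    Computable (fun a => decide (f a < g a)) := computable_lt.comp hf hg

theorem Computable.ratLe {f g : α → ℚ} (hf : Computable f) (hg : Computable g) :
    Computable (fun a => decide (f a ≤ g a)) := computable_le.comp hf hg

/-- Powers with computable exponent. -/
theorem Computable.ratPow {f : α → ℚ} {g : α → ℕ} (hf : Computable f) (hg : Computable g) :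
    Computable (fun a => f a ^ g a) := by
  have h : Computable (fun a => (Nat.rec (1 : ℚ) (fun _ IH => IH * f a) (g a) : ℚ)) := by
    refine Computable.nat_rec (σ := ℚ) (f := g) (g := fun _ => (1 : ℚ))
      (h := fun a p => p.2 * f a) hg (Computable.const _) ?_
    exact Computable.ratMul (Computable.snd.comp Computable.snd) (hf.comp Computable.fst)
  refine h.of_eq fun a => ?_
  induction g a with
  | zero => simp
  | succ k ih => simp only [pow_succ, ih]

/-- Finite sums with computable range and summand. -/
theorem Computable.ratSum {g : α → ℕ} {f : α → ℕ → ℚ} (hg : Computable g)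
    (hf : Computable₂ f) :
    Computable (fun a => ∑ i ∈ Finset.range (g a), f a i) := by
  have h : Computable (fun a => (Nat.rec (0 : ℚ) (fun k IH => IH + f a k) (g a) : ℚ)) := by
    refine Computable.nat_rec (σ := ℚ) (f := g) (g := fun _ => (0 : ℚ))
      (h := fun a p => p.2 + f a p.1) hg (Computable.const _) ?_
    refine Computable.ratAdd (Computable.snd.comp Computable.snd) ?_
    exact hf.comp Computable.fst (Computable.fst.comp Computable.snd)
  refine h.of_eq fun a => ?_
  induction g a with
  | zero => simp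
  | succ k ih => rw [Finset.sum_range_succ, ← ih]

/-- Finite products with computable range and factors. -/
theorem Computable.ratProd {g : α → ℕ} {f : α → ℕ → ℚ} (hg : Computable g)
    (hf : Computable₂ f) :
    Computable (fun a => ∏ i ∈ Finset.range (g a), f a i) := by
  have h : Computable (fun a => (Nat.rec (1 : ℚ) (fun k IH => IH * f a k) (g a) : ℚ)) := by
    refine Computable.nat_rec (σ := ℚ) (f := g) (g := fun _ => (1 : ℚ))
      (h := fun a p => p.2 * f a p.1) hg (Computable.const _) ?_
    refine Computable.ratMul (Computable.snd.comp Computable.snd) ?_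
    exact hf.comp Computable.fst (Computable.fst.comp Computable.snd)
  refine h.of_eq fun a => ?_
  induction g a with
  | zero => simp
  | succ k ih => rw [Finset.prod_range_succ, ← ih]

/-- Evaluating a finite function coordinate is computable. -/
theorem Computable.finApp {n : ℕ} {σ : Type*} [Primcodable σ] {f : α → Fin n → σ} (hf : Computable f)
    (j : Fin n) : Computable (fun a => f a j) :=
  Computable.fin_app.comp hf (Computable.const j)

/-- Building a function on `Fin n` from computable coordinates. -/
theorem Computable.finCurry {n : ℕ} {σ : Type*} [Primcodable σ] {f : α → Fin n → σ}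
    (hf : ∀ j, Computable (fun a => f a j)) : Computable f := by
  rw [← Computable.encode_iff]
  have := Computable.vector_ofFn (f := fun j a => f a j) hf
  exact (Computable.encode.comp this).of_eq fun a => rfl

end Closure

end Rat

end Crest.Agent.Lib.QQCompute
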