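import Mathlib

/-!
# S0188 assembly, part 2 (row 137, Module E): sections over the Grassmannian have zeros

From the target of Module B2 (`GrassSectionZero`) we deduce the fibre statement used for RC: for
`X = Gr D R` with `R + 8 q ≤ |D|`, a system `C w = 0`, `p̂ B' w = 0` (`m < n`, `q` extra constraints)
has a nonzero solution at some point of `X`.
-/

set_option autoImplicit false
set_option linter.unusedVariables false
set_option linter.unusedSectionVars false

namespace Crest.Agent.Lib.QTSec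

open scoped Matrix Kronecker
open Matrix

/-- The Grassmannian of rank `R` orthogonal projections. -/
def Gr (ι : Type) [Fintype ι] [DecidableEq ι] (R : ℕ) : Set (Matrix ι ι ℂ) :=
  {P | Pᴴ = P ∧ P * P = P ∧ P.trace = (R : ℂ)}

/-- The target of Module B2. -/
def GrassSectionZero : Prop :=
  ∀ (R L N : ℕ) (V₀ : Matrix (Fin R ⊕ Fin L) (Fin R ⊕ Fin L) ℂ → Matrix (Fin N) (Fin (N + 1)) ℂ)
    (V : Fin L → Matrix (Fin R ⊕ Fin L) (Fin R ⊕ Fin L) ℂ →
      Matrix (Fin R ⊕ Fin L) (Fin (N + 1)) ℂ),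
    ContinuousOn V₀ (Gr (Fin R ⊕ Fin L) R) → (∀ m, ContinuousOn (V m) (Gr (Fin R ⊕ Fin L) R)) →
    ∃ P ∈ Gr (Fin R ⊕ Fin L) R, ∃ w : Fin (N + 1) → ℂ, w ≠ 0 ∧ V₀ P *ᵥ w = 0 ∧
      ∀ m, P *ᵥ (V m P *ᵥ w) = 0

variable {D : Type} [Fintype D] [DecidableEq D]
variable {ι : Type} [Fintype ι] [DecidableEq ι]

/-- The partial isometry of an embedding of index sets. -/
def IotaM (e : ι ↪ D) : Matrix D ι ℂ := fun a u => if a = e u then 1 else 0

lemma iotaM_conj_mul (e : ι ↪ D) : (IotaM e)ᴴ * IotaM e = 1 := by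
  ext u v
  simp only [Matrix.mul_apply, Matrix.conjTranspose_apply, IotaM, Matrix.one_apply]
  rw [Finset.sum_eq_single (e u)]
  · by_cases h : u = v
    · subst h; simp
    · simp [h, e.injective.eq_iff]
  · intro b _ hb; simp [hb]
  · simp

/-- Extension by zero of a matrix. -/
def extM (e : ι ↪ D) (P : Matrix ι ι ℂ) : Matrix D D ℂ := IotaM e * P * (IotaM e)ᴴ

lemma extM_mem {R : ℕ} (e : ι ↪ D) {P : Matrix ι ι ℂ} (hP : P ∈ Gr ι R) : extM e P ∈ Gr D R := by
  obtain ⟨h1, h2, h3⟩ := hP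
  refine ⟨?_, ?_, ?_⟩
  · simp [extM, Matrix.conjTranspose_mul, h1, Matrix.mul_assoc]
  · have : extM e P * extM e P = IotaM e * P * ((IotaM e)ᴴ * IotaM e) * P * (IotaM e)ᴴ := by
      simp only [extM, Matrix.mul_assoc]
    rw [this, iotaM_conj_mul, Matrix.mul_one, Matrix.mul_assoc (IotaM e), h2]
    rfl
  · rw [extM, Matrix.trace_mul_comm, ← Matrix.mul_assoc, iotaM_conj_mul, Matrix.one_mul, h3]

lemma continuous_extM (e : ι ↪ D) : Continuous (extM e) := by
  unfold extM
  fun_prop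

/-- The amplification index `Fin 2 × Fin 4 × D`. -/
abbrev TT (D : Type) : Type := Fin 2 × (Fin 4 × D)

/-- The amplified projection `1₈ ⊗ P`. -/
def phat (P : Matrix D D ℂ) : Matrix (TT D) (TT D) ℂ :=
  (1 : Matrix (Fin 2) (Fin 2) ℂ) ⊗ₖ ((1 : Matrix (Fin 4) (Fin 4) ℂ) ⊗ₖ P)

lemma phat_mulVec (P : Matrix D D ℂ) (y : TT D → ℂ) (f1 : Fin 2) (f2 : Fin 4) (d : D) :
    (phat P *ᵥ y) (f1, f2, d) = (P *ᵥ fun d' => y (f1, f2, d')) d := by
  simp only [phat, Matrix.mulVec, dotProduct, Matrix.kroneckerMap_apply, Fintype.sum_prod_type,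
    Matrix.one_apply]
  rw [Finset.sum_eq_single f1]
  · rw [Finset.sum_eq_single f2]
    · simp
    · intro b _ hb; simp [Ne.symm hb]
    · simp
  · intro b _ hb; simp [Ne.symm hb]
  · simp

open Classical in
lemma continuousOn_dite {α β : Type*} [TopologicalSpace α] [TopologicalSpace β] [Zero β]
    {s : Set α} (f : s → β) (hf : Continuous f) :
    ContinuousOn (fun x => if h : x ∈ s then f ⟨x, h⟩ else 0) s := by
  rw [continuousOn_iff_continuous_domRestrict]
  convert hf using 1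
  ext ⟨x, hx⟩
  simp [hx]

open Classical in
/-- The fibre statement. -/
theorem sec_level (hG : GrassSectionZero) (D : Type) [Fintype D] [DecidableEq D] [Nonempty D]
    (R : ℕ) {m n q : ℕ} (hmn : m < n) (hL : R + 8 * q ≤ Fintype.card D)
    (C : Fin m → Fin n → C(Gr D R, Matrix (TT D) (TT D) ℂ))
    (B' : Fin q → C(Gr D R, Matrix (TT D) (TT D) ℂ)) (j : Fin q → Fin n) :
    ∃ (x : Gr D R) (w : Fin n → TT D → ℂ), w ≠ 0 ∧ (∀ a, ∑ i, C a i x *ᵥ w i = 0) ∧
      ∀ r, phat x.1 *ᵥ (B' r x *ᵥ w (j r)) = 0 := by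
  -- index sets
  set L : ℕ := 8 * q with hLdef
  obtain ⟨e⟩ : Nonempty ((Fin R ⊕ Fin L) ↪ D) :=
    Function.Embedding.nonempty_of_card_le (by simpa using hL)
  have hcardL : Fintype.card (Fin q × (Fin 2 × Fin 4)) = L := by
    simp [hLdef]; ring
  let eL : Fin L ≃ Fin q × (Fin 2 × Fin 4) := (Fintype.equivFinOfCardEq hcardL).symm
  set N : ℕ := Fintype.card (Fin m × TT D) with hN
  let eN : Fin N ≃ Fin m × TT D := (Fintype.equivFin _).symm
  have hTpos : 0 < Fintype.card (TT D) := Fintype.card_pos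
  obtain ⟨emb⟩ : Nonempty (Fin (N + 1) ↪ Fin n × TT D) := by
    apply Function.Embedding.nonempty_of_card_le
    simp only [Fintype.card_fin, Fintype.card_prod (Fin n), hN, Fintype.card_prod (Fin m)]
    nlinarith
  -- the point
  let x : Gr (Fin R ⊕ Fin L) R → Gr D R := fun P => ⟨extM e P, extM_mem e P.2⟩
  have hx : Continuous x := (continuous_extM e).comp continuous_subtype_val |>.subtype_mk _
  -- the sections
  let V0' : Gr (Fin R ⊕ Fin L) R → Matrix (Fin N) (Fin (N + 1)) ℂ := fun P α ε =>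
    C (eN α).1 (emb ε).1 (x P) (eN α).2 (emb ε).2
  have hV0' : Continuous V0' := by
    refine continuous_matrix fun α ε => ?_
    exact ((C (eN α).1 (emb ε).1).continuous.comp hx).matrix_elem _ _
  let V' : Fin L → Gr (Fin R ⊕ Fin L) R → Matrix (Fin R ⊕ Fin L) (Fin (N + 1)) ℂ := fun mm P u ε =>
    if (emb ε).1 = j (eL mm).1 then
      B' (eL mm).1 (x P) ((eL mm).2.1, (eL mm).2.2, e u) (emb ε).2 else 0
  have hV' : ∀ mm, Continuous (V' mm) := by
    intro mm
    refine continuous_matrix fun u ε => ?_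
    by_cases h : (emb ε).1 = j (eL mm).1
    · simp only [V', h, if_true]
      exact ((B' (eL mm).1).continuous.comp hx).matrix_elem _ _
    · simp only [V', h, if_false]
      exact continuous_const
  obtain ⟨P, hP, v, hv0, h0, h1⟩ := hG R L N (fun P => if h : P ∈ _ then V0' ⟨P, h⟩ else 0)
    (fun mm P => if h : P ∈ _ then V' mm ⟨P, h⟩ else 0)
    (continuousOn_dite V0' hV0') (fun mm => continuousOn_dite (V' mm) (hV' mm))
  simp only [dif_pos hP] at h0 h1
  -- the solution
  let u : Fin n × TT D → ℂ := Function.extend emb v 0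
  have hu : ∀ ε, u (emb ε) = v ε := fun ε => emb.injective.extend_apply _ _ _
  have sum_u : ∀ g : Fin n × TT D → ℂ, ∑ y, g y * u y = ∑ ε, g (emb ε) * v ε := by
    intro g
    symm
    refine Fintype.sum_of_injective emb emb.injective _ _ ?_ ?_
    · intro y hy
      simp [u, Function.extend_apply' _ _ _ (by simpa using hy)]
    · intro ε; rw [hu]
  refine ⟨x ⟨P, hP⟩, fun i t => u (i, t), ?_, ?_, ?_⟩
  · intro hw
    apply hv0
    funext ε
    have := congrFun (congrFun hw (emb ε).1) (emb ε).2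
    simpa [hu] using this
  · intro a
    funext t'
    have key := congrFun h0 (eN.symm (a, t'))
    simp only [Matrix.mulVec, dotProduct, V0', Equiv.apply_symm_apply, Pi.zero_apply] at key
    have h2 := sum_u (fun y => C a y.1 (x ⟨P, hP⟩) t' y.2)
    rw [key, Fintype.sum_prod_type] at h2
    simp only [Finset.sum_apply, Matrix.mulVec, dotProduct, Pi.zero_apply]
    exact h2
  · intro r
    funext ⟨f1, f2, d⟩
    rw [phat_mulVec]
    -- the constraint at `(r, (f1, f2))`
    set mm : Fin L := eL.symm (r, (f1, f2)) with hmm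
    have hmm1 : (eL mm).1 = r := by simp [hmm]
    have hmm2 : (eL mm).2.1 = f1 := by simp [hmm]
    have hmm3 : (eL mm).2.2 = f2 := by simp [hmm]
    have hy := h1 mm
    set y : D → ℂ := fun d' => (B' r (x ⟨P, hP⟩) *ᵥ fun t => u (j r, t)) (f1, f2, d') with hydef
    -- `Iotaᴴ y = V v`
    have h3 : (IotaM e)ᴴ *ᵥ y = V' mm ⟨P, hP⟩ *ᵥ v := by
      funext a
      have h4 := sum_u (fun z => if z.1 = j r then
        B' r (x ⟨P, hP⟩) (f1, f2, e a) z.2 else 0)
      have h5 : ((IotaM e)ᴴ *ᵥ y) a = y (e a) := by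
        simp only [Matrix.mulVec, dotProduct, Matrix.conjTranspose_apply, IotaM]
        rw [Finset.sum_eq_single (e a)]
        · simp
        · intro b _ hb; simp [hb]
        · simp
      rw [h5]
      simp only [Matrix.mulVec, dotProduct, V', hmm1, hmm2, hmm3, hydef]
      rw [← h4]
      have h7 : ∑ z : Fin n × TT D, (if z.1 = j r then
            B' r (x ⟨P, hP⟩) (f1, f2, e a) z.2 else 0) * u z
          = ∑ t, B' r (x ⟨P, hP⟩) (f1, f2, e a) t * u (j r, t) := by
        rw [Fintype.sum_prod_type, Finset.sum_eq_single (j r)]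
        · simp
        · intro b _ hb; simp [hb]
        · simp
      rw [h7]
    have h6 : extM e P *ᵥ y = 0 := by
      rw [extM, ← Matrix.mulVec_mulVec, ← Matrix.mulVec_mulVec, h3, hy, Matrix.mulVec_zero]
    exact congrFun h6 d

end Crest.Agent.Lib.QTSec
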