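import Crest.Prelude.Def_Quasitrace

/-! Step 0 of S0188: an abstract algebraic computation of the additivity defect of a normalized
1-quasitrace from a "relation" `e + z₁ + z₂ = w₁ + w₂`. -/

set_option autoImplicit false

namespace Crest.Agent.Lib.QTStep0

open Crest.OpAlg

variable {C : Type*} [Ring C] [StarRing C] [Algebra ℂ C] [StarModule ℂ C]

section basic
variable {τ : C → ℂ} (hτ : IsOneQuasitrace τ)
include hτ

theorem symm (x : C) : τ (star x * x) = τ (x * star x) := (hτ.1 x).1

/-- additivity on commuting self-adjoint elements -/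
theorem add_of_comm {x y : C} (hx : IsSelfAdjoint x) (hy : IsSelfAdjoint y) (hxy : x * y = y * x) :
    τ (x + y) = τ x + τ y := by
  have hcomm : ∀ a ∈ ({x, y} : Set C), ∀ b ∈ ({x, y} : Set C), a * b = b * a := by
    intro a ha b hb
    rcases ha with rfl | ha <;> rcases hb with rfl | hb
    · rfl
    · rw [Set.mem_singleton_iff] at hb; subst hb; exact hxy
    · rw [Set.mem_singleton_iff] at ha; subst ha; exact hxy.symm
    · rw [Set.mem_singleton_iff] at ha hb; subst ha; subst hb; rfl
  have hcomm' : ∀ a ∈ ({x, y} : Set C), ∀ b ∈ ({x, y} : Set C), a * star b = star b * a := by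
    intro a ha b hb
    have hb' : star b = b := by
      rcases hb with rfl | hb
      · exact hx
      · rw [Set.mem_singleton_iff] at hb; subst hb; exact hy
    rw [hb']; exact hcomm a ha b hb
  have hmc := StarAlgebra.isMulCommutative_adjoin ℂ hcomm hcomm'
  have hS : ∀ a ∈ StarAlgebra.adjoin ℂ ({x, y} : Set C), ∀ b ∈ StarAlgebra.adjoin ℂ ({x, y} : Set C),
      a * b = b * a := by
    intro a ha b hb
    have := hmc.is_comm.comm (⟨a, ha⟩ : StarAlgebra.adjoin ℂ ({x, y} : Set C)) ⟨b, hb⟩
    simpa using congrArg Subtype.val this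
  exact (hτ.2.2 _ hS).1 x (StarAlgebra.subset_adjoin ℂ _ (by simp)) y (StarAlgebra.subset_adjoin ℂ _ (by simp))

/-- homogeneity on self-adjoint elements -/
theorem smul_of_sa {x : C} (hx : IsSelfAdjoint x) (c : ℂ) : τ (c • x) = c * τ x := by
  have hcomm : ∀ a ∈ ({x} : Set C), ∀ b ∈ ({x} : Set C), a * b = b * a := by
    intro a ha b hb
    rw [Set.mem_singleton_iff] at ha hb; subst ha; subst hb; rfl
  have hcomm' : ∀ a ∈ ({x} : Set C), ∀ b ∈ ({x} : Set C), a * star b = star b * a := by
    intro a ha b hb
    rw [Set.mem_singleton_iff] at ha hb; subst ha; subst hb; rw [hx]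
  have hmc := StarAlgebra.isMulCommutative_adjoin ℂ hcomm hcomm'
  have hS : ∀ a ∈ StarAlgebra.adjoin ℂ ({x} : Set C), ∀ b ∈ StarAlgebra.adjoin ℂ ({x} : Set C),
      a * b = b * a := by
    intro a ha b hb
    have := hmc.is_comm.comm (⟨a, ha⟩ : StarAlgebra.adjoin ℂ ({x} : Set C)) ⟨b, hb⟩
    simpa using congrArg Subtype.val this
  exact (hτ.2.2 _ hS).2 c x (StarAlgebra.subset_adjoin ℂ _ (by simp))

end basic

/-- The data of the relation. `v` is the matrix unit `e₁₂`, `e = v v*` the corner `e₁₁`. -/
structure Data (v u₁ u₂ r₁ r₂ s₁ s₂ t : C) (R : ℝ) : Prop where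
  hR : 0 < R
  hv : v * star v + star v * v = 1
  hvv : v * v = 0
  hu₁ : star u₁ * u₁ = 1
  hu₂ : star u₂ * u₂ = 1
  hu₁' : u₁ * star u₁ = 1
  hu₂' : u₂ * star u₂ = 1
  hcu₁ : (v * star v) * u₁ = u₁ * (v * star v)
  hcu₂ : (v * star v) * u₂ = u₂ * (v * star v)
  er₁ : (v * star v) * r₁ = r₁
  er₂ : (v * star v) * r₂ = r₂
  es₁ : (v * star v) * s₁ = s₁
  es₂ : (v * star v) * s₂ = s₂
  et : (v * star v) * t = t
  re₁ : r₁ * (v * star v) = r₁
  re₂ : r₂ * (v * star v) = r₂
  se₁ : s₁ * (v * star v) = s₁
  se₂ : s₂ * (v * star v) = s₂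
  te : t * (v * star v) = t
  ss₁ : star s₁ * s₁ = (R : ℂ) • (v * star v) - star r₁ * r₁
  ss₂ : star s₂ * s₂ = (R : ℂ) • (v * star v) - star r₂ * r₂
  tt : star t * t = ((2 * R : ℝ) : ℂ) • (v * star v) - star r₁ * r₁ - star r₂ * r₂
  rel : v * star v + star r₁ * r₁ + star r₂ * r₂ =
    u₁ * (star r₁ * r₁) * star u₁ + u₂ * (star r₂ * r₂) * star u₂

/-- the element `a` (resp. `b`) of Step 0 : `(w + e₂₁ (R e₁₁ - z) e₁₂)/R`. -/
noncomputable def elt (v u r s : C) (R : ℝ) : C :=
  ((R : ℂ)⁻¹) • (u * (star r * r) * star u + star v * (star s * s) * v)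

section
variable {v u₁ u₂ r₁ r₂ s₁ s₂ t : C} {R : ℝ} (D : Data v u₁ u₂ r₁ r₂ s₁ s₂ t R)
include D

theorem hvv' : star v * star v = 0 := by
  have := congrArg star D.hvv
  simpa using this

theorem e_mul_v : (v * star v) * v = v := by
  have h : v * star v * v = v * (star v * v) := by noncomm_ring
  have h2 : star v * v = 1 - v * star v := by
    rw [← D.hv]; abel
  rw [h, h2, mul_sub, mul_one, ← mul_assoc, D.hvv, zero_mul, sub_zero]

theorem v_mul_e : v * (v * star v) = 0 := by
  rw [← mul_assoc, D.hvv, zero_mul]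

theorem sv_mul_e : star v * (v * star v) = star v := by
  have h := congrArg star (e_mul_v D)
  simpa [mul_assoc] using h

theorem e_mul_sv : (v * star v) * star v = 0 := by
  rw [mul_assoc, hvv' D, mul_zero]

theorem e_idem : (v * star v) * (v * star v) = v * star v := by
  rw [← mul_assoc, e_mul_v D]

theorem e_sa : IsSelfAdjoint (v * star v) := by
  simp [IsSelfAdjoint, star_mul]

end

section main
variable {v u₁ u₂ r₁ r₂ s₁ s₂ t : C} {R : ℝ} (D : Data v u₁ u₂ r₁ r₂ s₁ s₂ t R)
variable {τ : C → ℂ} (hτ : IsOneQuasitrace τ) (h1 : τ 1 = 1)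
include D hτ

/-- `τ(e) = 1/2`. -/
theorem tau_e (h1 : τ 1 = 1) : τ (v * star v) = 1 / 2 := by
  have h2 : τ (star v * v) = τ (v * star v) := symm hτ v
  have h3 : τ (v * star v + star v * v) = τ (v * star v) + τ (star v * v) := by
    apply add_of_comm hτ (e_sa D) (by simp [IsSelfAdjoint, star_mul])
    have : (star v * v) = 1 - v * star v := by rw [← D.hv]; abel
    rw [this]; noncomm_ring
  rw [D.hv, h1, h2] at h3
  have : τ (v * star v) * 2 = 1 := by rw [h3]; ring
  rw [eq_div_iff two_ne_zero]; exact this

/-- `τ(e₂₁ (x* x) e₁₂) = τ (x* x)` for `x` in the corner. -/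
theorem tau_flip {x : C} (hxe : x * (v * star v) = x) :
    τ (star v * (star x * x) * v) = τ (star x * x) := by
  have h1 := symm hτ (x * v)
  have h2 : star (x * v) * (x * v) = star v * (star x * x) * v := by
    simp only [star_mul]; noncomm_ring
  have h3 : x * v * star (x * v) = x * star x := by
    simp only [star_mul]
    calc x * v * (star v * star x) = (x * (v * star v)) * star x := by noncomm_ring
      _ = x * star x := by rw [hxe]
  rw [h2, h3] at h1
  rw [h1, symm hτ x]

/-- `τ(u (x* x) u*) = τ (x* x)` for `u` a unitary. -/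
theorem tau_conj {x u : C} (hu : star u * u = 1) :
    τ (u * (star x * x) * star u) = τ (star x * x) := by
  have h1 := symm hτ (x * star u)
  have h2 : star (x * star u) * (x * star u) = u * (star x * x) * star u := by
    simp only [star_mul, star_star]; noncomm_ring
  have h3 : x * star u * star (x * star u) = x * star x := by
    simp only [star_mul, star_star]
    calc x * star u * (u * star x) = x * (star u * u) * star x := by noncomm_ring
      _ = x * star x := by rw [hu, mul_one]
  rw [h2, h3] at h1
  rw [h1, symm hτ x]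

/-- corner facts for `z = r* r`. -/
theorem e_z {r : C} (hre : r * (v * star v) = r) : (v * star v) * (star r * r) = star r * r := by
  have h : (v * star v) * star r = star r := by
    have := congrArg star hre
    simpa [star_mul, mul_assoc] using this
  rw [← mul_assoc, h]

theorem z_e {r : C} (hre : r * (v * star v) = r) : (star r * r) * (v * star v) = star r * r := by
  rw [mul_assoc, hre]

omit hτ in
/-- `a`-type elements split into two orthogonal pieces -/
theorem comm_w_y {u x y : C} (hcu : (v * star v) * u = u * (v * star v))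
    (hu : star u * u = 1) (hu' : u * star u = 1)
    (hxe : (v * star v) * x = x) (hex : x * (v * star v) = x) :
    (u * x * star u) * (star v * y * v) = 0 := by
  have h1 : (u * x * star u) * (v * star v) = u * x * star u := by
    have hcu' : star u * (v * star v) = (v * star v) * star u := by
      have := congrArg star hcu
      simpa [star_mul] using this
    calc (u * x * star u) * (v * star v) = u * x * (star u * (v * star v)) := by noncomm_ring
      _ = u * (x * (v * star v)) * star u := by rw [hcu']; noncomm_ring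
      _ = u * x * star u := by rw [hex]
  calc (u * x * star u) * (star v * y * v)
      = ((u * x * star u) * (v * star v)) * (star v * y * v) := by rw [h1]
    _ = (u * x * star u) * (((v * star v) * star v) * y * v) := by noncomm_ring
    _ = 0 := by rw [e_mul_sv D]; simp

omit hτ in
theorem comm_y_w {u x y : C} (hcu : (v * star v) * u = u * (v * star v))
    (hu : star u * u = 1) (hu' : u * star u = 1)
    (hxe : (v * star v) * x = x) (hex : x * (v * star v) = x) :
    (star v * y * v) * (u * x * star u) = 0 := by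
  have h1 : (v * star v) * (u * x * star u) = u * x * star u := by
    calc (v * star v) * (u * x * star u) = ((v * star v) * u) * x * star u := by noncomm_ring
      _ = u * ((v * star v) * x) * star u := by rw [hcu]; noncomm_ring
      _ = u * x * star u := by rw [hxe]
  calc (star v * y * v) * (u * x * star u)
      = (star v * y * v) * ((v * star v) * (u * x * star u)) := by rw [h1]
    _ = star v * y * (v * (v * star v)) * (u * x * star u) := by noncomm_ring
    _ = 0 := by rw [v_mul_e D]; simp

theorem sa_w {u r : C} : IsSelfAdjoint (u * (star r * r) * star u) := by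
  simp [IsSelfAdjoint, star_mul, mul_assoc]

theorem sa_y {s : C} : IsSelfAdjoint (star v * (star s * s) * v) := by
  simp [IsSelfAdjoint, star_mul, mul_assoc]

/-- `τ(R e) = R/2`. -/
theorem tau_Re (h1 : τ 1 = 1) (c : ℝ) : τ ((c : ℂ) • (v * star v)) = (c : ℂ) / 2 := by
  rw [smul_of_sa hτ (e_sa D), tau_e D hτ h1]; ring

/-- generic computation for one of `a`, `b`. -/
theorem tau_elt_aux (h1 : τ 1 = 1) {u r s : C} (hu : star u * u = 1) (hu' : u * star u = 1)
    (hcu : (v * star v) * u = u * (v * star v)) (hre : r * (v * star v) = r)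
    (hse : s * (v * star v) = s)
    (hss : star s * s = (R : ℂ) • (v * star v) - star r * r) :
    τ (elt v u r s R) = 1 / 2 := by
  have hR : (R : ℂ) ≠ 0 := by exact_mod_cast D.hR.ne'
  have hez := e_z D hτ hre
  have hze := z_e D hτ hre
  have hsumsa : IsSelfAdjoint (u * (star r * r) * star u + star v * (star s * s) * v) :=
    (sa_w D hτ).add (sa_y D hτ)
  have hadd : τ (u * (star r * r) * star u + star v * (star s * s) * v)
      = τ (u * (star r * r) * star u) + τ (star v * (star s * s) * v) := by
    apply add_of_comm hτ (sa_w D hτ) (sa_y D hτ)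
    rw [comm_w_y D hcu hu hu' hez hze, comm_y_w D hcu hu hu' hez hze]
  have hcomm : (star r * r) * (star s * s) = (star s * s) * (star r * r) := by
    rw [hss, mul_sub, sub_mul, mul_smul_comm, smul_mul_assoc, hze, hez]
  have hadd2 : τ (star r * r + star s * s) = τ (star r * r) + τ (star s * s) :=
    add_of_comm hτ (by simp [IsSelfAdjoint, star_mul]) (by simp [IsSelfAdjoint, star_mul]) hcomm
  have hsum : star r * r + star s * s = (R : ℂ) • (v * star v) := by rw [hss]; abel
  rw [hsum, tau_Re D hτ h1] at hadd2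
  unfold elt
  rw [smul_of_sa hτ hsumsa, hadd, tau_conj D hτ hu, tau_flip D hτ hse, ← hadd2]
  field_simp

/-- The main computation. -/
theorem tau_main (h1 : τ 1 = 1) :
    τ (elt v u₁ r₁ s₁ R) = 1 / 2 ∧ τ (elt v u₂ r₂ s₂ R) = 1 / 2 ∧
      τ (elt v u₁ r₁ s₁ R + elt v u₂ r₂ s₂ R) = (1 + 2 * (R : ℂ)) / (2 * (R : ℂ)) := by
  refine ⟨tau_elt_aux D hτ h1 D.hu₁ D.hu₁' D.hcu₁ D.re₁ D.se₁ D.ss₁,
    tau_elt_aux D hτ h1 D.hu₂ D.hu₂' D.hcu₂ D.re₂ D.se₂ D.ss₂, ?_⟩
  have hR : (R : ℂ) ≠ 0 := by exact_mod_cast D.hR.ne'
  set e := v * star v with he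
  set z₁ := star r₁ * r₁ with hz₁
  set z₂ := star r₂ * r₂ with hz₂
  have hez₁ : e * z₁ = z₁ := e_z D hτ D.re₁
  have hze₁ : z₁ * e = z₁ := z_e D hτ D.re₁
  have hez₂ : e * z₂ = z₂ := e_z D hτ D.re₂
  have hze₂ : z₂ * e = z₂ := z_e D hτ D.re₂
  -- the element
  have hsplit : elt v u₁ r₁ s₁ R + elt v u₂ r₂ s₂ R
      = ((R : ℂ)⁻¹) • ((e + z₁ + z₂) + star v * (star t * t) * v) := by
    unfold elt
    rw [← smul_add]
    congr 1
    have h2 : star t * t = star s₁ * s₁ + star s₂ * s₂ := by
      rw [D.tt, D.ss₁, D.ss₂]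
      have : ((2 * R : ℝ) : ℂ) • e = (R : ℂ) • e + (R : ℂ) • e := by
        rw [← add_smul]; congr 1; push_cast; ring
      rw [this]; abel
    rw [D.rel, h2]
    noncomm_ring
  have hh_sa : IsSelfAdjoint (e + z₁ + z₂) := by
    simp [IsSelfAdjoint, star_add, he, hz₁, hz₂, star_mul]
  have hy_sa : IsSelfAdjoint (star v * (star t * t) * v) := sa_y D hτ
  have hcw : (e + z₁ + z₂) * (star v * (star t * t) * v) = 0 := by
    have hee : e * star v = 0 := e_mul_sv D
    have h1 : (e + z₁ + z₂) * e = e + z₁ + z₂ := by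
      rw [add_mul, add_mul, hze₁, hze₂, he, e_idem D]
    calc (e + z₁ + z₂) * (star v * (star t * t) * v)
        = ((e + z₁ + z₂) * e) * (star v * (star t * t) * v) := by rw [h1]
      _ = (e + z₁ + z₂) * ((e * star v) * (star t * t) * v) := by noncomm_ring
      _ = 0 := by rw [hee]; simp
  have hcw' : (star v * (star t * t) * v) * (e + z₁ + z₂) = 0 := by
    have hvee : v * e = 0 := v_mul_e D
    have h1 : e * (e + z₁ + z₂) = e + z₁ + z₂ := by
      rw [mul_add, mul_add, hez₁, hez₂, he, e_idem D]
    calc (star v * (star t * t) * v) * (e + z₁ + z₂)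
        = (star v * (star t * t) * v) * (e * (e + z₁ + z₂)) := by rw [h1]
      _ = star v * (star t * t) * (v * e) * (e + z₁ + z₂) := by noncomm_ring
      _ = 0 := by rw [hvee]; simp
  have hadd : τ ((e + z₁ + z₂) + star v * (star t * t) * v)
      = τ (e + z₁ + z₂) + τ (star v * (star t * t) * v) := by
    apply add_of_comm hτ hh_sa hy_sa
    rw [hcw, hcw']
  have htt : star t * t = ((2 * R : ℝ) : ℂ) • e - z₁ - z₂ := D.tt
  have hcomm : (e + z₁ + z₂) * (star t * t) = (star t * t) * (e + z₁ + z₂) := by
    have hee : e * e = e := e_idem D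
    rw [htt]
    simp only [add_mul, mul_add, sub_mul, mul_sub, smul_mul_assoc, mul_smul_comm, hee, hez₁, hze₁,
      hez₂, hze₂, smul_add]
    abel
  have hadd2 : τ ((e + z₁ + z₂) + star t * t) = τ (e + z₁ + z₂) + τ (star t * t) :=
    add_of_comm hτ hh_sa (by simp [IsSelfAdjoint, star_mul]) hcomm
  have hsum : (e + z₁ + z₂) + star t * t = ((1 + 2 * R : ℝ) : ℂ) • e := by
    rw [htt, ]
    have : ((1 + 2 * R : ℝ) : ℂ) • e = e + ((2 * R : ℝ) : ℂ) • e := by
      rw [show ((1 + 2 * R : ℝ) : ℂ) = 1 + ((2 * R : ℝ) : ℂ) by push_cast; ring, add_smul, one_smul]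
    rw [this]; abel
  rw [hsum, tau_Re D hτ h1] at hadd2
  rw [hsplit, smul_of_sa hτ (hh_sa.add hy_sa), hadd, tau_flip D hτ D.te, ← hadd2]
  push_cast
  field_simp

/-- The defect. -/
theorem defect (h1 : τ 1 = 1) :
    τ (elt v u₁ r₁ s₁ R + elt v u₂ r₂ s₂ R) - τ (elt v u₁ r₁ s₁ R) - τ (elt v u₂ r₂ s₂ R)
      = ((1 / (2 * R) : ℝ) : ℂ) := by
  obtain ⟨h2, h3, h4⟩ := tau_main D hτ h1
  have hR : (R : ℂ) ≠ 0 := by exact_mod_cast D.hR.ne'
  rw [h2, h3, h4]
  push_cast
  field_simp
  ring

end main

section squares
variable {v u₁ u₂ r₁ r₂ s₁ s₂ t : C} {R : ℝ} (D : Data v u₁ u₂ r₁ r₂ s₁ s₂ t R)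
include D

/-- `x* x` form for the pair `(r,s)`. -/
theorem star_mul_self_aux {u r s : C} (her : (v * star v) * r = r) (hes : (v * star v) * s = s)
    (hse : s * (v * star v) = s) (hre : r * (v * star v) = r) :
    star (r * star u + star v * s * v) * (r * star u + star v * s * v)
      = u * (star r * r) * star u + star v * (star s * s) * v := by
  have hvr : v * r = 0 := by
    calc v * r = v * ((v * star v) * r) := by rw [her]
      _ = (v * (v * star v)) * r := by noncomm_ring
      _ = 0 := by rw [v_mul_e D]; simp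
  have hsrv : star r * star v = 0 := by
    have := congrArg star hvr
    simpa [star_mul] using this
  have hexp : star (r * star u + star v * s * v) * (r * star u + star v * s * v)
      = star (r * star u) * (r * star u) + star (r * star u) * (star v * s * v)
        + star (star v * s * v) * (r * star u) + star (star v * s * v) * (star v * s * v) := by
    simp only [star_add, mul_add, add_mul]; abel
  have t1 : star (r * star u) * (r * star u) = u * (star r * r) * star u := by
    simp only [star_mul, star_star]; noncomm_ring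
  have t2 : star (r * star u) * (star v * s * v) = 0 := by
    simp only [star_mul, star_star]
    calc u * star r * (star v * s * v) = u * (star r * star v) * s * v := by noncomm_ring
      _ = 0 := by rw [hsrv]; simp
  have t3 : star (star v * s * v) * (r * star u) = 0 := by
    simp only [star_mul, star_star]
    calc star v * (star s * v) * (r * star u) = star v * star s * (v * r) * star u := by noncomm_ring
      _ = 0 := by rw [hvr]; simp
  have t4 : star (star v * s * v) * (star v * s * v) = star v * (star s * s) * v := by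
    simp only [star_mul, star_star]
    calc star v * (star s * v) * (star v * s * v)
        = star v * star s * ((v * star v) * s) * v := by noncomm_ring
      _ = star v * (star s * s) * v := by rw [hes]; noncomm_ring
  rw [hexp, t1, t2, t3, t4]
  simp

/-- `a` is a star-square. -/
theorem elt_eq_star_mul_self {u r s : C} (her : (v * star v) * r = r) (hes : (v * star v) * s = s)
    (hse : s * (v * star v) = s) (hre : r * (v * star v) = r) :
    elt v u r s R = star (((Real.sqrt R⁻¹ : ℝ) : ℂ) • (r * star u + star v * s * v)) *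
      (((Real.sqrt R⁻¹ : ℝ) : ℂ) • (r * star u + star v * s * v)) := by
  have hR := D.hR
  rw [star_smul, smul_mul_smul_comm, star_mul_self_aux D her hes hse hre]
  unfold elt
  congr 1
  simp only [Complex.star_def, Complex.conj_ofReal]
  rw [← Complex.ofReal_mul, Real.mul_self_sqrt (by positivity)]
  simp

/-- `1 - a` is a star-square. -/
theorem one_sub_elt_eq_star_mul_self {u r s : C} (her : (v * star v) * r = r)
    (hes : (v * star v) * s = s) (hse : s * (v * star v) = s) (hre : r * (v * star v) = r)
    (hu' : u * star u = 1) (hcu : (v * star v) * u = u * (v * star v))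
    (hss : star s * s = (R : ℂ) • (v * star v) - star r * r) :
    1 - elt v u r s R = star (((Real.sqrt R⁻¹ : ℝ) : ℂ) • (s * star u + star v * r * v)) *
      (((Real.sqrt R⁻¹ : ℝ) : ℂ) • (s * star u + star v * r * v)) := by
  have hR := D.hR
  have hRc : (R : ℂ) ≠ 0 := by exact_mod_cast hR.ne'
  rw [star_smul, smul_mul_smul_comm, star_mul_self_aux D hes her hre hse]
  simp only [Complex.star_def, Complex.conj_ofReal]
  rw [← Complex.ofReal_mul, Real.mul_self_sqrt (by positivity)]
  unfold elt
  have hf : star v * (v * star v) * v = star v * v := by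
    rw [sv_mul_e D]
  have hw : u * ((v * star v)) * star u = v * star v := by
    rw [← hcu, mul_assoc, hu', mul_one]
  have key : (R : ℂ) • (1 : C) - (u * (star r * r) * star u + star v * (star s * s) * v)
      = u * (star s * s) * star u + star v * (star r * r) * v := by
    rw [hss]
    simp only [mul_sub, sub_mul, mul_smul_comm, smul_mul_assoc, hf, hw]
    have h1 : (R : ℂ) • (1 : C) = (R : ℂ) • (v * star v) + (R : ℂ) • (star v * v) := by
      rw [← smul_add, D.hv]
    rw [h1]; abel
  push_cast
  rw [← key, smul_sub, smul_smul, inv_mul_cancel₀ hRc, one_smul]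

end squares

end Crest.Agent.Lib.QTStep0

namespace Crest.Agent.Lib.QTStep0

section norm
variable {A : Type*} [CStarAlgebra A]

/-- norm bound for `a = x* x` with `1 - a = y* y`. -/
theorem norm_le_one_of_squares {a x y : A} (h1 : a = star x * x) (h2 : 1 - a = star y * y) :
    ‖a‖ ≤ 1 := by
  letI := CStarAlgebra.spectralOrder A
  haveI := CStarAlgebra.spectralOrderedRing A
  have ha : 0 ≤ a := by rw [h1]; exact star_mul_self_nonneg x
  have hb : a ≤ 1 := by
    have : 0 ≤ 1 - a := by rw [h2]; exact star_mul_self_nonneg y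
    exact sub_nonneg.mp this
  exact (CStarAlgebra.norm_le_one_iff_of_nonneg a ha).mpr hb

end norm

end Crest.Agent.Lib.QTStep0
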