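import Crest.Agent.Lib.QTRC
import Crest.Agent.Lib.QTSec
import Crest.Agent.Lib.QTStep0

set_option autoImplicit false
set_option linter.unusedVariables false
set_option linter.unusedSectionVars false

namespace Crest.Agent.Lib.QTAssemble

open Crest.Agent.Lib.CStarQuot Crest.Agent.Lib.QTRC Crest.Agent.Lib.QTSec
open scoped ENNReal Matrix Matrix.Norms.L2Operator Kronecker MatrixOrder ComplexOrder

section LpAlg

variable {F : ℕ → Type} [∀ l, CStarAlgebra (F l)] [∀ l, Nontrivial (F l)]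

noncomputable instance instCStarAlgebraLp : CStarAlgebra (lp F ∞) where
  toNormedRing := inferInstance
  toStarRing := inferInstance
  toCompleteSpace := inferInstance
  toCStarRing := inferInstance
  toNormedAlgebra := inferInstance
  toStarModule := inferInstance

/-- Coordinate map. -/
noncomputable def coordHom (l : ℕ) : lp F ∞ →⋆ₐ[ℂ] F l where
  toFun f := f l
  map_one' := lp.infty_coeFn_one (B := F) ▸ rfl
  map_mul' f g := by rw [lp.infty_coeFn_mul]; rfl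
  map_zero' := rfl
  map_add' f g := rfl
  commutes' c := by
    rw [Algebra.algebraMap_eq_smul_one, Algebra.algebraMap_eq_smul_one]
    rw [lp.coeFn_smul, lp.infty_coeFn_one]; rfl
  map_star' f := rfl

@[simp] lemma coordHom_apply (l : ℕ) (f : lp F ∞) : coordHom l f = f l := rfl

/-- An element from a bounded family. -/
noncomputable def ofBdd (f : ∀ l, F l) (C : ℝ) (hC : ∀ l, ‖f l‖ ≤ C) : lp F ∞ :=
  ⟨f, memℓp_infty ⟨C, by rintro _ ⟨l, rfl⟩; exact hC l⟩⟩

@[simp] lemma ofBdd_apply (f : ∀ l, F l) (C : ℝ) (hC : ∀ l, ‖f l‖ ≤ C) (l : ℕ) :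
    ofBdd f C hC l = f l := rfl

end LpAlg
/-- Compactness of the Grassmannian. -/
lemma isCompact_Gr (D : Type) [Fintype D] [DecidableEq D] (R : ℕ) : IsCompact (Gr D R) := by
  have hclosed : IsClosed (Gr D R) := by
    have h1 : IsClosed {P : Matrix D D ℂ | Pᴴ = P} := isClosed_eq (by fun_prop) continuous_id
    have h2 : IsClosed {P : Matrix D D ℂ | P * P = P} :=
      isClosed_eq (continuous_id.matrix_mul continuous_id) continuous_id
    have h3 : IsClosed {P : Matrix D D ℂ | P.trace = (R : ℂ)} :=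
      isClosed_eq (continuous_id.matrix_trace) continuous_const
    exact h1.inter (h2.inter h3)
  have hbdd : Bornology.IsBounded (Gr D R) := by
    refine (Metric.isBounded_closedBall (x := (0 : Matrix D D ℂ)) (r := 1)).subset ?_
    rintro P ⟨h1, h2, h3⟩
    rw [mem_closedBall_zero_iff]
    have h4 : ‖P‖ * ‖P‖ = ‖P‖ := by
      have := CStarRing.norm_star_mul_self (x := P)
      rw [Matrix.star_eq_conjTranspose, h1, h2] at this
      exact this.symm
    by_contra h5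
    push Not at h5
    nlinarith
  exact Metric.isCompact_of_isClosed_isBounded hclosed hbdd


section Amp

variable {J : Type} [Fintype J] [DecidableEq J]

/-- The block embedding `E_ab ⊗ M`. -/
def amp (a b : Fin 2) (M : Matrix J J ℂ) : Matrix (Fin 2 × J) (Fin 2 × J) ℂ :=
  (Matrix.single a b (1 : ℂ)) ⊗ₖ M

lemma amp_mul (a b c d : Fin 2) (M N : Matrix J J ℂ) :
    amp a b M * amp c d N = if b = c then amp a d (M * N) else 0 := by
  unfold amp
  rw [← Matrix.mul_kronecker_mul]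
  by_cases h : b = c
  · subst h; simp [Matrix.single_mul_single_same]
  · simp [h, Matrix.single_mul_single_of_ne]

lemma amp_conj (a b : Fin 2) (M : Matrix J J ℂ) : (amp a b M)ᴴ = amp b a Mᴴ := by
  unfold amp
  rw [Matrix.conjTranspose_kronecker, Matrix.conjTranspose_single]
  simp

lemma amp_add (a b : Fin 2) (M N : Matrix J J ℂ) : amp a b (M + N) = amp a b M + amp a b N := by
  unfold amp; rw [Matrix.kronecker_add]

lemma amp_sub (a b : Fin 2) (M N : Matrix J J ℂ) : amp a b (M - N) = amp a b M - amp a b N := by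
  ext ⟨i, j⟩ ⟨k, l⟩; simp [amp, mul_sub]

lemma amp_smul (a b : Fin 2) (c : ℂ) (M : Matrix J J ℂ) : amp a b (c • M) = c • amp a b M := by
  unfold amp; rw [Matrix.kronecker_smul]

lemma amp_zero (a b : Fin 2) : amp a b (0 : Matrix J J ℂ) = 0 := by
  unfold amp; simp

lemma amp_one_add : amp (J := J) 0 0 1 + amp 1 1 1 = 1 := by
  unfold amp
  rw [← Matrix.add_kronecker]
  have : Matrix.single (0 : Fin 2) 0 (1 : ℂ) + Matrix.single 1 1 1 = (1 : Matrix (Fin 2) (Fin 2) ℂ) := by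
    ext i j; fin_cases i <;> fin_cases j <;> simp
  rw [this]
  simp

/-- The diagonal amplification `1₂ ⊗ M`. -/
def dia (M : Matrix J J ℂ) : Matrix (Fin 2 × J) (Fin 2 × J) ℂ := amp 0 0 M + amp 1 1 M

/-- The corner embedding as a non-unital star homomorphism (hence norm-decreasing). -/
noncomputable def ampHom : Matrix J J ℂ →⋆ₙₐ[ℂ] Matrix (Fin 2 × J) (Fin 2 × J) ℂ where
  toFun := amp 0 0
  map_smul' c M := amp_smul 0 0 c M
  map_zero' := amp_zero 0 0
  map_add' M N := amp_add 0 0 M N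
  map_mul' M N := by rw [amp_mul]; simp
  map_star' M := by
    rw [Matrix.star_eq_conjTranspose, Matrix.star_eq_conjTranspose, amp_conj]

lemma norm_amp_le (M : Matrix J J ℂ) : ‖amp 0 0 M‖ ≤ ‖M‖ :=
  NonUnitalStarAlgHom.norm_apply_le ampHom M

/-- Generic: a partial isometry has norm `≤ 1`. -/
lemma norm_le_one_of_idem {A : Type*} [NormedRing A] [StarRing A] [CStarRing A] {x : A}
    (h : (star x * x) * (star x * x) = star x * x) : ‖x‖ ≤ 1 := by
  have h1 : ‖star x * x‖ = ‖x‖ * ‖x‖ := CStarRing.norm_star_mul_self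
  have h2 : ‖star x * x‖ * ‖star x * x‖ = ‖star x * x‖ := by
    have := CStarRing.norm_star_mul_self (x := star x * x)
    rw [star_mul, star_star, h] at this
    exact this.symm
  by_contra h3
  push Not at h3
  have h4 : 1 < ‖x‖ * ‖x‖ := by nlinarith
  rw [h1] at h2
  nlinarith

end Amp

section Root

variable {X J : Type} [TopologicalSpace X] [CompactSpace X] [Fintype J] [DecidableEq J]
  [Nonempty J]

/-- Continuous square roots of continuous positive semidefinite matrix functions. -/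
theorem exists_root (z : C(X, Matrix J J ℂ)) (hz : ∀ x, (z x).PosSemidef) :
    ∃ r : C(X, Matrix J J ℂ), ∀ x, (r x)ᴴ * r x = z x := by
  have hc : Continuous fun x => cfc Real.sqrt (z x) := by
    refine Continuous.cfc' (s := Set.Icc (-‖z‖) ‖z‖) isCompact_Icc Real.sqrt z.continuous ?_
      Real.continuous_sqrt.continuousOn ?_
    · intro x t ht
      have h1 := spectrum.norm_le_norm_of_mem ht
      have h2 : ‖t‖ ≤ ‖z‖ := h1.trans (ContinuousMap.norm_coe_le_norm z x)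
      exact Set.mem_Icc.2 (abs_le.1 (by simpa using h2))
    · intro x
      exact (hz x).isHermitian
  refine ⟨⟨_, hc⟩, fun x => ?_⟩
  show (cfc Real.sqrt (z x))ᴴ * cfc Real.sqrt (z x) = z x
  have h1 : IsSelfAdjoint (cfc Real.sqrt (z x)) := cfc_predicate _ _
  have h2 : (cfc Real.sqrt (z x))ᴴ = cfc Real.sqrt (z x) := h1
  rw [h2]
  have h3 : cfc Real.sqrt (z x) * cfc Real.sqrt (z x) = z x := by
    rw [← cfc_mul _ _ _ (by fun_prop) (by fun_prop)]
    have hn : 0 ≤ z x := (hz x).nonneg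
    have h4 : cfc (fun t => Real.sqrt t * Real.sqrt t) (z x) = cfc (fun t : ℝ => t) (z x) := by
      refine cfc_congr fun t ht => ?_
      have : 0 ≤ t := spectrum_nonneg_of_nonneg hn ht
      exact Real.mul_self_sqrt this
    rw [h4, cfc_id' ℝ (z x)]
  exact h3

end Root


section PreData

open Crest.Agent.Lib.QTStep0

variable {C : Type*} [Ring C] [StarRing C] [Algebra ℂ C] [StarModule ℂ C]

/-- All the fields of `QTStep0.Data` except the relation. -/
structure PreData (v u₁ u₂ r₁ r₂ s₁ s₂ t : C) (R : ℝ) : Prop where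
  hR : 0 < R
  hv : v * star v + star v * v = 1
  hvv : v * v = 0
  hu₁ : star u₁ * u₁ = 1
  hu₂ : star u₂ * u₂ = 1
  hu₁' : u₁ * star u₁ = 1
  hu₂' : u₂ * star u₂ = 1
  hcu₁ : (v * star v) * u₁ = u₁ * (v * star v)
  hcu₂ : (v * star v) * u₂ = u₂ * (v * star v)
  er₁ : (v * star v) * r₁ = r₁
  er₂ : (v * star v) * r₂ = r₂
  es₁ : (v * star v) * s₁ = s₁
  es₂ : (v * star v) * s₂ = s₂
  et : (v * star v) * t = t
  re₁ : r₁ * (v * star v) = r₁
  re₂ : r₂ * (v * star v) = r₂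
  se₁ : s₁ * (v * star v) = s₁
  se₂ : s₂ * (v * star v) = s₂
  te : t * (v * star v) = t
  ss₁ : star s₁ * s₁ = (R : ℂ) • (v * star v) - star r₁ * r₁
  ss₂ : star s₂ * s₂ = (R : ℂ) • (v * star v) - star r₂ * r₂
  tt : star t * t = ((2 * R : ℝ) : ℂ) • (v * star v) - star r₁ * r₁ - star r₂ * r₂

lemma PreData.toData {v u₁ u₂ r₁ r₂ s₁ s₂ t : C} {R : ℝ} (h : PreData v u₁ u₂ r₁ r₂ s₁ s₂ t R)
    (rel : v * star v + star r₁ * r₁ + star r₂ * r₂ =
      u₁ * (star r₁ * r₁) * star u₁ + u₂ * (star r₂ * r₂) * star u₂) :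
    Data v u₁ u₂ r₁ r₂ s₁ s₂ t R :=
  ⟨h.hR, h.hv, h.hvv, h.hu₁, h.hu₂, h.hu₁', h.hu₂', h.hcu₁, h.hcu₂, h.er₁, h.er₂, h.es₁, h.es₂,
    h.et, h.re₁, h.re₂, h.se₁, h.se₂, h.te, h.ss₁, h.ss₂, h.tt, rel⟩

variable {C' : Type*} [Ring C'] [StarRing C'] [Algebra ℂ C'] [StarModule ℂ C']

/-- Push forward along a star algebra homomorphism. -/
lemma PreData.map (φ : C →⋆ₐ[ℂ] C') {v u₁ u₂ r₁ r₂ s₁ s₂ t : C} {R : ℝ}
    (h : PreData v u₁ u₂ r₁ r₂ s₁ s₂ t R) :
    PreData (φ v) (φ u₁) (φ u₂) (φ r₁) (φ r₂) (φ s₁) (φ s₂) (φ t) R := by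
  have key : ∀ {a b : C}, a = b → φ a = φ b := fun h => by rw [h]
  refine ⟨h.hR, ?_, ?_, ?_, ?_, ?_, ?_, ?_, ?_, ?_, ?_, ?_, ?_, ?_, ?_, ?_, ?_, ?_, ?_, ?_, ?_, ?_⟩
  · simpa only [map_add, map_sub, map_mul, map_star, map_smul, map_one, map_zero] using key h.hv
  · simpa only [map_add, map_sub, map_mul, map_star, map_smul, map_one, map_zero] using key h.hvv
  · simpa only [map_add, map_sub, map_mul, map_star, map_smul, map_one, map_zero] using key h.hu₁
  · simpa only [map_add, map_sub, map_mul, map_star, map_smul, map_one, map_zero] using key h.hu₂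
  · simpa only [map_add, map_sub, map_mul, map_star, map_smul, map_one, map_zero] using key h.hu₁'
  · simpa only [map_add, map_sub, map_mul, map_star, map_smul, map_one, map_zero] using key h.hu₂'
  · simpa only [map_add, map_sub, map_mul, map_star, map_smul, map_one, map_zero] using key h.hcu₁
  · simpa only [map_add, map_sub, map_mul, map_star, map_smul, map_one, map_zero] using key h.hcu₂
  · simpa only [map_add, map_sub, map_mul, map_star, map_smul, map_one, map_zero] using key h.er₁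
  · simpa only [map_add, map_sub, map_mul, map_star, map_smul, map_one, map_zero] using key h.er₂
  · simpa only [map_add, map_sub, map_mul, map_star, map_smul, map_one, map_zero] using key h.es₁
  · simpa only [map_add, map_sub, map_mul, map_star, map_smul, map_one, map_zero] using key h.es₂
  · simpa only [map_add, map_sub, map_mul, map_star, map_smul, map_one, map_zero] using key h.et
  · simpa only [map_add, map_sub, map_mul, map_star, map_smul, map_one, map_zero] using key h.re₁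
  · simpa only [map_add, map_sub, map_mul, map_star, map_smul, map_one, map_zero] using key h.re₂
  · simpa only [map_add, map_sub, map_mul, map_star, map_smul, map_one, map_zero] using key h.se₁
  · simpa only [map_add, map_sub, map_mul, map_star, map_smul, map_one, map_zero] using key h.se₂
  · simpa only [map_add, map_sub, map_mul, map_star, map_smul, map_one, map_zero] using key h.te
  · simpa only [map_add, map_sub, map_mul, map_star, map_smul, map_one, map_zero] using key h.ss₁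
  · simpa only [map_add, map_sub, map_mul, map_star, map_smul, map_one, map_zero] using key h.ss₂
  · simpa only [map_add, map_sub, map_mul, map_star, map_smul, map_one, map_zero] using key h.tt

/-- Reflect along a jointly injective family of star algebra homomorphisms. -/
lemma PreData.reflect {ι : Type*} {E : ι → Type*} [∀ i, Ring (E i)] [∀ i, StarRing (E i)]
    [∀ i, Algebra ℂ (E i)] [∀ i, StarModule ℂ (E i)]
    (φ : ∀ i, C →⋆ₐ[ℂ] E i) (hφ : ∀ a b : C, (∀ i, φ i a = φ i b) → a = b)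
    {v u₁ u₂ r₁ r₂ s₁ s₂ t : C} {R : ℝ} (hR : 0 < R)
    (h : ∀ i, PreData (φ i v) (φ i u₁) (φ i u₂) (φ i r₁) (φ i r₂) (φ i s₁) (φ i s₂) (φ i t) R) :
    PreData v u₁ u₂ r₁ r₂ s₁ s₂ t R := by
  refine ⟨hR, ?_, ?_, ?_, ?_, ?_, ?_, ?_, ?_, ?_, ?_, ?_, ?_, ?_, ?_, ?_, ?_, ?_, ?_, ?_, ?_, ?_⟩ <;>
    refine hφ _ _ fun i => ?_
  · simpa only [map_add, map_sub, map_mul, map_star, map_smul, map_one, map_zero] using (h i).hv
  · simpa only [map_add, map_sub, map_mul, map_star, map_smul, map_one, map_zero] using (h i).hvv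
  · simpa only [map_add, map_sub, map_mul, map_star, map_smul, map_one, map_zero] using (h i).hu₁
  · simpa only [map_add, map_sub, map_mul, map_star, map_smul, map_one, map_zero] using (h i).hu₂
  · simpa only [map_add, map_sub, map_mul, map_star, map_smul, map_one, map_zero] using (h i).hu₁'
  · simpa only [map_add, map_sub, map_mul, map_star, map_smul, map_one, map_zero] using (h i).hu₂'
  · simpa only [map_add, map_sub, map_mul, map_star, map_smul, map_one, map_zero] using (h i).hcu₁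
  · simpa only [map_add, map_sub, map_mul, map_star, map_smul, map_one, map_zero] using (h i).hcu₂
  · simpa only [map_add, map_sub, map_mul, map_star, map_smul, map_one, map_zero] using (h i).er₁
  · simpa only [map_add, map_sub, map_mul, map_star, map_smul, map_one, map_zero] using (h i).er₂
  · simpa only [map_add, map_sub, map_mul, map_star, map_smul, map_one, map_zero] using (h i).es₁
  · simpa only [map_add, map_sub, map_mul, map_star, map_smul, map_one, map_zero] using (h i).es₂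
  · simpa only [map_add, map_sub, map_mul, map_star, map_smul, map_one, map_zero] using (h i).et
  · simpa only [map_add, map_sub, map_mul, map_star, map_smul, map_one, map_zero] using (h i).re₁
  · simpa only [map_add, map_sub, map_mul, map_star, map_smul, map_one, map_zero] using (h i).re₂
  · simpa only [map_add, map_sub, map_mul, map_star, map_smul, map_one, map_zero] using (h i).se₁
  · simpa only [map_add, map_sub, map_mul, map_star, map_smul, map_one, map_zero] using (h i).se₂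
  · simpa only [map_add, map_sub, map_mul, map_star, map_smul, map_one, map_zero] using (h i).te
  · simpa only [map_add, map_sub, map_mul, map_star, map_smul, map_one, map_zero] using (h i).ss₁
  · simpa only [map_add, map_sub, map_mul, map_star, map_smul, map_one, map_zero] using (h i).ss₂
  · simpa only [map_add, map_sub, map_mul, map_star, map_smul, map_one, map_zero] using (h i).tt

end PreData

section MatrixLevel

variable {J : Type} [Fintype J] [DecidableEq J]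

lemma amp_vstar : amp (J := J) 0 1 1 * star (amp 0 1 1) = amp 0 0 1 := by
  rw [Matrix.star_eq_conjTranspose, amp_conj, amp_mul]; simp

lemma amp_starv : star (amp (J := J) 0 1 1) * amp 0 1 1 = amp 1 1 1 := by
  rw [Matrix.star_eq_conjTranspose, amp_conj, amp_mul]; simp

lemma amp_e_mul (M : Matrix J J ℂ) : amp 0 0 1 * amp 0 0 M = amp 0 0 M := by
  rw [amp_mul]; simp

lemma amp_mul_e (M : Matrix J J ℂ) : amp 0 0 M * amp 0 0 1 = amp 0 0 M := by
  rw [amp_mul]; simp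

lemma dia_mul_dia (M N : Matrix J J ℂ) : dia M * dia N = dia (M * N) := by
  simp [dia, mul_add, add_mul, amp_mul]

lemma dia_star (M : Matrix J J ℂ) : star (dia M) = dia Mᴴ := by
  simp [dia, Matrix.star_eq_conjTranspose, amp_conj]

lemma dia_one : dia (1 : Matrix J J ℂ) = 1 := amp_one_add

lemma e_mul_dia (M : Matrix J J ℂ) : amp 0 0 1 * dia M = amp 0 0 M := by
  simp [dia, mul_add, amp_mul]

lemma dia_mul_e (M : Matrix J J ℂ) : dia M * amp 0 0 1 = amp 0 0 M := by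
  simp [dia, add_mul, amp_mul]

lemma dia_mul_amp (M N : Matrix J J ℂ) : dia M * amp 0 0 N = amp 0 0 (M * N) := by
  simp [dia, add_mul, amp_mul]

lemma amp_mul_dia (M N : Matrix J J ℂ) : amp 0 0 N * dia M = amp 0 0 (N * M) := by
  simp [dia, mul_add, amp_mul]

lemma amp_star_mul (M : Matrix J J ℂ) : star (amp 0 0 M) * amp 0 0 M = amp 0 0 (Mᴴ * M) := by
  rw [Matrix.star_eq_conjTranspose, amp_conj, amp_mul]; simp

/-- Matrix level verification of the identities. -/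
lemma preData_amp {R : ℝ} (hR : 0 < R) {U₁ U₂ ρ₁ ρ₂ σ₁ σ₂ θ z₁ z₂ : Matrix J J ℂ}
    (hU₁ : U₁ᴴ * U₁ = 1) (hU₂ : U₂ᴴ * U₂ = 1) (hU₁' : U₁ * U₁ᴴ = 1) (hU₂' : U₂ * U₂ᴴ = 1)
    (hρ₁ : ρ₁ᴴ * ρ₁ = z₁) (hρ₂ : ρ₂ᴴ * ρ₂ = z₂)
    (hσ₁ : σ₁ᴴ * σ₁ = (R : ℂ) • 1 - z₁) (hσ₂ : σ₂ᴴ * σ₂ = (R : ℂ) • 1 - z₂)
    (hθ : θᴴ * θ = ((2 * R : ℝ) : ℂ) • 1 - z₁ - z₂) :
    PreData (amp 0 1 1) (dia U₁) (dia U₂) (amp 0 0 ρ₁) (amp 0 0 ρ₂) (amp 0 0 σ₁) (amp 0 0 σ₂)
      (amp 0 0 θ) R := by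
  have hrr : ∀ (M : Matrix J J ℂ) (c : ℂ), star (amp 0 0 M) * amp 0 0 M = amp 0 0 (Mᴴ * M) :=
    fun M _ => amp_star_mul M
  refine ⟨hR, ?_, ?_, ?_, ?_, ?_, ?_, ?_, ?_, ?_, ?_, ?_, ?_, ?_, ?_, ?_, ?_, ?_, ?_, ?_, ?_, ?_⟩
  · rw [amp_vstar, amp_starv, amp_one_add]
  · rw [amp_mul]; simp
  · rw [dia_star, dia_mul_dia, hU₁, dia_one]
  · rw [dia_star, dia_mul_dia, hU₂, dia_one]
  · rw [dia_star, dia_mul_dia, hU₁', dia_one]
  · rw [dia_star, dia_mul_dia, hU₂', dia_one]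
  · rw [amp_vstar, e_mul_dia, dia_mul_e]
  · rw [amp_vstar, e_mul_dia, dia_mul_e]
  · rw [amp_vstar, amp_e_mul]
  · rw [amp_vstar, amp_e_mul]
  · rw [amp_vstar, amp_e_mul]
  · rw [amp_vstar, amp_e_mul]
  · rw [amp_vstar, amp_e_mul]
  · rw [amp_vstar, amp_mul_e]
  · rw [amp_vstar, amp_mul_e]
  · rw [amp_vstar, amp_mul_e]
  · rw [amp_vstar, amp_mul_e]
  · rw [amp_vstar, amp_mul_e]
  · rw [amp_vstar, amp_star_mul, amp_star_mul, hσ₁, hρ₁, amp_sub, amp_smul]
  · rw [amp_vstar, amp_star_mul, amp_star_mul, hσ₂, hρ₂, amp_sub, amp_smul]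
  · rw [amp_vstar, amp_star_mul, amp_star_mul, amp_star_mul, hθ, hρ₁, hρ₂, amp_sub, amp_sub, amp_smul]

/-- The relation, at the matrix level. -/
lemma rel_amp {U₁ U₂ ρ₁ ρ₂ z₁ z₂ c : Matrix J J ℂ}
    (hρ₁ : ρ₁ᴴ * ρ₁ = z₁) (hρ₂ : ρ₂ᴴ * ρ₂ = z₂)
    (hrel : U₁ * z₁ * U₁ᴴ - z₁ + (U₂ * z₂ * U₂ᴴ - z₂) = 1 - c) :
    amp 0 1 1 * star (amp 0 1 1) + star (amp 0 0 ρ₁) * amp 0 0 ρ₁ + star (amp 0 0 ρ₂) * amp 0 0 ρ₂
      - (dia U₁ * (star (amp 0 0 ρ₁) * amp 0 0 ρ₁) * star (dia U₁)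
        + dia U₂ * (star (amp 0 0 ρ₂) * amp 0 0 ρ₂) * star (dia U₂)) = amp 0 0 c := by
  rw [amp_vstar, amp_star_mul, amp_star_mul, hρ₁, hρ₂, dia_star, dia_star, dia_mul_amp, dia_mul_amp,
    amp_mul_dia, amp_mul_dia, ← amp_add, ← amp_add, ← amp_add, ← amp_sub]
  congr 1
  have : c = 1 - (U₁ * z₁ * U₁ᴴ - z₁ + (U₂ * z₂ * U₂ᴴ - z₂)) := by rw [hrel]; abel
  rw [this]; abel

/-- Conjugation by the amplified projection. -/
lemma dia_conj_amp (M c : Matrix J J ℂ) : dia M * amp 0 0 c * dia M = amp 0 0 (M * c * M) := by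
  rw [dia_mul_amp, amp_mul_dia]

end MatrixLevel


section Concrete

/-- `k_l = 16 (l+1)`. -/
def kk (l : ℕ) : ℕ := 16 * (l + 1)
/-- `s_l = l+1`. -/
def ss (l : ℕ) : ℕ := l + 1

instance instNeZeroKK (l : ℕ) : NeZero (kk l) := ⟨by simp [kk]⟩

/-- index set `ℤ/k_l`. -/
abbrev DD (l : ℕ) : Type := ZMod (kk l)

/-- rank `k_l - s_l`. -/
abbrev RR (l : ℕ) : ℕ := kk l - ss l

/-- The base space at level `l`. -/
abbrev XX (l : ℕ) : Type := Gr (DD l) (RR l)

instance instCompactXX (l : ℕ) : CompactSpace (XX l) :=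
  isCompact_iff_compactSpace.1 (isCompact_Gr _ _)

lemma one_mem_Gr (n : ℕ) : (1 : Matrix (Fin n) (Fin n) ℂ) ∈ Gr (Fin n) n := by
  refine ⟨by simp, by simp, by simp [Matrix.trace_one]⟩

instance instNonemptyXX (l : ℕ) : Nonempty (XX l) := by
  have hcard : Fintype.card (Fin (RR l)) ≤ Fintype.card (DD l) := by
    rw [ZMod.card]; simp
  obtain ⟨e⟩ := Function.Embedding.nonempty_of_card_le hcard
  exact ⟨⟨extM e 1, extM_mem e (one_mem_Gr _)⟩⟩

/-- The fibre algebra. -/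
abbrev FF (l : ℕ) : Type := C(XX l, Matrix (TT (DD l)) (TT (DD l)) ℂ)

/-- The big product. -/
abbrev BB : Type := lp FF ∞

noncomputable instance instCStarAlgebraBB : CStarAlgebra BB := instCStarAlgebraLp
instance instStarModuleBB : StarModule ℂ BB := CStarAlgebra.toStarModule

/-- Evaluation at a point of level `l`. -/
noncomputable def evalAt (l : ℕ) (x : XX l) : BB →⋆ₐ[ℂ] Matrix (TT (DD l)) (TT (DD l)) ℂ :=
  StarAlgHom.comp
    { toFun := fun f : FF l => f x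
      map_one' := rfl
      map_mul' := fun _ _ => rfl
      map_zero' := rfl
      map_add' := fun _ _ => rfl
      commutes' := fun _ => rfl
      map_star' := fun _ => rfl } (coordHom l)

@[simp] lemma evalAt_apply (l : ℕ) (x : XX l) (f : BB) : evalAt l x f = (f l) x := rfl

lemma eq_of_evalAt {a b : BB} (h : ∀ l x, evalAt l x a = evalAt l x b) : a = b := by
  refine lp.ext (funext fun l => ContinuousMap.ext fun x => h l x)


lemma dia_eq_kron {J : Type} [Fintype J] [DecidableEq J] (M : Matrix J J ℂ) :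
    dia M = (1 : Matrix (Fin 2) (Fin 2) ℂ) ⊗ₖ M := by
  unfold dia amp
  rw [← Matrix.add_kronecker]
  congr 1
  ext i j; fin_cases i <;> fin_cases j <;> simp

/-- The projection `1₄ ⊗ P`. -/
def pJ {D : Type} [Fintype D] [DecidableEq D] (P : Matrix D D ℂ) :
    Matrix (Fin 4 × D) (Fin 4 × D) ℂ := (1 : Matrix (Fin 4) (Fin 4) ℂ) ⊗ₖ P

lemma phat_eq_dia {D : Type} [Fintype D] [DecidableEq D] (P : Matrix D D ℂ) :
    phat P = dia (pJ P) := by
  rw [dia_eq_kron]; rfl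

lemma pJ_conj {D : Type} [Fintype D] [DecidableEq D] (P : Matrix D D ℂ) : (pJ P)ᴴ = pJ Pᴴ := by
  unfold pJ; rw [Matrix.conjTranspose_kronecker]; simp

lemma pJ_mul {D : Type} [Fintype D] [DecidableEq D] (P Q : Matrix D D ℂ) :
    pJ P * pJ Q = pJ (P * Q) := by
  unfold pJ; rw [← Matrix.mul_kronecker_mul]; simp

lemma continuous_phat {D : Type} [Fintype D] [DecidableEq D] :
    Continuous (phat : Matrix D D ℂ → Matrix (TT D) (TT D) ℂ) := by
  unfold phat
  refine continuous_matrix fun i j => ?_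
  simp only [Matrix.kroneckerMap_apply]
  exact continuous_const.mul (continuous_const.mul (continuous_id.matrix_elem _ _))

lemma continuous_amp {J : Type} [Fintype J] [DecidableEq J] (a b : Fin 2) :
    Continuous (amp a b : Matrix J J ℂ → Matrix (Fin 2 × J) (Fin 2 × J) ℂ) := by
  unfold amp
  refine continuous_matrix fun i j => ?_
  simp only [Matrix.kroneckerMap_apply]
  exact continuous_const.mul (continuous_id.matrix_elem _ _)

/-- The tautological amplified projection at level `l`. -/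
noncomputable def phatF (l : ℕ) : FF l := ⟨fun x => phat x.1, continuous_phat.comp continuous_subtype_val⟩

lemma phat_star_mul {D : Type} [Fintype D] [DecidableEq D] {R : ℕ} {P : Matrix D D ℂ}
    (hP : P ∈ Gr D R) : star (phat P) * phat P = phat P := by
  obtain ⟨h1, h2, h3⟩ := hP
  rw [phat_eq_dia, dia_star, pJ_conj, h1, dia_mul_dia, pJ_mul, h2]

lemma phat_self_adjoint {D : Type} [Fintype D] [DecidableEq D] {R : ℕ} {P : Matrix D D ℂ}
    (hP : P ∈ Gr D R) : star (phat P) = phat P := by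
  obtain ⟨h1, h2, h3⟩ := hP
  rw [phat_eq_dia, dia_star, pJ_conj, h1]

/-- `p̂` in the big algebra. -/
noncomputable def phatB : BB := ofBdd phatF 1 (fun l => by
  refine (ContinuousMap.norm_le _ zero_le_one).2 fun x => ?_
  refine norm_le_one_of_idem ?_
  show (star (phat x.1) * phat x.1) * (star (phat x.1) * phat x.1) = star (phat x.1) * phat x.1
  have h := phat_star_mul x.2
  rw [h]
  rw [phat_self_adjoint x.2] at h
  exact h)

lemma evalAt_phatB (l : ℕ) (x : XX l) : evalAt l x phatB = phat x.1 := rfl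

instance instFactPhat : Fact (IsSelfAdjoint phatB) := ⟨by
  refine eq_of_evalAt fun l x => ?_
  rw [map_star, evalAt_phatB]
  exact phat_self_adjoint x.2⟩

/-- The quotient algebra. -/
def QQ : Type := BB ⧸ genIdeal phatB

noncomputable instance instCStarAlgebraQQ : CStarAlgebra QQ :=
  inferInstanceAs (CStarAlgebra (BB ⧸ genIdeal phatB))

/-- RC for the quotient. -/
theorem rc_QQ (hG : GrassSectionZero) : RC QQ := by
  show RC (BB ⧸ genIdeal phatB)
  refine rc_quot_of_sec phatB fun m n hmn q C B' j => ?_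
  set l : ℕ := 8 * q with hl
  have hL : RR l + 8 * q ≤ Fintype.card (DD l) := by
    rw [ZMod.card]
    simp only [RR, kk, ss]
    omega
  obtain ⟨x, w, hw0, hw1, hw2⟩ := sec_level hG (DD l) (RR l) hmn hL (fun a i => C a i l)
    (fun r => B' r l) j
  exact ⟨TT (DD l), inferInstance, inferInstance, evalAt l x, w, hw0, hw1, hw2⟩

/-- Index `Fin 4 × ℤ/k`. -/
abbrev JJ (l : ℕ) : Type := Fin 4 × DD l

/-- All the data at level `l`. -/
structure LevelData (l : ℕ) where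
  U₁ : Matrix (JJ l) (JJ l) ℂ
  U₂ : Matrix (JJ l) (JJ l) ℂ
  z₁ : C(XX l, Matrix (JJ l) (JJ l) ℂ)
  z₂ : C(XX l, Matrix (JJ l) (JJ l) ℂ)
  c : C(XX l, Matrix (JJ l) (JJ l) ℂ)
  ρ₁ : C(XX l, Matrix (JJ l) (JJ l) ℂ)
  ρ₂ : C(XX l, Matrix (JJ l) (JJ l) ℂ)
  σ₁ : C(XX l, Matrix (JJ l) (JJ l) ℂ)
  σ₂ : C(XX l, Matrix (JJ l) (JJ l) ℂ)
  θ : C(XX l, Matrix (JJ l) (JJ l) ℂ)
  hU₁ : U₁ᴴ * U₁ = 1
  hU₂ : U₂ᴴ * U₂ = 1
  hU₁' : U₁ * U₁ᴴ = 1
  hU₂' : U₂ * U₂ᴴ = 1
  hρ₁ : ∀ x, (ρ₁ x)ᴴ * ρ₁ x = z₁ x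
  hρ₂ : ∀ x, (ρ₂ x)ᴴ * ρ₂ x = z₂ x
  hσ₁ : ∀ x, (σ₁ x)ᴴ * σ₁ x = ((71 : ℝ) : ℂ) • 1 - z₁ x
  hσ₂ : ∀ x, (σ₂ x)ᴴ * σ₂ x = ((71 : ℝ) : ℂ) • 1 - z₂ x
  hθ : ∀ x, (θ x)ᴴ * θ x = ((2 * 71 : ℝ) : ℂ) • 1 - z₁ x - z₂ x
  hc : ∀ x : XX l, pJ x.1 * c x * pJ x.1 = c x
  rel : ∀ x, U₁ * z₁ x * U₁ᴴ - z₁ x + (U₂ * z₂ x * U₂ᴴ - z₂ x) = 1 - c x
  bρ₁ : ∀ x, ‖ρ₁ x‖ ≤ 17
  bρ₂ : ∀ x, ‖ρ₂ x‖ ≤ 17
  bσ₁ : ∀ x, ‖σ₁ x‖ ≤ 17
  bσ₂ : ∀ x, ‖σ₂ x‖ ≤ 17
  bθ : ∀ x, ‖θ x‖ ≤ 17

/-- Corner embedding of a continuous family. -/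
noncomputable def ampC {l : ℕ} (f : C(XX l, Matrix (JJ l) (JJ l) ℂ)) : FF l :=
  ⟨fun x => amp 0 0 (f x), (continuous_amp 0 0).comp f.continuous⟩

lemma norm_ampC_le {l : ℕ} (f : C(XX l, Matrix (JJ l) (JJ l) ℂ)) (hf : ∀ x, ‖f x‖ ≤ 17) :
    ‖ampC f‖ ≤ 17 :=
  (ContinuousMap.norm_le _ (by norm_num)).2 fun x => (norm_amp_le _).trans (hf x)

/-- The constant element from a family of matrices of norm at most one. -/
noncomputable def constB (f : ∀ l, Matrix (TT (DD l)) (TT (DD l)) ℂ) (hf : ∀ l, ‖f l‖ ≤ 1) : BB :=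
  ofBdd (fun l => ContinuousMap.const _ (f l)) 1 (fun l =>
    (ContinuousMap.norm_le _ zero_le_one).2 fun x => hf l)

lemma evalAt_constB (f : ∀ l, Matrix (TT (DD l)) (TT (DD l)) ℂ) (hf : ∀ l, ‖f l‖ ≤ 1) (l : ℕ)
    (x : XX l) : evalAt l x (constB f hf) = f l := rfl

section Main

variable (D : ∀ l, LevelData l)

lemma norm_v_le (l : ℕ) : ‖(amp 0 1 1 : Matrix (TT (DD l)) (TT (DD l)) ℂ)‖ ≤ 1 := by
  refine norm_le_one_of_idem ?_
  rw [amp_starv, amp_mul]; simp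

lemma norm_dia_le {l : ℕ} {U : Matrix (JJ l) (JJ l) ℂ} (hU : Uᴴ * U = 1) : ‖dia U‖ ≤ 1 := by
  refine norm_le_one_of_idem ?_
  rw [dia_star, dia_mul_dia, hU, dia_one, one_mul]

/-- Elements of `BB`. -/
noncomputable def vB : BB := constB (fun l => amp 0 1 1) norm_v_le
/-- unitaries -/
noncomputable def u₁B : BB := constB (fun l => dia (D l).U₁) fun l => norm_dia_le (D l).hU₁
/-- unitaries -/
noncomputable def u₂B : BB := constB (fun l => dia (D l).U₂) fun l => norm_dia_le (D l).hU₂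
/-- roots -/
noncomputable def r₁B : BB := ofBdd (fun l => ampC (D l).ρ₁) 17 fun l => norm_ampC_le _ (D l).bρ₁
/-- roots -/
noncomputable def r₂B : BB := ofBdd (fun l => ampC (D l).ρ₂) 17 fun l => norm_ampC_le _ (D l).bρ₂
/-- roots -/
noncomputable def s₁B : BB := ofBdd (fun l => ampC (D l).σ₁) 17 fun l => norm_ampC_le _ (D l).bσ₁
/-- roots -/
noncomputable def s₂B : BB := ofBdd (fun l => ampC (D l).σ₂) 17 fun l => norm_ampC_le _ (D l).bσ₂
/-- roots -/
noncomputable def tB : BB := ofBdd (fun l => ampC (D l).θ) 17 fun l => norm_ampC_le _ (D l).bθ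

lemma preData_BB : PreData vB (u₁B D) (u₂B D) (r₁B D) (r₂B D) (s₁B D) (s₂B D) (tB D) 71 := by
  refine PreData.reflect (ι := Σ l, XX l)
    (E := fun p => Matrix (TT (DD p.1)) (TT (DD p.1)) ℂ) (fun p => evalAt p.1 p.2)
    (fun a b h => eq_of_evalAt fun l x => h ⟨l, x⟩) (by norm_num) ?_
  rintro ⟨l, x⟩
  exact preData_amp (by norm_num) (D l).hU₁ (D l).hU₂ (D l).hU₁' (D l).hU₂' ((D l).hρ₁ x)
    ((D l).hρ₂ x) ((D l).hσ₁ x) ((D l).hσ₂ x) ((D l).hθ x)

/-- The error term. -/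
noncomputable def cB : BB :=
  vB * star vB + star (r₁B D) * r₁B D + star (r₂B D) * r₂B D
    - (u₁B D * (star (r₁B D) * r₁B D) * star (u₁B D) + u₂B D * (star (r₂B D) * r₂B D) * star (u₂B D))

lemma evalAt_cB (l : ℕ) (x : XX l) : evalAt l x (cB D) = amp 0 0 ((D l).c x) := by
  simp only [cB, map_sub, map_add, map_mul, map_star]
  exact rel_amp ((D l).hρ₁ x) ((D l).hρ₂ x) ((D l).rel x)

lemma cB_mem : cB D ∈ genIdeal phatB := by
  have h : cB D = phatB * cB D * phatB := by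
    refine eq_of_evalAt fun l x => ?_
    simp only [map_mul]
    rw [evalAt_cB, evalAt_phatB, phat_eq_dia, dia_conj_amp, (D l).hc x]
  rw [h]
  exact Ideal.mul_mem_left _ _ (mem_genIdeal_self _)


/-- The quotient map. -/
noncomputable def qq : BB →⋆ₐ[ℂ] QQ := qStarHom (genIdeal phatB)

/-- The generators. -/
noncomputable def genSet : Set QQ :=
  {qq vB, qq (u₁B D), qq (u₂B D), qq (r₁B D), qq (r₂B D), qq (s₁B D), qq (s₂B D), qq (tB D)}

/-- The final algebra. -/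
abbrev AA : Type := closedAdjoin (genSet D)

open Crest.Agent.Lib.QTStep0 Crest.OpAlg in
/-- The assembly. -/
theorem main (D : ∀ l, LevelData l) (hG : GrassSectionZero)
    (hQT : ∀ (A : Type) [CStarAlgebra A], RC A → ∃ τ : A → ℂ, IsNormalizedTwoQuasitrace τ) :
    ∃ (A : Type) (_ : CStarAlgebra A), TopologicalSpace.SeparableSpace A ∧
      (∃ τ : A → ℂ, Crest.OpAlg.IsNormalizedTwoQuasitrace τ) ∧
      ∃ a b : A, (∃ x : A, a = star x * x) ∧ ‖a‖ ≤ 1 ∧ (∃ y : A, b = star y * y) ∧ ‖b‖ ≤ 1 ∧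
        ∀ τ : A → ℂ, Crest.OpAlg.IsNormalizedTwoQuasitrace τ →
          (1 : ℝ) / 144 ≤ (τ (a + b) - τ a - τ b).re := by
  have hF := subset_closedAdjoin (genSet D)
  let vA : AA D := ⟨qq vB, hF (by simp [genSet])⟩
  let u₁A : AA D := ⟨qq (u₁B D), hF (by simp [genSet])⟩
  let u₂A : AA D := ⟨qq (u₂B D), hF (by simp [genSet])⟩
  let r₁A : AA D := ⟨qq (r₁B D), hF (by simp [genSet])⟩
  let r₂A : AA D := ⟨qq (r₂B D), hF (by simp [genSet])⟩
  let s₁A : AA D := ⟨qq (s₁B D), hF (by simp [genSet])⟩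
  let s₂A : AA D := ⟨qq (s₂B D), hF (by simp [genSet])⟩
  let tA : AA D := ⟨qq (tB D), hF (by simp [genSet])⟩
  have hP : PreData vA u₁A u₂A r₁A r₂A s₁A s₂A tA 71 := by
    refine PreData.reflect (ι := Unit) (E := fun _ => QQ)
      (fun _ => (closedAdjoin (genSet D)).subtype) (fun a b h => Subtype.ext (h ())) (by norm_num) ?_
    intro _
    exact PreData.map qq (preData_BB D)
  have hrel : vA * star vA + star r₁A * r₁A + star r₂A * r₂A =
      u₁A * (star r₁A * r₁A) * star u₁A + u₂A * (star r₂A * r₂A) * star u₂A := by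
    refine Subtype.ext ?_
    have h0 : qq (cB D) = 0 := (qmk_eq_zero_iff (genIdeal phatB) _).2 (cB_mem D)
    have h1 := h0
    simp only [cB, map_sub, map_add, map_mul, map_star, sub_eq_zero] at h1
    exact h1
  have Dat : Data vA u₁A u₂A r₁A r₂A s₁A s₂A tA 71 := hP.toData hrel
  have hRC : RC (AA D) := RC.of_hom (rc_QQ hG)
    ((closedAdjoin (genSet D)).subtype : AA D →⋆ₐ[ℂ] QQ).toRingHom (fun _ => rfl)
  have hcount : (genSet D).Countable := by
    simp only [genSet]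
    exact Set.toFinite _ |>.countable
  refine ⟨AA D, inferInstance, separable_closedAdjoin _ hcount, hQT _ hRC,
    elt vA u₁A r₁A s₁A 71, elt vA u₂A r₂A s₂A 71, ?_, ?_, ?_, ?_, ?_⟩
  · exact ⟨_, elt_eq_star_mul_self Dat Dat.er₁ Dat.es₁ Dat.se₁ Dat.re₁⟩
  · exact norm_le_one_of_squares (elt_eq_star_mul_self Dat Dat.er₁ Dat.es₁ Dat.se₁ Dat.re₁)
      (one_sub_elt_eq_star_mul_self Dat Dat.er₁ Dat.es₁ Dat.se₁ Dat.re₁ Dat.hu₁' Dat.hcu₁ Dat.ss₁)
  · exact ⟨_, elt_eq_star_mul_self Dat Dat.er₂ Dat.es₂ Dat.se₂ Dat.re₂⟩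
  · exact norm_le_one_of_squares (elt_eq_star_mul_self Dat Dat.er₂ Dat.es₂ Dat.se₂ Dat.re₂)
      (one_sub_elt_eq_star_mul_self Dat Dat.er₂ Dat.es₂ Dat.se₂ Dat.re₂ Dat.hu₂' Dat.hcu₂ Dat.ss₂)
  · intro τ hτ
    rw [defect Dat hτ.1 hτ.2.1, Complex.ofReal_re]
    norm_num

end Main

end Concrete

lemma norm_le_17 {J : Type} [Fintype J] [DecidableEq J] {M N : Matrix J J ℂ}
    (h : Mᴴ * M = N) (hN : ‖N‖ ≤ 289) : ‖M‖ ≤ 17 := by
  have h1 : ‖star M * M‖ = ‖M‖ * ‖M‖ := CStarRing.norm_star_mul_self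
  rw [Matrix.star_eq_conjTranspose, h] at h1
  nlinarith [norm_nonneg M]

lemma norm_le_of_psd {J : Type} [Fintype J] [DecidableEq J] [Nonempty J] {z : Matrix J J ℂ} {t : ℝ}
    (ht : 0 ≤ t) (h0 : z.PosSemidef) (h1 : (((t : ℝ) : ℂ) • 1 - z).PosSemidef) : ‖z‖ ≤ t := by
  have h2 : 0 ≤ z := h0.nonneg
  have h3 : z ≤ ((t : ℝ) : ℂ) • 1 := Matrix.le_iff.2 h1
  have h4 := CStarAlgebra.norm_le_norm_of_nonneg_of_le h2 h3
  refine h4.trans ?_
  rw [norm_smul, norm_one]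
  simp [abs_of_nonneg ht]

/-- Build the level data from the fibre relation. -/
theorem levelData_of_fiber (l : ℕ) {U₁ U₂ : Matrix (JJ l) (JJ l) ℂ}
    {z₁ z₂ c : C(XX l, Matrix (JJ l) (JJ l) ℂ)}
    (hU₁ : U₁ᴴ * U₁ = 1) (hU₂ : U₂ᴴ * U₂ = 1) (hU₁' : U₁ * U₁ᴴ = 1) (hU₂' : U₂ * U₂ᴴ = 1)
    (hz₁ : ∀ x, (z₁ x).PosSemidef) (hz₁' : ∀ x, (((71 : ℝ) : ℂ) • 1 - z₁ x).PosSemidef)
    (hz₂ : ∀ x, (z₂ x).PosSemidef) (hz₂' : ∀ x, (((71 : ℝ) : ℂ) • 1 - z₂ x).PosSemidef)
    (hc : ∀ x : XX l, pJ x.1 * c x * pJ x.1 = c x)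
    (rel : ∀ x, U₁ * z₁ x * U₁ᴴ - z₁ x + (U₂ * z₂ x * U₂ᴴ - z₂ x) = 1 - c x) :
    Nonempty (LevelData l) := by
  -- continuous auxiliary functions
  let one71 : C(XX l, Matrix (JJ l) (JJ l) ℂ) := ContinuousMap.const _ (((71 : ℝ) : ℂ) • 1)
  let one142 : C(XX l, Matrix (JJ l) (JJ l) ℂ) := ContinuousMap.const _ (((2 * 71 : ℝ) : ℂ) • 1)
  obtain ⟨ρ₁, hρ₁⟩ := exists_root z₁ hz₁
  obtain ⟨ρ₂, hρ₂⟩ := exists_root z₂ hz₂
  obtain ⟨σ₁, hσ₁⟩ := exists_root (one71 - z₁) (fun x => hz₁' x)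
  obtain ⟨σ₂, hσ₂⟩ := exists_root (one71 - z₂) (fun x => hz₂' x)
  have hθp : ∀ x, ((one142 - z₁ - z₂ : C(XX l, Matrix (JJ l) (JJ l) ℂ)) x).PosSemidef := by
    intro x
    have h := (hz₁' x).add (hz₂' x)
    convert h using 1
    show ((2 * 71 : ℝ) : ℂ) • (1 : Matrix (JJ l) (JJ l) ℂ) - z₁ x - z₂ x = _
    have : (((2 * 71 : ℝ) : ℂ) • (1 : Matrix (JJ l) (JJ l) ℂ))
        = ((71 : ℝ) : ℂ) • 1 + ((71 : ℝ) : ℂ) • 1 := by
      rw [← add_smul]; congr 1; push_cast; ring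
    rw [this]; abel
  obtain ⟨θ, hθ⟩ := exists_root (one142 - z₁ - z₂) hθp
  have bz₁ : ∀ x, ‖z₁ x‖ ≤ 71 := fun x => norm_le_of_psd (by norm_num) (hz₁ x) (hz₁' x)
  have bz₂ : ∀ x, ‖z₂ x‖ ≤ 71 := fun x => norm_le_of_psd (by norm_num) (hz₂ x) (hz₂' x)
  have b1 : ‖((71 : ℝ) : ℂ) • (1 : Matrix (JJ l) (JJ l) ℂ)‖ ≤ 71 := by
    rw [norm_smul, norm_one]; simp
  have b2 : ‖((2 * 71 : ℝ) : ℂ) • (1 : Matrix (JJ l) (JJ l) ℂ)‖ ≤ 142 := by
    rw [norm_smul, norm_one]; simp; norm_num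
  exact ⟨{ U₁ := U₁, U₂ := U₂, z₁ := z₁, z₂ := z₂, c := c, ρ₁ := ρ₁, ρ₂ := ρ₂, σ₁ := σ₁, σ₂ := σ₂,
           θ := θ, hU₁ := hU₁, hU₂ := hU₂, hU₁' := hU₁', hU₂' := hU₂'
           hρ₁ := hρ₁, hρ₂ := hρ₂, hσ₁ := hσ₁, hσ₂ := hσ₂, hθ := hθ, hc := hc, rel := rel
           bρ₁ := fun x => norm_le_17 (hρ₁ x) ((bz₁ x).trans (by norm_num))
           bρ₂ := fun x => norm_le_17 (hρ₂ x) ((bz₂ x).trans (by norm_num))
           bσ₁ := fun x => norm_le_17 (hσ₁ x) ((norm_sub_le _ _).trans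
             (by have := bz₁ x; show ‖one71 x‖ + ‖z₁ x‖ ≤ 289; have h := b1; simp only [one71, ContinuousMap.const_apply]; linarith))
           bσ₂ := fun x => norm_le_17 (hσ₂ x) ((norm_sub_le _ _).trans
             (by have := bz₂ x; show ‖one71 x‖ + ‖z₂ x‖ ≤ 289; have h := b1; simp only [one71, ContinuousMap.const_apply]; linarith))
           bθ := fun x => norm_le_17 (hθ x) (by
             have h1 : ‖(one142 - z₁ - z₂ : C(XX l, Matrix (JJ l) (JJ l) ℂ)) x‖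
                 ≤ ‖one142 x‖ + ‖z₁ x‖ + ‖z₂ x‖ := (norm_sub_le _ _).trans (by
                   gcongr; exact norm_sub_le _ _)
             have h2 : ‖one142 x‖ ≤ 142 := b2
             have := bz₁ x; have := bz₂ x
             linarith) }⟩

end Crest.Agent.Lib.QTAssemble
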