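import Mathlib

set_option autoImplicit false

namespace Crest.Agent.Lib.QTBrouwer

open MeasureTheory Metric Set Polynomial Module
open scoped RealInnerProductSpace

section DetPoly

variable {E : Type*} [NormedAddCommGroup E] [NormedSpace ℝ E] [FiniteDimensional ℝ E]

/-- The determinant of `id + t A` as a polynomial in `t`. -/
noncomputable def detPoly (A : E →L[ℝ] E) : ℝ[X] :=
  Matrix.det ((X : ℝ[X]) • (LinearMap.toMatrix (finBasis ℝ E) (finBasis ℝ E) (A : E →ₗ[ℝ] E)).map C
    + (1 : Matrix (Fin (finrank ℝ E)) (Fin (finrank ℝ E)) ℝ).map C)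

theorem natDegree_detPoly_le (A : E →L[ℝ] E) : (detPoly A).natDegree ≤ finrank ℝ E := by
  have := natDegree_det_X_add_C_le
    (LinearMap.toMatrix (finBasis ℝ E) (finBasis ℝ E) (A : E →ₗ[ℝ] E))
    (1 : Matrix (Fin (finrank ℝ E)) (Fin (finrank ℝ E)) ℝ)
  simpa [detPoly] using this

theorem eval_detPoly (A : E →L[ℝ] E) (t : ℝ) :
    (detPoly A).eval t = (ContinuousLinearMap.id ℝ E + t • A).det := by
  have h1 := RingHom.map_det (Polynomial.evalRingHom t)
    ((X : ℝ[X]) • (LinearMap.toMatrix (finBasis ℝ E) (finBasis ℝ E) (A : E →ₗ[ℝ] E)).map C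
      + (1 : Matrix (Fin (finrank ℝ E)) (Fin (finrank ℝ E)) ℝ).map C)
  have h2 : ((Polynomial.evalRingHom t).mapMatrix
      ((X : ℝ[X]) • (LinearMap.toMatrix (finBasis ℝ E) (finBasis ℝ E) (A : E →ₗ[ℝ] E)).map C
      + (1 : Matrix (Fin (finrank ℝ E)) (Fin (finrank ℝ E)) ℝ).map C)) =
      LinearMap.toMatrix (finBasis ℝ E) (finBasis ℝ E)
        (((ContinuousLinearMap.id ℝ E + t • A : E →L[ℝ] E)) : E →ₗ[ℝ] E) := by
    ext i j
    simp [Matrix.one_apply, LinearMap.toMatrix_apply, Finsupp.single_apply, add_comm, Finsupp.add_apply, apply_ite]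
    rw [mul_comm]
    congr 1
    simp [eq_comm]
  unfold detPoly
  have h3 : (Polynomial.evalRingHom t) (Matrix.det ((X : ℝ[X]) • (LinearMap.toMatrix (finBasis ℝ E) (finBasis ℝ E) (A : E →ₗ[ℝ] E)).map C
      + (1 : Matrix (Fin (finrank ℝ E)) (Fin (finrank ℝ E)) ℝ).map C)) = _ := h1
  rw [Polynomial.coe_evalRingHom] at h3
  rw [h3, h2, LinearMap.det_toMatrix]

/-- Lagrange weights: a fixed linear relation between the values of `det (id + t A)`. -/
theorem exists_lagrange_weights (t₀ : ℝ) (ht₀ : 0 < t₀) :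
    ∃ (ι : Type) (_ : Fintype ι) (v : ι → ℝ) (w : ι → ℝ), (∀ i, 0 < v i ∧ v i < t₀) ∧ (∑ i, w i = 1) ∧
      ∀ A : E →L[ℝ] E, (ContinuousLinearMap.id ℝ E + (1 : ℝ) • A).det =
        ∑ i, w i * (ContinuousLinearMap.id ℝ E + v i • A).det := by
  classical
  set n := finrank ℝ E
  let v : Fin (n + 1) → ℝ := fun i => t₀ * ((i : ℕ) + 1) / (n + 2)
  have hv : Function.Injective v := by
    intro i j hij
    have h2 : ((n : ℝ) + 2) ≠ 0 := by positivity
    have h3 : t₀ * ((i : ℕ) + 1) = t₀ * ((j : ℕ) + 1) := by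
      simpa [v, div_left_inj' h2] using hij
    have h4 : ((i : ℕ) + 1 : ℝ) = (j : ℕ) + 1 := mul_left_cancel₀ ht₀.ne' h3
    have h5 : ((i : ℕ) : ℝ) = (j : ℕ) := by linarith
    exact Fin.ext (by exact_mod_cast h5)
  let s : Finset (Fin (n + 1)) := Finset.univ
  have hvs : Set.InjOn v s := hv.injOn
  refine ⟨Fin (n + 1), inferInstance, v, fun i => (Lagrange.basis s v i).eval 1, ?_, ?_, ?_⟩
  · intro i
    have hi : ((i : ℕ) : ℝ) + 1 < (n : ℝ) + 2 := by
      have : ((i : ℕ) : ℝ) < (n : ℝ) + 1 := by exact_mod_cast i.isLt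
      linarith
    have hp : (0 : ℝ) < (n : ℝ) + 2 := by positivity
    have hq : (0 : ℝ) < ((i : ℕ) : ℝ) + 1 := by positivity
    constructor
    · exact div_pos (mul_pos ht₀ hq) hp
    · rw [div_lt_iff₀ hp]
      exact mul_lt_mul_of_pos_left hi ht₀
  · have := Lagrange.sum_basis (s := s) (v := v) hvs ⟨0, Finset.mem_univ _⟩
    have h1 := congrArg (Polynomial.eval 1) this
    simpa [Polynomial.eval_finsetSum] using h1
  · intro A
    have hdeg : (detPoly A).degree < (s.card : ℕ) := by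
      have h1 := natDegree_detPoly_le A
      have h2 : (s.card : ℕ) = n + 1 := by simp [s]
      rw [h2]
      calc (detPoly A).degree ≤ ((detPoly A).natDegree : WithBot ℕ) := degree_le_natDegree
        _ < ((n + 1 : ℕ) : WithBot ℕ) := by
          exact_mod_cast Nat.lt_succ_of_le h1
    have h3 := Lagrange.eq_interpolate (s := s) (v := v) hvs hdeg
    have h4 := congrArg (Polynomial.eval 1) h3
    rw [← eval_detPoly A 1, h4]
    simp only [Lagrange.interpolate_apply, Polynomial.eval_finsetSum]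
    refine Finset.sum_congr rfl fun i _ => ?_
    rw [← eval_detPoly A (v i)]
    simp only [Polynomial.eval_mul, Polynomial.eval_C]
    ring

/-- For small `t` the determinant of `id + t A` is positive. -/
theorem det_id_add_smul_pos (A : E →L[ℝ] E) (t : ℝ) (ht : 0 ≤ t) (htA : t * ‖A‖ < 1) :
    0 < (ContinuousLinearMap.id ℝ E + t • A).det := by
  by_contra hneg
  have hcont : Continuous fun s : ℝ => (detPoly A).eval s := (detPoly A).continuous
  have h0 : (detPoly A).eval 0 = 1 := by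
    rw [eval_detPoly, zero_smul, add_zero]
    exact LinearMap.det_id
  have ht' : (detPoly A).eval t ≤ 0 := by
    rw [eval_detPoly]
    exact not_lt.1 hneg
  obtain ⟨s, hs, hs0⟩ : ∃ s ∈ Icc 0 t, (detPoly A).eval s = 0 := by
    have := intermediate_value_Icc' ht hcont.continuousOn
    have hmem : (0 : ℝ) ∈ Icc ((detPoly A).eval t) ((detPoly A).eval 0) := ⟨ht', by rw [h0]; exact zero_le_one⟩
    obtain ⟨s, hs, hs0⟩ := this hmem
    exact ⟨s, hs, hs0⟩
  rw [eval_detPoly] at hs0
  have hker := LinearMap.bot_lt_ker_of_det_eq_zero (R := ℝ) (M := E)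
    (f := ((ContinuousLinearMap.id ℝ E + s • A : E →L[ℝ] E) : E →ₗ[ℝ] E)) hs0
  obtain ⟨x, hx, hx0⟩ := SetLike.exists_of_lt hker
  have hx1 : x + s • A x = 0 := by
    simpa using LinearMap.mem_ker.1 hx
  have hxne : x ≠ 0 := by
    intro h
    exact hx0 (by simp [h])
  have hn : ‖x‖ ≤ s * ‖A‖ * ‖x‖ := by
    have h2 : x = -(s • A x) := eq_neg_of_add_eq_zero_left hx1
    calc ‖x‖ = ‖s • A x‖ := by rw [h2, norm_neg]; simp [← h2]
      _ = s * ‖A x‖ := by rw [norm_smul, Real.norm_of_nonneg hs.1]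
      _ ≤ s * (‖A‖ * ‖x‖) := mul_le_mul_of_nonneg_left (A.le_opNorm x) hs.1
      _ = s * ‖A‖ * ‖x‖ := by ring
  have hxpos : 0 < ‖x‖ := norm_pos_iff.2 hxne
  have hle : s * ‖A‖ ≤ t * ‖A‖ := mul_le_mul_of_nonneg_right hs.2 (norm_nonneg _)
  nlinarith

end DetPoly

section Analytic

variable {E : Type*} [NormedAddCommGroup E] [InnerProductSpace ℝ E] [FiniteDimensional ℝ E]

/-- The determinant of the derivative of a map into the unit sphere vanishes. -/
theorem det_eq_zero_of_norm_eq_one {r : E → E} {A : E →L[ℝ] E} {x : E} (hr : HasFDerivAt r A x)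
    (h1 : ∀ᶠ y in nhds x, ‖r y‖ = 1) : A.det = 0 := by
  by_contra hdet
  have hx : ‖r x‖ = 1 := h1.self_of_nhds
  have hder := hr.norm_sq
  have hconst : HasFDerivAt (fun y => ‖r y‖ ^ 2) (0 : E →L[ℝ] ℝ) x := by
    have h2 : (fun y => ‖r y‖ ^ 2) =ᶠ[nhds x] fun _ => (1 : ℝ) := by
      filter_upwards [h1] with y hy
      rw [hy, one_pow]
    exact (hasFDerivAt_const (1 : ℝ) x).congr_of_eventuallyEq h2
  have hzero := hder.unique hconst
  have hunit : IsUnit (A : E →ₗ[ℝ] E) :=
    (LinearMap.isUnit_iff_isUnit_det (A : E →ₗ[ℝ] E)).2 (isUnit_iff_ne_zero.2 hdet)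
  obtain ⟨v, hv⟩ := ((Module.End.isUnit_iff _).1 hunit).2 (r x)
  have hv' : A v = r x := hv
  have h3 := congrArg (fun L : E →L[ℝ] ℝ => L v) hzero
  have h4 : (2 : ℕ) • (⟪r x, A v⟫) = 0 := h3
  rw [hv', real_inner_self_eq_norm_sq, hx] at h4
  norm_num at h4

/-- There is no `C¹` retraction of the closed unit ball onto the sphere. -/
theorem no_smooth_retraction {r : E → E} {r' : E → E →L[ℝ] E} {U : Set E} (_hU : IsOpen U)
    (hBU : closedBall (0 : E) 1 ⊆ U) (hr : ∀ x ∈ U, HasFDerivAt r (r' x) x)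
    (hc : ContinuousOn r' U) (h1 : ∀ x ∈ closedBall (0 : E) 1, ‖r x‖ = 1)
    (hfix : ∀ x ∈ sphere (0 : E) 1, r x = x) : False := by
  classical
  borelize E
  let μ : Measure E := Measure.addHaar
  have hcpt : IsCompact (closedBall (0 : E) 1) := isCompact_closedBall _ _
  set g : E → E := fun x => r x - x with hg_def
  set g' : E → E →L[ℝ] E := fun x => r' x - ContinuousLinearMap.id ℝ E with hg'_def
  have hg'c : ContinuousOn g' U := hc.sub continuousOn_const
  have hg : ∀ x ∈ U, HasFDerivAt g (g' x) x := fun x hx =>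
    (hr x hx).sub (hasFDerivAt_id x)
  obtain ⟨C, hC⟩ := hcpt.exists_bound_of_continuousOn (hg'c.mono hBU)
  set Λ : ℝ := |C| + 1 with hΛ_def
  have hΛpos : 0 < Λ := by positivity
  have hbound : ∀ x ∈ closedBall (0 : E) 1, ‖g' x‖ ≤ Λ := fun x hx =>
    (hC x hx).trans ((le_abs_self C).trans (by simp [hΛ_def]))
  have hlip : ∀ x ∈ closedBall (0 : E) 1, ∀ y ∈ closedBall (0 : E) 1, ‖g y - g x‖ ≤ Λ * ‖y - x‖ :=
    fun x hx y hy => Convex.norm_image_sub_le_of_norm_hasFDerivWithin_le
      (fun z hz => (hg z (hBU hz)).hasFDerivWithinAt) hbound (convex_closedBall _ _) hx hy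
  have hg0 : ∀ x ∈ sphere (0 : E) 1, g x = 0 := fun x hx => by
    simp [hg_def, hfix x hx]
  -- extension by zero
  set gh : E → E := fun x => if ‖x‖ ≤ 1 then g x else 0 with hgh_def
  have hcross : ∀ x y : E, ‖x‖ ≤ 1 → 1 < ‖y‖ → ‖gh x - gh y‖ ≤ Λ * ‖x - y‖ := by
    intro x y hx hy
    have hgy : gh y = 0 := by simp [hgh_def, not_le.2 hy]
    have hgx : gh x = g x := by simp [hgh_def, hx]
    have hcont : ContinuousOn (fun s : ℝ => ‖x + s • (y - x)‖) (Icc 0 1) := by fun_prop
    have hiv := intermediate_value_Icc (zero_le_one (α := ℝ)) hcont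
    have hmem : (1 : ℝ) ∈ Icc ‖x + (0 : ℝ) • (y - x)‖ ‖x + (1 : ℝ) • (y - x)‖ := by
      simp only [zero_smul, add_zero, one_smul, add_sub_cancel]
      exact ⟨hx, hy.le⟩
    obtain ⟨s, hs, hs1⟩ := hiv hmem
    set z := x + s • (y - x) with hz
    have hz1 : z ∈ sphere (0 : E) 1 := by simpa using hs1
    have hxB : x ∈ closedBall (0 : E) 1 := by simpa using hx
    have hzB : z ∈ closedBall (0 : E) 1 := sphere_subset_closedBall hz1
    rw [hgy, hgx, sub_zero]
    have h3 := hlip z hzB x hxB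
    rw [hg0 z hz1, sub_zero] at h3
    refine h3.trans (mul_le_mul_of_nonneg_left ?_ hΛpos.le)
    have h4 : x - z = -(s • (y - x)) := by rw [hz]; abel
    rw [h4, norm_neg, norm_smul, Real.norm_of_nonneg hs.1, norm_sub_rev y x]
    exact mul_le_of_le_one_left (norm_nonneg _) hs.2
  have hghlip : ∀ x y : E, ‖gh x - gh y‖ ≤ Λ * ‖x - y‖ := by
    intro x y
    by_cases hx : ‖x‖ ≤ 1
    · by_cases hy : ‖y‖ ≤ 1
      · have hxB : x ∈ closedBall (0 : E) 1 := by simpa using hx
        have hyB : y ∈ closedBall (0 : E) 1 := by simpa using hy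
        have := hlip y hyB x hxB
        simpa [hgh_def, hx, hy] using this
      · exact hcross x y hx (not_le.1 hy)
    · by_cases hy : ‖y‖ ≤ 1
      · have := hcross y x hy (not_le.1 hx)
        rwa [norm_sub_rev, norm_sub_rev y x] at this
      · have h0 := mul_nonneg hΛpos.le (norm_nonneg (x - y))
        simpa [hgh_def, hx, hy] using h0
  -- the maps f t
  have hmain : ∀ t : ℝ, 0 < t → t * Λ < 1 / 2 →
      (fun x => x + t • g x) '' ball (0 : E) 1 = ball (0 : E) 1 := by
    intro t ht htΛ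
    have hgeq : ∀ x, ‖x‖ ≤ 1 → gh x = g x := fun x hx => by simp [hgh_def, hx]
    have hinj : ∀ a b : E, a + t • gh a = b + t • gh b → a = b := by
      intro a b hab
      have h2 : a - b = t • (gh b - gh a) := by
        rw [smul_sub]
        have : a - b = (a + t • gh a) - (b + t • gh b) + (t • gh b - t • gh a) := by abel
        rw [this, hab]; abel
      have h3 : ‖a - b‖ ≤ t * Λ * ‖a - b‖ := by
        calc ‖a - b‖ = ‖t • (gh b - gh a)‖ := by rw [h2]
          _ = t * ‖gh b - gh a‖ := by rw [norm_smul, Real.norm_of_nonneg ht.le]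
          _ ≤ t * (Λ * ‖b - a‖) := mul_le_mul_of_nonneg_left (hghlip b a) ht.le
          _ = t * Λ * ‖a - b‖ := by rw [norm_sub_rev b a]; ring
      have h4 : ‖a - b‖ = 0 := by
        have h5 := norm_nonneg (a - b)
        nlinarith
      exact sub_eq_zero.1 (norm_eq_zero.1 h4)
    have hfixout : ∀ y : E, 1 ≤ ‖y‖ → gh y = 0 := by
      intro y hy
      rcases eq_or_lt_of_le hy with h | h
      · have hy1 : y ∈ sphere (0 : E) 1 := by simpa using h.symm
        rw [hgeq y h.symm.le, hg0 y hy1]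
      · simp [hgh_def, not_le.2 h]
    ext y
    simp only [mem_image, mem_ball_zero_iff]
    constructor
    · rintro ⟨x, hx, rfl⟩
      by_contra hy
      have hy' : 1 ≤ ‖x + t • g x‖ := not_lt.1 hy
      have h3 := hfixout _ hy'
      have h4 := hinj x (x + t • g x) (by rw [h3, smul_zero, add_zero, hgeq x hx.le])
      rw [← h4] at hy'
      exact absurd hx (not_lt.2 hy')
    · intro hy
      let K : NNReal := ⟨t * Λ, by positivity⟩
      have hK : K < 1 := by
        have : (K : ℝ) < 1 := by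
          show t * Λ < 1
          linarith
        exact_mod_cast this
      let T : E → E := fun x => y - t • gh x
      have hT : ContractingWith K T := by
        refine ⟨hK, LipschitzWith.of_dist_le_mul fun a b => ?_⟩
        rw [dist_eq_norm, dist_eq_norm]
        have : T a - T b = t • (gh b - gh a) := by
          simp only [T, smul_sub]; abel
        rw [this, norm_smul, Real.norm_of_nonneg ht.le]
        calc t * ‖gh b - gh a‖ ≤ t * (Λ * ‖b - a‖) := mul_le_mul_of_nonneg_left (hghlip b a) ht.le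
          _ = (K : ℝ) * ‖a - b‖ := by rw [norm_sub_rev b a]; show _ = t * Λ * _; ring
      have hfp : T (hT.fixedPoint T) = hT.fixedPoint T := hT.fixedPoint_isFixedPt
      set x := hT.fixedPoint T with hx_def
      have hx_eq : x + t • gh x = y := by
        have h : y - t • gh x = x := hfp
        calc x + t • gh x = (y - t • gh x) + t • gh x := by rw [h]
          _ = y := by abel
      by_cases hx1 : 1 ≤ ‖x‖
      · have := hfixout x hx1
        rw [this, smul_zero, add_zero] at hx_eq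
        rw [hx_eq] at hx1
        exact absurd hy (not_lt.2 hx1)
      · have hx2 : ‖x‖ < 1 := not_le.1 hx1
        exact ⟨x, hx2, by rw [← hgeq x hx2.le]; exact hx_eq⟩
  set t₀ : ℝ := 1 / (2 * Λ) / 2 with ht₀_def
  have ht₀ : 0 < t₀ := by positivity
  have ht₀Λ : t₀ * Λ < 1 / 2 := by
    have : t₀ * Λ = 1 / 4 := by
      rw [ht₀_def]; field_simp; norm_num
    rw [this]; norm_num
  have hsmall : ∀ t : ℝ, 0 < t → t < t₀ → t * Λ < 1 / 2 := fun t ht htt =>
    lt_of_le_of_lt (mul_le_mul_of_nonneg_right htt.le hΛpos.le) ht₀Λ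
  have hballmeas : MeasurableSet (ball (0 : E) 1) := measurableSet_ball
  have hμball : μ (ball (0 : E) 1) ≠ ⊤ := measure_ball_lt_top.ne
  have hdetcont : ∀ t : ℝ, ContinuousOn (fun x => (ContinuousLinearMap.id ℝ E + t • g' x).det) U := by
    intro t
    exact ContinuousLinearMap.continuous_det.comp_continuousOn (continuousOn_const.add (hg'c.const_smul t))
  have hdetint : ∀ t : ℝ, IntegrableOn (fun x => (ContinuousLinearMap.id ℝ E + t • g' x).det) (ball (0 : E) 1) μ := by
    intro t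
    exact (((hdetcont t).mono hBU).integrableOn_compact hcpt).mono_set ball_subset_closedBall
  have hvol : ∀ t : ℝ, 0 < t → t < t₀ →
      ∫ x in ball (0 : E) 1, (ContinuousLinearMap.id ℝ E + t • g' x).det ∂μ = (μ (ball (0 : E) 1)).toReal := by
    intro t ht htt
    have hΛt := hsmall t ht htt
    have hpos : ∀ x ∈ ball (0 : E) 1, 0 < (ContinuousLinearMap.id ℝ E + t • g' x).det := by
      intro x hx
      refine det_id_add_smul_pos _ _ ht.le ?_
      have h2 := hbound x (ball_subset_closedBall hx)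
      have h3 : t * ‖g' x‖ ≤ t * Λ := mul_le_mul_of_nonneg_left h2 ht.le
      linarith
    have hinj : InjOn (fun x => x + t • g x) (ball (0 : E) 1) := by
      intro a ha b hb hab
      have h2 : a - b = t • (g b - g a) := by
        rw [smul_sub]
        have hab' : a + t • g a = b + t • g b := hab
        have : a - b = (a + t • g a) - (b + t • g b) + (t • g b - t • g a) := by abel
        rw [this, hab']; abel
      have h3 : ‖a - b‖ ≤ t * Λ * ‖a - b‖ := by
        calc ‖a - b‖ = ‖t • (g b - g a)‖ := by rw [h2]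
          _ = t * ‖g b - g a‖ := by rw [norm_smul, Real.norm_of_nonneg ht.le]
          _ ≤ t * (Λ * ‖b - a‖) := mul_le_mul_of_nonneg_left
              (hlip a (ball_subset_closedBall ha) b (ball_subset_closedBall hb)) ht.le
          _ = t * Λ * ‖a - b‖ := by rw [norm_sub_rev b a]; ring
      have h4 : ‖a - b‖ = 0 := by
        have h5 := norm_nonneg (a - b)
        nlinarith
      exact sub_eq_zero.1 (norm_eq_zero.1 h4)
    have hder : ∀ x ∈ ball (0 : E) 1, HasFDerivWithinAt (fun x => x + t • g x)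
        (ContinuousLinearMap.id ℝ E + t • g' x) (ball (0 : E) 1) x := by
      intro x hx
      exact ((hasFDerivAt_id x).add ((hg x (hBU (ball_subset_closedBall hx))).const_smul t)).hasFDerivWithinAt
    have hJ := lintegral_abs_det_fderiv_eq_addHaar_image μ hballmeas hder hinj
    rw [hmain t ht hΛt] at hJ
    rw [integral_eq_lintegral_of_nonneg_ae, ← hJ]
    · congr 1
      refine setLIntegral_congr_fun hballmeas fun x hx => ?_
      rw [abs_of_pos (hpos x hx)]
    · filter_upwards [ae_restrict_mem hballmeas] with x hx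
      exact (hpos x hx).le
    · exact ((hdetcont t).mono (ball_subset_closedBall.trans hBU)).aestronglyMeasurable hballmeas
  obtain ⟨ι, _, v, w, hv, hw1, hw⟩ := exists_lagrange_weights (E := E) t₀ ht₀
  have hzero : ∀ x ∈ ball (0 : E) 1, ∑ i, w i * (ContinuousLinearMap.id ℝ E + v i • g' x).det = 0 := by
    intro x hx
    rw [← hw (g' x)]
    have h2 : (ContinuousLinearMap.id ℝ E + (1 : ℝ) • g' x) = r' x := by
      simp [hg'_def]
    rw [h2]
    refine det_eq_zero_of_norm_eq_one (hr x (hBU (ball_subset_closedBall hx))) ?_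
    filter_upwards [isOpen_ball.mem_nhds hx] with y hy
    exact h1 y (ball_subset_closedBall hy)
  have hint0 : ∫ x in ball (0 : E) 1, ∑ i, w i * (ContinuousLinearMap.id ℝ E + v i • g' x).det ∂μ = 0 := by
    rw [setIntegral_congr_fun hballmeas hzero]
    simp
  rw [integral_finsetSum _ (fun i _ => (hdetint (v i)).const_mul (w i))] at hint0
  have hsum : ∑ i, ∫ x in ball (0 : E) 1, w i * (ContinuousLinearMap.id ℝ E + v i • g' x).det ∂μ =
      (μ (ball (0 : E) 1)).toReal := by
    have : ∀ i, ∫ x in ball (0 : E) 1, w i * (ContinuousLinearMap.id ℝ E + v i • g' x).det ∂μ =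
        w i * (μ (ball (0 : E) 1)).toReal := by
      intro i
      rw [integral_const_mul, hvol (v i) (hv i).1 (hv i).2]
    simp_rw [this]
    rw [← Finset.sum_mul, hw1, one_mul]
  rw [hsum] at hint0
  have hpos : 0 < (μ (ball (0 : E) 1)).toReal :=
    ENNReal.toReal_pos (measure_ball_pos μ _ one_pos).ne' hμball
  linarith

/-- There is no `C¹` map of the closed ball into itself without a fixed point. -/
theorem no_smooth_fixedPointFree {p : E → E} (hp : ContDiff ℝ 1 p)
    (hm : ∀ x ∈ closedBall (0 : E) 1, p x ∈ closedBall (0 : E) 1)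
    (hne : ∀ x ∈ closedBall (0 : E) 1, p x ≠ x) : False := by
  set u : E → E := fun x => x - p x with hu_def
  set a : E → ℝ := fun x => ⟪x, u x⟫ with ha_def
  set D : E → ℝ := fun x => a x ^ 2 + ‖u x‖ ^ 2 * (1 - ‖x‖ ^ 2) with hD_def
  set lam : E → ℝ := fun x => (√(D x) - a x) / ‖u x‖ ^ 2 with hlam_def
  set r : E → E := fun x => x + lam x • u x with hr_def
  have hu : ContDiff ℝ 1 u := contDiff_id.sub hp
  have ha : ContDiff ℝ 1 a := contDiff_id.inner ℝ hu
  have hn : ContDiff ℝ 1 fun x => ‖u x‖ ^ 2 := hu.norm_sq ℝ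
  have hD : ContDiff ℝ 1 D :=
    (ha.pow 2).add (hn.mul (contDiff_const.sub (contDiff_id.norm_sq ℝ)))
  set U : Set E := {x | 0 < ‖u x‖ ^ 2} ∩ {x | 0 < D x} with hU_def
  have hUo : IsOpen U :=
    (isOpen_lt continuous_const hn.continuous).inter (isOpen_lt continuous_const hD.continuous)
  have hcd : ContDiffOn ℝ 1 r U := by
    have h1 : ContDiffOn ℝ 1 (fun x => √(D x)) U :=
      hD.contDiffOn.sqrt fun x hx => (ne_of_gt hx.2)
    have h2 : ContDiffOn ℝ 1 lam U :=
      (h1.sub ha.contDiffOn).div hn.contDiffOn fun x hx => ne_of_gt hx.1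
    exact contDiffOn_id.add (h2.smul hu.contDiffOn)
  -- key facts on the closed ball
  have hkey : ∀ x ∈ closedBall (0 : E) 1, 0 < ‖u x‖ ^ 2 ∧ ‖u x‖ ^ 2 ≤ 2 * a x + (1 - ‖x‖ ^ 2) := by
    intro x hx
    have hx1 : ‖x‖ ≤ 1 := by simpa using hx
    have hp1 : ‖p x‖ ≤ 1 := by simpa using hm x hx
    have hune : u x ≠ 0 := sub_ne_zero.2 (hne x hx).symm
    refine ⟨by positivity, ?_⟩
    have h1 : ‖u x‖ ^ 2 = ‖x‖ ^ 2 - 2 * ⟪x, p x⟫ + ‖p x‖ ^ 2 := norm_sub_sq_real _ _
    have h2 : a x = ‖x‖ ^ 2 - ⟪x, p x⟫ := by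
      simp only [ha_def, hu_def, inner_sub_right, real_inner_self_eq_norm_sq]
    have h3 : ‖p x‖ ^ 2 ≤ 1 := by
      have := norm_nonneg (p x)
      nlinarith
    rw [h1, h2]
    nlinarith
  have hBU : closedBall (0 : E) 1 ⊆ U := by
    intro x hx
    obtain ⟨h1, h2⟩ := hkey x hx
    refine ⟨h1, ?_⟩
    have hx1 : ‖x‖ ≤ 1 := by simpa using hx
    show 0 < a x ^ 2 + ‖u x‖ ^ 2 * (1 - ‖x‖ ^ 2)
    rcases eq_or_lt_of_le hx1 with h | h
    · rw [h] at h2 ⊢
      have h3 : 0 < a x := by nlinarith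
      have h4 : 0 < a x ^ 2 := by positivity
      nlinarith
    · have h3 : 0 < 1 - ‖x‖ ^ 2 := by
        have := norm_nonneg x
        nlinarith
      have h4 : 0 < ‖u x‖ ^ 2 * (1 - ‖x‖ ^ 2) := mul_pos h1 h3
      have h5 := sq_nonneg (a x)
      linarith
  have hnorm : ∀ x ∈ closedBall (0 : E) 1, ‖r x‖ = 1 := by
    intro x hx
    have hxU := hBU hx
    have hn0 : 0 < ‖u x‖ ^ 2 := hxU.1
    have hD0 : 0 < D x := hxU.2
    have hS : √(D x) ^ 2 = D x := Real.sq_sqrt hD0.le
    have h1 : ‖r x‖ ^ 2 = 1 := by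
      simp only [hr_def]
      rw [norm_add_sq_real, real_inner_smul_right, norm_smul, mul_pow, Real.norm_eq_abs, sq_abs]
      have h2 : lam x * ‖u x‖ ^ 2 = √(D x) - a x := div_mul_cancel₀ _ hn0.ne'
      have h3 : ⟪x, u x⟫ = a x := rfl
      rw [h3]
      have h4 : lam x * (√(D x) + a x) = 1 - ‖x‖ ^ 2 := by
        have h5 : ‖u x‖ ^ 2 * (lam x * (√(D x) + a x)) = ‖u x‖ ^ 2 * (1 - ‖x‖ ^ 2) := by
          calc ‖u x‖ ^ 2 * (lam x * (√(D x) + a x)) = (lam x * ‖u x‖ ^ 2) * (√(D x) + a x) := by ring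
            _ = √(D x) ^ 2 - a x ^ 2 := by rw [h2]; ring
            _ = ‖u x‖ ^ 2 * (1 - ‖x‖ ^ 2) := by rw [hS]; simp only [hD_def]; ring
        exact mul_left_cancel₀ hn0.ne' h5
      have h6 : ‖x‖ ^ 2 + 2 * (lam x * a x) + lam x ^ 2 * ‖u x‖ ^ 2
          = ‖x‖ ^ 2 + lam x * (lam x * ‖u x‖ ^ 2 + 2 * a x) := by ring
      rw [h6, h2]
      have h7 : √(D x) - a x + 2 * a x = √(D x) + a x := by ring
      rw [h7, h4]
      ring
    have h2 := norm_nonneg (r x)
    nlinarith
  have hfix : ∀ x ∈ sphere (0 : E) 1, r x = x := by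
    intro x hx
    have hx1 : ‖x‖ = 1 := by simpa using hx
    have hxB := sphere_subset_closedBall hx
    obtain ⟨h1, h2⟩ := hkey x hxB
    rw [hx1] at h2
    have h3 : 0 < a x := by nlinarith
    have h4 : D x = a x ^ 2 := by
      simp only [hD_def, hx1]
      ring
    have h5 : √(D x) = a x := by
      rw [h4, Real.sqrt_sq h3.le]
    simp only [hr_def, hlam_def, h5, sub_self, zero_div, zero_smul, add_zero]
  refine no_smooth_retraction (r' := fun x => fderiv ℝ r x) hUo hBU ?_
    (hcd.continuousOn_fderiv_of_isOpen hUo le_rfl) hnorm hfix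
  intro x hx
  exact ((hcd.contDiffAt (hUo.mem_nhds hx)).differentiableAt (by norm_num)).hasFDerivAt

/-- **Brouwer's fixed point theorem** for the closed unit ball of a Euclidean space. -/
theorem brouwer_closedBall {f : E → E} (hf : ContinuousOn f (closedBall (0 : E) 1))
    (hm : MapsTo f (closedBall (0 : E) 1) (closedBall (0 : E) 1)) :
    ∃ x ∈ closedBall (0 : E) 1, f x = x := by
  by_contra hcon
  have hne : ∀ x ∈ closedBall (0 : E) 1, f x ≠ x := fun x hx h => hcon ⟨x, hx, h⟩
  have hcpt : IsCompact (closedBall (0 : E) 1) := isCompact_closedBall _ _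
  have h0mem : (0 : E) ∈ closedBall (0 : E) 1 := by simp
  obtain ⟨x₀, hx₀, hmin⟩ := hcpt.exists_isMinOn ⟨0, h0mem⟩
    (hf.sub continuousOn_id).norm
  set δ : ℝ := ‖f x₀ - id x₀‖ with hδ_def
  have hδ : 0 < δ := norm_pos_iff.2 (sub_ne_zero.2 (hne x₀ hx₀))
  have hδle : ∀ x ∈ closedBall (0 : E) 1, δ ≤ ‖f x - x‖ := fun x hx => hmin hx
  let proj : E → E := fun x => (max 1 ‖x‖)⁻¹ • x
  have hprojc : Continuous proj := by
    refine Continuous.smul (Continuous.inv₀ (continuous_const.max continuous_norm) ?_) continuous_id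
    intro x
    exact (lt_of_lt_of_le one_pos (le_max_left _ _)).ne'
  have hprojB : ∀ x, proj x ∈ closedBall (0 : E) 1 := by
    intro x
    have hpos : 0 < max 1 ‖x‖ := lt_of_lt_of_le one_pos (le_max_left _ _)
    simp only [mem_closedBall_zero_iff, proj, norm_smul, norm_inv, Real.norm_eq_abs, abs_of_pos hpos]
    rw [inv_mul_le_iff₀ hpos, mul_one]
    exact le_max_right _ _
  have hprojeq : ∀ x ∈ closedBall (0 : E) 1, proj x = x := by
    intro x hx
    have hx1 : ‖x‖ ≤ 1 := by simpa using hx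
    simp [proj, max_eq_left hx1]
  have hfc : Continuous (f ∘ proj) := hf.comp_continuous hprojc hprojB
  set ε : ℝ := δ / 4 with hε_def
  have hε : 0 < ε := by positivity
  obtain ⟨g, hgc, hgd, -⟩ := hfc.exists_contDiff_approx (ε := fun _ => ε) 1 continuous_const (fun _ => hε)
  have hgc' : ContDiff ℝ 1 g := by exact_mod_cast hgc
  have hgB : ∀ x ∈ closedBall (0 : E) 1, ‖g x - f x‖ < ε := by
    intro x hx
    have := hgd x
    rwa [dist_eq_norm, Function.comp_apply, hprojeq x hx] at this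
  have hgn : ∀ x ∈ closedBall (0 : E) 1, ‖g x‖ ≤ 1 + ε := by
    intro x hx
    have h1 : ‖f x‖ ≤ 1 := by simpa using hm hx
    have h2 := hgB x hx
    calc ‖g x‖ = ‖(g x - f x) + f x‖ := by rw [sub_add_cancel]
      _ ≤ ‖g x - f x‖ + ‖f x‖ := norm_add_le _ _
      _ ≤ 1 + ε := by linarith
  have h1ε : 0 < 1 + ε := by positivity
  refine no_smooth_fixedPointFree (p := fun x => (1 + ε)⁻¹ • g x) (contDiff_const.smul hgc') ?_ ?_
  · intro x hx
    simp only [mem_closedBall_zero_iff, norm_smul, norm_inv, Real.norm_eq_abs, abs_of_pos h1ε]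
    rw [inv_mul_le_iff₀ h1ε, mul_one]
    exact hgn x hx
  · intro x hx hpx
    have hpx' : (1 + ε)⁻¹ • g x = x := hpx
    have h1 : ‖g x - x‖ ≤ ε := by
      rw [← hpx']
      have h2 : g x - (1 + ε)⁻¹ • g x = (ε * (1 + ε)⁻¹) • g x := by
        have h3 : (1 : ℝ) - (1 + ε)⁻¹ = ε * (1 + ε)⁻¹ := by
          field_simp
          ring
        rw [← h3, sub_smul, one_smul]
      rw [hpx'] at *
      rw [← hpx', h2, norm_smul, Real.norm_of_nonneg (by positivity)]
      calc ε * (1 + ε)⁻¹ * ‖g x‖ ≤ ε * (1 + ε)⁻¹ * (1 + ε) :=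
            mul_le_mul_of_nonneg_left (hgn x hx) (by positivity)
        _ = ε := by field_simp
    have h2 := hδle x hx
    have h3 := hgB x hx
    have h4 : ‖f x - x‖ ≤ ‖f x - g x‖ + ‖g x - x‖ := by
      calc ‖f x - x‖ = ‖(f x - g x) + (g x - x)‖ := by rw [sub_add_sub_cancel]
        _ ≤ _ := norm_add_le _ _
    rw [norm_sub_rev (f x) (g x)] at h4
    have h5 : δ = 4 * ε := by rw [hε_def]; ring
    linarith

/-- There is no continuous retraction of the closed unit ball onto the sphere. -/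
theorem no_retraction_closedBall {r : E → E} (hr : ContinuousOn r (closedBall (0 : E) 1))
    (h1 : ∀ x ∈ closedBall (0 : E) 1, ‖r x‖ = 1) (hfix : ∀ x ∈ sphere (0 : E) 1, r x = x) : False := by
  obtain ⟨x, hx, hxf⟩ := brouwer_closedBall (f := fun x => -r x) hr.neg (by
    intro x hx
    simpa using (h1 x hx).le)
  have hxf' : -r x = x := hxf
  have hx1 : ‖x‖ = 1 := by
    rw [← hxf', norm_neg, h1 x hx]
  have hxS : x ∈ sphere (0 : E) 1 := by simpa using hx1
  rw [hfix x hxS] at hxf'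
  have h2 : x = 0 := by
    have h3 : (2 : ℝ) • x = 0 := by
      rw [two_smul]
      nth_rewrite 1 [← hxf']
      simp
    exact (smul_eq_zero.1 h3).resolve_left two_ne_zero
  rw [h2, norm_zero] at hx1
  exact zero_ne_one hx1

end Analytic

section Convex

variable {E : Type*} [NormedAddCommGroup E] [NormedSpace ℝ E] [FiniteDimensional ℝ E]

/-- A convex body is homeomorphic to the closed ball of a Euclidean space, its frontier going to
the sphere. -/
theorem exists_homeomorph_euclidean {D : Set E} (hc : Convex ℝ D) (hD : IsCompact D)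
    (hi : (interior D).Nonempty) :
    ∃ Φ : E ≃ₜ EuclideanSpace ℝ (Fin (finrank ℝ E)),
      Φ '' D = closedBall 0 1 ∧ Φ '' frontier D = sphere 0 1 := by
  let e : E ≃L[ℝ] EuclideanSpace ℝ (Fin (finrank ℝ E)) := toEuclidean
  set D' : Set (EuclideanSpace ℝ (Fin (finrank ℝ E))) := e '' D with hD'
  have hc' : Convex ℝ D' := hc.linear_image e.toLinearEquiv.toLinearMap
  have hi' : (interior D').Nonempty := by
    show (interior (e.toHomeomorph '' D)).Nonempty
    rw [← Homeomorph.image_interior]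
    exact hi.image _
  have hb' : Bornology.IsBounded D' := (hD.image e.continuous).isBounded
  obtain ⟨h, -, h2, h3⟩ := exists_homeomorph_image_interior_closure_frontier_eq_unitBall hc' hi' hb'
  have hcl : IsClosed D' := (hD.image e.continuous).isClosed
  refine ⟨e.toHomeomorph.trans h, ?_, ?_⟩
  · rw [hcl.closure_eq] at h2
    rw [← h2, hD', Set.image_image]
    rfl
  · rw [← h3, hD']
    have h4 : frontier (e '' D) = e.toHomeomorph '' frontier D :=
      (Homeomorph.image_frontier e.toHomeomorph D).symm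
    rw [h4, Set.image_image]
    rfl

/-- There is no continuous retraction of a convex body onto its frontier. -/
theorem no_retraction_of_convex {D : Set E} (hc : Convex ℝ D) (hD : IsCompact D)
    (hi : (interior D).Nonempty) {ρ : E → E} (hρ : ContinuousOn ρ D)
    (hm : ∀ x ∈ D, ρ x ∈ frontier D) (hfix : ∀ x ∈ frontier D, ρ x = x) : False := by
  obtain ⟨Φ, h1, h2⟩ := exists_homeomorph_euclidean hc hD hi
  have hsymm : ∀ y ∈ closedBall (0 : EuclideanSpace ℝ (Fin (finrank ℝ E))) 1, Φ.symm y ∈ D := by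
    intro y hy
    rw [← h1] at hy
    obtain ⟨x, hx, rfl⟩ := hy
    simpa using hx
  have hsymm' : ∀ y ∈ sphere (0 : EuclideanSpace ℝ (Fin (finrank ℝ E))) 1, Φ.symm y ∈ frontier D := by
    intro y hy
    rw [← h2] at hy
    obtain ⟨x, hx, rfl⟩ := hy
    simpa using hx
  refine no_retraction_closedBall (r := fun y => Φ (ρ (Φ.symm y))) ?_ ?_ ?_
  · exact Φ.continuous.comp_continuousOn (hρ.comp Φ.symm.continuous.continuousOn hsymm)
  · intro y hy
    have h3 : Φ (ρ (Φ.symm y)) ∈ sphere (0 : EuclideanSpace ℝ (Fin (finrank ℝ E))) 1 := by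
      rw [← h2]
      exact ⟨_, hm _ (hsymm y hy), rfl⟩
    simpa using h3
  · intro y hy
    show Φ (ρ (Φ.symm y)) = y
    rw [hfix _ (hsymm' y hy)]
    simp

/-- **Brouwer's fixed point theorem** for convex bodies. -/
theorem brouwer_of_convex {D : Set E} (hc : Convex ℝ D) (hD : IsCompact D)
    (hi : (interior D).Nonempty) {f : E → E} (hf : ContinuousOn f D) (hm : MapsTo f D D) :
    ∃ x ∈ D, f x = x := by
  obtain ⟨Φ, h1, -⟩ := exists_homeomorph_euclidean hc hD hi
  have hsymm : ∀ y ∈ closedBall (0 : EuclideanSpace ℝ (Fin (finrank ℝ E))) 1, Φ.symm y ∈ D := by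
    intro y hy
    rw [← h1] at hy
    obtain ⟨x, hx, rfl⟩ := hy
    simpa using hx
  obtain ⟨y, hy, hyf⟩ := brouwer_closedBall (f := fun y => Φ (f (Φ.symm y)))
    (Φ.continuous.comp_continuousOn (hf.comp Φ.symm.continuous.continuousOn hsymm)) (by
      intro y hy
      show Φ (f (Φ.symm y)) ∈ _
      rw [← h1]
      exact ⟨_, hm (hsymm y hy), rfl⟩)
  refine ⟨Φ.symm y, hsymm y hy, ?_⟩
  have h2 : Φ (f (Φ.symm y)) = y := hyf
  have h3 := congrArg Φ.symm h2
  simpa using h3

/-- **Zeros from a boundary homotopy.** If `F` on a convex body `D` around `0` is, on the frontier,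
homotopic through non-vanishing maps to a linear isomorphism, then `F` has a zero in `D`. -/
theorem exists_zero_of_homotopy {V : Type*} [NormedAddCommGroup V] [NormedSpace ℝ V]
    {D : Set E} (hc : Convex ℝ D) (hD : IsCompact D) (h0 : D ∈ nhds (0 : E))
    (L : E ≃L[ℝ] V) {F : E → V} (hF : ContinuousOn F D) {H : ℝ → E → V}
    (hH : ContinuousOn (fun q : ℝ × E => H q.1 q.2) (Icc 0 1 ×ˢ frontier D))
    (hH0 : ∀ x ∈ frontier D, H 0 x = F x) (hH1 : ∀ x ∈ frontier D, H 1 x = L x)
    (hne : ∀ t ∈ Icc (0 : ℝ) 1, ∀ x ∈ frontier D, H t x ≠ 0) : ∃ x ∈ D, F x = 0 := by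
  by_contra hcon
  have hF0 : ∀ x ∈ D, F x ≠ 0 := fun x hx h => hcon ⟨x, hx, h⟩
  have hcl : IsClosed D := hD.isClosed
  have hg : Continuous (gauge D) := continuous_gauge hc h0
  have habs : Absorbent ℝ D := absorbent_nhds_zero h0
  have hbd : Bornology.IsVonNBounded ℝ D := NormedSpace.isVonNBounded_of_isBounded ℝ hD.isBounded
  have hmemD : ∀ x, gauge D x ≤ 1 ↔ x ∈ D := fun x => by
    rw [gauge_le_one_iff_mem_closure hc h0, hcl.closure_eq]
  have hfr : ∀ x, gauge D x = 1 ↔ x ∈ frontier D := fun x => gauge_eq_one_iff_mem_frontier hc h0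
  have hgpos : ∀ x, x ≠ 0 → 0 < gauge D x := fun x hx => (gauge_pos habs hbd).2 hx
  have hi : (interior D).Nonempty := ⟨0, mem_interior_iff_mem_nhds.2 h0⟩
  -- the two pieces
  let G₁ : E → E := fun x => L.symm (F ((2 : ℝ) • x))
  let G₂ : E → E := fun x => L.symm (H (2 * gauge D x - 1) ((gauge D x)⁻¹ • x))
  let G : E → E := fun x => if gauge D x ≤ 1 / 2 then G₁ x else G₂ x
  let D₁ : Set E := D ∩ {x | gauge D x ≤ 1 / 2}
  let D₂ : Set E := D ∩ {x | 1 / 2 ≤ gauge D x}
  have hD₁c : IsClosed D₁ := hcl.inter (isClosed_le hg continuous_const)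
  have hD₂c : IsClosed D₂ := hcl.inter (isClosed_le continuous_const hg)
  have hD₁₂ : D₁ ∪ D₂ = D := by
    ext x
    constructor
    · rintro (h | h)
      · exact h.1
      · exact h.1
    · intro h
      rcases le_total (gauge D x) (1 / 2) with h' | h'
      · exact Or.inl ⟨h, h'⟩
      · exact Or.inr ⟨h, h'⟩
  have h2x : ∀ x ∈ D₁, (2 : ℝ) • x ∈ D := by
    intro x hx
    rw [← hmemD, gauge_smul_of_nonneg (by norm_num : (0 : ℝ) ≤ 2), smul_eq_mul]
    have : gauge D x ≤ 1 / 2 := hx.2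
    linarith
  have hne0 : ∀ x ∈ D₂, x ≠ 0 := by
    intro x hx h
    have h2 : (1 / 2 : ℝ) ≤ gauge D x := hx.2
    rw [h, gauge_zero] at h2
    norm_num at h2
  have hgpos₂ : ∀ x ∈ D₂, 0 < gauge D x := fun x hx => hgpos x (hne0 x hx)
  have hmem₂ : ∀ x ∈ D₂, (gauge D x)⁻¹ • x ∈ frontier D := by
    intro x hx
    rw [← hfr, gauge_smul_of_nonneg (inv_nonneg.2 (gauge_nonneg x)), smul_eq_mul]
    exact inv_mul_cancel₀ (hgpos₂ x hx).ne'
  have ht₂ : ∀ x ∈ D₂, 2 * gauge D x - 1 ∈ Icc (0 : ℝ) 1 := by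
    intro x hx
    have h1 : (1 / 2 : ℝ) ≤ gauge D x := hx.2
    have h2 : gauge D x ≤ 1 := (hmemD x).2 hx.1
    constructor <;> linarith
  have hG₁c : ContinuousOn G₁ D₁ := by
    refine L.symm.continuous.comp_continuousOn (hF.comp ?_ h2x)
    exact (continuous_const_smul (2 : ℝ)).continuousOn
  have hG₂c : ContinuousOn G₂ D₂ := by
    refine L.symm.continuous.comp_continuousOn ?_
    have hmaps : ∀ x ∈ D₂, (2 * gauge D x - 1, (gauge D x)⁻¹ • x) ∈ Icc (0 : ℝ) 1 ×ˢ frontier D :=
      fun x hx => ⟨ht₂ x hx, hmem₂ x hx⟩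
    refine hH.comp (f := fun x => (2 * gauge D x - 1, (gauge D x)⁻¹ • x)) ?_ hmaps
    refine ContinuousOn.prodMk ?_ ?_
    · exact ((continuous_const.mul hg).sub continuous_const).continuousOn
    · exact (ContinuousOn.inv₀ hg.continuousOn fun x hx => (hgpos₂ x hx).ne').smul continuousOn_id
  have hagree : ∀ x, gauge D x = 1 / 2 → G₁ x = G₂ x := by
    intro x hx
    have hxD : x ∈ D := (hmemD x).1 (by rw [hx]; norm_num)
    have hxD₂ : x ∈ D₂ := ⟨hxD, hx.ge⟩
    have h1 := hmem₂ x hxD₂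
    simp only [G₁, G₂]
    rw [hx] at h1 ⊢
    have h3 : (1 / 2 : ℝ)⁻¹ = 2 := by norm_num
    have h4 : (2 : ℝ) * (1 / 2) - 1 = 0 := by norm_num
    rw [h3] at h1 ⊢
    rw [h4, hH0 _ h1]
  have hGc : ContinuousOn G D := by
    rw [← hD₁₂]
    refine ContinuousOn.union_of_isClosed ?_ ?_ hD₁c hD₂c
    · refine hG₁c.congr fun x hx => ?_
      have : gauge D x ≤ 1 / 2 := hx.2
      simp only [G, if_pos this]
    · refine hG₂c.congr fun x hx => ?_
      by_cases h : gauge D x ≤ 1 / 2
      · have h2 : gauge D x = 1 / 2 := le_antisymm h hx.2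
        simp only [G, if_pos h]
        exact hagree x h2
      · simp only [G, if_neg h]
  have hGne : ∀ x ∈ D, G x ≠ 0 := by
    intro x hx
    by_cases h : gauge D x ≤ 1 / 2
    · simp only [G, if_pos h]
      intro h2
      have h3 : F ((2 : ℝ) • x) = 0 := by
        simpa [G₁] using h2
      exact hF0 _ (h2x x ⟨hx, h⟩) h3
    · simp only [G, if_neg h]
      have hx₂ : x ∈ D₂ := ⟨hx, (not_le.1 h).le⟩
      intro h2
      have h3 : H (2 * gauge D x - 1) ((gauge D x)⁻¹ • x) = 0 := by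
        simpa [G₂] using h2
      exact hne _ (ht₂ x hx₂) _ (hmem₂ x hx₂) h3
  refine no_retraction_of_convex hc hD hi (ρ := fun x => (gauge D (G x))⁻¹ • G x) ?_ ?_ ?_
  · refine ContinuousOn.smul (ContinuousOn.inv₀ (hg.comp_continuousOn hGc) ?_) hGc
    intro x hx
    exact (hgpos _ (hGne x hx)).ne'
  · intro x hx
    rw [← hfr, gauge_smul_of_nonneg (inv_nonneg.2 (gauge_nonneg _)), smul_eq_mul]
    exact inv_mul_cancel₀ (hgpos _ (hGne x hx)).ne'
  · intro x hx
    have hx1 : gauge D x = 1 := (hfr x).2 hx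
    have hGx : G x = x := by
      have h : ¬ gauge D x ≤ 1 / 2 := by rw [hx1]; norm_num
      simp only [G, if_neg h, G₂, hx1]
      norm_num
      rw [hH1 x hx]
      simp
    simp only [hGx, hx1]
    simp

end Convex

end Crest.Agent.Lib.QTBrouwer
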