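import Crest.Agent.Lib.QTT1

/-!
# The coin gap (row 137, module C4)

From a Hilbert-Schmidt gap for four unitaries `X c` acting by conjugation on `M_k` we get a gap for
the walk on `Fin 4 → M_k` with coin shift `(y c) ↦ (y (c-1))`.

Write `s = ∑ y c`, `δ c = 4 y c - s`, `w c = X̂ c (y c) - y c`. Then
* `∑ ‖y c‖² = ‖s‖²/4 + ∑ ‖δ c‖²/16`;
* `X̂ c s - s = 4 w c - (X̂ c (δ c) - δ c)`, so `‖X̂ c s - s‖² ≤ 48 ‖w c‖² + 6 ‖δ c‖²`;
* `∑ ‖y (c-1) - y c‖² ≥ ∑ ‖δ c‖² / 8`.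
-/

set_option autoImplicit false

namespace Crest.Agent.Lib.QTCoin

open Matrix Crest.Agent.Lib.QTT1
open scoped ComplexOrder

variable {ι : Type*} [Fintype ι] [DecidableEq ι]

/-- The real Hilbert-Schmidt form. -/
noncomputable def ip (A B : Matrix ι ι ℂ) : ℝ := rt (Aᴴ * B)

/-- Squared Hilbert-Schmidt norm. -/
noncomputable def q (A : Matrix ι ι ℂ) : ℝ := rt (Aᴴ * A)

lemma q_eq_ip (A : Matrix ι ι ℂ) : q A = ip A A := rfl

lemma q_nonneg (A : Matrix ι ι ℂ) : 0 ≤ q A := rt_nonneg (posSemidef_conjTranspose_mul_self A)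

lemma ip_comm (A B : Matrix ι ι ℂ) : ip A B = ip B A := by
  unfold ip rt
  have : (Aᴴ * B).trace = star ((Bᴴ * A).trace) := by
    rw [← trace_conjTranspose, conjTranspose_mul, conjTranspose_conjTranspose]
  rw [this]
  simp

lemma ip_add_left (A B C : Matrix ι ι ℂ) : ip (A + B) C = ip A C + ip B C := by
  unfold ip
  rw [conjTranspose_add, Matrix.add_mul, rt_add]

lemma ip_sub_left (A B C : Matrix ι ι ℂ) : ip (A - B) C = ip A C - ip B C := by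
  unfold ip
  rw [conjTranspose_sub, Matrix.sub_mul, rt_sub]

lemma ip_add_right (A B C : Matrix ι ι ℂ) : ip A (B + C) = ip A B + ip A C := by
  unfold ip
  rw [Matrix.mul_add, rt_add]

lemma ip_sub_right (A B C : Matrix ι ι ℂ) : ip A (B - C) = ip A B - ip A C := by
  unfold ip
  rw [Matrix.mul_sub, rt_sub]

lemma q_conj (X A : Matrix ι ι ℂ) (hX : Xᴴ * X = 1) : q (X * A * Xᴴ) = q A := by
  unfold q
  have e : (X * A * Xᴴ)ᴴ * (X * A * Xᴴ) = X * (Aᴴ * A * Xᴴ) := by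
    rw [conjTranspose_mul, conjTranspose_mul, conjTranspose_conjTranspose]
    calc X * (Aᴴ * Xᴴ) * (X * A * Xᴴ) = X * Aᴴ * (Xᴴ * X) * A * Xᴴ := by
          simp only [Matrix.mul_assoc]
      _ = X * (Aᴴ * A * Xᴴ) := by
          rw [hX]; simp only [Matrix.mul_one, Matrix.mul_assoc]
  rw [e, rt_mul_comm, Matrix.mul_assoc, hX, Matrix.mul_one]

lemma q_sub_le (A B : Matrix ι ι ℂ) : q (A - B) ≤ 3 * q A + (3 / 2) * q B := by
  have h := q_nonneg (A + A + B)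
  simp only [q_eq_ip, ip_sub_left, ip_sub_right, ip_add_left, ip_add_right] at h ⊢
  rw [ip_comm B A] at h ⊢
  linarith

lemma q_sub_le_two (A B : Matrix ι ι ℂ) : q (A - B) ≤ 2 * q A + 2 * q B := by
  have h := q_nonneg (A + B)
  simp only [q_eq_ip, ip_sub_left, ip_sub_right, ip_add_left, ip_add_right] at h ⊢
  rw [ip_comm B A] at h ⊢
  linarith

/-- `q (X̂ s - s) ≤ 48 q (X̂ y - y) + 6 q (δ)` with `δ = 4y - s`. -/
lemma step_bound (X y s : Matrix ι ι ℂ) (hX : Xᴴ * X = 1) :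
    q (X * s * Xᴴ - s) ≤ 48 * q (X * y * Xᴴ - y) + 6 * q (y + y + y + y - s) := by
  set d := y + y + y + y - s with hd
  set w := X * y * Xᴴ - y with hw
  have e : X * s * Xᴴ - s = (w + w + w + w) - (X * d * Xᴴ - d) := by
    simp only [hd, hw, Matrix.mul_sub, Matrix.sub_mul, Matrix.mul_add, Matrix.add_mul]
    abel
  rw [e]
  have h1 := q_sub_le (w + w + w + w) (X * d * Xᴴ - d)
  have h2 := q_sub_le_two (X * d * Xᴴ) d
  rw [q_conj X d hX] at h2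
  have h3 : q (w + w + w + w) = 16 * q w := by
    simp only [q_eq_ip, ip_add_left, ip_add_right]
    ring
  rw [h3] at h1
  linarith

/-- The coin gap. -/
theorem coin_gap (k : ℝ) (hk : 0 < k) (X : Fin 4 → Matrix ι ι ℂ) (hX : ∀ c, (X c)ᴴ * X c = 1)
    (hgap : ∀ f : Matrix ι ι ℂ, (32 / 35 : ℝ) * (rt (fᴴ * f) - ‖f.trace‖ ^ 2 / k) ≤
      ∑ c, rt ((X c * f * (X c)ᴴ - f)ᴴ * (X c * f * (X c)ᴴ - f)))
    (y : Fin 4 → Matrix ι ι ℂ) :
    (8 / 109 : ℝ) * (∑ c, rt ((y c)ᴴ * y c) - ‖∑ c, (y c).trace‖ ^ 2 / (4 * k)) ≤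
      ∑ c, rt ((X c * y c * (X c)ᴴ - y c)ᴴ * (X c * y c * (X c)ᴴ - y c)) +
      ∑ c, rt ((y (c - 1) - y c)ᴴ * (y (c - 1) - y c)) := by
  set s : Matrix ι ι ℂ := y 0 + y 1 + y 2 + y 3 with hs
  have hg := hgap s
  have hTr : ∑ c, (y c).trace = s.trace := by
    rw [Fin.sum_univ_four, hs, trace_add, trace_add, trace_add]
  rw [hTr]
  have hb := fun c => step_bound (X c) (y c) s (hX c)
  rw [Fin.sum_univ_four] at hg
  rw [Fin.sum_univ_four, Fin.sum_univ_four, Fin.sum_univ_four]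
  have e01 : (0 : Fin 4) - 1 = 3 := rfl
  have e11 : (1 : Fin 4) - 1 = 0 := rfl
  have e21 : (2 : Fin 4) - 1 = 1 := rfl
  have e31 : (3 : Fin 4) - 1 = 2 := rfl
  rw [e01, e11, e21, e31]
  have b0 := hb 0
  have b1 := hb 1
  have b2 := hb 2
  have b3 := hb 3
  change (8 / 109 : ℝ) * (q (y 0) + q (y 1) + q (y 2) + q (y 3) - ‖s.trace‖ ^ 2 / (4 * k)) ≤
    q (X 0 * y 0 * (X 0)ᴴ - y 0) + q (X 1 * y 1 * (X 1)ᴴ - y 1) + q (X 2 * y 2 * (X 2)ᴴ - y 2) +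
      q (X 3 * y 3 * (X 3)ᴴ - y 3) + (q (y 3 - y 0) + q (y 0 - y 1) + q (y 1 - y 2) + q (y 2 - y 3))
  change (32 / 35 : ℝ) * (q s - ‖s.trace‖ ^ 2 / k) ≤
    q (X 0 * s * (X 0)ᴴ - s) + q (X 1 * s * (X 1)ᴴ - s) + q (X 2 * s * (X 2)ᴴ - s) +
      q (X 3 * s * (X 3)ᴴ - s) at hg
  set T : ℝ := ‖s.trace‖ ^ 2 / k with hT
  have hT4 : ‖s.trace‖ ^ 2 / (4 * k) = T / 4 := by
    rw [hT]; field_simp
  rw [hT4]
  -- the quadratic identities, all in terms of the `ip (y i) (y j)`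
  set D : ℝ := q (y 0 + y 0 + y 0 + y 0 - s) + q (y 1 + y 1 + y 1 + y 1 - s) +
    q (y 2 + y 2 + y 2 + y 2 - s) + q (y 3 + y 3 + y 3 + y 3 - s) with hD
  have i1 : q (y 0) + q (y 1) + q (y 2) + q (y 3) = q s / 4 + D / 16 := by
    simp only [hD, hs, q_eq_ip, ip_add_left, ip_add_right, ip_sub_left, ip_sub_right]
    rw [ip_comm (y 1) (y 0), ip_comm (y 2) (y 0), ip_comm (y 3) (y 0), ip_comm (y 2) (y 1),
      ip_comm (y 3) (y 1), ip_comm (y 3) (y 2)]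
    ring
  have i2 : D / 8 ≤ q (y 3 - y 0) + q (y 0 - y 1) + q (y 1 - y 2) + q (y 2 - y 3) := by
    have h := q_nonneg (y 0 - y 1 + y 2 - y 3)
    simp only [hD, hs, q_eq_ip, ip_add_left, ip_add_right, ip_sub_left, ip_sub_right] at h ⊢
    rw [ip_comm (y 1) (y 0), ip_comm (y 2) (y 0), ip_comm (y 3) (y 0), ip_comm (y 2) (y 1),
      ip_comm (y 3) (y 1), ip_comm (y 3) (y 2)] at h ⊢
    linarith
  rw [i1]
  have u0 := q_nonneg (X 0 * y 0 * (X 0)ᴴ - y 0)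
  have u1 := q_nonneg (X 1 * y 1 * (X 1)ᴴ - y 1)
  have u2 := q_nonneg (X 2 * y 2 * (X 2)ᴴ - y 2)
  have u3 := q_nonneg (X 3 * y 3 * (X 3)ᴴ - y 3)
  linarith

end Crest.Agent.Lib.QTCoin
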