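import Mathlib

/-!
# States on preordered commutative monoids (part of S0188 module A)

If `W` is a preordered commutative monoid in which `0` is the least element, `+` is monotone,
`u` is an order unit and `n • u ≤ m • u` never holds for `m < n`, then there is an additive monotone
`f : W → ℝ` with `f u = 1`.  Proof: `M. Riesz` extension on `W →₀ ℝ`, with a rounding
argument reducing a real relation to an integer relation in the Grothendieck group.
-/

set_option autoImplicit false

open scoped BigOperators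

namespace Crest.Agent.Lib.QTExistState

variable {W : Type*} [AddCommMonoid W] [Preorder W]

/-- Grothendieck group of `W`. -/
local notation "KK" => Algebra.GrothendieckAddGroup W

/-- Inclusion in the Grothendieck group. -/
noncomputable abbrev ofK : W →+ Algebra.GrothendieckAddGroup W :=
  Algebra.GrothendieckAddGroup.of

/-- The positive cone of the Grothendieck group. -/
def posK (hadd : ∀ a b c : W, a ≤ b → a + c ≤ b + c) :
    AddSubmonoid (Algebra.GrothendieckAddGroup W) where
  carrier := {κ | ∃ a b v : W, a + v ≤ b + v ∧ κ + ofK a = ofK b}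
  zero_mem' := ⟨0, 0, 0, le_refl _, by simp⟩
  add_mem' := by
    rintro κ κ' ⟨a, b, v, h, e⟩ ⟨a', b', v', h', e'⟩
    refine ⟨a + a', b + b', v + v', ?_, ?_⟩
    · calc a + a' + (v + v') = (a + v) + (a' + v') := by abel
        _ ≤ (b + v) + (a' + v') := hadd _ _ _ h
        _ = (a' + v') + (b + v) := by abel
        _ ≤ (b' + v') + (b + v) := hadd _ _ _ h'
        _ = b + b' + (v + v') := by abel
    · rw [map_add, map_add, ← e, ← e']; abel

/-- Evaluation of an integer vector in the Grothendieck group. -/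
noncomputable def ev (η : W →₀ ℤ) : Algebra.GrothendieckAddGroup W :=
  η.sum fun x z => z • ofK x

lemma ev_add (η η' : W →₀ ℤ) : ev (η + η') = ev η + ev η' := by
  unfold ev
  exact Finsupp.sum_add_index' (by simp) (by intro x z z'; exact add_smul _ _ _)

lemma ev_zero : ev (0 : W →₀ ℤ) = 0 := by simp [ev]

lemma ev_single (x : W) (z : ℤ) : ev (Finsupp.single x z) = z • ofK x := by
  unfold ev
  rw [Finsupp.sum_single_index]
  simp

lemma ev_neg (η : W →₀ ℤ) : ev (-η) = - ev η := by
  have := ev_add η (-η)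
  rw [add_neg_cancel, ev_zero] at this
  exact eq_neg_of_add_eq_zero_right this.symm

lemma ev_nsmul (N : ℕ) (η : W →₀ ℤ) : ev (N • η) = N • ev η := by
  induction N with
  | zero => simp [ev_zero]
  | succ n ih => rw [succ_nsmul, succ_nsmul, ev_add, ih]

/-- Integer vectors as real vectors. -/
noncomputable def toR (η : W →₀ ℤ) : W →₀ ℝ := η.mapRange (fun z : ℤ => (z : ℝ)) (by simp)

@[simp] lemma toR_apply (η : W →₀ ℤ) (x : W) : toR η x = (η x : ℝ) := rfl

/-- The real cone generated by the positive integer vectors. -/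
noncomputable def coneR (hadd : ∀ a b c : W, a ≤ b → a + c ≤ b + c) : PointedCone ℝ (W →₀ ℝ) :=
  Submodule.span _ (toR '' {g | ev g ∈ posK hadd})

/-- Rounding property. -/
def Rounds (hadd : ∀ a b c : W, a ≤ b → a + c ≤ b + c) (ξ : W →₀ ℝ) : Prop :=
  ∃ b : W →₀ ℕ, ∀ N : ℕ, ∃ η : W →₀ ℤ, ev η ∈ posK hadd ∧ ∀ x, |(N : ℝ) * ξ x - η x| ≤ b x

lemma rounds_of_mem (hadd : ∀ a b c : W, a ≤ b → a + c ≤ b + c) {ξ : W →₀ ℝ}
    (h : ξ ∈ coneR hadd) : Rounds hadd ξ := by
  unfold coneR at h
  induction h using Submodule.span_induction with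
  | mem x hx =>
    obtain ⟨g, hg, rfl⟩ := hx
    refine ⟨0, fun N => ⟨N • g, ?_, ?_⟩⟩
    · rw [ev_nsmul]; exact nsmul_mem hg N
    · intro x; simp
  | zero =>
    refine ⟨0, fun N => ⟨0, ?_, ?_⟩⟩
    · rw [ev_zero]; exact zero_mem _
    · intro x; simp
  | add x y _ _ hx hy =>
    obtain ⟨b, hb⟩ := hx
    obtain ⟨b', hb'⟩ := hy
    refine ⟨b + b', fun N => ?_⟩
    obtain ⟨η, h1, h2⟩ := hb N
    obtain ⟨η', h1', h2'⟩ := hb' N
    refine ⟨η + η', ?_, ?_⟩
    · rw [ev_add]; exact add_mem h1 h1'
    · intro z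
      have e1 := h2 z
      have e2 := h2' z
      simp only [Finsupp.add_apply, Int.cast_add, Nat.cast_add]
      calc |(N : ℝ) * (x z + y z) - ((η z : ℝ) + η' z)|
          = |((N : ℝ) * x z - η z) + ((N : ℝ) * y z - η' z)| := by congr 1; ring
        _ ≤ _ := abs_add_le _ _
        _ ≤ _ := add_le_add e1 e2
  | smul c x _ hx =>
    obtain ⟨b, hb⟩ := hx
    refine ⟨b + x.mapRange (fun r : ℝ => ⌈|r|⌉₊) (by simp), fun N => ?_⟩
    have hc : (0 : ℝ) ≤ c := c.2
    obtain ⟨η, h1, h2⟩ := hb ⌊(N : ℝ) * c⌋₊
    refine ⟨η, h1, ?_⟩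
    intro z
    have e1 := h2 z
    have hN : (0 : ℝ) ≤ (N : ℝ) * c := mul_nonneg (Nat.cast_nonneg _) hc
    have f1 : ((⌊(N : ℝ) * c⌋₊ : ℕ) : ℝ) ≤ (N : ℝ) * c := Nat.floor_le hN
    have f2 : (N : ℝ) * c < ((⌊(N : ℝ) * c⌋₊ : ℕ) : ℝ) + 1 := Nat.lt_floor_add_one _
    have hs : (c • x) z = (c : ℝ) * x z := rfl
    rw [hs]
    simp only [Finsupp.add_apply, Finsupp.mapRange_apply, Nat.cast_add]
    have e3 : |((N : ℝ) * c - (⌊(N : ℝ) * c⌋₊ : ℝ)) * x z| ≤ |x z| := by
      rw [abs_mul]
      have : |(N : ℝ) * c - (⌊(N : ℝ) * c⌋₊ : ℝ)| ≤ 1 := by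
        rw [abs_le]; constructor <;> linarith
      calc _ ≤ 1 * |x z| := by gcongr
        _ = _ := one_mul _
    have e4 : |x z| ≤ ((⌈|x z|⌉₊ : ℕ) : ℝ) := Nat.le_ceil _
    calc |(N : ℝ) * ((c : ℝ) * x z) - η z|
        = |((⌊(N : ℝ) * c⌋₊ : ℝ) * x z - η z) + ((N : ℝ) * c - (⌊(N : ℝ) * c⌋₊ : ℝ)) * x z| := by
          congr 1; ring
      _ ≤ _ := abs_add_le _ _
      _ ≤ _ := add_le_add e1 (e3.trans e4)

/-- Abstract existence of a state. -/
theorem exists_state
    (hadd : ∀ a b c : W, a ≤ b → a + c ≤ b + c) (h0 : ∀ a : W, 0 ≤ a) (u : W)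
    (hu : ∀ x : W, ∃ n : ℕ, x ≤ n • u) (hp : ∀ m n : ℕ, m < n → ¬ (n • u ≤ m • u)) :
    ∃ f : W → ℝ, (∀ a b, f (a + b) = f a + f b) ∧ (∀ a b, a ≤ b → f a ≤ f b) ∧ f u = 1 := by
  classical
  set P := posK hadd with hP
  -- generic membership facts
  have hle : ∀ a b : W, a ≤ b → ofK b - ofK a ∈ P := fun a b h =>
    ⟨a, b, 0, by simpa using h, by abel⟩
  have hpos : ∀ a : W, ofK a ∈ P := fun a => by
    have := hle 0 a (h0 a); simpa using this
  have hevle : ∀ a b : W, a ≤ b → ev (Finsupp.single b 1 - Finsupp.single a 1) ∈ P := by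
    intro a b h
    rw [sub_eq_add_neg, ev_add, ev_neg, ev_single, ev_single]
    simpa [sub_eq_add_neg] using hle a b h
  -- key lemma: `- [u]` is not in the cone
  have key : ¬ (-(toR (Finsupp.single u 1)) ∈ coneR hadd) := by
    intro hmem
    obtain ⟨b, hb⟩ := rounds_of_mem hadd hmem
    choose t ht using hu
    -- the absorbing constant
    set T : ℕ := b.sum fun x k => k * t x with hT
    obtain ⟨η, hη, hηb⟩ := hb (T + 1)
    set ζ : W →₀ ℤ := -(((T + 1 : ℕ) : ℤ) • Finsupp.single u (1 : ℤ)) - η with hζ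
    have hζb : ∀ x, |(ζ x : ℝ)| ≤ b x := by
      intro x
      have := hηb x
      have e : (ζ x : ℝ) = ((T + 1 : ℕ) : ℝ) * (-(toR (Finsupp.single u 1))) x - η x := by
        simp only [hζ, Finsupp.sub_apply, Finsupp.neg_apply, Finsupp.smul_apply, toR_apply,
          Int.cast_sub, Int.cast_neg, smul_eq_mul, Int.cast_mul, Int.cast_natCast]
        ring
      rw [e]; exact this
    have hsupp : ζ.support ⊆ b.support := by
      intro x hx
      rw [Finsupp.mem_support_iff] at hx ⊢
      intro hb0
      have h1 := hζb x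
      rw [hb0] at h1
      simp only [Nat.cast_zero, abs_nonpos_iff, Int.cast_eq_zero] at h1
      exact hx h1
    -- absorb `ζ`
    have habsorb : ev ζ + T • ofK u ∈ P := by
      have e1 : ev ζ = ∑ x ∈ b.support, ζ x • ofK x := by
        unfold ev
        exact Finsupp.sum_of_support_subset _ hsupp _ (by simp)
      have e2 : T • ofK u = ∑ x ∈ b.support, (b x * t x) • ofK u := by
        rw [hT, Finsupp.sum, Finset.sum_smul]
      rw [e1, e2, ← Finset.sum_add_distrib]
      refine sum_mem fun x _ => ?_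
      have hz : |ζ x| ≤ (b x : ℤ) := by
        have := hζb x
        have h2 : ((|ζ x| : ℤ) : ℝ) ≤ ((b x : ℤ) : ℝ) := by
          simpa using this
        exact_mod_cast h2
      -- two cases by the sign of ζ x
      have hu1 : ofK u ∈ P := hpos u
      rcases le_total 0 (ζ x) with h | h
      · obtain ⟨k, hk⟩ := Int.eq_ofNat_of_zero_le h
        have hkb : k ≤ b x := by
          rw [hk] at hz
          simpa using hz
        obtain ⟨l, hl⟩ := Nat.exists_eq_add_of_le hkb
        have e3 : ζ x • ofK x + (b x * t x) • ofK u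
            = k • (ofK x + t x • ofK u) + (l * t x) • ofK u := by
          rw [hk, hl, natCast_zsmul, smul_add, add_mul, add_smul, mul_smul, mul_smul]
          abel
        rw [e3]
        refine add_mem (nsmul_mem (add_mem (hpos x) (nsmul_mem hu1 _)) _) (nsmul_mem hu1 _)
      · obtain ⟨k, hk⟩ := Int.eq_ofNat_of_zero_le (neg_nonneg.mpr h)
        have hk' : ζ x = -(k : ℤ) := by omega
        have hkb : k ≤ b x := by
          rw [hk', abs_neg] at hz
          simpa using hz
        obtain ⟨l, hl⟩ := Nat.exists_eq_add_of_le hkb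
        have e3 : ζ x • ofK x + (b x * t x) • ofK u
            = k • (ofK (t x • u) - ofK x) + (l * t x) • ofK u := by
          rw [hk', hl, neg_zsmul, natCast_zsmul, map_nsmul, smul_sub, add_mul, add_smul, mul_smul,
            mul_smul]
          abel
        rw [e3]
        exact add_mem (nsmul_mem (hle _ _ (ht x)) _) (nsmul_mem hu1 _)
    -- assemble: `- ofK u ∈ P`
    have hneg : -(ofK u) ∈ P := by
      have e : -(ofK u) = ev η + (ev ζ + T • ofK u) := by
        have e1 : ev ζ = -((T + 1 : ℕ) • ofK u) - ev η := by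
          rw [hζ, sub_eq_add_neg, ev_add, ev_neg, ev_neg, ← sub_eq_add_neg]
          congr 2
          rw [natCast_zsmul, ev_nsmul, ev_single]
          simp
        rw [e1, succ_nsmul]
        abel
      rw [e]
      exact add_mem hη habsorb
    obtain ⟨a, c, v, hac, he⟩ := hneg
    -- `of a = of (c + u)`
    have he2 : ofK a = ofK (c + u) := by
      rw [map_add, ← he]; abel
    obtain ⟨z, hz⟩ := (AddLocalization.addMonoidOf (⊤ : AddSubmonoid W)).eq_iff_exists.mp he2
    -- y + u ≤ y
    set y : W := c + v + z with hy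
    have hy1 : y + u ≤ y := by
      calc y + u = (↑z + (c + u)) + v := by rw [hy]; abel
        _ = (↑z + a) + v := by rw [hz]
        _ = (a + v) + ↑z := by abel
        _ ≤ (c + v) + ↑z := hadd _ _ _ hac
        _ = y := rfl
    have hy2 : ∀ j : ℕ, y + j • u ≤ y := by
      intro j
      induction j with
      | zero => simp
      | succ j ih =>
        calc y + (j + 1) • u = (y + u) + j • u := by rw [succ_nsmul]; abel
          _ ≤ y + j • u := hadd _ _ _ hy1
          _ ≤ y := ih
    -- contradiction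
    have h3 : (t y + 1) • u ≤ (t y) • u := by
      calc (t y + 1) • u = 0 + (t y + 1) • u := by simp
        _ ≤ y + (t y + 1) • u := hadd _ _ _ (h0 y)
        _ ≤ y := hy2 _
        _ ≤ t y • u := ht y
    exact hp _ _ (Nat.lt_succ_self _) h3
  -- Riesz extension
  set uu : W →₀ ℝ := Finsupp.single u 1 with huu
  have htoR : toR (Finsupp.single u (1 : ℤ)) = uu := by
    ext x; simp [huu, Finsupp.single_apply]
  have huu0 : uu ≠ 0 := by
    simp [huu]
  have key' : ¬ (-uu ∈ coneR hadd) := by rw [← htoR]; exact key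
  -- facts about the cone
  have hmemcone : ∀ g : W →₀ ℤ, ev g ∈ P → toR g ∈ coneR hadd := fun g hg =>
    Submodule.subset_span ⟨g, hg, rfl⟩
  have hsingle : ∀ x : W, toR (Finsupp.single x (1 : ℤ)) = Finsupp.single x (1 : ℝ) := by
    intro x; ext y; simp [Finsupp.single_apply]
  have hsub : ∀ g g' : W →₀ ℤ, toR (g - g') = toR g - toR g' := by
    intro g g'; ext y; simp
  have hadd' : ∀ g g' : W →₀ ℤ, toR (g + g') = toR g + toR g' := by
    intro g g'; ext y; simp
  have hle_cone : ∀ a b : W, a ≤ b →
      (Finsupp.single b (1 : ℝ) - Finsupp.single a (1 : ℝ)) ∈ coneR hadd := by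
    intro a b h
    have := hmemcone _ (hevle a b h)
    rwa [hsub, hsingle, hsingle] at this
  have hev_add0 : ∀ a b : W,
      ev (Finsupp.single (a + b) (1 : ℤ) - Finsupp.single a 1 - Finsupp.single b 1) = 0 := by
    intro a b
    simp only [sub_eq_add_neg, ev_add, ev_neg, ev_single, one_zsmul, map_add]
    abel
  have hadd_cone1 : ∀ a b : W,
      Finsupp.single (a + b) (1 : ℝ) - Finsupp.single a 1 - Finsupp.single b 1 ∈ coneR hadd := by
    intro a b
    have := hmemcone (Finsupp.single (a + b) (1 : ℤ) - Finsupp.single a 1 - Finsupp.single b 1)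
      (by rw [hev_add0]; exact zero_mem _)
    rwa [hsub, hsub, hsingle, hsingle, hsingle] at this
  have hadd_cone2 : ∀ a b : W,
      Finsupp.single a (1 : ℝ) + Finsupp.single b 1 - Finsupp.single (a + b) 1 ∈ coneR hadd := by
    intro a b
    have h : ev (Finsupp.single a (1 : ℤ) + Finsupp.single b 1 - Finsupp.single (a + b) 1) = 0 := by
      simp only [sub_eq_add_neg, ev_add, ev_neg, ev_single, one_zsmul, map_add]
      abel
    have := hmemcone (Finsupp.single a (1 : ℤ) + Finsupp.single b 1 - Finsupp.single (a + b) 1)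
      (by rw [h]; exact zero_mem _)
    rwa [hsub, hadd', hsingle, hsingle, hsingle] at this
  have hsmul_cone : ∀ (c : ℝ) (ξ : W →₀ ℝ), 0 ≤ c → ξ ∈ coneR hadd → c • ξ ∈ coneR hadd := by
    intro c ξ hc hξ
    exact (coneR hadd).smul_mem hc hξ
  -- `n [u] - [n • u]` is in the cone
  have hnsmul : ∀ n : ℕ, (n : ℝ) • uu - Finsupp.single (n • u) (1 : ℝ) ∈ coneR hadd := by
    intro n
    have h : ev (((n : ℕ) : ℤ) • Finsupp.single u (1 : ℤ) - Finsupp.single (n • u) 1) = 0 := by
      rw [sub_eq_add_neg, ev_add, ev_neg, ev_single, natCast_zsmul, ev_nsmul, ev_single]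
      simp
    have := hmemcone _ (show ev (((n : ℕ) : ℤ) • Finsupp.single u (1 : ℤ) -
      Finsupp.single (n • u) 1) ∈ P by rw [h]; exact zero_mem _)
    rw [hsub, hsingle] at this
    convert this using 2
    ext y
    simp [huu, Finsupp.single_apply]
  have hzero_cone : Finsupp.single (0 : W) (1 : ℝ) ∈ coneR hadd := by
    have := hadd_cone2 0 0
    simpa using this
  have hpos_cone : ∀ x : W, Finsupp.single x (1 : ℝ) ∈ coneR hadd := by
    intro x
    have h1 := hle_cone 0 x (h0 x)
    have := add_mem h1 hzero_cone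
    simpa using this
  -- the partial map
  obtain ⟨g, hg1, hg2⟩ := riesz_extension (coneR hadd)
    (LinearPMap.mkSpanSingleton (K := ℝ) uu (1 : ℝ) huu0)
    (by
      rintro ⟨x, hx⟩ hxs
      obtain ⟨c, rfl⟩ := Submodule.mem_span_singleton.mp hx
      have e : (LinearPMap.mkSpanSingleton (K := ℝ) uu (1 : ℝ) huu0) ⟨c • uu, hx⟩ = c := by
        have := LinearPMap.mkSpanSingleton'_apply uu (1 : ℝ) (fun c (h : c • uu = 0) => by
          rcases smul_eq_zero.mp h with h | h
          · simp [h]
          · exact absurd h huu0) c hx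
        simpa using this
      rw [e]
      by_contra hc
      push Not at hc
      apply key'
      have := hsmul_cone (-c)⁻¹ (c • uu) (inv_nonneg.mpr (by linarith)) hxs
      have e2 : (-c)⁻¹ • (c • uu) = -uu := by
        rw [smul_smul]
        have hc0 : c ≠ 0 := ne_of_lt hc
        have : (-c)⁻¹ * c = -1 := by
          rw [inv_neg, neg_mul, inv_mul_cancel₀ hc0]
        rw [this]; simp
      rwa [e2] at this)
    (by
      intro y
      -- prove that every vector can be pushed in the cone by adding a multiple of uu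
      have hdom : ∀ y : W →₀ ℝ, ∃ c : ℝ, c • uu + y ∈ coneR hadd := by
        intro y
        induction y using Finsupp.induction_linear with
        | zero => exact ⟨0, by simp⟩
        | add a b ha hb =>
          obtain ⟨c, hc⟩ := ha
          obtain ⟨d, hd⟩ := hb
          refine ⟨c + d, ?_⟩
          have := add_mem hc hd
          convert this using 1
          rw [add_smul]; abel
        | single x r =>
          rcases le_total 0 r with hr | hr
          · refine ⟨0, ?_⟩
            have := hsmul_cone r _ hr (hpos_cone x)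
            simpa using this
          · obtain ⟨n, hn⟩ := hu x
            have h1 := hle_cone _ _ hn
            have h2 := hnsmul n
            have h3 := add_mem h2 h1
            have h4 := hsmul_cone (-r) _ (by linarith) h3
            refine ⟨(-r) * n, ?_⟩
            convert h4 using 1
            ext w
            simp [huu, Finsupp.single_apply]
            split_ifs <;> ring
      obtain ⟨c, hc⟩ := hdom y
      exact ⟨⟨c • uu, Submodule.mem_span_singleton.mpr ⟨c, rfl⟩⟩, hc⟩)
  refine ⟨fun x => g (Finsupp.single x 1), ?_, ?_, ?_⟩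
  · intro a b
    have h1 := hg2 _ (hadd_cone1 a b)
    have h2 := hg2 _ (hadd_cone2 a b)
    simp only [map_sub, map_add] at h1 h2
    linarith
  · intro a b h
    have h1 := hg2 _ (hle_cone a b h)
    simp only [map_sub] at h1
    linarith
  · have := hg1 ⟨uu, Submodule.mem_span_singleton_self _⟩
    rw [LinearPMap.mkSpanSingleton_apply] at this
    simpa using this

end Crest.Agent.Lib.QTExistState
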