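import Mathlib
import Crest.Agent.Lib.QTExistState

/-!
# Dimension functions from the rectangular condition (part of S0188 module A)

For a `*`-ring `R` with no "rectangular isometries" `c : M_{m,n}(R)`, `cᴴ c = 1`, `m < n`, we build
a function on `M₂(R)` which is monotone for exact comparison `a = cᴴ b c`, subadditive, additive on
orthogonally presented sums, and normalized on the corner `e₁₁`.
-/

set_option autoImplicit false
set_option linter.unusedSectionVars false

open scoped Matrix BigOperators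
open Matrix

namespace Crest.Agent.Lib.QTExistDim

variable {R : Type*} [Ring R] [StarRing R]

/-- Positivity in the algebraic sense: `a = cᴴ c`, `c` rectangular. -/
def IsP {ι : Type*} [Fintype ι] (a : Matrix ι ι R) : Prop :=
  ∃ (m : ℕ) (c : Matrix (Fin m) ι R), a = cᴴ * c

/-- Exact comparison. -/
def Prec {ι κ : Type*} [Fintype ι] [Fintype κ] (a : Matrix ι ι R) (b : Matrix κ κ R) : Prop :=
  ∃ c : Matrix κ ι R, a = cᴴ * b * c

section Basic
variable {ι κ oo : Type*} [Fintype ι] [Fintype κ] [Fintype oo]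

lemma IsP.of_eq {κ' : Type*} [Fintype κ'] {a : Matrix ι ι R} (c : Matrix κ' ι R)
    (h : a = cᴴ * c) : IsP a := by
  classical
  refine ⟨Fintype.card κ', c.submatrix (Fintype.equivFin κ').symm id, ?_⟩
  rw [h, conjTranspose_submatrix]
  have := submatrix_mul_equiv cᴴ c (id : ι → ι) (Fintype.equivFin κ').symm (id : ι → ι)
  rw [this]
  simp

lemma Prec.refl (a : Matrix ι ι R) : Prec a a := by
  classical
  exact ⟨1, by simp⟩

lemma Prec.trans {a : Matrix ι ι R} {b : Matrix κ κ R} {e : Matrix oo oo R}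
    (h1 : Prec a b) (h2 : Prec b e) : Prec a e := by
  obtain ⟨c, rfl⟩ := h1
  obtain ⟨d, rfl⟩ := h2
  refine ⟨d * c, ?_⟩
  rw [conjTranspose_mul]
  simp only [Matrix.mul_assoc]

lemma Prec.of_eq {a a' : Matrix ι ι R} (h : a = a') : Prec a a' := h ▸ Prec.refl a

lemma prec_submatrix (e : ι ≃ κ) (a : Matrix κ κ R) : Prec (a.submatrix e e) a := by
  classical
  refine ⟨(1 : Matrix κ κ R).submatrix id e, ?_⟩
  rw [conjTranspose_submatrix, conjTranspose_one]
  have h1 : (1 : Matrix κ κ R).submatrix e id * a = a.submatrix e id := by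
    have := submatrix_mul_equiv (1 : Matrix κ κ R) a e (Equiv.refl κ) id
    simpa using this
  rw [h1]
  have := submatrix_mul_equiv a (1 : Matrix κ κ R) e (Equiv.refl κ) e
  simpa using this.symm

lemma prec_submatrix' (e : ι ≃ κ) (a : Matrix κ κ R) : Prec a (a.submatrix e e) := by
  have := prec_submatrix e.symm (a.submatrix e e)
  simpa [submatrix_submatrix] using this

lemma prec_blocks {ι' κ' : Type*} [Fintype ι'] [Fintype κ'] {a : Matrix ι ι R} {a' : Matrix κ κ R}
    {b : Matrix ι' ι' R} {b' : Matrix κ' κ' R} (h1 : Prec a a') (h2 : Prec b b') :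
    Prec (fromBlocks a 0 0 b) (fromBlocks a' 0 0 b') := by
  obtain ⟨c, rfl⟩ := h1
  obtain ⟨d, rfl⟩ := h2
  refine ⟨fromBlocks c 0 0 d, ?_⟩
  simp [fromBlocks_conjTranspose, fromBlocks_multiply]

lemma IsP.conj {a : Matrix κ κ R} (h : IsP a) (c : Matrix κ ι R) : IsP (cᴴ * a * c) := by
  obtain ⟨m, x, rfl⟩ := h
  refine IsP.of_eq (x * c) ?_
  rw [conjTranspose_mul]
  simp only [Matrix.mul_assoc]

lemma IsP.selfAdj {a : Matrix ι ι R} (h : IsP a) : aᴴ = a := by
  obtain ⟨m, x, rfl⟩ := h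
  simp [conjTranspose_mul]

lemma IsP.add {a b : Matrix ι ι R} (h : IsP a) (h' : IsP b) : IsP (a + b) := by
  classical
  obtain ⟨m, x, rfl⟩ := h
  obtain ⟨m', y, rfl⟩ := h'
  refine IsP.of_eq (fromRows x y) ?_
  rw [conjTranspose_fromRows_eq_fromCols_conjTranspose, fromCols_mul_fromRows]

lemma IsP.blocks {ι' : Type*} [Fintype ι'] {a : Matrix ι ι R} {b : Matrix ι' ι' R}
    (h : IsP a) (h' : IsP b) : IsP (fromBlocks a 0 0 b) := by
  obtain ⟨m, x, rfl⟩ := h
  obtain ⟨m', y, rfl⟩ := h'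
  refine IsP.of_eq (fromBlocks x 0 0 y) ?_
  simp [fromBlocks_conjTranspose, fromBlocks_multiply]

lemma IsP.submatrix {a : Matrix κ κ R} (h : IsP a) (e : ι ≃ κ) : IsP (a.submatrix e e) := by
  obtain ⟨m, x, rfl⟩ := h
  refine IsP.of_eq (x.submatrix id e) ?_
  rw [conjTranspose_submatrix]
  have := submatrix_mul_equiv xᴴ x e (Equiv.refl _ : Fin m ≃ Fin m) e
  simpa using this.symm

end Basic

/-- Positive matrices of all sizes. -/
abbrev SS (R : Type*) [Ring R] [StarRing R] : Type _ :=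
  Σ n : ℕ, {a : Matrix (Fin n) (Fin n) R // IsP a}

/-- The relation `≈` of `SS`. -/
def ssSetoid (R : Type*) [Ring R] [StarRing R] : Setoid (SS R) where
  r a b := Prec a.2.1 b.2.1 ∧ Prec b.2.1 a.2.1
  iseqv :=
    { refl := fun a => ⟨Prec.refl _, Prec.refl _⟩
      symm := fun h => ⟨h.2, h.1⟩
      trans := fun h1 h2 => ⟨h1.1.trans h2.1, h2.2.trans h1.2⟩ }

/-- Direct sum on `SS`. -/
def dsum (a b : SS R) : SS R :=
  ⟨a.1 + b.1, (fromBlocks a.2.1 0 0 b.2.1).submatrix finSumFinEquiv.symm finSumFinEquiv.symm,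
    (IsP.blocks a.2.2 b.2.2).submatrix _⟩

lemma dsum_le (a b : SS R) : Prec (dsum a b).2.1 (fromBlocks a.2.1 0 0 b.2.1) :=
  prec_submatrix _ _

lemma le_dsum (a b : SS R) : Prec (fromBlocks a.2.1 0 0 b.2.1) (dsum a b).2.1 :=
  prec_submatrix' _ _

/-- The monoid of classes. -/
def WW (R : Type*) [Ring R] [StarRing R] : Type _ := Quotient (ssSetoid R)

/-- Class of an element. -/
def mk (a : SS R) : WW R := Quotient.mk (ssSetoid R) a

lemma mk_eq {a b : SS R} (h1 : Prec a.2.1 b.2.1) (h2 : Prec b.2.1 a.2.1) : mk a = mk b :=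
  Quotient.sound (s := ssSetoid R) ⟨h1, h2⟩

/-- Zero element. -/
def ssZero : SS R := ⟨0, 0, ⟨0, 0, by ext i; exact i.elim0⟩⟩

/-- Unit matrix of size `n`. -/
def ssOne (n : ℕ) : SS R := ⟨n, 1, ⟨n, 1, by simp⟩⟩

noncomputable instance : Add (WW R) where
  add := Quotient.map₂ (sa := ssSetoid R) (sb := ssSetoid R) (sc := ssSetoid R) dsum (by
    intro a a' h b b' h'
    exact ⟨((dsum_le a b).trans (prec_blocks h.1 h'.1)).trans (le_dsum a' b'),
      ((dsum_le a' b').trans (prec_blocks h.2 h'.2)).trans (le_dsum a b)⟩)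

instance : Zero (WW R) := ⟨mk ssZero⟩

lemma mk_add (a b : SS R) : mk a + mk b = mk (dsum a b) := rfl

lemma mk_zero : (0 : WW R) = mk ssZero := rfl

lemma WW.ind {p : WW R → Prop} (h : ∀ a, p (mk a)) (x : WW R) : p x :=
  Quotient.ind (s := ssSetoid R) h x

section Monoid

private lemma blocks_comm {ι κ : Type*} [Fintype ι] [Fintype κ] (a : Matrix ι ι R)
    (b : Matrix κ κ R) :
    fromBlocks a 0 0 b = (fromBlocks b 0 0 a).submatrix (Equiv.sumComm ι κ) (Equiv.sumComm ι κ) := by
  ext (i | i) (j | j) <;> simp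

private lemma blocks_assoc {ι κ o : Type*} [Fintype ι] [Fintype κ] [Fintype o] (a : Matrix ι ι R)
    (b : Matrix κ κ R) (c : Matrix o o R) :
    fromBlocks (fromBlocks a 0 0 b) 0 0 c
      = (fromBlocks a 0 0 (fromBlocks b 0 0 c)).submatrix (Equiv.sumAssoc ι κ o)
        (Equiv.sumAssoc ι κ o) := by
  ext ((i | i) | i) ((j | j) | j) <;> simp

private lemma blocks_zero {κ : Type*} [Fintype κ] (a : Matrix (Fin 0) (Fin 0) R)
    (b : Matrix κ κ R) :
    fromBlocks a 0 0 b = b.submatrix (Equiv.emptySum (Fin 0) κ) (Equiv.emptySum (Fin 0) κ) := by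
  ext (i | i) (j | j)
  · exact i.elim0
  · exact i.elim0
  · exact j.elim0
  · simp

private lemma dsum_comm_prec (a b : SS R) : Prec (dsum a b).2.1 (dsum b a).2.1 := by
  refine (dsum_le a b).trans (Prec.trans ?_ (le_dsum b a))
  rw [blocks_comm a.2.1 b.2.1]
  exact prec_submatrix _ _

noncomputable instance : AddCommMonoid (WW R) where
  add_assoc := by
    intro x y z
    induction x using WW.ind with | _ a => ?_
    induction y using WW.ind with | _ b => ?_
    induction z using WW.ind with | _ c => ?_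
    simp only [mk_add]
    refine mk_eq ?_ ?_
    · refine (dsum_le _ _).trans (Prec.trans (prec_blocks (dsum_le a b) (Prec.refl _)) ?_)
      rw [blocks_assoc]
      refine (prec_submatrix _ _).trans (Prec.trans ?_ (le_dsum _ _))
      exact prec_blocks (Prec.refl _) (le_dsum _ _)
    · refine (dsum_le _ _).trans (Prec.trans (prec_blocks (Prec.refl _) (dsum_le b c)) ?_)
      refine Prec.trans ?_ (le_dsum _ _)
      refine Prec.trans ?_ (prec_blocks (le_dsum a b) (Prec.refl _))
      rw [blocks_assoc]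
      exact prec_submatrix' _ _
  zero_add := by
    intro x
    induction x using WW.ind with | _ a => ?_
    rw [mk_zero, mk_add]
    refine mk_eq ((dsum_le _ _).trans ?_) (Prec.trans ?_ (le_dsum _ _))
    · change Prec (fromBlocks (0 : Matrix (Fin 0) (Fin 0) R) 0 0 a.2.1) a.2.1
      rw [blocks_zero]; exact prec_submatrix _ _
    · change Prec a.2.1 (fromBlocks (0 : Matrix (Fin 0) (Fin 0) R) 0 0 a.2.1)
      rw [blocks_zero]; exact prec_submatrix' _ _
  add_zero := by
    intro x
    induction x using WW.ind with | _ a => ?_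
    rw [mk_zero, mk_add]
    refine mk_eq ((dsum_comm_prec _ _).trans ((dsum_le _ _).trans ?_))
      (Prec.trans ?_ ((le_dsum _ _).trans (dsum_comm_prec _ _)))
    · change Prec (fromBlocks (0 : Matrix (Fin 0) (Fin 0) R) 0 0 a.2.1) a.2.1
      rw [blocks_zero]; exact prec_submatrix _ _
    · change Prec a.2.1 (fromBlocks (0 : Matrix (Fin 0) (Fin 0) R) 0 0 a.2.1)
      rw [blocks_zero]; exact prec_submatrix' _ _
  add_comm := by
    intro x y
    induction x using WW.ind with | _ a => ?_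
    induction y using WW.ind with | _ b => ?_
    simp only [mk_add]
    exact mk_eq (dsum_comm_prec _ _) (dsum_comm_prec _ _)
  nsmul := nsmulRec

/-- The order on `WW`. -/
def WW.le : WW R → WW R → Prop :=
  Quotient.lift₂ (s₁ := ssSetoid R) (s₂ := ssSetoid R) (fun a b => Prec a.2.1 b.2.1) (by
    intro a b a' b' h h'
    exact propext ⟨fun H => (h.2.trans H).trans h'.1, fun H => (h.1.trans H).trans h'.2⟩)

instance : Preorder (WW R) where
  le := WW.le
  le_refl := by
    intro x
    induction x using WW.ind with | _ a => ?_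
    exact Prec.refl _
  le_trans := by
    intro x y z
    induction x using WW.ind with | _ a => ?_
    induction y using WW.ind with | _ b => ?_
    induction z using WW.ind with | _ c => ?_
    exact Prec.trans

lemma mk_le_mk {a b : SS R} : mk a ≤ mk b ↔ Prec a.2.1 b.2.1 := Iff.rfl

lemma ww_add_le (a b c : WW R) (h : a ≤ b) : a + c ≤ b + c := by
  induction a using WW.ind with | _ a => ?_
  induction b using WW.ind with | _ b => ?_
  induction c using WW.ind with | _ c => ?_
  simp only [mk_add, mk_le_mk] at h ⊢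
  exact (dsum_le _ _).trans (Prec.trans (prec_blocks h (Prec.refl _)) (le_dsum _ _))

lemma ww_zero_le (a : WW R) : 0 ≤ a := by
  induction a using WW.ind with | _ a => ?_
  rw [mk_zero, mk_le_mk]
  refine ⟨fun _ j => j.elim0, ?_⟩
  ext i; exact i.elim0

lemma nsmul_u (n : ℕ) : n • (mk (ssOne 1) : WW R) = mk (ssOne n) := by
  induction n with
  | zero =>
    rw [zero_nsmul, mk_zero]
    refine mk_eq ?_ ?_ <;>
    · refine ⟨fun _ j => j.elim0, ?_⟩
      ext i; exact i.elim0
  | succ n ih =>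
    rw [succ_nsmul, ih, mk_add]
    have e : (dsum (ssOne n) (ssOne 1 : SS R)).2.1 = (ssOne (n + 1) : SS R).2.1 := by
      change ((fromBlocks (1 : Matrix (Fin n) (Fin n) R) 0 0 (1 : Matrix (Fin 1) (Fin 1) R)).submatrix
        finSumFinEquiv.symm finSumFinEquiv.symm) = 1
      rw [fromBlocks_one, submatrix_one_equiv]
    exact mk_eq (Prec.of_eq e) (Prec.of_eq e.symm)

lemma mk_le_nsmul_u (x : WW R) : ∃ n : ℕ, x ≤ n • (mk (ssOne 1) : WW R) := by
  induction x using WW.ind with | _ a => ?_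
  obtain ⟨n, a, ha⟩ := a
  obtain ⟨m, c, rfl⟩ := ha
  refine ⟨m, ?_⟩
  rw [nsmul_u, mk_le_mk]
  exact ⟨c, (by rw [Matrix.mul_one] : cᴴ * c = cᴴ * (1 : Matrix (Fin m) (Fin m) R) * c)⟩

end Monoid

/-- Existence of the dimension function on `M₂(R)`. -/
theorem exists_dim
    (hRC : ∀ m n : ℕ, m < n → ∀ c : Matrix (Fin m) (Fin n) R, cᴴ * c ≠ 1) :
    ∃ f : Matrix (Fin 2) (Fin 2) R → ℝ,
      (∀ a, 0 ≤ f a) ∧
      (∀ a b c : Matrix (Fin 2) (Fin 2) R, IsP a → IsP b → a = cᴴ * b * c → f a ≤ f b) ∧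
      (∀ a b : Matrix (Fin 2) (Fin 2) R, IsP a → IsP b → f (a + b) ≤ f a + f b) ∧
      (∀ a a' b φ₁ φ₂ : Matrix (Fin 2) (Fin 2) R, IsP a → IsP a' → IsP b →
        a = φ₁ᴴ * b * φ₁ → a' = φ₂ᴴ * b * φ₂ → φ₁ᴴ * b * φ₂ = 0 → f a + f a' ≤ f b) ∧
      f (Matrix.single 0 0 1) = 1 := by
  classical
  obtain ⟨g, gadd, gmono, gu⟩ := QTExistState.exists_state (W := WW R) ww_add_le ww_zero_le
    (mk (ssOne 1)) mk_le_nsmul_u (by
      intro m n hmn h
      rw [nsmul_u, nsmul_u, mk_le_mk] at h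
      obtain ⟨c, hc⟩ := h
      change Matrix (Fin m) (Fin n) R at c
      apply hRC m n hmn c
      have hc' : (1 : Matrix (Fin n) (Fin n) R) = cᴴ * (1 : Matrix (Fin m) (Fin m) R) * c := hc
      rw [Matrix.mul_one] at hc'
      exact hc'.symm)
  have g0 : g 0 = 0 := by
    have := gadd 0 0
    rw [add_zero] at this
    linarith
  have gnn : ∀ x, 0 ≤ g x := fun x => by
    have := gmono 0 x (ww_zero_le x)
    linarith
  let F : Matrix (Fin 2) (Fin 2) R → ℝ := fun a =>
    if h : IsP a then g (mk ⟨2, a, h⟩) else 0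
  have hF : ∀ (a : Matrix (Fin 2) (Fin 2) R) (h : IsP a), F a = g (mk ⟨2, a, h⟩) := fun a h =>
    dif_pos h
  refine ⟨F, ?_, ?_, ?_, ?_, ?_⟩
  · intro a
    by_cases h : IsP a
    · rw [hF a h]; exact gnn _
    · simp only [F, dif_neg h]; exact le_refl _
  · intro a b c ha hb h
    rw [hF a ha, hF b hb]
    exact gmono _ _ (mk_le_mk.mpr ⟨c, h⟩)
  · intro a b ha hb
    rw [hF a ha, hF b hb, hF _ (ha.add hb), ← gadd, mk_add]
    apply gmono
    rw [mk_le_mk]
    refine Prec.trans ?_ (le_dsum _ _)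
    refine ⟨fromRows 1 1, ?_⟩
    rw [conjTranspose_fromRows_eq_fromCols_conjTranspose, fromCols_mul_fromBlocks,
      fromCols_mul_fromRows]
    simp
  · intro a a' b φ₁ φ₂ ha ha' hb h1 h2 h3
    rw [hF a ha, hF a' ha', hF b hb, ← gadd, mk_add]
    apply gmono
    rw [mk_le_mk]
    refine (dsum_le _ _).trans ?_
    refine ⟨fromCols φ₁ φ₂, ?_⟩
    have h4 : φ₂ᴴ * b * φ₁ = 0 := by
      have := congrArg conjTranspose h3
      simpa [conjTranspose_mul, hb.selfAdj, Matrix.mul_assoc] using this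
    rw [conjTranspose_fromCols_eq_fromRows_conjTranspose, fromRows_mul, fromRows_mul_fromCols]
    simp only [← h1, ← h2, h3, h4]
  · have hP : IsP (Matrix.single (0 : Fin 2) (0 : Fin 2) (1 : R)) := by
      refine IsP.of_eq (Matrix.single (0 : Fin 2) (0 : Fin 2) (1 : R)) ?_
      ext i j
      fin_cases i <;> fin_cases j <;>
        simp [Matrix.mul_apply, Fin.sum_univ_two, Matrix.single_apply, conjTranspose_apply]
    rw [hF _ hP, ← gu]
    congr 1
    refine mk_eq ?_ ?_
    · refine ⟨(Matrix.of fun _ j => if j = 0 then 1 else 0 : Matrix (Fin 1) (Fin 2) R), ?_⟩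
      change Matrix.single (0 : Fin 2) (0 : Fin 2) (1 : R) =
        (Matrix.of fun _ j => if j = 0 then 1 else 0 : Matrix (Fin 1) (Fin 2) R)ᴴ *
          (1 : Matrix (Fin 1) (Fin 1) R) *
          (Matrix.of fun _ j => if j = 0 then 1 else 0 : Matrix (Fin 1) (Fin 2) R)
      rw [Matrix.mul_one]
      ext i j
      fin_cases i <;> fin_cases j <;>
        simp [Matrix.mul_apply, Matrix.single_apply, conjTranspose_apply]
    · refine ⟨(Matrix.of fun i _ => if i = 0 then 1 else 0 : Matrix (Fin 2) (Fin 1) R), ?_⟩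
      change (1 : Matrix (Fin 1) (Fin 1) R) =
        (Matrix.of fun i _ => if i = 0 then 1 else 0 : Matrix (Fin 2) (Fin 1) R)ᴴ *
          Matrix.single (0 : Fin 2) (0 : Fin 2) (1 : R) *
          (Matrix.of fun i _ => if i = 0 then 1 else 0 : Matrix (Fin 2) (Fin 1) R)
      ext i j
      fin_cases i; fin_cases j
      simp [Matrix.mul_apply, Fin.sum_univ_two, Matrix.single_apply, conjTranspose_apply]

end Crest.Agent.Lib.QTExistDim
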