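import Crest.Agent.Lib.QTExistComm
import Crest.Prelude.Def_Quasitrace

/-!
# The quasitrace of a dimension function
-/

set_option autoImplicit false
set_option linter.unusedSectionVars false

namespace Crest.Agent.Lib.QTExist

open MeasureTheory Set
open scoped ComplexStarModule

variable {D : Type*} [CStarAlgebra D] {f : D → ℝ}

/-! ### Intertwining `x (x⋆x) = (x x⋆) x` -/

lemma intertwine_pow (x : D) (n : ℕ) : x * (star x * x) ^ n = (x * star x) ^ n * x := by
  induction n with
  | zero => simp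
  | succ n ih =>
    calc x * (star x * x) ^ (n + 1) = x * ((star x * x) ^ n * (star x * x)) := by rw [pow_succ]
      _ = (x * (star x * x) ^ n) * (star x * x) := by rw [mul_assoc]
      _ = ((x * star x) ^ n * x) * (star x * x) := by rw [ih]
      _ = (x * star x) ^ n * ((x * star x) * x) := by simp only [mul_assoc]
      _ = (x * star x) ^ (n + 1) * x := by rw [pow_succ]; simp only [mul_assoc]

lemma intertwine_poly (x : D) (p : Polynomial ℝ) :
    x * Polynomial.aeval (star x * x) p = Polynomial.aeval (x * star x) p * x := by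
  induction p using Polynomial.induction_on' with
  | add p q hp hq => simp only [map_add, mul_add, add_mul, hp, hq]
  | monomial n a =>
    simp only [Polynomial.aeval_monomial, Algebra.commutes, ← mul_assoc]
    rw [intertwine_pow, mul_assoc, mul_assoc, Algebra.commutes]

/-- For every continuous `g`, `x g(x⋆x) = g(x x⋆) x`. -/
lemma intertwine_cfc (x : D) (g : ℝ → ℝ) (hg : Continuous g) :
    x * cfc g (star x * x) = cfc g (x * star x) * x := by
  set a := star x * x with ha
  set b := x * star x with hb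
  have hsa : IsSelfAdjoint a := IsSelfAdjoint.star_mul_self x
  have hsb : IsSelfAdjoint b := IsSelfAdjoint.mul_star_self x
  nontriviality D
  set R : ℝ := max ‖a‖ ‖b‖ + 1 with hR
  have hspa : spectrum ℝ a ⊆ Icc (-R) R := by
    intro s hs
    have h1 : ‖s‖ ≤ ‖a‖ := spectrum.norm_le_norm_of_mem hs
    have h2 : ‖a‖ ≤ R := by
      have := le_max_left ‖a‖ ‖b‖
      rw [hR]
      linarith
    exact abs_le.mp (h1.trans h2)
  have hspb : spectrum ℝ b ⊆ Icc (-R) R := by
    intro s hs
    have h1 : ‖s‖ ≤ ‖b‖ := spectrum.norm_le_norm_of_mem hs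
    have h2 : ‖b‖ ≤ R := by
      have := le_max_right ‖a‖ ‖b‖
      rw [hR]
      linarith
    exact abs_le.mp (h1.trans h2)
  apply sub_eq_zero.mp
  apply norm_le_zero_iff.mp
  apply le_of_forall_pos_le_add
  intro ε hε
  rw [zero_add]
  set δ : ℝ := ε / (2 * (‖x‖ + 1)) with hδ
  have hδpos : 0 < δ := by positivity
  obtain ⟨p, hp⟩ := exists_polynomial_near_of_continuousOn (-R) R g hg.continuousOn δ hδpos
  have hpc : Continuous fun s : ℝ => Polynomial.eval s p := p.continuous
  have hdiff : ∀ c : D, IsSelfAdjoint c → spectrum ℝ c ⊆ Icc (-R) R →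
      ‖Polynomial.aeval c p - cfc g c‖ ≤ δ := by
    intro c hc hsp
    have h1 : Polynomial.aeval c p = cfc (fun s => Polynomial.eval s p) c := (cfc_polynomial p c hc).symm
    rw [h1, ← cfc_sub _ _ c hpc.continuousOn hg.continuousOn]
    refine norm_cfc_le hδpos.le fun s hs => ?_
    exact (hp s (hsp hs)).le
  have e1 := hdiff a hsa hspa
  have e2 := hdiff b hsb hspb
  have key : x * cfc g a - cfc g b * x =
      x * (cfc g a - Polynomial.aeval a p) + (Polynomial.aeval b p - cfc g b) * x := by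
    have := intertwine_poly x p
    rw [← ha, ← hb] at this
    rw [mul_sub, sub_mul, this]
    abel
  rw [key]
  calc ‖x * (cfc g a - Polynomial.aeval a p) + (Polynomial.aeval b p - cfc g b) * x‖
      ≤ ‖x‖ * ‖cfc g a - Polynomial.aeval a p‖ + ‖Polynomial.aeval b p - cfc g b‖ * ‖x‖ :=
        (norm_add_le _ _).trans (add_le_add (norm_mul_le _ _) (norm_mul_le _ _))
    _ ≤ ‖x‖ * δ + δ * ‖x‖ := by
        refine add_le_add (mul_le_mul_of_nonneg_left ?_ (norm_nonneg _))
          (mul_le_mul_of_nonneg_right e2 (norm_nonneg _))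
        rw [norm_sub_rev]
        exact e1
    _ ≤ ε := by
        rw [hδ]
        have hx : 0 < ‖x‖ + 1 := by positivity
        field_simp
        nlinarith [norm_nonneg x]

/-- `(x⋆x - t)₊ = c⋆ (x x⋆ - t')₊ c` for `t' < t`, `0 < t`. -/
lemma cut_star_mul_eq_conj (x : D) {t t' : ℝ} (ht : 0 < t) (h : t' < t) :
    ∃ c : D, cut (star x * x) t = star c * cut (x * star x) t' * c := by
  set a := star x * x with ha
  set b := x * star x with hb
  have hsa : IsSelfAdjoint a := IsSelfAdjoint.star_mul_self x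
  have hd1 : ∀ s : ℝ, 0 < max (s - t') (t - t') := fun s => lt_max_of_lt_right (sub_pos.mpr h)
  have hd2 : ∀ s : ℝ, 0 < max s t := fun s => lt_max_of_lt_right ht
  let φ : ℝ → ℝ := fun s => Real.sqrt (max (s - t) 0 / (max (s - t') (t - t') * max s t))
  have hφ : Continuous φ := by
    refine Real.continuous_sqrt.comp ?_
    refine Continuous.div (by fun_prop) (by fun_prop) fun s => ?_
    exact (mul_pos (hd1 s) (hd2 s)).ne'
  let g : ℝ → ℝ := fun s => max (s - t') 0
  have hg : Continuous g := by fun_prop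
  refine ⟨x * cfc φ a, ?_⟩
  have hφs : star (cfc φ a) = cfc φ a := cfc_real_star φ a
  have h1 : star (x * cfc φ a) * cut b t' * (x * cfc φ a) =
      cfc φ a * (star x * (cfc g b * x)) * cfc φ a := by
    rw [star_mul, hφs]
    unfold cut
    noncomm_ring
  rw [h1, ← intertwine_cfc x g hg]
  have h2 : cfc φ a * (star x * (x * cfc g a)) * cfc φ a =
      cfc φ a * (a * cfc g a) * cfc φ a := by
    rw [ha]
    noncomm_ring
  rw [← ha, h2]
  have hid : a = cfc (fun s : ℝ => s) a := (cfc_id' ℝ a hsa).symm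
  have h3 : cfc φ a * (a * cfc g a) * cfc φ a =
      cfc (fun s => φ s * (s * g s) * φ s) a := by
    have c1 : Continuous fun s : ℝ => s := continuous_id
    rw [cfc_mul _ _ a (by fun_prop) hφ.continuousOn,
      cfc_mul _ _ a hφ.continuousOn (by fun_prop),
      cfc_mul _ _ a c1.continuousOn hg.continuousOn, ← hid]
  rw [h3]
  unfold cut
  refine cfc_congr fun s _ => ?_
  show max (s - t) 0 = φ s * (s * g s) * φ s
  have hq : 0 ≤ max (s - t) 0 / (max (s - t') (t - t') * max s t) :=
    div_nonneg (le_max_right _ _) (mul_pos (hd1 s) (hd2 s)).le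
  have hm := Real.mul_self_sqrt hq
  have : φ s * (s * g s) * φ s = (φ s * φ s) * (s * g s) := by ring
  rw [this]
  show _ = (Real.sqrt _ * Real.sqrt _) * (s * g s)
  rw [hm]
  rcases le_total t s with hs | hs
  · have e1 : max (s - t) 0 = s - t := max_eq_left (by linarith)
    have e2 : max (s - t') (t - t') = s - t' := max_eq_left (by linarith)
    have e3 : max s t = s := max_eq_left hs
    have e4 : g s = s - t' := max_eq_left (by linarith)
    rw [e1, e2, e3, e4]
    have p1 : s - t' ≠ 0 := by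
      have : 0 < s - t' := by linarith
      exact this.ne'
    have p2 : s ≠ 0 := by
      have : 0 < s := by linarith
      exact this.ne'
    field_simp
  · have e1 : max (s - t) 0 = 0 := max_eq_right (by linarith)
    rw [e1]
    simp

lemma IsDim.T_star_mul (hf : IsDim f) (x : D) : T f (star x * x) = T f (x * star x) := by
  unfold T
  have hsa : IsSelfAdjoint (star x * x) := IsSelfAdjoint.star_mul_self x
  have hsb : IsSelfAdjoint (x * star x) := IsSelfAdjoint.mul_star_self x
  refine integral_eq_of_interlace (hf.antitone_cut hsa) (hf.antitone_cut hsb) ?_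
  intro t t' ht' htt
  have ht : 0 < t := ht'.trans htt
  constructor
  · obtain ⟨c, hc⟩ := cut_star_mul_eq_conj x ht htt
    rw [hc]
    exact hf.conj _ _ (cut_isPos hsb t')
  · obtain ⟨c, hc⟩ := cut_star_mul_eq_conj (star x) ht htt
    rw [star_star] at hc
    rw [hc]
    exact hf.conj _ _ (cut_isPos hsa t')

/-! ### Negative parts vanish on positive elements -/

lemma spectrum_star_mul_nonneg (x : D) {s : ℝ} (hs : s ∈ spectrum ℝ (star x * x)) : 0 ≤ s := by
  letI := CStarAlgebra.spectralOrder D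
  letI := CStarAlgebra.spectralOrderedRing D
  exact spectrum_nonneg_of_nonneg (star_mul_self_nonneg x) hs

lemma cut_neg_of_pos {a : D} (ha : Pos a) {t : ℝ} (ht : 0 < t) : cut (-a) t = 0 := by
  obtain ⟨x, rfl⟩ := ha
  have hsa : IsSelfAdjoint (star x * x) := IsSelfAdjoint.star_mul_self x
  unfold cut
  rw [← cfc_comp_neg (fun s : ℝ => max (s - t) 0) (star x * x)]
  have : Set.EqOn (fun s : ℝ => max (-s - t) 0) (fun _ => 0) (spectrum ℝ (star x * x)) := by
    intro s hs
    have := spectrum_star_mul_nonneg x hs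
    exact max_eq_right (by linarith)
  rw [cfc_congr this]
  simp

lemma IsDim.T_neg_of_pos (hf : IsDim f) {a : D} (ha : Pos a) : T f (-a) = 0 := by
  unfold T
  rw [setIntegral_congr_fun (g := fun _ => (0 : ℝ)) measurableSet_Ioi]
  · simp
  · intro t ht
    simp only
    rw [cut_neg_of_pos ha ht, hf.zero]

lemma IsDim.T_zero (hf : IsDim f) : T f (0 : D) = 0 := by
  have := hf.T_neg_of_pos (Pos.zero (D := D))
  simpa using this

lemma tauSA_zero (hf : IsDim f) : tauSA f (0 : D) = 0 := by
  unfold tauSA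
  simp [hf.T_zero]

lemma tau_of_isSelfAdjoint (hf : IsDim f) {h : D} (hh : IsSelfAdjoint h) :
    tau f h = (tauSA f h : ℂ) := by
  unfold tau
  have h1 : (ℜ h : D) = h := hh.coe_realPart
  have h2 : (ℑ h : D) = 0 := by
    rw [hh.imaginaryPart]
    rfl
  rw [h1, h2, tauSA_zero hf]
  simp

lemma tau_add_I (hf : IsDim f) {h k : D} (hh : IsSelfAdjoint h) (hk : IsSelfAdjoint k) :
    tau f (h + Complex.I • k) = tau f h + Complex.I * tau f k := by
  rw [tau_of_isSelfAdjoint hf hh, tau_of_isSelfAdjoint hf hk]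
  unfold tau
  have h1 : (ℜ (h + Complex.I • k) : D) = h := by
    rw [map_add, realPart_I_smul, hk.imaginaryPart]
    simp [hh.coe_realPart]
  have h2 : (ℑ (h + Complex.I • k) : D) = k := by
    rw [map_add, imaginaryPart_I_smul, hh.imaginaryPart]
    simp [hk.coe_realPart]
  rw [h1, h2]

/-- **The quasitrace.** -/
theorem tau_isOneQuasitrace (hf : IsDim f) : Crest.OpAlg.IsOneQuasitrace (tau f) := by
  refine ⟨fun x => ?_, fun h k hh hk => tau_add_I hf hh hk, fun S hS => tau_comm hf S hS⟩
  have hsa : IsSelfAdjoint (star x * x) := IsSelfAdjoint.star_mul_self x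
  have hsb : IsSelfAdjoint (x * star x) := IsSelfAdjoint.mul_star_self x
  have ha : Pos (star x * x) := ⟨x, rfl⟩
  have hb : Pos (x * star x) := ⟨star x, by rw [star_star]⟩
  have e1 : tau f (star x * x) = (T f (star x * x) : ℂ) := by
    rw [tau_of_isSelfAdjoint hf hsa]
    unfold tauSA
    rw [hf.T_neg_of_pos ha]
    simp
  have e2 : tau f (x * star x) = (T f (x * star x) : ℂ) := by
    rw [tau_of_isSelfAdjoint hf hsb]
    unfold tauSA
    rw [hf.T_neg_of_pos hb]
    simp
  rw [e1, e2, hf.T_star_mul]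
  refine ⟨rfl, by simp, ?_⟩
  simpa using hf.T_nonneg hsb

/-! ### The value at the unit -/

lemma cut_one (t : ℝ) : cut (1 : D) t = algebraMap ℝ D (max (1 - t) 0) := by
  unfold cut
  have := cfc_algebraMap (A := D) (1 : ℝ) (fun s : ℝ => max (s - t) 0)
  simpa using this

lemma IsDim.f_cut_one (hf : IsDim f) {t : ℝ} (ht : t < 1) : f (cut (1 : D) t) = f 1 := by
  rw [cut_one, max_eq_left (by linarith)]
  set l : ℝ := 1 - t with hl
  have hlpos : 0 < l := by rw [hl]; linarith
  have hal : ∀ r : ℝ, star (algebraMap ℝ D r) = algebraMap ℝ D r := fun r => by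
    rw [← algebraMap_star_comm]
    simp
  apply le_antisymm
  · have h1 : algebraMap ℝ D l =
        star (algebraMap ℝ D (Real.sqrt l)) * (1 : D) * algebraMap ℝ D (Real.sqrt l) := by
      rw [hal, mul_one, ← map_mul, Real.mul_self_sqrt hlpos.le]
    rw [h1]
    exact hf.conj _ _ Pos.one
  · have h0 : Pos (algebraMap ℝ D l) := by
      refine ⟨algebraMap ℝ D (Real.sqrt l), ?_⟩
      rw [hal, ← map_mul, Real.mul_self_sqrt hlpos.le]
    have h1 : (1 : D) =
        star (algebraMap ℝ D (Real.sqrt l)⁻¹) * algebraMap ℝ D l * algebraMap ℝ D (Real.sqrt l)⁻¹ := by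
      rw [hal, ← map_mul, ← map_mul]
      have hs : Real.sqrt l ≠ 0 := (Real.sqrt_pos.mpr hlpos).ne'
      have : (Real.sqrt l)⁻¹ * l * (Real.sqrt l)⁻¹ = 1 := by
        nth_rw 2 [← Real.mul_self_sqrt hlpos.le]
        field_simp
      rw [this, map_one]
    calc f 1 = f (star (algebraMap ℝ D (Real.sqrt l)⁻¹) * algebraMap ℝ D l *
          algebraMap ℝ D (Real.sqrt l)⁻¹) := by rw [← h1]
      _ ≤ _ := hf.conj _ _ h0

lemma IsDim.T_one (hf : IsDim f) : T f (1 : D) = f 1 := by
  unfold T
  have hsplit : Ioi (0 : ℝ) = Ioc 0 1 ∪ Ioi 1 := (Ioc_union_Ioi_eq_Ioi (by norm_num)).symm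
  have hint := hf.integrableOn_cut (a := (1 : D)) (IsSelfAdjoint.one D)
  rw [hsplit] at hint ⊢
  rw [setIntegral_union (by
    rw [Set.disjoint_left]
    intro x hx hx'
    exact absurd hx.2 (not_le.mpr hx')) measurableSet_Ioi hint.left_of_union hint.right_of_union]
  have h2 : ∫ t in Ioi (1 : ℝ), f (cut (1 : D) t) = 0 := by
    rw [setIntegral_congr_fun (g := fun _ => (0 : ℝ)) measurableSet_Ioi]
    · simp
    · intro t ht
      have ht' : (1 : ℝ) < t := ht
      simp only
      rw [cut_one, max_eq_right (by linarith), map_zero, hf.zero]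
  have h1 : ∫ t in Ioc (0 : ℝ) 1, f (cut (1 : D) t) = f 1 := by
    have : ∀ᵐ t ∂(volume.restrict (Ioc (0 : ℝ) 1)), f (cut (1 : D) t) = f 1 := by
      have h3 : ∀ᵐ t ∂(volume : Measure ℝ), t ≠ 1 := by
        simp [ae_iff]
      refine (ae_restrict_iff' measurableSet_Ioc).mpr ?_
      filter_upwards [h3] with t ht htm
      exact hf.f_cut_one (lt_of_le_of_ne htm.2 ht)
    rw [integral_congr_ae this]
    simp
  rw [h1, h2, add_zero]

theorem IsDim.tau_one (hf : IsDim f) : tau f (1 : D) = f 1 := by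
  rw [tau_of_isSelfAdjoint hf (IsSelfAdjoint.one D)]
  unfold tauSA
  rw [hf.T_neg_of_pos Pos.one, hf.T_one]
  simp

/-! ### Compatibility with non-unital star homomorphisms -/

section map

variable {D' : Type*} [CStarAlgebra D'] {f' : D' → ℝ}

lemma cut_map (ι : D →⋆ₙₐ[ℂ] D') {h : D} (hh : IsSelfAdjoint h) {t : ℝ} (ht : 0 < t) :
    cut (ι h) t = ι (cut h t) := by
  unfold cut
  have h0 : (fun s : ℝ => max (s - t) 0) 0 = 0 := by
    simp only [zero_sub]
    exact max_eq_right (by linarith)
  have hc : Continuous fun s : ℝ => max (s - t) 0 := by fun_prop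
  have hι : Continuous ι := AddMonoidHomClass.continuous_of_bound ι 1
    (fun a => by simpa using NonUnitalStarAlgHom.norm_apply_le ι a)
  have hsa : IsSelfAdjoint (ι h) := hh.map ι
  rw [← cfcₙ_eq_cfc (f := fun s : ℝ => max (s - t) 0) (a := ι h) hc.continuousOn,
    ← cfcₙ_eq_cfc (f := fun s : ℝ => max (s - t) 0) (a := h) hc.continuousOn]
  exact (NonUnitalStarAlgHom.map_cfcₙ ι (fun s : ℝ => max (s - t) 0) h hc.continuousOn h0 hι hh hsa).symm

lemma T_map (ι : D →⋆ₙₐ[ℂ] D') (hι : ∀ b, Pos b → f' (ι b) = f b) {h : D} (hh : IsSelfAdjoint h) :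
    T f' (ι h) = T f h := by
  unfold T
  refine setIntegral_congr_fun measurableSet_Ioi fun t ht => ?_
  show f' (cut (ι h) t) = f (cut h t)
  rw [cut_map ι hh ht, hι _ (cut_isPos hh t)]

lemma tauSA_map (ι : D →⋆ₙₐ[ℂ] D') (hι : ∀ b, Pos b → f' (ι b) = f b) {h : D} (hh : IsSelfAdjoint h) :
    tauSA f' (ι h) = tauSA f h := by
  unfold tauSA
  rw [T_map ι hι hh, ← map_neg, T_map ι hι hh.neg]

theorem tau_map (ι : D →⋆ₙₐ[ℂ] D') (hι : ∀ b, Pos b → f' (ι b) = f b) (x : D) :
    tau f' (ι x) = tau f x := by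
  unfold tau
  have hr : ∀ (r : ℝ) (y : D), ι (r • y) = r • ι y := by
    intro r y
    have := map_smul ι (r : ℂ) y
    simpa [Complex.coe_smul] using this
  have h1 : (ℜ (ι x) : D') = ι (ℜ x : D) := by
    rw [realPart_apply_coe, realPart_apply_coe, hr, map_add, map_star]
  have h2 : (ℑ (ι x) : D') = ι (ℑ x : D) := by
    rw [imaginaryPart_apply_coe, imaginaryPart_apply_coe, map_smul, hr, map_sub, map_star]
  rw [h1, h2, tauSA_map ι hι (ℜ x).2, tauSA_map ι hι (ℑ x).2]

end map

/-! ### Transfer along star isomorphisms and the final form -/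

section transfer

variable {C C' : Type*} [Ring C] [StarRing C] [Algebra ℂ C] [StarModule ℂ C]
  [Ring C'] [StarRing C'] [Algebra ℂ C'] [StarModule ℂ C']

theorem isOneQuasitrace_transfer (e : C ≃⋆ₐ[ℂ] C') {τ' : C' → ℂ}
    (h : Crest.OpAlg.IsOneQuasitrace τ') : Crest.OpAlg.IsOneQuasitrace (fun x => τ' (e x)) := by
  obtain ⟨h1, h2, h3⟩ := h
  refine ⟨fun x => ?_, fun a b ha hb => ?_, fun S hS => ?_⟩
  · have := h1 (e x)
    simpa [map_mul, map_star] using this
  · have := h2 (e a) (e b) (ha.map e) (hb.map e)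
    simpa [map_add, map_smul] using this
  · have hS' : ∀ x ∈ S.map (e : C →⋆ₐ[ℂ] C'), ∀ y ∈ S.map (e : C →⋆ₐ[ℂ] C'), x * y = y * x := by
      rintro _ ⟨x, hx, rfl⟩ _ ⟨y, hy, rfl⟩
      have := hS x hx y hy
      show e x * e y = e y * e x
      rw [← map_mul, ← map_mul, this]
    obtain ⟨h4, h5⟩ := h3 (S.map (e : C →⋆ₐ[ℂ] C')) hS'
    constructor
    · intro x hx y hy
      have := h4 (e x) ⟨x, hx, rfl⟩ (e y) ⟨y, hy, rfl⟩
      simpa [map_add] using this
    · intro c x hx
      have := h5 c (e x) ⟨x, hx, rfl⟩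
      simpa [map_smul] using this

end transfer

section corner

variable {A : Type*} [CStarAlgebra A] [PartialOrder A] [StarOrderedRing A]

variable (A) in
/-- The corner embedding. -/
noncomputable def corner : A →⋆ₙₐ[ℂ] CStarMatrix (Fin 2) (Fin 2) A where
  toFun x := CStarMatrix.ofMatrix (Matrix.single 0 0 x)
  map_smul' c x := by
    show Matrix.single 0 0 (c • x) = c • Matrix.single 0 0 x
    rw [Matrix.smul_single]
  map_zero' := by
    show Matrix.single (0 : Fin 2) (0 : Fin 2) (0 : A) = 0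
    exact Matrix.single_zero _ _
  map_add' x y := by
    exact Matrix.single_add _ _ _ _
  map_mul' x y := by
    show Matrix.single (0 : Fin 2) (0 : Fin 2) (x * y) =
      Matrix.single (0 : Fin 2) (0 : Fin 2) x * Matrix.single (0 : Fin 2) (0 : Fin 2) y
    rw [Matrix.single_mul_single_same]
  map_star' x := (Matrix.conjTranspose_single (0 : Fin 2) (0 : Fin 2) x).symm

/-- **From dimension functions to normalized 2-quasitraces.** -/
theorem normalizedTwoQuasitrace_of_dim {f₁ : A → ℝ}
    {f₂ : CStarMatrix (Fin 2) (Fin 2) A → ℝ} (h₁ : IsDim f₁) (h₂ : IsDim f₂) (hone : f₁ 1 = 1)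
    (hcorner : ∀ b, Pos b → f₂ (corner A b) = f₁ b) :
    Crest.OpAlg.IsNormalizedTwoQuasitrace (tau f₁) := by
  refine ⟨tau_isOneQuasitrace h₁, ?_, ?_⟩
  · rw [h₁.tau_one, hone]
    simp
  · refine ⟨fun x => tau f₂ (CStarMatrix.ofMatrixStarAlgEquiv x), ?_, fun x => ?_⟩
    · exact isOneQuasitrace_transfer _ (tau_isOneQuasitrace h₂)
    · exact tau_map (corner A) hcorner x

end corner

end Crest.Agent.Lib.QTExist
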