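import Mathlib
import Crest.Agent.Lib.QTExistDim
import Crest.Agent.Lib.QTExistTau

/-!
# Module A of S0188: the rectangular condition gives a normalized 2-quasitrace
-/

set_option autoImplicit false

open scoped Matrix

namespace Crest.Agent.Lib.QTExist

open Crest.Agent.Lib.QTExistDim in
/-- RC ⟹ a normalized 2-quasitrace exists. -/
theorem exists_twoQuasitrace {A : Type*} [CStarAlgebra A]
    (hRC : ∀ m n : ℕ, m < n → ∀ c : Matrix (Fin m) (Fin n) A, c.conjTranspose * c ≠ 1) :
    ∃ τ : A → ℂ, Crest.OpAlg.IsNormalizedTwoQuasitrace τ := by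
  classical
  let _ : PartialOrder A := CStarAlgebra.spectralOrder A
  have _ : StarOrderedRing A := CStarAlgebra.spectralOrderedRing A
  obtain ⟨f, fnn, fmono, fadd, forth, fone⟩ := exists_dim (R := A) hRC
  -- positivity on `M₂(A)`
  have hPm : ∀ a : Matrix (Fin 2) (Fin 2) A, (∃ b : Matrix (Fin 2) (Fin 2) A, a = bᴴ * b) → IsP a := by
    rintro a ⟨b, rfl⟩
    exact IsP.of_eq b rfl
  have hP1 : ∀ a : A, Pos a → IsP (Matrix.single (0 : Fin 2) (0 : Fin 2) a) := by
    rintro a ⟨b, rfl⟩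
    refine hPm _ ⟨Matrix.single 0 0 b, ?_⟩
    rw [Matrix.conjTranspose_single, Matrix.single_mul_single_same]
  have f0 : f 0 = 0 := by
    have hP0 : IsP (0 : Matrix (Fin 2) (Fin 2) A) := hPm 0 ⟨0, by simp⟩
    have := forth 0 0 0 0 0 hP0 hP0 hP0 (by simp) (by simp) (by simp)
    have h0 := fnn 0
    linarith
  have cs : ∀ c g : A, (Matrix.single (0 : Fin 2) (0 : Fin 2) c)ᴴ * Matrix.single 0 0 g *
      Matrix.single 0 0 c = Matrix.single 0 0 (star c * g * c) := by
    intro c g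
    rw [Matrix.conjTranspose_single, Matrix.single_mul_single_same, Matrix.single_mul_single_same]
  have cs2 : ∀ p q g : A, (Matrix.single (0 : Fin 2) (0 : Fin 2) p)ᴴ * Matrix.single 0 0 g *
      Matrix.single 0 0 q = Matrix.single 0 0 (star p * g * q) := by
    intro c d g
    rw [Matrix.conjTranspose_single, Matrix.single_mul_single_same, Matrix.single_mul_single_same]
  -- `f₁`
  have h₁ : IsDim (fun a : A => f (Matrix.single 0 0 a)) := by
    refine ⟨fun a _ => fnn _, by simpa using f0, ?_, ?_, ?_⟩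
    · intro a c ha
      have := fmono _ _ (Matrix.single (0 : Fin 2) (0 : Fin 2) c)
        (hP1 _ (ha.conj c)) (hP1 _ ha) (cs c a).symm
      exact this
    · intro a b ha hb
      have := fadd _ _ (hP1 _ ha) (hP1 _ hb)
      simpa [Matrix.single_add] using this
    · intro g p q hg h0
      refine forth _ _ _ (Matrix.single 0 0 p) (Matrix.single 0 0 q) (hP1 _ (hg.conj p))
        (hP1 _ (hg.conj q)) (hP1 _ hg) (cs p g).symm (cs q g).symm ?_
      rw [cs2, h0]; simp
  -- `f₂`
  have h₂ : IsDim (fun a : CStarMatrix (Fin 2) (Fin 2) A => f (CStarMatrix.ofMatrix.symm a)) := by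
    have hP2 : ∀ a : CStarMatrix (Fin 2) (Fin 2) A, Pos a → IsP (CStarMatrix.ofMatrix.symm a) := by
      rintro a ⟨b, rfl⟩
      exact hPm _ ⟨CStarMatrix.ofMatrix.symm b, rfl⟩
    refine ⟨fun a _ => fnn _, f0, ?_, ?_, ?_⟩
    · intro a c ha
      refine fmono _ _ (CStarMatrix.ofMatrix.symm c) (hP2 _ (ha.conj c)) (hP2 _ ha) rfl
    · intro a b ha hb
      exact fadd _ _ (hP2 _ ha) (hP2 _ hb)
    · intro g p q hg h0
      exact forth _ _ _ (CStarMatrix.ofMatrix.symm p) (CStarMatrix.ofMatrix.symm q)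
        (hP2 _ (hg.conj p)) (hP2 _ (hg.conj q)) (hP2 _ hg) rfl rfl h0
  exact ⟨_, normalizedTwoQuasitrace_of_dim h₁ h₂ fone (fun b _ => rfl)⟩

end Crest.Agent.Lib.QTExist
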