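import Crest.Agent.Lib.QTExistDefs

/-!
# The quasitrace is linear on commutative subalgebras

A dimension function restricted to `C(Ω)` (through a star homomorphism) gives a content on the compact subsets of
`Ω`, hence a measure, and the integral formula for `τ` becomes the layer cake formula for this measure.
-/

set_option autoImplicit false
set_option linter.unusedSectionVars false

namespace Crest.Agent.Lib.QTExist

open MeasureTheory Set TopologicalSpace
open scoped ComplexStarModule NNReal ENNReal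

variable {D : Type*} [CStarAlgebra D] {f : D → ℝ}
variable {Ω : Type*} [TopologicalSpace Ω] [CompactSpace Ω] [T2Space Ω]

/-- Complexification of a real function. -/
noncomputable def cplx (g : C(Ω, ℝ)) : C(Ω, ℂ) := ⟨fun x => (g x : ℂ), by fun_prop⟩

@[simp] lemma cplx_apply (g : C(Ω, ℝ)) (x : Ω) : cplx g x = (g x : ℂ) := rfl

section hom

variable (Ψ : C(Ω, ℂ) →⋆ₐ[ℂ] D)

/-- The real functions inside `D`. -/
noncomputable def RR (g : C(Ω, ℝ)) : D := Ψ (cplx g)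

lemma RR_add (g h : C(Ω, ℝ)) : RR Ψ (g + h) = RR Ψ g + RR Ψ h := by
  unfold RR
  rw [← map_add]
  congr 1
  ext x
  simp

lemma RR_mul (g h : C(Ω, ℝ)) : RR Ψ (g * h) = RR Ψ g * RR Ψ h := by
  unfold RR
  rw [← map_mul]
  congr 1
  ext x
  simp

lemma RR_neg (g : C(Ω, ℝ)) : RR Ψ (-g) = -RR Ψ g := by
  unfold RR
  rw [← map_neg]
  congr 1
  ext x
  simp

lemma RR_zero : RR Ψ (0 : C(Ω, ℝ)) = 0 := by
  unfold RR
  have : cplx (0 : C(Ω, ℝ)) = 0 := by
    ext x
    simp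
  rw [this, map_zero]

lemma RR_one : RR Ψ (1 : C(Ω, ℝ)) = 1 := by
  unfold RR
  have : cplx (1 : C(Ω, ℝ)) = 1 := by
    ext x
    simp
  rw [this, map_one]

lemma star_RR (g : C(Ω, ℝ)) : star (RR Ψ g) = RR Ψ g := by
  unfold RR
  rw [← map_star]
  congr 1
  ext x
  simp

lemma RR_isSelfAdjoint (g : C(Ω, ℝ)) : IsSelfAdjoint (RR Ψ g) := star_RR Ψ g

lemma RR_pos {g : C(Ω, ℝ)} (hg : 0 ≤ g) : Pos (RR Ψ g) := by
  let s : C(Ω, ℝ) := ⟨fun x => Real.sqrt (g x), by fun_prop⟩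
  refine ⟨RR Ψ s, ?_⟩
  rw [star_RR, ← RR_mul]
  congr 1
  ext x
  exact (Real.mul_self_sqrt (hg x)).symm

variable (hf : IsDim f)
include hf

lemma ft_conj (φ : C(Ω, ℝ)) {g : C(Ω, ℝ)} (hg : 0 ≤ g) :
    f (RR Ψ (φ * g * φ)) ≤ f (RR Ψ g) := by
  have := hf.conj (RR Ψ g) (RR Ψ φ) (RR_pos Ψ hg)
  rwa [star_RR, ← RR_mul, ← RR_mul] at this

lemma ft_add {g h : C(Ω, ℝ)} (hg : 0 ≤ g) (hh : 0 ≤ h) :
    f (RR Ψ (g + h)) ≤ f (RR Ψ g) + f (RR Ψ h) := by
  rw [RR_add]
  exact hf.add_le _ _ (RR_pos Ψ hg) (RR_pos Ψ hh)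

lemma ft_orth {g φ₁ φ₂ : C(Ω, ℝ)} (hg : 0 ≤ g) (h12 : φ₁ * φ₂ = 0) :
    f (RR Ψ (φ₁ * g * φ₁)) + f (RR Ψ (φ₂ * g * φ₂)) ≤ f (RR Ψ g) := by
  have h0 : star (RR Ψ φ₁) * RR Ψ g * RR Ψ φ₂ = 0 := by
    rw [star_RR, ← RR_mul, ← RR_mul]
    have : φ₁ * g * φ₂ = g * (φ₁ * φ₂) := by ring
    rw [this, h12, mul_zero, RR_zero]
  have := hf.orth (RR Ψ g) (RR Ψ φ₁) (RR Ψ φ₂) (RR_pos Ψ hg) h0
  rwa [star_RR, star_RR, ← RR_mul, ← RR_mul, ← RR_mul, ← RR_mul] at this

omit hf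

/-- The admissible functions for a compact set. -/
def adm (K : Set Ω) : Set C(Ω, ℝ) := {g | 0 ≤ g ∧ ∀ x ∈ K, 0 < g x}

lemma one_mem_adm (K : Set Ω) : (1 : C(Ω, ℝ)) ∈ adm K :=
  ⟨fun x => by simp, fun x _ => by simp⟩

/-- The content, as a real number. -/
noncomputable def lamR (f : D → ℝ) (K : Set Ω) : ℝ := sInf ((fun g => f (RR Ψ g)) '' adm K)

include hf

lemma lamR_bdd (K : Set Ω) : BddBelow ((fun g => f (RR Ψ g)) '' adm K) := by
  refine ⟨0, ?_⟩
  rintro _ ⟨g, hg, rfl⟩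
  exact hf.nonneg _ (RR_pos Ψ hg.1)

lemma lamR_le {K : Set Ω} {g : C(Ω, ℝ)} (hg : g ∈ adm K) : lamR Ψ f K ≤ f (RR Ψ g) :=
  csInf_le (lamR_bdd Ψ hf K) ⟨g, hg, rfl⟩

omit hf in
lemma le_lamR {K : Set Ω} {c : ℝ} (h : ∀ g ∈ adm K, c ≤ f (RR Ψ g)) : c ≤ lamR Ψ f K := by
  refine le_csInf ⟨_, 1, one_mem_adm K, rfl⟩ ?_
  rintro _ ⟨g, hg, rfl⟩
  exact h g hg

lemma lamR_nonneg (K : Set Ω) : 0 ≤ lamR Ψ f K :=
  le_lamR Ψ fun g hg => hf.nonneg _ (RR_pos Ψ hg.1)

lemma lamR_mono {K₁ K₂ : Set Ω} (h : K₁ ⊆ K₂) : lamR Ψ f K₁ ≤ lamR Ψ f K₂ :=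
  le_lamR Ψ fun _ hg => lamR_le Ψ hf ⟨hg.1, fun x hx => hg.2 x (h hx)⟩

lemma lamR_union_le (K₁ K₂ : Set Ω) :
    lamR Ψ f (K₁ ∪ K₂) ≤ lamR Ψ f K₁ + lamR Ψ f K₂ := by
  have h1 : ∀ g₁ ∈ adm K₁, lamR Ψ f (K₁ ∪ K₂) - lamR Ψ f K₂ ≤ f (RR Ψ g₁) := by
    intro g₁ hg₁
    have h2 : ∀ g₂ ∈ adm K₂, lamR Ψ f (K₁ ∪ K₂) - f (RR Ψ g₁) ≤ f (RR Ψ g₂) := by
      intro g₂ hg₂
      have hadm : g₁ + g₂ ∈ adm (K₁ ∪ K₂) := by
        refine ⟨add_nonneg hg₁.1 hg₂.1, ?_⟩
        rintro x (hx | hx)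
        · have h1 : 0 < g₁ x := hg₁.2 x hx
          have h0 : 0 ≤ g₂ x := hg₂.1 x
          show 0 < g₁ x + g₂ x
          linarith
        · have h1 : 0 < g₂ x := hg₂.2 x hx
          have h0 : 0 ≤ g₁ x := hg₁.1 x
          show 0 < g₁ x + g₂ x
          linarith
      have := lamR_le Ψ hf hadm
      have h3 := ft_add Ψ hf hg₁.1 hg₂.1
      linarith
    have := le_lamR Ψ h2
    linarith
  have := le_lamR Ψ h1
  linarith

lemma lamR_union_disjoint {K₁ K₂ : Set Ω} (hd : Disjoint K₁ K₂) (h₁ : IsClosed K₁) (h₂ : IsClosed K₂) :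
    lamR Ψ f K₁ + lamR Ψ f K₂ ≤ lamR Ψ f (K₁ ∪ K₂) := by
  obtain ⟨ψ, hψ0, hψ1, hψI⟩ := exists_continuous_zero_one_of_isClosed h₁ h₂ hd
  let φ₁ : C(Ω, ℝ) := ⟨fun x => max (1 - 2 * ψ x) 0, by fun_prop⟩
  let φ₂ : C(Ω, ℝ) := ⟨fun x => max (2 * ψ x - 1) 0, by fun_prop⟩
  have h12 : φ₁ * φ₂ = 0 := by
    ext x
    simp only [φ₁, φ₂, ContinuousMap.mul_apply, ContinuousMap.coe_mk, ContinuousMap.zero_apply]
    rcases le_total (ψ x) (1 / 2) with h | h
    · rw [max_eq_right (by linarith : 2 * ψ x - 1 ≤ 0), mul_zero]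
    · rw [max_eq_right (by linarith : 1 - 2 * ψ x ≤ 0), zero_mul]
  have hφ₁ : ∀ x ∈ K₁, φ₁ x = 1 := by
    intro x hx
    have : ψ x = 0 := hψ0 hx
    simp [φ₁, this]
  have hφ₂ : ∀ x ∈ K₂, φ₂ x = 1 := by
    intro x hx
    have : ψ x = 1 := hψ1 hx
    simp only [φ₂, ContinuousMap.coe_mk, this]
    norm_num
  have key : ∀ g ∈ adm (K₁ ∪ K₂), lamR Ψ f K₁ + lamR Ψ f K₂ ≤ f (RR Ψ g) := by
    intro g hg
    have a1 : φ₁ * g * φ₁ ∈ adm K₁ := by
      refine ⟨?_, fun x hx => ?_⟩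
      · intro x
        have h0 : 0 ≤ g x := hg.1 x
        show 0 ≤ φ₁ x * g x * φ₁ x
        nlinarith [mul_nonneg (mul_self_nonneg (φ₁ x)) h0]
      · simp only [ContinuousMap.mul_apply, hφ₁ x hx, one_mul, mul_one]
        exact hg.2 x (Or.inl hx)
    have a2 : φ₂ * g * φ₂ ∈ adm K₂ := by
      refine ⟨?_, fun x hx => ?_⟩
      · intro x
        have h0 : 0 ≤ g x := hg.1 x
        show 0 ≤ φ₂ x * g x * φ₂ x
        nlinarith [mul_nonneg (mul_self_nonneg (φ₂ x)) h0]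
      · simp only [ContinuousMap.mul_apply, hφ₂ x hx, one_mul, mul_one]
        exact hg.2 x (Or.inr hx)
    have b1 := lamR_le Ψ hf a1
    have b2 := lamR_le Ψ hf a2
    have b3 := ft_orth Ψ hf hg.1 h12
    linarith
  exact le_lamR Ψ key

/-- The content on compact sets. -/
noncomputable def cont : Content Ω where
  toFun K := (lamR Ψ f (K : Set Ω)).toNNReal
  mono' K₁ K₂ h := Real.toNNReal_le_toNNReal (lamR_mono Ψ hf h)
  sup_disjoint' K₁ K₂ hd h₁ h₂ := by
    rw [← Real.toNNReal_add (lamR_nonneg Ψ hf _) (lamR_nonneg Ψ hf _)]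
    congr 1
    exact le_antisymm (lamR_union_le Ψ hf _ _) (lamR_union_disjoint Ψ hf hd h₁ h₂)
  sup_le' K₁ K₂ := by
    rw [← Real.toNNReal_add (lamR_nonneg Ψ hf _) (lamR_nonneg Ψ hf _)]
    exact Real.toNNReal_le_toNNReal (lamR_union_le Ψ hf _ _)

omit hf

/-- `(g - t)₊`. -/
noncomputable def cutfun (g : C(Ω, ℝ)) (t : ℝ) : C(Ω, ℝ) := ⟨fun x => max (g x - t) 0, by fun_prop⟩

@[simp] lemma cutfun_apply (g : C(Ω, ℝ)) (t : ℝ) (x : Ω) : cutfun g t x = max (g x - t) 0 := rfl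

lemma cutfun_nonneg (g : C(Ω, ℝ)) (t : ℝ) : 0 ≤ cutfun g t := fun x => le_max_right _ _

lemma cplx_isSelfAdjoint (g : C(Ω, ℝ)) : IsSelfAdjoint (cplx g) := by
  rw [IsSelfAdjoint]
  ext x
  simp

/-- The positive part function on `ℂ`. -/
noncomputable def cutC (t : ℝ) (z : ℂ) : ℂ := ((max (z.re - t) 0 : ℝ) : ℂ)

lemma continuous_cutC (t : ℝ) : Continuous (cutC t) := by
  unfold cutC
  fun_prop

lemma cfc_cplx (g : C(Ω, ℝ)) (t : ℝ) : cfc (cutC t) (cplx g) = cplx (cutfun g t) := by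
  ext x
  let ev : C(Ω, ℂ) →⋆ₐ[ℂ] ℂ := ContinuousMap.evalStarAlgHom ℂ ℂ x
  have hev : Continuous ev := continuous_eval_const x
  have hn : IsStarNormal (cplx g) := (cplx_isSelfAdjoint g).isStarNormal
  have hn' : IsStarNormal (ev (cplx g)) := inferInstance
  have h1 : ev (cfc (cutC t) (cplx g)) = cfc (cutC t) (ev (cplx g)) :=
    StarAlgHomClass.map_cfc ev (cutC t) (cplx g) (continuous_cutC t).continuousOn hev hn hn'
  have h2 : ev (cplx g) = algebraMap ℂ ℂ (g x : ℂ) := rfl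
  have h3 : ev (cfc (cutC t) (cplx g)) = (cfc (cutC t) (cplx g)) x := rfl
  rw [← h3, h1, h2, cfc_algebraMap]
  simp [cutC]

lemma cut_RR (g : C(Ω, ℝ)) (t : ℝ) : cut (RR Ψ g) t = RR Ψ (cutfun g t) := by
  unfold cut RR
  have hΨ : Continuous Ψ := AddMonoidHomClass.continuous_of_bound Ψ 1
    (fun a => by simpa using NonUnitalStarAlgHom.norm_apply_le Ψ a)
  have hsa : IsSelfAdjoint (Ψ (cplx g)) := (cplx_isSelfAdjoint g).map Ψ
  have hn : IsStarNormal (cplx g) := (cplx_isSelfAdjoint g).isStarNormal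
  have hn' : IsStarNormal (Ψ (cplx g)) := hsa.isStarNormal
  have h1 := StarAlgHomClass.map_cfc Ψ (cutC t) (cplx g) (continuous_cutC t).continuousOn hΨ hn hn'
  rw [cfc_cplx] at h1
  rw [h1]
  have h2 := cfc_complex_eq_real (f := cutC t) (a := Ψ (cplx g))
    (fun x _ => by simp [cutC]) hsa
  rw [h2]
  refine cfc_congr fun s _ => ?_
  simp [cutC]

include hf

lemma cut_le_lamR (g : C(Ω, ℝ)) (t : ℝ) :
    f (RR Ψ (cutfun g t)) ≤ lamR Ψ f {x | t ≤ g x} := by
  refine le_lamR Ψ fun h hh => ?_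
  set K : Set Ω := {x | t ≤ g x} with hK
  have hKc : IsCompact K := (isClosed_le continuous_const g.continuous).isCompact
  obtain ⟨η, hη, hηK⟩ : ∃ η : ℝ, 0 < η ∧ ∀ x ∈ K, η ≤ h x := by
    rcases K.eq_empty_or_nonempty with hem | hne
    · exact ⟨1, one_pos, by simp [hem]⟩
    · obtain ⟨x₀, hx₀, hmin⟩ := hKc.exists_isMinOn hne h.continuous.continuousOn
      exact ⟨h x₀, hh.2 x₀ hx₀, fun x hx => hmin hx⟩
  have hden : ∀ x, 0 < max (h x) η := fun x => lt_max_of_lt_right hη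
  let φ : C(Ω, ℝ) := ⟨fun x => Real.sqrt (max (g x - t) 0 / max (h x) η), by
    refine Real.continuous_sqrt.comp ?_
    refine Continuous.div (by fun_prop) (by fun_prop) fun x => (hden x).ne'⟩
  have heq : cutfun g t = φ * h * φ := by
    ext x
    have hq : 0 ≤ max (g x - t) 0 / max (h x) η := div_nonneg (le_max_right _ _) (hden x).le
    have hm := Real.mul_self_sqrt hq
    show max (g x - t) 0 = φ x * h x * φ x
    have : φ x * h x * φ x = (φ x * φ x) * h x := by ring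
    rw [this]
    show _ = (Real.sqrt _ * Real.sqrt _) * h x
    rw [hm]
    by_cases hx : x ∈ K
    · have h1 : max (h x) η = h x := max_eq_left (hηK x hx)
      have hpos : 0 < h x := lt_of_lt_of_le hη (hηK x hx)
      rw [h1]
      field_simp
    · have h1 : g x < t := not_le.mp hx
      rw [max_eq_right (by linarith : g x - t ≤ 0)]
      simp
  rw [heq]
  exact ft_conj Ψ hf φ hh.1

lemma lamR_le_cut {g : C(Ω, ℝ)} {t t' : ℝ} (h : t' < t) {K : Set Ω} (hK : K ⊆ {x | t < g x}) :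
    lamR Ψ f K ≤ f (RR Ψ (cutfun g t')) := by
  refine lamR_le Ψ hf ⟨cutfun_nonneg g t', fun x hx => ?_⟩
  have : t < g x := hK hx
  exact lt_max_of_lt_left (by linarith)

section measure

variable [MeasurableSpace Ω] [BorelSpace Ω]

/-- The measure attached to the dimension function. -/
noncomputable def mu : Measure Ω := (cont Ψ hf).measure

lemma cont_apply (K : Compacts Ω) :
    (cont Ψ hf) K = ENNReal.ofReal (lamR Ψ f (K : Set Ω)) := rfl

lemma mu_compact (K : Set Ω) (hK : IsClosed K) : ENNReal.ofReal (lamR Ψ f K) ≤ mu Ψ hf K := by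
  have h1 := (cont Ψ hf).le_outerMeasure_compacts ⟨K, hK.isCompact⟩
  rw [cont_apply] at h1
  unfold mu
  rw [Content.measure_apply _ hK.measurableSet]
  exact h1

lemma mu_open_le {g : C(Ω, ℝ)} {t t' : ℝ} (h : t' < t) :
    mu Ψ hf {x | t < g x} ≤ ENNReal.ofReal (f (RR Ψ (cutfun g t'))) := by
  have hU : IsOpen {x | t < g x} := isOpen_lt continuous_const g.continuous
  unfold mu
  rw [Content.measure_apply _ hU.measurableSet, Content.outerMeasure_of_isOpen _ _ hU]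
  refine iSup₂_le fun K hK => ?_
  rw [cont_apply]
  exact ENNReal.ofReal_le_ofReal (lamR_le_cut Ψ hf h hK)

instance mu_finite : IsFiniteMeasure (mu Ψ hf) := by
  refine ⟨?_⟩
  have h : mu Ψ hf {x | (0 : ℝ) < (1 : C(Ω, ℝ)) x} ≤ _ :=
    mu_open_le Ψ hf (g := (1 : C(Ω, ℝ))) (t := 0) (t' := -1) (by norm_num)
  have he : {x : Ω | (0 : ℝ) < (1 : C(Ω, ℝ)) x} = univ := by
    ext x
    simp
  rw [he] at h
  exact lt_of_le_of_lt h ENNReal.ofReal_lt_top

lemma antitone_mu (g : C(Ω, ℝ)) : Antitone fun t => (mu Ψ hf).real {x | t < g x} := by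
  intro t t' htt
  refine measureReal_mono (fun x hx => ?_) (measure_ne_top _ _)
  exact lt_of_le_of_lt htt hx

lemma T_RR (g : C(Ω, ℝ)) : T f (RR Ψ g) = ∫ x, max (g x) 0 ∂(mu Ψ hf) := by
  have hint : Integrable (fun x => max (g x) 0) (mu Ψ hf) := by
    refine Integrable.of_bound (C := ‖g‖) ?_ ?_
    · exact (g.continuous.measurable.max measurable_const).aestronglyMeasurable
    · refine Filter.Eventually.of_forall fun x => ?_
      have h1 : |g x| ≤ ‖g‖ := g.norm_coe_le_norm x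
      rw [Real.norm_eq_abs, abs_of_nonneg (le_max_right _ _)]
      exact max_le ((le_abs_self _).trans h1) (norm_nonneg _)
  rw [hint.integral_eq_integral_meas_lt (Filter.Eventually.of_forall fun x => le_max_right _ _)]
  have h1 : ∫ t in Ioi (0 : ℝ), (mu Ψ hf).real {a | t < max (g a) 0} =
      ∫ t in Ioi (0 : ℝ), (mu Ψ hf).real {a | t < g a} := by
    refine setIntegral_congr_fun measurableSet_Ioi fun t ht => ?_
    have : {a | t < max (g a) 0} = {a | t < g a} := by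
      ext a
      have ht' : (0 : ℝ) < t := ht
      simp [lt_max_iff, not_lt.mpr ht'.le]
    simp only [this]
  rw [h1]
  unfold T
  refine integral_eq_of_interlace (hf.antitone_cut (RR_isSelfAdjoint Ψ g)) (antitone_mu Ψ hf g) ?_
  intro t t' ht' htt
  rw [cut_RR, cut_RR]
  constructor
  · -- `F t ≤ G t'`
    have h2 := cut_le_lamR Ψ hf g t
    have hcl : IsClosed {x | t ≤ g x} := isClosed_le continuous_const g.continuous
    have h3 := mu_compact Ψ hf _ hcl
    have h4 : (mu Ψ hf).real {x | t ≤ g x} ≤ (mu Ψ hf).real {x | t' < g x} :=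
      measureReal_mono (fun x (hx : t ≤ g x) => lt_of_lt_of_le htt hx) (measure_ne_top _ _)
    have h5 : lamR Ψ f {x | t ≤ g x} ≤ (mu Ψ hf).real {x | t ≤ g x} := by
      have := ENNReal.toReal_mono (measure_ne_top _ _) h3
      rwa [ENNReal.toReal_ofReal (lamR_nonneg Ψ hf _)] at this
    linarith
  · have h2 := mu_open_le Ψ hf (g := g) htt
    have := ENNReal.toReal_mono ENNReal.ofReal_ne_top h2
    rwa [ENNReal.toReal_ofReal (hf.nonneg _ (RR_pos Ψ (cutfun_nonneg g t')))] at this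

lemma integrable_cont (g : C(Ω, ℝ)) : Integrable (fun x => g x) (mu Ψ hf) := by
  refine Integrable.of_bound (C := ‖g‖) g.continuous.measurable.aestronglyMeasurable ?_
  exact Filter.Eventually.of_forall fun x => g.norm_coe_le_norm x

lemma tauSA_RR (g : C(Ω, ℝ)) : tauSA f (RR Ψ g) = ∫ x, g x ∂(mu Ψ hf) := by
  unfold tauSA
  rw [← RR_neg, T_RR Ψ hf, T_RR Ψ hf, ← integral_sub]
  · refine integral_congr_ae (Filter.Eventually.of_forall fun x => ?_)
    show max (g x) 0 - max ((-g) x) 0 = g x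
    simp only [ContinuousMap.neg_apply]
    rcases le_total (g x) 0 with h | h
    · rw [max_eq_right h, max_eq_left (by linarith)]
      ring
    · rw [max_eq_left h, max_eq_right (by linarith)]
      ring
  · refine Integrable.of_bound (C := ‖g‖) ?_ ?_
    · exact (g.continuous.measurable.max measurable_const).aestronglyMeasurable
    · refine Filter.Eventually.of_forall fun x => ?_
      have h1 : |g x| ≤ ‖g‖ := g.norm_coe_le_norm x
      rw [Real.norm_eq_abs, abs_of_nonneg (le_max_right _ _)]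
      exact max_le ((le_abs_self _).trans h1) (norm_nonneg _)
  · refine Integrable.of_bound (C := ‖-g‖) ?_ ?_
    · exact ((-g).continuous.measurable.max measurable_const).aestronglyMeasurable
    · refine Filter.Eventually.of_forall fun x => ?_
      have h1 : |(-g) x| ≤ ‖-g‖ := (-g).norm_coe_le_norm x
      rw [Real.norm_eq_abs, abs_of_nonneg (le_max_right _ _)]
      exact max_le ((le_abs_self _).trans h1) (norm_nonneg _)

end measure

omit hf

/-- Real part of a function. -/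
noncomputable def reF (z : C(Ω, ℂ)) : C(Ω, ℝ) := ⟨fun x => (z x).re, by fun_prop⟩

/-- Imaginary part of a function. -/
noncomputable def imF (z : C(Ω, ℂ)) : C(Ω, ℝ) := ⟨fun x => (z x).im, by fun_prop⟩

lemma realPart_hom (z : C(Ω, ℂ)) : (ℜ (Ψ z) : D) = RR Ψ (reF z) := by
  unfold RR
  have h : cplx (reF z) = ((2 : ℂ)⁻¹) • (z + star z) := by
    ext x
    apply Complex.ext
    · simp [reF]
      ring
    · simp [reF]
  rw [h, map_smul, map_add, map_star, realPart_apply_coe]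
  rw [← Complex.coe_smul]
  norm_num

lemma imagPart_hom (z : C(Ω, ℂ)) : (ℑ (Ψ z) : D) = RR Ψ (imF z) := by
  unfold RR
  have h : cplx (imF z) = (-Complex.I * (2 : ℂ)⁻¹) • (z - star z) := by
    ext x
    apply Complex.ext
    · simp [imF]
      ring
    · simp [imF]
  rw [h, map_smul, map_sub, map_star, imaginaryPart_apply_coe]
  rw [← Complex.coe_smul, smul_smul]
  norm_num

end hom

/-- The quasitrace is additive and homogeneous on the image of `C(Ω, ℂ)`. -/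
theorem tau_hom (hf : IsDim f) (Ψ : C(Ω, ℂ) →⋆ₐ[ℂ] D) :
    (∀ z w, tau f (Ψ (z + w)) = tau f (Ψ z) + tau f (Ψ w)) ∧
      ∀ (c : ℂ) (z), tau f (Ψ (c • z)) = c * tau f (Ψ z) := by
  letI : MeasurableSpace Ω := borel Ω
  haveI : BorelSpace Ω := ⟨rfl⟩
  set μ := mu Ψ hf with hμ
  have hτ : ∀ z, tau f (Ψ z) =
      ((∫ x, (z x).re ∂μ : ℝ) : ℂ) + Complex.I * ((∫ x, (z x).im ∂μ : ℝ) : ℂ) := by
    intro z
    unfold tau
    rw [realPart_hom, imagPart_hom, tauSA_RR Ψ hf, tauSA_RR Ψ hf]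
    rfl
  have hre : ∀ z : C(Ω, ℂ), Integrable (fun x => (z x).re) μ := fun z => integrable_cont Ψ hf (reF z)
  have him : ∀ z : C(Ω, ℂ), Integrable (fun x => (z x).im) μ := fun z => integrable_cont Ψ hf (imF z)
  constructor
  · intro z w
    rw [hτ, hτ, hτ]
    have h1 : ∫ x, ((z + w) x).re ∂μ = ∫ x, (z x).re ∂μ + ∫ x, (w x).re ∂μ := by
      rw [← integral_add (hre z) (hre w)]
      simp
    have h2 : ∫ x, ((z + w) x).im ∂μ = ∫ x, (z x).im ∂μ + ∫ x, (w x).im ∂μ := by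
      rw [← integral_add (him z) (him w)]
      simp
    rw [h1, h2]
    push_cast
    ring
  · intro c z
    rw [hτ, hτ]
    have h1 : ∫ x, ((c • z) x).re ∂μ = c.re * ∫ x, (z x).re ∂μ - c.im * ∫ x, (z x).im ∂μ := by
      rw [← integral_const_mul, ← integral_const_mul, ← integral_sub ((hre z).const_mul _) ((him z).const_mul _)]
      simp
    have h2 : ∫ x, ((c • z) x).im ∂μ = c.re * ∫ x, (z x).im ∂μ + c.im * ∫ x, (z x).re ∂μ := by
      rw [← integral_const_mul, ← integral_const_mul, ← integral_add ((him z).const_mul _) ((hre z).const_mul _)]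
      simp
    rw [h1, h2]
    apply Complex.ext
    · simp
    · simp

/-- **Linearity on commutative subalgebras.** -/
theorem tau_comm (hf : IsDim f) (S : StarSubalgebra ℂ D) (hS : ∀ x ∈ S, ∀ y ∈ S, x * y = y * x) :
    (∀ x ∈ S, ∀ y ∈ S, tau f (x + y) = tau f x + tau f y) ∧
      ∀ c : ℂ, ∀ x ∈ S, tau f (c • x) = c * tau f x := by
  let B : StarSubalgebra ℂ D := S.topologicalClosure
  haveI hcl : IsClosed (B : Set D) := S.isClosed_topologicalClosure
  have hcomm : ∀ x y : B, x * y = y * x := by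
    intro x y
    have h1 : ∀ y ∈ S, Set.EqOn (fun a : D => a * y) (fun a => y * a) (closure (S : Set D)) :=
      fun y hy => Set.EqOn.closure (fun a ha => hS a ha y hy) (by fun_prop) (by fun_prop)
    have h2 : Set.EqOn (fun b : D => (x : D) * b) (fun b => b * (x : D)) (closure (S : Set D)) :=
      Set.EqOn.closure (fun b hb => h1 b hb x.2) (by fun_prop) (by fun_prop)
    exact Subtype.ext (h2 y.2)
  letI : CommCStarAlgebra B :=
    { (inferInstance : CStarAlgebra B) with mul_comm := hcomm }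
  let Ψ : C(WeakDual.characterSpace ℂ B, ℂ) →⋆ₐ[ℂ] D :=
    B.subtype.comp ((gelfandStarTransform B).symm : _ →⋆ₐ[ℂ] B)
  obtain ⟨h1, h2⟩ := tau_hom hf Ψ
  have hx : ∀ x (hx : x ∈ S), Ψ (gelfandStarTransform B ⟨x, S.le_topologicalClosure hx⟩) = x := by
    intro x hx
    simp [Ψ]
  constructor
  · intro x hxS y hyS
    have := h1 (gelfandStarTransform B ⟨x, S.le_topologicalClosure hxS⟩)
      (gelfandStarTransform B ⟨y, S.le_topologicalClosure hyS⟩)
    rw [map_add, hx x hxS, hx y hyS] at this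
    exact this
  · intro c x hxS
    have := h2 c (gelfandStarTransform B ⟨x, S.le_topologicalClosure hxS⟩)
    rw [map_smul, hx x hxS] at this
    exact this

end Crest.Agent.Lib.QTExist
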