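import Mathlib

/-!
# Quasitraces from abstract dimension functions: definitions and basic facts

`f : D → ℝ` is a dimension function on the positive part of a unital C⋆-algebra `D`. The associated quasitrace is
`τ(a) = ∫₀^∞ f((a-t)₊) dt` on positive elements.
-/

set_option autoImplicit false

namespace Crest.Agent.Lib.QTExist

open MeasureTheory Set
open scoped ComplexStarModule

variable {D : Type*} [CStarAlgebra D]

/-- Positive elements, without mentioning an order. -/
def Pos (a : D) : Prop := ∃ b : D, a = star b * b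

lemma Pos.isSelfAdjoint {a : D} (h : Pos a) : IsSelfAdjoint a := by
  obtain ⟨b, rfl⟩ := h
  exact IsSelfAdjoint.star_mul_self b

lemma Pos.conj {a : D} (h : Pos a) (c : D) : Pos (star c * a * c) := by
  obtain ⟨b, rfl⟩ := h
  exact ⟨b * c, by simp only [star_mul]; noncomm_ring⟩

lemma Pos.zero : Pos (0 : D) := ⟨0, by simp⟩

lemma Pos.one : Pos (1 : D) := ⟨1, by simp⟩

/-- Abstract dimension function. -/
structure IsDim (f : D → ℝ) : Prop where
  nonneg : ∀ a, Pos a → 0 ≤ f a
  zero : f 0 = 0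
  conj : ∀ a c, Pos a → f (star c * a * c) ≤ f a
  add_le : ∀ a b, Pos a → Pos b → f (a + b) ≤ f a + f b
  orth : ∀ g p q, Pos g → star p * g * q = 0 → f (star p * g * p) + f (star q * g * q) ≤ f g

/-- `(a - t)₊`, computed by the continuous functional calculus. -/
noncomputable def cut (a : D) (t : ℝ) : D := cfc (fun s : ℝ => max (s - t) 0) a

/-- `∫₀^∞ f((a-t)₊) dt`. -/
noncomputable def T (f : D → ℝ) (a : D) : ℝ := ∫ t in Ioi (0 : ℝ), f (cut a t)

/-- The quasitrace on self-adjoint elements. -/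
noncomputable def tauSA (f : D → ℝ) (h : D) : ℝ := T f h - T f (-h)

/-- The quasitrace. -/
noncomputable def tau (f : D → ℝ) (x : D) : ℂ :=
  (tauSA f (ℜ x : D) : ℂ) + Complex.I * (tauSA f (ℑ x : D) : ℂ)

lemma cut_of_norm_le {a : D} (_ha : IsSelfAdjoint a) {t : ℝ} (ht : ‖a‖ ≤ t) : cut a t = 0 := by
  nontriviality D
  unfold cut
  have : Set.EqOn (fun s : ℝ => max (s - t) 0) (fun _ => 0) (spectrum ℝ a) := by
    intro s hs
    have h1 : ‖s‖ ≤ ‖a‖ := spectrum.norm_le_norm_of_mem hs
    have h2 : s ≤ t := (le_abs_self s).trans ((Real.norm_eq_abs s ▸ h1).trans ht)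
    simp only [max_eq_right (sub_nonpos.mpr h2)]
  rw [cfc_congr this]
  simp

lemma cfc_real_star (h : ℝ → ℝ) (a : D) : star (cfc h a) = cfc h a :=
  (cfc_predicate h a : IsSelfAdjoint (cfc h a))

lemma cut_isPos {a : D} (_ha : IsSelfAdjoint a) (t : ℝ) : Pos (cut a t) := by
  refine ⟨cfc (fun s : ℝ => Real.sqrt (max (s - t) 0)) a, ?_⟩
  unfold cut
  have hc : Continuous fun s : ℝ => Real.sqrt (max (s - t) 0) := by fun_prop
  rw [cfc_real_star, ← cfc_mul _ _ a hc.continuousOn hc.continuousOn]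
  refine cfc_congr fun s _ => ?_
  exact (Real.mul_self_sqrt (le_max_right _ _)).symm

/-- `(a-t')₊ = c (a-t)₊ c` for `t < t'`. -/
lemma cut_eq_conj {a : D} (ha : IsSelfAdjoint a) {t t' : ℝ} (h : t < t') :
    ∃ c : D, cut a t' = star c * cut a t * c := by
  have hd : ∀ s : ℝ, 0 < max (s - t) (t' - t) := fun s => lt_max_of_lt_right (sub_pos.mpr h)
  have hc : Continuous fun s : ℝ => Real.sqrt (max (s - t') 0 / max (s - t) (t' - t)) := by
    refine Real.continuous_sqrt.comp ?_
    refine Continuous.div (by fun_prop) (by fun_prop) fun s => (hd s).ne'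
  refine ⟨cfc (fun s : ℝ => Real.sqrt (max (s - t') 0 / max (s - t) (t' - t))) a, ?_⟩
  unfold cut
  rw [cfc_real_star, ← cfc_mul _ _ a hc.continuousOn (Continuous.continuousOn (by fun_prop)),
    ← cfc_mul _ _ a (Continuous.continuousOn (by fun_prop)) hc.continuousOn]
  refine cfc_congr fun s _ => ?_
  have hq : 0 ≤ max (s - t') 0 / max (s - t) (t' - t) :=
    div_nonneg (le_max_right _ _) (hd s).le
  have hm := Real.mul_self_sqrt hq
  set r := Real.sqrt (max (s - t') 0 / max (s - t) (t' - t)) with hr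
  have : r * max (s - t) 0 * r = (r * r) * max (s - t) 0 := by ring
  rw [this, hm]
  rcases le_total t' s with hs | hs
  · have h1 : max (s - t') 0 = s - t' := max_eq_left (by linarith)
    have h2 : max (s - t) 0 = s - t := max_eq_left (by linarith)
    have h3 : max (s - t) (t' - t) = s - t := max_eq_left (by linarith)
    rw [h1, h2, h3]
    have : s - t ≠ 0 := by
      have : 0 < s - t := by linarith
      exact this.ne'
    field_simp
  · have h1 : max (s - t') 0 = 0 := max_eq_right (by linarith)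
    rw [h1]
    simp

variable {f : D → ℝ}

lemma IsDim.antitone_cut (hf : IsDim f) {a : D} (ha : IsSelfAdjoint a) :
    Antitone fun t => f (cut a t) := by
  intro t t' htt
  rcases htt.eq_or_lt with rfl | hlt
  · exact le_rfl
  · obtain ⟨c, hc⟩ := cut_eq_conj ha hlt
    show f (cut a t') ≤ f (cut a t)
    rw [hc]
    exact hf.conj _ _ (cut_isPos ha t)

lemma IsDim.cut_nonneg (hf : IsDim f) {a : D} (ha : IsSelfAdjoint a) (t : ℝ) : 0 ≤ f (cut a t) :=
  hf.nonneg _ (cut_isPos ha t)

lemma IsDim.integrableOn_cut (hf : IsDim f) {a : D} (ha : IsSelfAdjoint a) :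
    IntegrableOn (fun t => f (cut a t)) (Ioi 0) := by
  have hm : Measurable fun t => f (cut a t) := (hf.antitone_cut ha).measurable
  set R := max ‖a‖ 1 with hR
  have hsplit : Ioi (0 : ℝ) = Ioc 0 R ∪ Ioi R := (Ioc_union_Ioi_eq_Ioi (by positivity)).symm
  rw [hsplit]
  refine IntegrableOn.union ?_ ?_
  · refine Measure.integrableOn_of_bounded (M := f (cut a 0)) (by simp) hm.aestronglyMeasurable ?_
    refine ae_restrict_of_forall_mem measurableSet_Ioc fun t ht => ?_
    rw [Real.norm_eq_abs, abs_of_nonneg (hf.cut_nonneg ha t)]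
    exact hf.antitone_cut ha ht.1.le
  · have : ∀ t ∈ Ioi R, f (cut a t) = 0 := fun t ht => by
      rw [cut_of_norm_le ha ((le_max_left _ _).trans (le_of_lt ht)), hf.zero]
    exact (integrableOn_congr_fun this measurableSet_Ioi).mpr integrableOn_zero

lemma IsDim.T_nonneg (hf : IsDim f) {a : D} (ha : IsSelfAdjoint a) : 0 ≤ T f a :=
  setIntegral_nonneg measurableSet_Ioi fun t _ => hf.cut_nonneg ha t

/-- Two antitone functions which interlace on the positive half-line agree almost everywhere there. -/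
lemma ae_eq_of_interlace {F G : ℝ → ℝ} (_hF : Antitone F) (hG : Antitone G)
    (h : ∀ t t', 0 < t' → t' < t → F t ≤ G t' ∧ G t ≤ F t') :
    ∀ᵐ t ∂(volume.restrict (Ioi (0 : ℝ))), F t = G t := by
  have hc : ({x | ¬ ContinuousAt G x} : Set ℝ).Countable := hG.countable_not_continuousAt
  have h0 : ∀ᵐ t ∂(volume : Measure ℝ), t ∉ {x | ¬ ContinuousAt G x} := hc.ae_notMem _
  refine (ae_restrict_iff' measurableSet_Ioi).mpr ?_
  filter_upwards [h0] with t ht htpos
  have hcont : ContinuousAt G t := by simpa using ht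
  have htpos' : (0 : ℝ) < t := htpos
  apply le_antisymm
  · -- `F t ≤ G t'` for `t' < t`, let `t' → t`
    refine ge_of_tendsto (hcont.tendsto.mono_left nhdsWithin_le_nhds)
      (?_ : ∀ᶠ t' in nhdsWithin t (Iio t), F t ≤ G t')
    have : Ioo (0 : ℝ) t ∈ nhdsWithin t (Iio t) := Ioo_mem_nhdsLT htpos'
    filter_upwards [this] with t' ht'
    exact (h t t' ht'.1 ht'.2).1
  · refine le_of_tendsto (hcont.tendsto.mono_left nhdsWithin_le_nhds)
      (?_ : ∀ᶠ t' in nhdsWithin t (Ioi t), G t' ≤ F t)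
    filter_upwards [self_mem_nhdsWithin] with t' ht'
    exact (h t' t htpos' ht').2

lemma integral_eq_of_interlace {F G : ℝ → ℝ} (hF : Antitone F) (hG : Antitone G)
    (h : ∀ t t', 0 < t' → t' < t → F t ≤ G t' ∧ G t ≤ F t') :
    ∫ t in Ioi (0 : ℝ), F t = ∫ t in Ioi (0 : ℝ), G t :=
  integral_congr_ae (ae_eq_of_interlace hF hG h)

end Crest.Agent.Lib.QTExist
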