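/-
Row 137 (S0188) modules C2+C3 (helper83): Weyl conjugation and the Gabber-Galil Schur test on `ZMod k`.

Main export: `exists_unitaries_gap`.
-/
import Mathlib

set_option autoImplicit false
set_option linter.unusedSectionVars false
set_option linter.unusedTactic false
set_option linter.unusedSimpArgs false
set_option linter.unusedVariables false

open scoped Matrix BigOperators
open Matrix

namespace Crest.Agent.Lib.QTGG

noncomputable section

variable {k : ℕ} [NeZero k]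

/-! ### Combinatorics of `valMinAbs` -/

/-- absolute value in `ZMod k`. -/
def av (x : ZMod k) : ℕ := x.valMinAbs.natAbs

lemma av_neg (x : ZMod k) : av (-x) = av x := ZMod.natAbs_valMinAbs_neg x

lemma two_mul_av_le (x : ZMod k) : 2 * av x ≤ k := by
  have := ZMod.natAbs_valMinAbs_le x
  unfold av
  omega

/-- For an integer of absolute value at most `k/2`, the absolute value in `ZMod k` is its `natAbs`. -/
lemma av_intCast_of_small (n : ℤ) (h : 2 * n.natAbs ≤ k) : av (n : ZMod k) = n.natAbs := by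
  unfold av
  by_cases h' : n * 2 = -k
  · have hm : ((-n : ℤ) : ZMod k).valMinAbs = -n := by
      rw [ZMod.valMinAbs_spec]
      refine ⟨rfl, ?_⟩
      constructor <;> push_cast <;> have := NeZero.pos k <;> omega
    have h2 : ((n : ℤ) : ZMod k) = - ((-n : ℤ) : ZMod k) := by push_cast; ring
    rw [h2, ZMod.natAbs_valMinAbs_neg, hm]
    omega
  · have hm : (n : ZMod k).valMinAbs = n := by
      rw [ZMod.valMinAbs_spec]
      refine ⟨rfl, ?_⟩
      constructor <;> omega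
    rw [hm]

/-- The absolute value of the class of an integer is at least `m` if both `|n|` and `k - |n|` are. -/
lemma le_av_intCast (n : ℤ) (m : ℕ) (h0 : n.natAbs ≤ k) (h1 : m ≤ n.natAbs) (h2 : m + n.natAbs ≤ k) :
    m ≤ av (n : ZMod k) := by
  by_cases hs : 2 * n.natAbs ≤ k
  · rw [av_intCast_of_small n hs]; exact h1
  · -- shift by `±k`
    rcases le_total 0 n with hn | hn
    · have hc : ((n : ℤ) : ZMod k) = ((n - k : ℤ) : ZMod k) := by push_cast; simp
      rw [hc, av_intCast_of_small (n - k) (by omega)]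
      omega
    · have hc : ((n : ℤ) : ZMod k) = ((n + k : ℤ) : ZMod k) := by push_cast; simp
      rw [hc, av_intCast_of_small (n + k) (by omega)]
      omega

/-- The max-norm on `ZMod k × ZMod k`. -/
def N (z : ZMod k × ZMod k) : ℕ := max (av z.1) (av z.2)

/-- The weight of the Gabber-Galil Schur test. -/
def G (z z' : ZMod k × ZMod k) : ℝ :=
  if N z' < N z then 7 / 5 else if N z < N z' then 5 / 7 else 1

lemma G_pos (z z' : ZMod k × ZMod k) : 0 < G z z' := by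
  unfold G; split_ifs <;> norm_num

lemma G_le (z z' : ZMod k × ZMod k) : G z z' ≤ 7 / 5 := by
  unfold G; split_ifs <;> norm_num

lemma G_le_one {z z' : ZMod k × ZMod k} (h : N z ≤ N z') : G z z' ≤ 1 := by
  unfold G
  rw [if_neg (not_lt.mpr h)]
  split_ifs <;> norm_num

lemma G_up {z z' : ZMod k × ZMod k} (h : N z < N z') : G z z' = 5 / 7 := by
  unfold G
  rw [if_neg (not_lt.mpr h.le), if_pos h]

lemma G_self (z : ZMod k × ZMod k) : G z z = 1 := by
  unfold G; simp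

lemma G_mul_G (z z' : ZMod k × ZMod k) : G z z' * G z' z = 1 := by
  unfold G
  rcases lt_trichotomy (N z') (N z) with h | h | h
  · rw [if_pos h, if_neg (not_lt.mpr h.le), if_pos h]; norm_num
  · rw [if_neg (by omega), if_neg (by omega), if_neg (by omega), if_neg (by omega)]; norm_num
  · rw [if_neg (not_lt.mpr h.le), if_pos h, if_pos h]; norm_num

/-- The four elementary moves. -/
def S₁ (z : ZMod k × ZMod k) : ZMod k × ZMod k := (z.1, z.2 + 2 * z.1)
def S₂ (z : ZMod k × ZMod k) : ZMod k × ZMod k := (z.1, z.2 - 2 * z.1)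
def T₁ (z : ZMod k × ZMod k) : ZMod k × ZMod k := (z.1 + 2 * z.2, z.2)
def T₂ (z : ZMod k × ZMod k) : ZMod k × ZMod k := (z.1 - 2 * z.2, z.2)

/-- `c x = ‖1 + e x‖ / 2 = cos (π |x| / k)`. -/
def cs (x : ZMod k) : ℝ := Real.cos (Real.pi * av x / k)

lemma k_pos_real : (0 : ℝ) < k := by exact_mod_cast NeZero.pos k

lemma cs_nonneg (x : ZMod k) : 0 ≤ cs x := by
  unfold cs
  apply Real.cos_nonneg_of_neg_pi_div_two_le_of_le
  · have : 0 ≤ Real.pi * av x / k := by positivity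
    linarith [Real.pi_pos]
  · have h := two_mul_av_le x
    have hk := k_pos_real (k := k)
    have h' : (2 : ℝ) * av x ≤ k := by exact_mod_cast h
    rw [div_le_iff₀ hk]
    nlinarith [Real.pi_pos]

lemma cs_le_one (x : ZMod k) : cs x ≤ 1 := Real.cos_le_one _

/-- Both `S`-moves keep the first coordinate. -/
lemma N_le_of_fst {z z' : ZMod k × ZMod k} (h1 : av z.2 ≤ av z.1) (h2 : z'.1 = z.1) : N z ≤ N z' := by
  unfold N
  rw [h2, max_eq_left h1]
  exact le_max_left _ _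

lemma N_le_of_snd {z z' : ZMod k × ZMod k} (h1 : av z.2 ≤ av z.1) (h2 : av z.1 ≤ av z'.2) : N z ≤ N z' := by
  unfold N
  rw [max_eq_left h1]
  exact le_trans h2 (le_max_right _ _)

/-- integer representative. -/
lemma exists_rep (x : ZMod k) : ∃ n : ℤ, (n : ZMod k) = x ∧ n.natAbs = av x :=
  ⟨x.valMinAbs, ZMod.coe_valMinAbs x, rfl⟩

/-- The sign trick: for integers `u v` one of `u ± 2 v` has `natAbs` equal to `|u| + 2 |v|`. -/
lemma exists_sign_add (u v : ℤ) :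
    (u + 2 * v).natAbs = u.natAbs + 2 * v.natAbs ∨ (u - 2 * v).natAbs = u.natAbs + 2 * v.natAbs := by
  omega

/-- Main combinatorial facts for the pair of moves changing the first coordinate by `± 2 b`, with
`|a| ≥ |b| > 0`, `2 (|a| + |b|) < k`: at least one of the moves is up. -/
lemma T_up (a b : ZMod k) (hB : 0 < av b) (hAB : 2 * (av a + av b) < k) :
    N ((a, b) : ZMod k × ZMod k) < N (T₁ (a, b)) ∨ N ((a, b) : ZMod k × ZMod k) < N (T₂ (a, b)) ∨ av a < av b := by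
  by_cases hlt : av a < av b
  · exact Or.inr (Or.inr hlt)
  have hle : av b ≤ av a := not_lt.mp hlt
  obtain ⟨u, hu, hu'⟩ := exists_rep a
  obtain ⟨v, hv, hv'⟩ := exists_rep b
  have key : ∀ n : ℤ, n.natAbs = av a + 2 * av b → av a < av (n : ZMod k) := by
    intro n hn
    apply le_av_intCast n (av a + 1) <;> omega
  rcases exists_sign_add u v with h | h
  · left
    have h3 := key _ (by rw [h, hu', hv'])
    have h4 : ((u + 2 * v : ℤ) : ZMod k) = a + 2 * b := by push_cast; rw [hu, hv]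
    rw [h4] at h3
    unfold N T₁
    simp only [max_eq_left hle]
    exact lt_of_lt_of_le h3 (le_max_left _ _)
  · right; left
    have h3 := key _ (by rw [h, hu', hv'])
    have h4 : ((u - 2 * v : ℤ) : ZMod k) = a - 2 * b := by push_cast; rw [hu, hv]
    rw [h4] at h3
    unfold N T₂
    simp only [max_eq_left hle]
    exact lt_of_lt_of_le h3 (le_max_left _ _)


/-- The Schur weight of the Gabber-Galil test. -/
def Q (z : ZMod k × ZMod k) : ℝ :=
  cs z.1 * (G z (S₁ z) + G z (S₂ z)) + cs z.2 * (G z (T₁ z) + G z (T₂ z))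

lemma N_swap (a b : ZMod k) : N ((a, b) : ZMod k × ZMod k) = N ((b, a) : ZMod k × ZMod k) := by
  unfold N; simp [max_comm]

lemma G_swap (a b c d : ZMod k) :
    G ((a, b) : ZMod k × ZMod k) (c, d) = G ((b, a) : ZMod k × ZMod k) (d, c) := by
  unfold G
  rw [N_swap a b, N_swap c d]

lemma Q_swap (a b : ZMod k) : Q ((a, b) : ZMod k × ZMod k) = Q ((b, a) : ZMod k × ZMod k) := by
  unfold Q S₁ S₂ T₁ T₂
  simp only
  rw [G_swap a b a (b + 2 * a), G_swap a b a (b - 2 * a), G_swap a b (a + 2 * b) b,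
    G_swap a b (a - 2 * b) b]
  ring

lemma Ssum_le (a b : ZMod k) (hle : av b ≤ av a) :
    G ((a, b) : ZMod k × ZMod k) (S₁ (a, b)) + G ((a, b) : ZMod k × ZMod k) (S₂ (a, b)) ≤ 2 := by
  have h1 : G ((a, b) : ZMod k × ZMod k) (S₁ (a, b)) ≤ 1 := G_le_one (N_le_of_fst hle rfl)
  have h2 : G ((a, b) : ZMod k × ZMod k) (S₂ (a, b)) ≤ 1 := G_le_one (N_le_of_fst hle rfl)
  linarith

lemma av_eq_zero {x : ZMod k} (h : av x = 0) : x = 0 := by
  unfold av at h
  rw [Int.natAbs_eq_zero, ZMod.valMinAbs_eq_zero] at h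
  exact h

lemma Tsum_le (a b : ZMod k) (hle : av b ≤ av a) (hAB : 2 * (av a + av b) < k) :
    G ((a, b) : ZMod k × ZMod k) (T₁ (a, b)) + G ((a, b) : ZMod k × ZMod k) (T₂ (a, b)) ≤ 74 / 35 := by
  by_cases hB : av b = 0
  · have hb := av_eq_zero hB
    subst hb
    have h1 : T₁ ((a, 0) : ZMod k × ZMod k) = (a, 0) := by simp [T₁]
    have h2 : T₂ ((a, 0) : ZMod k × ZMod k) = (a, 0) := by simp [T₂]
    rw [h1, h2, G_self]
    norm_num
  · rcases T_up a b (Nat.pos_of_ne_zero hB) hAB with h | h | h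
    · rw [G_up h]
      have := G_le ((a, b) : ZMod k × ZMod k) (T₂ (a, b))
      linarith
    · rw [G_up h]
      have := G_le ((a, b) : ZMod k × ZMod k) (T₁ (a, b))
      linarith
    · omega

lemma Q_le_of_ge (a b : ZMod k) (hz : ((a, b) : ZMod k × ZMod k) ≠ 0) (hle : av b ≤ av a) :
    Q ((a, b) : ZMod k × ZMod k) ≤ 124 / 35 := by
  have hk := k_pos_real (k := k)
  have hk2 : (0 : ℝ) < k := hk
  have hca := cs_nonneg a
  have hcb := cs_nonneg b
  have hca1 := cs_le_one a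
  have hcb1 := cs_le_one b
  have hS := Ssum_le a b hle
  have hGpos1 := G_pos ((a, b) : ZMod k × ZMod k) (S₁ (a, b))
  have hGpos2 := G_pos ((a, b) : ZMod k × ZMod k) (S₂ (a, b))
  have hGpos3 := G_pos ((a, b) : ZMod k × ZMod k) (T₁ (a, b))
  have hGpos4 := G_pos ((a, b) : ZMod k × ZMod k) (T₂ (a, b))
  have hAbound := two_mul_av_le a
  have hBbound := two_mul_av_le b
  unfold Q
  simp only
  by_cases h1 : 4 * av a < k
  · -- Case 1
    have hAB2 : 2 * (av a + av b) < k := by omega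
    have hT := Tsum_le a b hle hAB2
    rcases lt_or_eq_of_le hle with hlt | heq
    · -- `|b| < |a|`: both `S`-moves go up
      obtain ⟨u, hu, hu'⟩ := exists_rep a
      obtain ⟨v, hv, hv'⟩ := exists_rep b
      have up1 : av a < av (b + 2 * a) := by
        have h4 : ((v + 2 * u : ℤ) : ZMod k) = b + 2 * a := by push_cast; rw [hu, hv]
        rw [← h4]
        apply le_av_intCast (v + 2 * u) (av a + 1) <;> omega
      have up2 : av a < av (b - 2 * a) := by
        have h4 : ((v - 2 * u : ℤ) : ZMod k) = b - 2 * a := by push_cast; rw [hu, hv]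
        rw [← h4]
        apply le_av_intCast (v - 2 * u) (av a + 1) <;> omega
      have hN : N ((a, b) : ZMod k × ZMod k) = av a := by
        unfold N; simp only; exact max_eq_left hle
      have g1 : G ((a, b) : ZMod k × ZMod k) (S₁ (a, b)) = 5 / 7 := by
        apply G_up
        rw [hN]
        unfold N S₁
        exact lt_of_lt_of_le up1 (le_max_right _ _)
      have g2 : G ((a, b) : ZMod k × ZMod k) (S₂ (a, b)) = 5 / 7 := by
        apply G_up
        rw [hN]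
        unfold N S₂
        exact lt_of_lt_of_le up2 (le_max_right _ _)
      rw [g1, g2]
      have e1 : cs a * (5 / 7 + 5 / 7) ≤ 1 * (5 / 7 + 5 / 7) :=
        mul_le_mul_of_nonneg_right hca1 (by norm_num)
      have e2 : cs b * (G ((a, b) : ZMod k × ZMod k) (T₁ (a, b)) + G ((a, b) : ZMod k × ZMod k) (T₂ (a, b)))
          ≤ 1 * (74 / 35) :=
        mul_le_mul hcb1 hT (by positivity) (by norm_num)
      linarith
    · -- `|a| = |b|`
      have hApos : 0 < av a := by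
        by_contra hA
        have hA0 : av a = 0 := by omega
        apply hz
        have ha := av_eq_zero hA0
        have hb := av_eq_zero (by omega : av b = 0)
        simp [ha, hb]
      have hN : N ((a, b) : ZMod k × ZMod k) = av a := by
        unfold N; simp only; exact max_eq_left hle
      -- all `T`-moves are not down
      have t1 : G ((a, b) : ZMod k × ZMod k) (T₁ (a, b)) ≤ 1 := by
        apply G_le_one; rw [hN]; unfold N T₁; simp only; rw [heq]; exact le_max_right _ _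
      have t2 : G ((a, b) : ZMod k × ZMod k) (T₂ (a, b)) ≤ 1 := by
        apply G_le_one; rw [hN]; unfold N T₂; simp only; rw [heq]; exact le_max_right _ _
      have s1 : G ((a, b) : ZMod k × ZMod k) (S₁ (a, b)) ≤ 1 := G_le_one (N_le_of_fst hle rfl)
      have s2 : G ((a, b) : ZMod k × ZMod k) (S₂ (a, b)) ≤ 1 := G_le_one (N_le_of_fst hle rfl)
      -- one `T`-move up
      have hTs : G ((a, b) : ZMod k × ZMod k) (T₁ (a, b)) + G ((a, b) : ZMod k × ZMod k) (T₂ (a, b)) ≤ 12 / 7 := by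
        rcases T_up a b (by omega) hAB2 with h | h | h
        · rw [G_up h]; linarith
        · rw [G_up h]; linarith
        · omega
      -- one `S`-move up
      have hSs : G ((a, b) : ZMod k × ZMod k) (S₁ (a, b)) + G ((a, b) : ZMod k × ZMod k) (S₂ (a, b)) ≤ 12 / 7 := by
        have hup := T_up b a (by omega) (by omega)
        have n1 : N (T₁ ((b, a) : ZMod k × ZMod k)) = N (S₁ ((a, b) : ZMod k × ZMod k)) := by
          unfold T₁ S₁; simp only; rw [N_swap]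
        have n2 : N (T₂ ((b, a) : ZMod k × ZMod k)) = N (S₂ ((a, b) : ZMod k × ZMod k)) := by
          unfold T₂ S₂; simp only; rw [N_swap]
        rw [n1, n2, N_swap b a] at hup
        rcases hup with h | h | h
        · rw [G_up h]; linarith
        · rw [G_up h]; linarith
        · omega
      have e1 := mul_le_mul hca1 hSs (by positivity) (by norm_num)
      have e2 := mul_le_mul hcb1 hTs (by positivity) (by norm_num)
      linarith
  · by_cases h2 : 2 * (av a + av b) < k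
    · -- Case 2
      have hT := Tsum_le a b hle h2
      have hcos : cs a ≤ Real.sqrt 2 / 2 := by
        unfold cs
        rw [← Real.cos_pi_div_four]
        apply Real.cos_le_cos_of_nonneg_of_le_pi
        · positivity
        · rw [div_le_iff₀ hk]
          have : (2 : ℝ) * av a ≤ k := by exact_mod_cast hAbound
          nlinarith [Real.pi_pos]
        · rw [div_le_div_iff₀ (by norm_num) hk]
          have : (k : ℝ) ≤ 4 * av a := by exact_mod_cast (not_lt.mp h1)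
          nlinarith [Real.pi_pos]
      have hsq : Real.sqrt 2 ≤ 10 / 7 := by
        rw [Real.sqrt_le_left (by norm_num)]
        norm_num
      have e1 := mul_le_mul hcos hS (by positivity) (by positivity)
      have e2 := mul_le_mul hcb1 hT (by positivity) (by norm_num)
      linarith
    · -- Case 3
      have hTT : G ((a, b) : ZMod k × ZMod k) (T₁ (a, b)) + G ((a, b) : ZMod k × ZMod k) (T₂ (a, b)) ≤ 14 / 5 := by
        have := G_le ((a, b) : ZMod k × ZMod k) (T₁ (a, b))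
        have := G_le ((a, b) : ZMod k × ZMod k) (T₂ (a, b))
        linarith
      set θ : ℝ := Real.pi * av a / k with hθ
      have hcosb : cs b ≤ Real.sin θ := by
        unfold cs
        rw [← Real.cos_pi_div_two_sub]
        apply Real.cos_le_cos_of_nonneg_of_le_pi
        · have : θ ≤ Real.pi / 2 := by
            rw [hθ, div_le_iff₀ hk]
            have : (2 : ℝ) * av a ≤ k := by exact_mod_cast hAbound
            nlinarith [Real.pi_pos]
          linarith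
        · rw [div_le_iff₀ hk]
          have : (2 : ℝ) * av b ≤ k := by exact_mod_cast hBbound
          nlinarith [Real.pi_pos]
        · have h3 : (k : ℝ) ≤ 2 * (av a + av b) := by exact_mod_cast (not_lt.mp h2)
          rw [hθ]
          have : Real.pi / 2 - Real.pi * av a / k = Real.pi * (k - 2 * av a) / (2 * k) := by
            field_simp
          rw [this, div_le_div_iff₀ (by positivity) hk]
          nlinarith [Real.pi_pos, mul_pos Real.pi_pos hk]
      have e1 := mul_le_mul_of_nonneg_left hS hca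
      have hsinnn : 0 ≤ Real.sin θ := le_trans hcb hcosb
      have e2 := mul_le_mul hcosb hTT (by positivity) hsinnn
      have hcsa : cs a = Real.cos θ := rfl
      have hid := Real.sin_sq_add_cos_sq θ
      rw [hcsa] at e1 ⊢
      have hcc : 0 ≤ Real.cos θ := by rw [← hcsa]; exact hca
      nlinarith [sq_nonneg (Real.cos θ * 14 / 5 - Real.sin θ * 2),
        sq_nonneg (2 * Real.cos θ + 14 / 5 * Real.sin θ - 124 / 35)]

lemma Q_le (z : ZMod k × ZMod k) (hz : z ≠ 0) : Q z ≤ 124 / 35 := by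
  obtain ⟨a, b⟩ := z
  rcases le_total (av b) (av a) with h | h
  · exact Q_le_of_ge a b hz h
  · rw [Q_swap]
    apply Q_le_of_ge b a _ h
    intro h0
    apply hz
    simp only [Prod.mk_eq_zero] at h0 ⊢
    exact ⟨h0.2, h0.1⟩


/-! ### The additive character -/

/-- The standard additive character of `ZMod k`. -/
abbrev ψ : AddChar (ZMod k) ℂ := ZMod.stdAddChar

lemma norm_ψ (x : ZMod k) : ‖(ψ x : ℂ)‖ = 1 := by
  rw [ZMod.stdAddChar_apply]; exact Circle.norm_coe _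

lemma conj_ψ (x : ZMod k) : star (ψ x : ℂ) = ψ (-x) := by
  rw [AddChar.map_neg_eq_conj]; rfl

lemma ψ_add (x y : ZMod k) : (ψ (x + y) : ℂ) = ψ x * ψ y := AddChar.map_add_eq_mul _ _ _

lemma ψ_neg_mul (x : ZMod k) : (ψ (-x) : ℂ) * ψ x = 1 := by
  rw [← ψ_add]; simp

lemma sum_ψ_mul (b : ZMod k) : ∑ x : ZMod k, (ψ (x * b) : ℂ) = if b = 0 then (k : ℂ) else 0 := by
  classical
  have := AddChar.sum_mulShift (R := ZMod k) (R' := ℂ) (ψ := ZMod.stdAddChar) b
    (ZMod.isPrimitive_stdAddChar k)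
  rw [this]
  simp [ZMod.card]

lemma norm_one_add_ψ (x : ZMod k) : ‖(1 : ℂ) + ψ x‖ = 2 * cs x := by
  have hk := k_pos_real (k := k)
  obtain ⟨u, hu, hu'⟩ := exists_rep x
  rw [← hu, ZMod.stdAddChar_coe]
  set α : ℝ := Real.pi * u / k with hα
  have h1 : Complex.exp (2 * Real.pi * Complex.I * u / k) = Complex.exp (α * Complex.I) ^ 2 := by
    rw [← Complex.exp_nat_mul]
    congr 1
    rw [hα]; push_cast; ring
  have h2 : (1 : ℂ) + Complex.exp (α * Complex.I) ^ 2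
      = Complex.exp (α * Complex.I) * (2 * (Real.cos α : ℂ)) := by
    have h3 : (Real.cos α : ℂ) = (Complex.exp (α * Complex.I) + Complex.exp (-(α : ℂ) * Complex.I)) / 2 := by
      rw [Complex.ofReal_cos, Complex.cos]
    rw [h3]
    have h4 : Complex.exp (α * Complex.I) * Complex.exp (-(α : ℂ) * Complex.I) = 1 := by
      rw [← Complex.exp_add]; simp
    linear_combination (-1 : ℂ) * h4
  rw [h1, h2, norm_mul, Complex.norm_exp_ofReal_mul_I, one_mul, norm_mul]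
  have h5 : cs x = Real.cos α := by
    unfold cs
    rw [← hu']
    rcases le_total 0 u with hn | hn
    · have : ((u.natAbs : ℕ) : ℝ) = u := by
        have h7 : ((u.natAbs : ℕ) : ℤ) = u := Int.natAbs_of_nonneg hn
        calc ((u.natAbs : ℕ) : ℝ) = (((u.natAbs : ℕ) : ℤ) : ℝ) := (Int.cast_natCast _).symm
          _ = u := by rw [h7]
      rw [this]
    · have : ((u.natAbs : ℕ) : ℝ) = -u := by
        have h7 : ((u.natAbs : ℕ) : ℤ) = -u := Int.ofNat_natAbs_of_nonpos hn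
        calc ((u.natAbs : ℕ) : ℝ) = (((u.natAbs : ℕ) : ℤ) : ℝ) := (Int.cast_natCast _).symm
          _ = -u := by rw [h7]; push_cast; rfl
      rw [this, hα, ← Real.cos_neg]
      congr 1
      ring
  have h6 : 0 ≤ Real.cos α := by rw [← h5]; exact cs_nonneg x
  rw [Complex.norm_real, Real.norm_of_nonneg h6, ← hu] at *
  rw [h5]
  simp

/-! ### The Weyl matrices and coefficients -/

/-- The Weyl matrix `X^a Z^b`. -/
def D (a b : ZMod k) : Matrix (ZMod k) (ZMod k) ℂ :=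
  Matrix.of fun i j => if i = j + a then (ψ (b * j) : ℂ) else 0

/-- The Weyl coefficient. -/
def coef (f : Matrix (ZMod k) (ZMod k) ℂ) (z : ZMod k × ZMod k) : ℂ :=
  (1 / (k : ℂ)) * ∑ j, (ψ (-(z.2 * j)) : ℂ) * f (j + z.1) j

lemma trace_D_mul (f : Matrix (ZMod k) (ZMod k) ℂ) (z : ZMod k × ZMod k) :
    ((D z.1 z.2)ᴴ * f).trace = ∑ j, (ψ (-(z.2 * j)) : ℂ) * f (j + z.1) j := by
  classical
  unfold Matrix.trace
  apply Finset.sum_congr rfl
  intro j _
  simp only [Matrix.diag_apply, Matrix.mul_apply, Matrix.conjTranspose_apply, D, Matrix.of_apply]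
  rw [Finset.sum_eq_single (j + z.1)]
  · simp [conj_ψ]
  · intro i _ hi
    simp [hi]
  · simp

lemma coef_eq_trace (f : Matrix (ZMod k) (ZMod k) ℂ) (z : ZMod k × ZMod k) :
    coef f z = (1 / (k : ℂ)) * ((D z.1 z.2)ᴴ * f).trace := by
  rw [trace_D_mul]; rfl

lemma parseval_aux (g : ZMod k → ℂ) :
    ∑ b : ZMod k, ‖∑ j, (ψ (-(b * j)) : ℂ) * g j‖ ^ 2 = (k : ℝ) * ∑ j, ‖g j‖ ^ 2 := by
  classical
  have hC : ((∑ b : ZMod k, ‖∑ j, (ψ (-(b * j)) : ℂ) * g j‖ ^ 2 : ℝ) : ℂ)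
      = (((k : ℝ) * ∑ j, ‖g j‖ ^ 2 : ℝ) : ℂ) := by
    push_cast
    have h1 : ∀ b : ZMod k, ((‖∑ j, (ψ (-(b * j)) : ℂ) * g j‖ : ℂ)) ^ 2
        = ∑ j, ∑ l, g j * star (g l) * (ψ (b * (l - j)) : ℂ) := by
      intro b
      rw [← Complex.mul_conj']
      simp only [Complex.star_def, map_sum, map_mul, Finset.sum_mul, Finset.mul_sum]
      rw [Finset.sum_comm]
      apply Finset.sum_congr rfl; intro j _
      apply Finset.sum_congr rfl; intro l _
      have h2 : (starRingEnd ℂ) ((ψ (-(b * l)) : ℂ)) = ψ (b * l) := by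
        have := conj_ψ (-(b * l))
        simpa using this
      rw [h2]
      have h3 : (ψ (b * (l - j)) : ℂ) = ψ (-(b * j)) * ψ (b * l) := by
        rw [← ψ_add]; congr 1; ring
      rw [h3]; ring
    simp only [h1]
    have h4 : ∀ j l : ZMod k, ∑ b : ZMod k, g j * star (g l) * (ψ (b * (l - j)) : ℂ)
        = if l = j then g j * star (g l) * k else 0 := by
      intro j l
      rw [← Finset.mul_sum, sum_ψ_mul]
      by_cases h : l = j
      · simp [h]
      · have : l - j ≠ 0 := sub_ne_zero.mpr h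
        simp [h, this]
    have h5 : ∑ b : ZMod k, ∑ j : ZMod k, ∑ l : ZMod k, g j * star (g l) * (ψ (b * (l - j)) : ℂ)
        = ∑ j : ZMod k, ∑ l : ZMod k, ∑ b : ZMod k, g j * star (g l) * (ψ (b * (l - j)) : ℂ) := by
      rw [Finset.sum_comm]
      apply Finset.sum_congr rfl; intro j _
      rw [Finset.sum_comm]
    rw [h5]
    simp only [h4, Finset.sum_ite_eq', Finset.mem_univ, if_true, Finset.mul_sum]
    apply Finset.sum_congr rfl; intro j _
    have h6 : g j * star (g j) = ((‖g j‖ : ℂ)) ^ 2 := by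
      rw [Complex.star_def, Complex.mul_conj']
    rw [h6]; ring
  exact_mod_cast hC

/-- Parseval for the Weyl coefficients. -/
lemma parseval (f : Matrix (ZMod k) (ZMod k) ℂ) :
    ((fᴴ * f).trace).re = (k : ℝ) * ∑ z : ZMod k × ZMod k, ‖coef f z‖ ^ 2 := by
  classical
  have hk := k_pos_real (k := k)
  have hk' : (k : ℝ) ≠ 0 := hk.ne'
  have h1 : ((fᴴ * f).trace).re = ∑ j, ∑ i, ‖f i j‖ ^ 2 := by
    unfold Matrix.trace
    rw [Complex.re_sum]
    apply Finset.sum_congr rfl; intro j _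
    simp only [Matrix.diag_apply, Matrix.mul_apply, Matrix.conjTranspose_apply]
    rw [Complex.re_sum]
    apply Finset.sum_congr rfl; intro i _
    have : star (f i j) * f i j = ((‖f i j‖ ^ 2 : ℝ) : ℂ) := by
      rw [Complex.star_def, mul_comm, Complex.mul_conj']
      push_cast; rfl
    rw [this, Complex.ofReal_re]
  have h2 : ∀ a : ZMod k, ∑ b : ZMod k, ‖coef f (a, b)‖ ^ 2
      = (1 / (k : ℝ)) * ∑ j, ‖f (j + a) j‖ ^ 2 := by
    intro a
    have h3 : ∀ b : ZMod k, ‖coef f (a, b)‖ ^ 2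
        = (1 / (k : ℝ)) ^ 2 * ‖∑ j, (ψ (-(b * j)) : ℂ) * f (j + a) j‖ ^ 2 := by
      intro b
      unfold coef
      simp only
      rw [norm_mul, mul_pow]
      congr 2
      simp
    simp only [h3]
    rw [← Finset.mul_sum, parseval_aux (fun j => f (j + a) j)]
    field_simp
  rw [h1, Fintype.sum_prod_type]
  simp only [h2]
  rw [← Finset.mul_sum, ← mul_assoc, mul_one_div_cancel hk', one_mul]
  conv_rhs => rw [Finset.sum_comm]
  apply Finset.sum_congr rfl; intro j _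
  exact (Equiv.sum_comp (Equiv.addLeft j) (fun i => ‖f i j‖ ^ 2)).symm

lemma coef_sub (f g : Matrix (ZMod k) (ZMod k) ℂ) (z : ZMod k × ZMod k) :
    coef (f - g) z = coef f z - coef g z := by
  rw [coef_eq_trace, coef_eq_trace, coef_eq_trace, Matrix.mul_sub, Matrix.trace_sub, mul_sub]

lemma coef_zero (f : Matrix (ZMod k) (ZMod k) ℂ) : coef f 0 = (1 / (k : ℂ)) * f.trace := by
  unfold coef Matrix.trace
  simp

/-! ### Covariant unitaries -/

/-- Covariance of a matrix under Weyl conjugation. -/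
def Cov (U : Matrix (ZMod k) (ZMod k) ℂ) (θ : ZMod k × ZMod k → ℂ)
    (σ : ZMod k × ZMod k → ZMod k × ZMod k) : Prop :=
  ∀ z, U * D z.1 z.2 * Uᴴ = θ z • D (σ z).1 (σ z).2

lemma Cov.comp {U V : Matrix (ZMod k) (ZMod k) ℂ} {θ θ' : ZMod k × ZMod k → ℂ}
    {σ σ' : ZMod k × ZMod k → ZMod k × ZMod k} (hU : Cov U θ σ) (hV : Cov V θ' σ') :
    Cov (V * U) (fun z => θ z * θ' (σ z)) (fun z => σ' (σ z)) := by
  intro z
  have h1 : V * U * D z.1 z.2 * (V * U)ᴴ = V * (U * D z.1 z.2 * Uᴴ) * Vᴴ := by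
    rw [Matrix.conjTranspose_mul]
    simp only [Matrix.mul_assoc]
  rw [h1, hU z, Matrix.mul_smul, Matrix.smul_mul, hV (σ z), smul_smul]

/-- Covariance passes to the adjoint. -/
lemma Cov.adj {U : Matrix (ZMod k) (ZMod k) ℂ} {θ : ZMod k × ZMod k → ℂ}
    {σ τ : ZMod k × ZMod k → ZMod k × ZMod k} (hU : Cov U θ σ) (hUU : Uᴴ * U = 1)
    (hθ : ∀ z, θ z ≠ 0) (hτ : ∀ w, σ (τ w) = w) :
    Cov Uᴴ (fun w => (θ (τ w))⁻¹) τ := by
  intro w
  have h1 := hU (τ w)
  rw [hτ w] at h1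
  have h2 : Uᴴ * D w.1 w.2 * (Uᴴ)ᴴ = (θ (τ w))⁻¹ • (Uᴴ * (θ (τ w) • D w.1 w.2) * U) := by
    rw [Matrix.mul_smul, Matrix.smul_mul, smul_smul, inv_mul_cancel₀ (hθ _), one_smul,
      Matrix.conjTranspose_conjTranspose]
  rw [h2, ← h1]
  congr 1
  calc Uᴴ * (U * D (τ w).1 (τ w).2 * Uᴴ) * U
      = (Uᴴ * U) * D (τ w).1 (τ w).2 * (Uᴴ * U) := by simp only [Matrix.mul_assoc]
    _ = D (τ w).1 (τ w).2 := by rw [hUU]; simp

/-- How Weyl coefficients transform under a covariant unitary. -/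
lemma coef_conj {U : Matrix (ZMod k) (ZMod k) ℂ} {θ : ZMod k × ZMod k → ℂ}
    {σ : ZMod k × ZMod k → ZMod k × ZMod k} (hU : Cov U θ σ) (hUU : Uᴴ * U = 1)
    (hθ : ∀ z, ‖θ z‖ = 1) (f : Matrix (ZMod k) (ZMod k) ℂ) (z : ZMod k × ZMod k) :
    coef (U * f * Uᴴ) (σ z) = θ z * coef f z := by
  rw [coef_eq_trace, coef_eq_trace]
  have hne : θ z ≠ 0 := by
    intro h; have := hθ z; rw [h, norm_zero] at this; norm_num at this
  have h1 : D (σ z).1 (σ z).2 = (θ z)⁻¹ • (U * D z.1 z.2 * Uᴴ) := by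
    rw [hU z, smul_smul, inv_mul_cancel₀ hne, one_smul]
  have hconj : star ((θ z)⁻¹) = θ z := by
    have h1 : θ z * star (θ z) = 1 := by
      rw [Complex.star_def, Complex.mul_conj', hθ z]; simp
    rw [star_inv₀]
    exact (eq_inv_of_mul_eq_one_left h1).symm
  have h2 : (D (σ z).1 (σ z).2)ᴴ = θ z • (U * (D z.1 z.2)ᴴ * Uᴴ) := by
    rw [h1, Matrix.conjTranspose_smul, hconj, Matrix.conjTranspose_mul, Matrix.conjTranspose_mul,
      Matrix.conjTranspose_conjTranspose]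
    simp only [Matrix.mul_assoc]
  rw [h2, Matrix.smul_mul, Matrix.trace_smul, smul_eq_mul]
  have h3 : U * (D z.1 z.2)ᴴ * Uᴴ * (U * f * Uᴴ) = U * ((D z.1 z.2)ᴴ * (Uᴴ * U) * f) * Uᴴ := by
    simp only [Matrix.mul_assoc]
  rw [h3, hUU, Matrix.mul_one, Matrix.trace_mul_comm, ← Matrix.mul_assoc, hUU, Matrix.one_mul]
  ring


/-! ### The concrete unitaries -/

/-- The chirp. -/
def Cm : Matrix (ZMod k) (ZMod k) ℂ := Matrix.diagonal fun j => (ψ (j * j) : ℂ)

/-- The clock matrix. -/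
def Zm : Matrix (ZMod k) (ZMod k) ℂ := Matrix.diagonal fun j => (ψ j : ℂ)

/-- The shift matrix. -/
def Xm : Matrix (ZMod k) (ZMod k) ℂ := D 1 0

/-- The discrete Fourier transform. -/
def Fm : Matrix (ZMod k) (ZMod k) ℂ :=
  Matrix.of fun i j => ((Real.sqrt k : ℝ) : ℂ)⁻¹ * (ψ (-(i * j)) : ℂ)

lemma diag_unitary (φ : ZMod k → ZMod k) :
    (Matrix.diagonal fun j => (ψ (φ j) : ℂ))ᴴ * (Matrix.diagonal fun j => (ψ (φ j) : ℂ)) = 1 := by
  classical
  rw [Matrix.diagonal_conjTranspose, Matrix.diagonal_mul_diagonal, ← Matrix.diagonal_one]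
  congr 1
  funext j
  simp only [Pi.star_apply, conj_ψ, ψ_neg_mul]

lemma Cm_unitary : (Cm (k := k))ᴴ * Cm = 1 := diag_unitary _
lemma Zm_unitary : (Zm (k := k))ᴴ * Zm = 1 := diag_unitary (fun j => j)

lemma Xm_apply (i j : ZMod k) : Xm i j = if i = j + 1 then 1 else 0 := by
  simp [Xm, D]

lemma Xm_unitary : (Xm (k := k))ᴴ * Xm = 1 := by
  classical
  ext i j
  simp only [Matrix.mul_apply, Matrix.conjTranspose_apply, Xm_apply, Matrix.one_apply]
  rw [Finset.sum_eq_single (i + 1)]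
  · by_cases h : i = j
    · simp [h]
    · have : i + 1 ≠ j + 1 := fun h' => h (add_right_cancel h')
      simp [h, this]
  · intro l _ hl
    simp [hl]
  · simp

lemma sqrt_inv_sq : (((Real.sqrt k : ℝ) : ℂ)⁻¹) * (((Real.sqrt k : ℝ) : ℂ)⁻¹) = (1 / (k : ℂ)) := by
  have hk := k_pos_real (k := k)
  have h1 : ((Real.sqrt k : ℝ) : ℂ) * ((Real.sqrt k : ℝ) : ℂ) = (k : ℂ) := by
    rw [← Complex.ofReal_mul, Real.mul_self_sqrt hk.le]; simp
  rw [← mul_inv, h1]; simp

lemma star_sqrt_inv : star (((Real.sqrt k : ℝ) : ℂ)⁻¹) = ((Real.sqrt k : ℝ) : ℂ)⁻¹ := by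
  rw [star_inv₀, Complex.star_def, Complex.conj_ofReal]

lemma k_ne_zero_complex : (k : ℂ) ≠ 0 := by
  exact_mod_cast (NeZero.ne k)

lemma Fm_unitary : (Fm (k := k))ᴴ * Fm = 1 := by
  classical
  ext i j
  simp only [Matrix.mul_apply, Matrix.conjTranspose_apply, Fm, Matrix.of_apply, Matrix.one_apply]
  have h1 : ∀ l : ZMod k, star (((Real.sqrt k : ℝ) : ℂ)⁻¹ * (ψ (-(l * i)) : ℂ))
      * (((Real.sqrt k : ℝ) : ℂ)⁻¹ * (ψ (-(l * j)) : ℂ))
      = (1 / (k : ℂ)) * (ψ (l * (i - j)) : ℂ) := by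
    intro l
    rw [star_mul', star_sqrt_inv, conj_ψ, mul_mul_mul_comm, sqrt_inv_sq, ← ψ_add]
    congr 2
    ring
  simp only [h1]
  rw [← Finset.mul_sum, sum_ψ_mul]
  by_cases h : i = j
  · subst h
    simp [k_ne_zero_complex]
  · have : i - j ≠ 0 := sub_ne_zero.mpr h
    simp [h, this]

lemma Cm_cov : Cov (Cm (k := k)) (fun z => (ψ (z.1 * z.1) : ℂ)) S₁ := by
  classical
  intro z
  ext i l
  simp only [Cm, Matrix.diagonal_conjTranspose, Matrix.diagonal_mul, Matrix.mul_diagonal, Matrix.smul_apply,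
    smul_eq_mul, D, S₁, Matrix.of_apply, Pi.star_apply, conj_ψ]
  by_cases h : i = l + z.1
  · subst h
    simp only [if_true]
    rw [← ψ_add, ← ψ_add, ← ψ_add]
    congr 1
    ring
  · simp [h]

lemma Zm_cov : Cov (Zm (k := k)) (fun z => (ψ z.1 : ℂ)) (fun z => z) := by
  classical
  intro z
  ext i l
  simp only [Zm, Matrix.diagonal_conjTranspose, Matrix.diagonal_mul, Matrix.mul_diagonal, Matrix.smul_apply,
    smul_eq_mul, D, Matrix.of_apply, Pi.star_apply, conj_ψ]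
  by_cases h : i = l + z.1
  · subst h
    simp only [if_true]
    rw [← ψ_add, ← ψ_add, ← ψ_add]
    congr 1
    ring
  · simp [h]

lemma Xm_cov : Cov (Xm (k := k)) (fun z => (ψ (-z.2) : ℂ)) (fun z => z) := by
  classical
  intro z
  ext i l
  have h1 : ((Xm (k := k)) * D z.1 z.2 * (Xm (k := k))ᴴ) i l = D z.1 z.2 (i - 1) (l - 1) := by
    rw [Matrix.mul_apply]
    rw [Finset.sum_eq_single (l - 1)]
    · rw [Matrix.mul_apply, Finset.sum_eq_single (i - 1)]
      · simp [Xm_apply]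
      · intro p _ hp
        have : i ≠ p + 1 := fun h => hp (by rw [h]; ring)
        simp [Xm_apply, this]
      · simp
    · intro q _ hq
      have : l ≠ q + 1 := fun h => hq (by rw [h]; ring)
      simp [Xm_apply, this]
    · simp
  rw [h1]
  simp only [Matrix.smul_apply, smul_eq_mul, D, Matrix.of_apply]
  by_cases h : i = l + z.1
  · have h2 : i - 1 = l - 1 + z.1 := by rw [h]; ring
    rw [if_pos h2, if_pos h, ← ψ_add]
    congr 1
    ring
  · have h2 : i - 1 ≠ l - 1 + z.1 := fun h' => h (by linear_combination h')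
    simp [h, h2]

lemma Fm_cov : Cov (Fm (k := k)) (fun z => (ψ (-(z.1 * z.2)) : ℂ)) (fun z => (z.2, -z.1)) := by
  classical
  intro z
  ext i l
  have h1 : ((Fm (k := k)) * D z.1 z.2 * (Fm (k := k))ᴴ) i l
      = ∑ j, (1 / (k : ℂ)) * (ψ (-(i * z.1)) * ψ (j * (z.2 + l - i)) : ℂ) := by
    rw [Matrix.mul_apply]
    apply Finset.sum_congr rfl
    intro j _
    rw [Matrix.mul_apply, Finset.sum_eq_single (j + z.1)]
    · simp only [Fm, D, Matrix.of_apply, Matrix.conjTranspose_apply, if_true]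
      rw [star_mul', star_sqrt_inv, conj_ψ]
      have h2 : (((Real.sqrt k : ℝ) : ℂ)⁻¹ * (ψ (-(i * (j + z.1))) : ℂ)) * (ψ (z.2 * j) : ℂ)
          * (((Real.sqrt k : ℝ) : ℂ)⁻¹ * (ψ (- -(l * j)) : ℂ))
          = (((Real.sqrt k : ℝ) : ℂ)⁻¹ * ((Real.sqrt k : ℝ) : ℂ)⁻¹)
            * ((ψ (-(i * (j + z.1))) : ℂ) * (ψ (z.2 * j) : ℂ) * (ψ (- -(l * j)) : ℂ)) := by ring
      rw [h2, sqrt_inv_sq, ← ψ_add, ← ψ_add, ← ψ_add]
      congr 2
      ring
    · intro p _ hp
      simp [D, hp]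
    · simp
  rw [h1, ← Finset.mul_sum, ← Finset.mul_sum, sum_ψ_mul]
  simp only [Matrix.smul_apply, smul_eq_mul, D, Matrix.of_apply]
  by_cases h : i = l + z.2
  · have h2 : z.2 + l - i = 0 := by rw [h]; ring
    rw [if_pos h2, if_pos h]
    have h3 : (1 / (k : ℂ)) * ((ψ (-(i * z.1)) : ℂ) * (k : ℂ)) = ψ (-(i * z.1)) := by
      have := k_ne_zero_complex (k := k)
      field_simp
    rw [h3, h, ← ψ_add]
    congr 1
    ring
  · have h2 : z.2 + l - i ≠ 0 := fun h' => h (by linear_combination -h')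
    simp [h, h2]

/-- The moves as equivalences. -/
def S₁e : Equiv.Perm (ZMod k × ZMod k) where
  toFun := S₁
  invFun := S₂
  left_inv z := by simp [S₁, S₂]
  right_inv z := by simp [S₁, S₂]

def T₂e : Equiv.Perm (ZMod k × ZMod k) where
  toFun := T₂
  invFun := T₁
  left_inv z := by simp [T₁, T₂]
  right_inv z := by simp [T₁, T₂]

/-- The conjugate of the chirp by the Fourier transform. -/
def Tt : Matrix (ZMod k) (ZMod k) ℂ := Fmᴴ * (Cm * Fm)

lemma Tt_unitary : (Tt (k := k))ᴴ * Tt = 1 := by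
  unfold Tt
  rw [Matrix.conjTranspose_mul, Matrix.conjTranspose_mul, Matrix.conjTranspose_conjTranspose]
  have hF : (Fm (k := k)) * (Fm (k := k))ᴴ = 1 := mul_eq_one_comm.mp Fm_unitary
  calc ((Fm (k := k))ᴴ * (Cm (k := k))ᴴ) * (Fm (k := k)) * ((Fm (k := k))ᴴ * ((Cm (k := k)) * (Fm (k := k))))
      = (Fm (k := k))ᴴ * ((Cm (k := k))ᴴ * ((Fm (k := k)) * (Fm (k := k))ᴴ) * (Cm (k := k))) * (Fm (k := k)) := by
        simp only [Matrix.mul_assoc]
    _ = 1 := by
      rw [hF, Matrix.mul_one, Cm_unitary, Matrix.mul_one, Fm_unitary]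

lemma exists_Tt_cov : ∃ θ : ZMod k × ZMod k → ℂ, (∀ z, ‖θ z‖ = 1) ∧ Cov (Tt (k := k)) θ T₂ := by
  -- `Fm`, then `Cm`, then `Fmᴴ`
  have hadj := Fm_cov.adj (k := k) (τ := fun w => (-w.2, w.1)) Fm_unitary
    (fun z => by
      intro h
      have := norm_ψ (-(z.1 * z.2))
      rw [h, norm_zero] at this; norm_num at this)
    (fun w => by simp)
  have h := (Fm_cov (k := k).comp Cm_cov).comp hadj
  have e2 : (fun z : ZMod k × ZMod k => (-(S₁ (z.2, -z.1)).2, (S₁ (z.2, -z.1)).1)) = T₂ := by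
    funext z
    refine Prod.ext ?_ ?_
    · simp only [S₁, T₂]; ring
    · simp only [S₁, T₂]
  refine ⟨_, ?_, e2 ▸ h⟩
  intro z
  simp only [norm_mul, norm_inv, norm_ψ]
  norm_num


/-! ### The Schur test -/

lemma pair_pointwise (u v θ ε : ℂ) (hθ : ‖θ‖ = 1) (hε : ‖ε‖ = 1) (c g g' : ℝ)
    (hc : ‖1 + ε‖ = 2 * c) (hc0 : 0 ≤ c) (hg : 0 < g) (hgg : g * g' = 1) :
    2 * ‖u‖ ^ 2 + 2 * ‖v‖ ^ 2 - 2 * c * (g * ‖u‖ ^ 2 + g' * ‖v‖ ^ 2)
      ≤ ‖θ * u - v‖ ^ 2 + ‖θ * ε * u - v‖ ^ 2 := by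
  have key : ∀ w : ℂ, ‖w - v‖ ^ 2 = ‖w‖ ^ 2 + ‖v‖ ^ 2 - 2 * (w * (starRingEnd ℂ) v).re := by
    intro w
    rw [← Complex.normSq_eq_norm_sq, Complex.normSq_sub, Complex.normSq_eq_norm_sq,
      Complex.normSq_eq_norm_sq]
  have n1 : ‖θ * u‖ = ‖u‖ := by rw [norm_mul, hθ, one_mul]
  have n2 : ‖θ * ε * u‖ = ‖u‖ := by rw [norm_mul, norm_mul, hθ, hε, one_mul, one_mul]
  rw [key, key, n1, n2]
  have h3 : (θ * u * (starRingEnd ℂ) v).re + (θ * ε * u * (starRingEnd ℂ) v).re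
      = ((1 + ε) * (θ * u * (starRingEnd ℂ) v)).re := by
    rw [← Complex.add_re]; congr 1; ring
  have h4 : ((1 + ε) * (θ * u * (starRingEnd ℂ) v)).re ≤ 2 * c * (‖u‖ * ‖v‖) := by
    calc ((1 + ε) * (θ * u * (starRingEnd ℂ) v)).re
        ≤ ‖(1 + ε) * (θ * u * (starRingEnd ℂ) v)‖ := Complex.re_le_norm _
      _ = 2 * c * (‖u‖ * ‖v‖) := by
        rw [norm_mul, norm_mul, norm_mul, hc, hθ, one_mul, RCLike.norm_conj]
  have h5 : 2 * (‖u‖ * ‖v‖) ≤ g * ‖u‖ ^ 2 + g' * ‖v‖ ^ 2 := by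
    have hg' : g' = 1 / g := by field_simp; linarith
    have h6 : 0 ≤ (g * ‖u‖ - ‖v‖) ^ 2 / g := by positivity
    have h7 : (g * ‖u‖ - ‖v‖) ^ 2 / g = g * ‖u‖ ^ 2 + g' * ‖v‖ ^ 2 - 2 * (‖u‖ * ‖v‖) := by
      rw [hg']; field_simp; ring
    linarith
  have h8 : 2 * c * (‖u‖ * ‖v‖) * 2 ≤ 2 * c * (g * ‖u‖ ^ 2 + g' * ‖v‖ ^ 2) := by
    have := mul_le_mul_of_nonneg_left h5 (by positivity : 0 ≤ 2 * c)
    linarith
  linarith

lemma pair_sum (σ : Equiv.Perm (ZMod k × ZMod k)) (x θ ε : ZMod k × ZMod k → ℂ)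
    (hθ : ∀ z, ‖θ z‖ = 1) (hε : ∀ z, ‖ε z‖ = 1) (c : ZMod k × ZMod k → ℝ)
    (hc : ∀ z, ‖1 + ε z‖ = 2 * c z) (hc0 : ∀ z, 0 ≤ c z) (hcσ : ∀ z, c (σ z) = c z) :
    ∑ z, ‖x z‖ ^ 2 * (4 - 2 * c z * (G z (σ z) + G z (σ.symm z)))
      ≤ ∑ z, (‖θ z * x z - x (σ z)‖ ^ 2 + ‖θ z * ε z * x z - x (σ z)‖ ^ 2) := by
  have h1 : ∀ z, 2 * ‖x z‖ ^ 2 + 2 * ‖x (σ z)‖ ^ 2
      - 2 * c z * (G z (σ z) * ‖x z‖ ^ 2 + G (σ z) z * ‖x (σ z)‖ ^ 2)
      ≤ ‖θ z * x z - x (σ z)‖ ^ 2 + ‖θ z * ε z * x z - x (σ z)‖ ^ 2 := fun z =>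
    pair_pointwise _ _ _ _ (hθ z) (hε z) _ _ _ (hc z) (hc0 z) (G_pos _ _) (G_mul_G _ _)
  refine le_trans (le_of_eq ?_) (Finset.sum_le_sum fun z _ => h1 z)
  have h2 : ∑ z, ‖x (σ z)‖ ^ 2 = ∑ z, ‖x z‖ ^ 2 := Equiv.sum_comp σ (fun w => ‖x w‖ ^ 2)
  have h3 : ∑ z, c z * (G (σ z) z * ‖x (σ z)‖ ^ 2)
      = ∑ w, c w * (G w (σ.symm w) * ‖x w‖ ^ 2) := by
    rw [← Equiv.sum_comp σ (fun w => c w * (G w (σ.symm w) * ‖x w‖ ^ 2))]
    apply Finset.sum_congr rfl
    intro z _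
    simp only [hcσ, Equiv.symm_apply_apply]
  have e1 : ∀ z, ‖x z‖ ^ 2 * (4 - 2 * c z * (G z (σ z) + G z (σ.symm z)))
      = 4 * ‖x z‖ ^ 2 - 2 * (c z * (G z (σ z) * ‖x z‖ ^ 2))
        - 2 * (c z * (G z (σ.symm z) * ‖x z‖ ^ 2)) := fun z => by ring
  have e2 : ∀ z, 2 * ‖x z‖ ^ 2 + 2 * ‖x (σ z)‖ ^ 2
      - 2 * c z * (G z (σ z) * ‖x z‖ ^ 2 + G (σ z) z * ‖x (σ z)‖ ^ 2)
      = 2 * ‖x z‖ ^ 2 + 2 * ‖x (σ z)‖ ^ 2 - 2 * (c z * (G z (σ z) * ‖x z‖ ^ 2))
        - 2 * (c z * (G (σ z) z * ‖x (σ z)‖ ^ 2)) := fun z => by ring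
  simp only [e1, e2, Finset.sum_sub_distrib, Finset.sum_add_distrib, ← Finset.mul_sum]
  rw [h2, h3]
  ring

/-- The trace form of a conjugation defect in terms of the Weyl coefficients. -/
lemma trace_gap {U : Matrix (ZMod k) (ZMod k) ℂ} {θ : ZMod k × ZMod k → ℂ}
    (σ : Equiv.Perm (ZMod k × ZMod k)) (hU : Cov U θ σ) (hUU : Uᴴ * U = 1)
    (hθ : ∀ z, ‖θ z‖ = 1) (f : Matrix (ZMod k) (ZMod k) ℂ) :
    (((U * f * Uᴴ - f)ᴴ * (U * f * Uᴴ - f)).trace).re
      = (k : ℝ) * ∑ z, ‖θ z * coef f z - coef f (σ z)‖ ^ 2 := by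
  rw [parseval]
  congr 1
  rw [← Equiv.sum_comp σ]
  apply Finset.sum_congr rfl
  intro z _
  rw [coef_sub, coef_conj hU hUU hθ]

lemma cs_zero : cs (0 : ZMod k) = 1 := by
  unfold cs av
  simp

lemma cs_neg (x : ZMod k) : cs (-x) = cs x := by
  unfold cs
  rw [av_neg]

lemma Q_zero : Q (0 : ZMod k × ZMod k) = 4 := by
  have h1 : S₁ (0 : ZMod k × ZMod k) = 0 := by simp [S₁]
  have h2 : S₂ (0 : ZMod k × ZMod k) = 0 := by simp [S₂]
  have h3 : T₁ (0 : ZMod k × ZMod k) = 0 := by simp [T₁]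
  have h4 : T₂ (0 : ZMod k × ZMod k) = 0 := by simp [T₂]
  unfold Q
  rw [h1, h2, h3, h4, G_self]
  simp only [Prod.fst_zero, Prod.snd_zero, cs_zero]
  norm_num

/-- The four unitaries. -/
def Xs : Fin 4 → Matrix (ZMod k) (ZMod k) ℂ := ![Cm, Zm * Cm, Tt, Xm * Tt]

lemma prod_unitary {U V : Matrix (ZMod k) (ZMod k) ℂ} (hU : Uᴴ * U = 1) (hV : Vᴴ * V = 1) :
    (V * U)ᴴ * (V * U) = 1 := by
  rw [Matrix.conjTranspose_mul]
  calc Uᴴ * Vᴴ * (V * U) = Uᴴ * (Vᴴ * V) * U := by simp only [Matrix.mul_assoc]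
    _ = 1 := by rw [hV, Matrix.mul_one, hU]

lemma Xs_unitary (c : Fin 4) : (Xs (k := k) c)ᴴ * Xs c = 1 := by
  fin_cases c
  · exact Cm_unitary
  · exact prod_unitary Cm_unitary Zm_unitary
  · exact Tt_unitary
  · exact prod_unitary Tt_unitary Xm_unitary

/-- The spectral gap inequality. -/
theorem Xs_gap (f : Matrix (ZMod k) (ZMod k) ℂ) :
    (32 / 35 : ℝ) * (((fᴴ * f).trace).re - ‖f.trace‖ ^ 2 / k)
      ≤ ∑ c, (((Xs c * f * (Xs c)ᴴ - f)ᴴ * (Xs c * f * (Xs c)ᴴ - f)).trace).re := by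
  classical
  have hk := k_pos_real (k := k)
  obtain ⟨θ₂, hθ₂, hT⟩ := exists_Tt_cov (k := k)
  set x := coef f with hx
  rw [Fin.sum_univ_four]
  have hψ : ∀ a : ZMod k, ‖(ψ a : ℂ)‖ = 1 := norm_ψ
  -- the four defects
  have d0 := trace_gap (S₁e (k := k)) Cm_cov Cm_unitary (fun z => hψ _) f
  have d1 := trace_gap (S₁e (k := k)) (Cm_cov.comp Zm_cov) (prod_unitary Cm_unitary Zm_unitary)
    (fun z => by simp only [norm_mul, hψ, one_mul]) f
  have d2 := trace_gap (T₂e (k := k)) hT Tt_unitary hθ₂ f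
  have d3 := trace_gap (T₂e (k := k)) (hT.comp Xm_cov) (prod_unitary Tt_unitary Xm_unitary)
    (fun z => by simp only [norm_mul, hψ, hθ₂, one_mul]) f
  have e0 : Xs (k := k) 0 = Cm := rfl
  have e1 : Xs (k := k) 1 = Zm * Cm := rfl
  have e2 : Xs (k := k) 2 = Tt := rfl
  have e3 : Xs (k := k) 3 = Xm * Tt := rfl
  rw [e0, e1, e2, e3, d0, d1, d2, d3]
  -- the two pair estimates
  have p1 := pair_sum (S₁e (k := k)) x (fun z => (ψ (z.1 * z.1) : ℂ)) (fun z => (ψ z.1 : ℂ))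
    (fun z => hψ _) (fun z => hψ _) (fun z => cs z.1) (fun z => norm_one_add_ψ _)
    (fun z => cs_nonneg _) (fun z => rfl)
  have p2 := pair_sum (T₂e (k := k)) x θ₂ (fun z => (ψ (-z.2) : ℂ))
    hθ₂ (fun z => hψ _) (fun z => cs z.2)
    (fun z => by rw [norm_one_add_ψ, cs_neg]) (fun z => cs_nonneg _) (fun z => rfl)
  -- rewriting the sums
  have s1 : ∑ z, ‖(ψ (z.1 * z.1) : ℂ) * ψ (S₁ z).1 * coef f z - coef f (S₁e z)‖ ^ 2
      + ∑ z, ‖(ψ (z.1 * z.1) : ℂ) * coef f z - coef f (S₁e z)‖ ^ 2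
      = ∑ z, (‖(ψ (z.1 * z.1) : ℂ) * x z - x (S₁e z)‖ ^ 2
        + ‖(ψ (z.1 * z.1) : ℂ) * ψ z.1 * x z - x (S₁e z)‖ ^ 2) := by
    rw [Finset.sum_add_distrib, add_comm]
    rfl
  have s2 : ∑ z, ‖θ₂ z * ψ (-(T₂ z).2) * coef f z - coef f (T₂e z)‖ ^ 2
      + ∑ z, ‖θ₂ z * coef f z - coef f (T₂e z)‖ ^ 2
      = ∑ z, (‖θ₂ z * x z - x (T₂e z)‖ ^ 2
        + ‖θ₂ z * ψ (-z.2) * x z - x (T₂e z)‖ ^ 2) := by
    rw [Finset.sum_add_distrib, add_comm]
    rfl
  -- pointwise bound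
  have hpt : ∀ z : ZMod k × ZMod k,
      (32 / 35 : ℝ) * ‖x z‖ ^ 2 - (32 / 35 : ℝ) * (if z = 0 then ‖x 0‖ ^ 2 else 0)
      ≤ ‖x z‖ ^ 2 * (4 - 2 * cs z.1 * (G z (S₁e z) + G z (S₁e.symm z)))
        + ‖x z‖ ^ 2 * (4 - 2 * cs z.2 * (G z (T₂e z) + G z (T₂e.symm z))) := by
    intro z
    have hQ : Q z = cs z.1 * (G z (S₁e z) + G z (S₁e.symm z))
        + cs z.2 * (G z (T₂e z) + G z (T₂e.symm z)) := by
      unfold Q
      have a1 : S₁e z = S₁ z := rfl
      have a2 : S₁e.symm z = S₂ z := rfl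
      have a3 : T₂e z = T₂ z := rfl
      have a4 : T₂e.symm z = T₁ z := rfl
      rw [a1, a2, a3, a4]
      ring
    have hR : ‖x z‖ ^ 2 * (4 - 2 * cs z.1 * (G z (S₁e z) + G z (S₁e.symm z)))
        + ‖x z‖ ^ 2 * (4 - 2 * cs z.2 * (G z (T₂e z) + G z (T₂e.symm z)))
        = ‖x z‖ ^ 2 * (8 - 2 * Q z) := by
      rw [hQ]; ring
    rw [hR]
    by_cases hz : z = 0
    · subst hz
      rw [if_pos rfl, Q_zero]
      have : 0 ≤ ‖x 0‖ ^ 2 := by positivity
      nlinarith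
    · rw [if_neg hz]
      have h1 := Q_le z hz
      have h2 : 0 ≤ ‖x z‖ ^ 2 := by positivity
      have h3 : (32 / 35 : ℝ) ≤ 8 - 2 * Q z := by linarith
      have := mul_le_mul_of_nonneg_left h3 h2
      linarith
  have hsum := Finset.sum_le_sum (fun z (_ : z ∈ Finset.univ) => hpt z)
  rw [Finset.sum_sub_distrib, ← Finset.mul_sum, ← Finset.mul_sum, Finset.sum_add_distrib,
    Finset.sum_ite_eq' Finset.univ (0 : ZMod k × ZMod k) (fun _ => ‖x 0‖ ^ 2)] at hsum
  simp only [Finset.mem_univ, if_true] at hsum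
  -- Parseval and the zeroth coefficient
  have hP := parseval f
  have hz0 : (k : ℝ) * ‖x 0‖ ^ 2 = ‖f.trace‖ ^ 2 / k := by
    have : x 0 = (1 / (k : ℂ)) * f.trace := coef_zero f
    rw [this, norm_mul, mul_pow]
    simp only [one_div, norm_inv, Complex.norm_natCast]
    field_simp
  have hfinal : (32 / 35 : ℝ) * (((fᴴ * f).trace).re - ‖f.trace‖ ^ 2 / k)
      = (k : ℝ) * ((32 / 35 : ℝ) * ∑ z, ‖x z‖ ^ 2 - (32 / 35 : ℝ) * ‖x 0‖ ^ 2) := by
    rw [hP, ← hz0]; ring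
  rw [hfinal]
  have h12 := le_trans hsum (add_le_add p1 p2)
  have hk3 := mul_le_mul_of_nonneg_left h12 hk.le
  refine le_trans hk3 (le_of_eq ?_)
  rw [← s1, ← s2]
  ring

/-- **Module C2+C3**: four unitaries on `ℂ^{ZMod k}` with the spectral gap of Gabber-Galil type. -/
theorem exists_unitaries_gap (k : ℕ) [NeZero k] :
    ∃ X : Fin 4 → Matrix (ZMod k) (ZMod k) ℂ, (∀ c, (X c)ᴴ * X c = 1) ∧
      ∀ f : Matrix (ZMod k) (ZMod k) ℂ,
        (32 / 35 : ℝ) * (((fᴴ * f).trace).re - ‖f.trace‖ ^ 2 / k)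
          ≤ ∑ c, (((X c * f * (X c)ᴴ - f)ᴴ * (X c * f * (X c)ᴴ - f)).trace).re :=
  ⟨Xs, Xs_unitary, Xs_gap⟩

end

end Crest.Agent.Lib.QTGG
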