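import Crest.Agent.Lib.QTFiberSel
import Crest.Agent.Lib.QTCoin
import Crest.Agent.Lib.QTGG

/-!
Module C of the S0188 blueprint (row 137): the fibre relation, assembled from
`QTFiberPoint.fiber_selection`, `QTT1.T1`, `QTCoin.coin_gap`, `QTGG.exists_unitaries_gap`.
-/

set_option autoImplicit false
set_option linter.unusedSectionVars false

open Matrix
open scoped ComplexOrder Kronecker

namespace Crest.Agent.Lib.QTFiber

open Crest.Agent.Lib.QTFiberPoint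

section blocks

variable {D : Type} [Fintype D] [DecidableEq D]

local notation "JJ" => (Fin 4 × D)

/-- block diagonal matrix -/
def blk (y : Fin 4 → Matrix D D ℂ) : Matrix JJ JJ ℂ :=
  Matrix.of fun p q => if p.1 = q.1 then y p.1 p.2 q.2 else 0

@[simp] lemma blk_apply (y : Fin 4 → Matrix D D ℂ) (p q : JJ) :
    blk y p q = if p.1 = q.1 then y p.1 p.2 q.2 else 0 := rfl

lemma blk_mul (y w : Fin 4 → Matrix D D ℂ) : blk y * blk w = blk (fun c => y c * w c) := by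
  ext ⟨c, a⟩ ⟨c', b⟩
  simp only [mul_apply, blk_apply, Fintype.sum_prod_type]
  by_cases h : c = c'
  · subst h
    rw [Finset.sum_eq_single c]
    · simp
    · intro d _ hd
      simp [Ne.symm hd]
    · simp
  · simp only [h, if_false]
    refine Finset.sum_eq_zero fun d _ => Finset.sum_eq_zero fun e _ => ?_
    by_cases h1 : c = d
    · subst h1
      simp [h]
    · simp [h1]

lemma blk_conjTranspose (y : Fin 4 → Matrix D D ℂ) : (blk y)ᴴ = blk (fun c => (y c)ᴴ) := by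
  ext ⟨c, a⟩ ⟨c', b⟩
  simp only [conjTranspose_apply, blk_apply]
  by_cases h : c = c'
  · subst h; simp
  · simp [h, Ne.symm h]

lemma blk_sub (y w : Fin 4 → Matrix D D ℂ) : blk y - blk w = blk (fun c => y c - w c) := by
  ext ⟨c, a⟩ ⟨c', b⟩
  simp only [Matrix.sub_apply, blk_apply]
  by_cases h : c = c' <;> simp [h]

lemma blk_one : blk (fun _ => (1 : Matrix D D ℂ)) = 1 := by
  ext ⟨c, a⟩ ⟨c', b⟩
  simp only [blk_apply, one_apply, Prod.mk.injEq]
  by_cases h : c = c' <;> simp [h]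

lemma trace_blk (y : Fin 4 → Matrix D D ℂ) : (blk y).trace = ∑ c, (y c).trace := by
  simp [trace, Fintype.sum_prod_type]

lemma fro_blk (y : Fin 4 → Matrix D D ℂ) : fro (blk y) = ∑ c, fro (y c) := by
  unfold fro ip
  rw [blk_conjTranspose, blk_mul, trace_blk, Complex.re_sum]

/-- diagonal block projections -/
def dg (c : Fin 4) : Matrix JJ JJ ℂ := diagonal fun r => if r.1 = c then 1 else 0

/-- the commutation family -/
def dgs : Set (Matrix JJ JJ ℂ) := Set.range dg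

/-- the blocks of a matrix -/
def blocks (f : Matrix JJ JJ ℂ) : Fin 4 → Matrix D D ℂ := fun c => Matrix.of fun a b => f (c, a) (c, b)

lemma eq_blk_of_mem {f : Matrix JJ JJ ℂ} (hf : f ∈ V (dgs (D := D))) : f = blk (blocks f) := by
  ext ⟨c, a⟩ ⟨c', b⟩
  simp only [blk_apply, blocks, of_apply]
  by_cases h : c = c'
  · subst h; simp
  · simp only [h, if_false]
    have h1 := (hf.2 (dg c') ⟨c', rfl⟩)
    have h2 := congrFun (congrFun h1 (c, a)) (c', b)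
    simpa [dg, mul_diagonal, diagonal_mul, h] using h2

lemma blk_mem_of_herm {y : Fin 4 → Matrix D D ℂ} (h : (blk y)ᴴ = blk y) : blk y ∈ V (dgs (D := D)) := by
  refine ⟨h, ?_⟩
  rintro _ ⟨c, rfl⟩
  ext ⟨c₁, a⟩ ⟨c₂, b⟩
  simp only [dg, mul_diagonal, diagonal_mul, blk_apply]
  by_cases h1 : c₁ = c₂
  · subst h1; simp [mul_comm]
  · simp [h1]

/-- the shift permutation -/
def sh : JJ ≃ JJ := (Equiv.addRight (-1 : Fin 4)).prodCongr (Equiv.refl D)

/-- `U₂`: permutation matrix of the shift -/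
def Ushift : Matrix JJ JJ ℂ := (1 : Matrix JJ JJ ℂ).submatrix sh id

lemma Ushift_mul (f : Matrix JJ JJ ℂ) : Ushift * f = f.submatrix sh id := by
  ext p q
  simp [Ushift, mul_apply, one_apply]

lemma mul_Ushift_conj (f : Matrix JJ JJ ℂ) : f * (Ushift (D := D))ᴴ = f.submatrix id sh := by
  ext p q
  simp [Ushift, mul_apply, one_apply, conjTranspose_apply, eq_comm]

lemma Ushift_conj_mul (f : Matrix JJ JJ ℂ) : (Ushift (D := D))ᴴ * f = f.submatrix sh.symm id := by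
  ext p q
  simp only [Ushift, mul_apply, conjTranspose_apply, submatrix_apply, one_apply, id, submatrix_apply]
  rw [Finset.sum_eq_single (sh.symm p)]
  · simp
  · intro r _ hr
    have : sh r ≠ p := fun h => hr (by rw [← h]; simp)
    simp [this]
  · simp

lemma mul_Ushift (f : Matrix JJ JJ ℂ) : f * (Ushift (D := D)) = f.submatrix id sh.symm := by
  ext p q
  simp only [Ushift, mul_apply, submatrix_apply, one_apply, id]
  rw [Finset.sum_eq_single (sh.symm q)]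
  · simp
  · intro r _ hr
    have : sh r ≠ q := fun h => hr (by rw [← h]; simp)
    simp [this]
  · simp

lemma Ushift_unitary : (Ushift (D := D))ᴴ * Ushift = 1 := by
  rw [Ushift_conj_mul]
  ext p q
  simp [Ushift, one_apply]

lemma Ushift_conj_blk (y : Fin 4 → Matrix D D ℂ) :
    Ushift * blk y * (Ushift (D := D))ᴴ = blk (fun c => y (c - 1)) := by
  rw [Ushift_mul, mul_Ushift_conj]
  ext ⟨c, a⟩ ⟨c', b⟩
  simp [sh, sub_eq_add_neg]

lemma Ushift_adj_blk (y : Fin 4 → Matrix D D ℂ) :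
    (Ushift (D := D))ᴴ * blk y * Ushift = blk (fun c => y (c + 1)) := by
  rw [Ushift_conj_mul, mul_Ushift]
  ext ⟨c, a⟩ ⟨c', b⟩
  have h : ∀ x : Fin 4, sh.symm (x, a) = (x + 1, a) := fun x => by
    simp [sh, Equiv.prodCongr]
  have h' : ∀ x : Fin 4, sh.symm (x, b) = (x + 1, b) := fun x => by
    simp [sh, Equiv.prodCongr]
  simp [h, h']

end blocks

section main

variable {ι : Type} [Fintype ι] [DecidableEq ι]

lemma fro_unitary_conj (U a : Matrix ι ι ℂ) (hU : Uᴴ * U = 1) : fro (U * a * Uᴴ) = fro a := by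
  unfold fro ip
  have h : (U * a * Uᴴ)ᴴ * (U * a * Uᴴ) = U * (aᴴ * a) * Uᴴ := by
    rw [conjTranspose_mul, conjTranspose_mul, conjTranspose_conjTranspose]
    calc U * (aᴴ * Uᴴ) * (U * a * Uᴴ) = U * aᴴ * (Uᴴ * U) * a * Uᴴ := by
          simp only [Matrix.mul_assoc]
      _ = U * (aᴴ * a) * Uᴴ := by rw [hU]; simp only [Matrix.mul_assoc, Matrix.mul_one]
  rw [h, Matrix.trace_mul_comm, ← Matrix.mul_assoc, hU, Matrix.one_mul]

lemma fro_adj_eq (U f : Matrix ι ι ℂ) (hU : Uᴴ * U = 1) :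
    fro (Uᴴ * f * U - f) = fro (U * f * Uᴴ - f) := by
  have hU' : U * Uᴴ = 1 := mul_eq_one_comm.mp hU
  have h1 : U * (Uᴴ * f * U - f) * Uᴴ = -(U * f * Uᴴ - f) := by
    rw [Matrix.mul_sub, Matrix.sub_mul]
    calc U * (Uᴴ * f * U) * Uᴴ - U * f * Uᴴ = (U * Uᴴ) * f * (U * Uᴴ) - U * f * Uᴴ := by
          simp only [Matrix.mul_assoc]
      _ = _ := by rw [hU', Matrix.one_mul, Matrix.mul_one]; abel
  rw [← fro_unitary_conj U (Uᴴ * f * U - f) hU, h1]
  unfold fro ip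
  rw [conjTranspose_neg, Matrix.neg_mul, Matrix.mul_neg, neg_neg]

lemma conj_herm {U y : Matrix ι ι ℂ} (hy : y.IsHermitian) : (U * y * Uᴴ)ᴴ = U * y * Uᴴ := by
  rw [conjTranspose_mul, conjTranspose_mul, conjTranspose_conjTranspose, hy.eq, Matrix.mul_assoc]

lemma adj_herm {U y : Matrix ι ι ℂ} (hy : y.IsHermitian) : (Uᴴ * y * U)ᴴ = Uᴴ * y * U := by
  rw [conjTranspose_mul, conjTranspose_mul, conjTranspose_conjTranspose, hy.eq, Matrix.mul_assoc]

lemma sqp_eq : sqp = Real.sqrt := by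
  funext t
  unfold sqp
  rcases le_total t 0 with h | h
  · rw [max_eq_right h, Real.sqrt_zero, Real.sqrt_eq_zero_of_nonpos h]
  · rw [max_eq_left h]

lemma T1_form (x y : Matrix ι ι ℂ) (hx : x.IsHermitian) (hy : y.IsHermitian) :
    fro (cfc sqp x - cfc sqp y) ≤ 2 * (ptr (x - y) + ntr (x - y)) := by
  rw [sqp_eq]
  exact QTT1.T1 x y hx hy

end main

/-- **The fibre relation** (module C of the S0188 blueprint). -/
theorem fiber_relation (k : ℕ) [NeZero k] (s : ℕ) (hs : 16 * s ≤ k) :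
    ∃ U₁ U₂ : Matrix (Fin 4 × ZMod k) (Fin 4 × ZMod k) ℂ,
      U₁ᴴ * U₁ = 1 ∧ U₂ᴴ * U₂ = 1 ∧ U₁ * U₁ᴴ = 1 ∧ U₂ * U₂ᴴ = 1 ∧
      ∀ (X : Type) [TopologicalSpace X] [CompactSpace X] (p : X → Matrix (ZMod k) (ZMod k) ℂ),
        Continuous p →
        (∀ x, (p x)ᴴ = p x ∧ p x * p x = p x ∧ (p x).trace = ((k - s : ℕ) : ℂ)) →
        ∃ z₁ z₂ c : X → Matrix (Fin 4 × ZMod k) (Fin 4 × ZMod k) ℂ,
          Continuous z₁ ∧ Continuous z₂ ∧ Continuous c ∧ ∀ x,
            (z₁ x).PosSemidef ∧ ((71 : ℝ) • (1 : Matrix (Fin 4 × ZMod k) (Fin 4 × ZMod k) ℂ) - z₁ x).PosSemidef ∧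
            (z₂ x).PosSemidef ∧ ((71 : ℝ) • (1 : Matrix (Fin 4 × ZMod k) (Fin 4 × ZMod k) ℂ) - z₂ x).PosSemidef ∧
            (c x).PosSemidef ∧ ((17 : ℝ) • (1 : Matrix (Fin 4 × ZMod k) (Fin 4 × ZMod k) ℂ) - c x).PosSemidef ∧
            ((1 : Matrix (Fin 4) (Fin 4) ℂ) ⊗ₖ p x) * c x * ((1 : Matrix (Fin 4) (Fin 4) ℂ) ⊗ₖ p x) = c x ∧
            U₁ * z₁ x * U₁ᴴ - z₁ x + (U₂ * z₂ x * U₂ᴴ - z₂ x) = 1 - c x := by
  classical
  obtain ⟨Y, hYu, hYgap⟩ := QTGG.exists_unitaries_gap k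
  have hkpos : (0 : ℝ) < k := by exact_mod_cast Nat.pos_of_ne_zero (NeZero.ne k)
  set U₁ : Matrix (Fin 4 × ZMod k) (Fin 4 × ZMod k) ℂ := blk Y with hU₁def
  set U₂ : Matrix (Fin 4 × ZMod k) (Fin 4 × ZMod k) ℂ := Ushift with hU₂def
  have hU₁ : U₁ᴴ * U₁ = 1 := by
    rw [hU₁def, blk_conjTranspose, blk_mul]
    simp only [hYu]
    exact blk_one
  have hU₂ : U₂ᴴ * U₂ = 1 := Ushift_unitary
  have hb₁ : ∀ b : Fin 4 → Matrix (ZMod k) (ZMod k) ℂ, U₁ * blk b * U₁ᴴ = blk fun c => Y c * b c * (Y c)ᴴ := by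
    intro b
    rw [hU₁def, blk_conjTranspose, blk_mul, blk_mul]
  have hb₁' : ∀ b : Fin 4 → Matrix (ZMod k) (ZMod k) ℂ, U₁ᴴ * blk b * U₁ = blk fun c => (Y c)ᴴ * b c * Y c := by
    intro b
    rw [hU₁def, blk_conjTranspose, blk_mul, blk_mul]
  have hV₁ : ∀ y ∈ V (dgs (D := ZMod k)), U₁ * y * U₁ᴴ ∈ V (dgs (D := ZMod k)) := by
    intro y hy
    have h1 := conj_herm (U := U₁) hy.1
    rw [eq_blk_of_mem hy] at h1 ⊢
    rw [hb₁] at h1 ⊢
    exact blk_mem_of_herm h1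
  have hV₁' : ∀ y ∈ V (dgs (D := ZMod k)), U₁ᴴ * y * U₁ ∈ V (dgs (D := ZMod k)) := by
    intro y hy
    have h1 := adj_herm (U := U₁) hy.1
    rw [eq_blk_of_mem hy] at h1 ⊢
    rw [hb₁'] at h1 ⊢
    exact blk_mem_of_herm h1
  have hV₂ : ∀ y ∈ V (dgs (D := ZMod k)), U₂ * y * U₂ᴴ ∈ V (dgs (D := ZMod k)) := by
    intro y hy
    have h1 := conj_herm (U := U₂) hy.1
    rw [eq_blk_of_mem hy] at h1 ⊢
    rw [hU₂def, Ushift_conj_blk] at h1 ⊢
    exact blk_mem_of_herm h1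
  have hV₂' : ∀ y ∈ V (dgs (D := ZMod k)), U₂ᴴ * y * U₂ ∈ V (dgs (D := ZMod k)) := by
    intro y hy
    have h1 := adj_herm (U := U₂) hy.1
    rw [eq_blk_of_mem hy] at h1 ⊢
    rw [hU₂def, Ushift_adj_blk] at h1 ⊢
    exact blk_mem_of_herm h1
  have hcard : (Fintype.card (Fin 4 × ZMod k) : ℝ) = 4 * k := by
    simp [ZMod.card]
  have gap : ∀ f ∈ V (dgs (D := ZMod k)), (8 / 109 : ℝ) * (fro f - ‖f.trace‖ ^ 2 / Fintype.card (Fin 4 × ZMod k))
      ≤ fro (U₁ᴴ * f * U₁ - f) + fro (U₂ᴴ * f * U₂ - f) := by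
    intro f hf
    rw [fro_adj_eq U₁ f hU₁, fro_adj_eq U₂ f hU₂, eq_blk_of_mem hf, hb₁, hU₂def, Ushift_conj_blk,
      blk_sub, blk_sub, fro_blk, fro_blk, fro_blk, trace_blk, hcard]
    exact QTCoin.coin_gap (k : ℝ) hkpos Y hYu hYgap (blocks f)
  refine ⟨U₁, U₂, hU₁, hU₂, mul_eq_one_comm.mp hU₁, mul_eq_one_comm.mp hU₂, ?_⟩
  intro X _ _ p hp hpp
  have hkron : ∀ P : Matrix (ZMod k) (ZMod k) ℂ, (1 : Matrix (Fin 4) (Fin 4) ℂ) ⊗ₖ P = blk fun _ => P := by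
    intro P
    ext ⟨c, a⟩ ⟨c', b⟩
    simp only [kroneckerMap_apply, blk_apply, one_apply]
    by_cases h : c = c' <;> simp [h]
  set Q : X → Matrix (Fin 4 × ZMod k) (Fin 4 × ZMod k) ℂ := fun x => blk fun _ => p x with hQ
  have hQc : Continuous Q := by
    refine continuous_matrix fun a b => ?_
    simp only [hQ, blk_apply]
    split_ifs
    · exact hp.matrix_elem _ _
    · exact continuous_const
  have hQV : ∀ x, Q x ∈ V (dgs (D := ZMod k)) := fun x => by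
    apply blk_mem_of_herm
    rw [blk_conjTranspose]
    simp only [(hpp x).1]
  have hQQ : ∀ x, Q x * Q x = Q x := fun x => by
    simp only [hQ]
    rw [blk_mul]
    simp only [(hpp x).2.1]
  have hQr : ∀ x, 15 * (Fintype.card (Fin 4 × ZMod k) : ℝ) ≤ 16 * (Q x).trace.re := fun x => by
    rw [hcard]
    simp only [hQ]
    rw [trace_blk]
    simp only [(hpp x).2.2]
    have h1 : (((k - s : ℕ) : ℂ)).re = (k : ℝ) - s := by
      have : s ≤ k := by omega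
      simp [Nat.cast_sub this]
    simp only [Finset.sum_const, Finset.card_univ, Fintype.card_fin, nsmul_eq_mul, Nat.cast_ofNat]
    have h2 : ((4 : ℂ) * ((k - s : ℕ) : ℂ)).re = 4 * ((k : ℝ) - s) := by
      rw [Complex.mul_re, h1]
      simp
    rw [h2]
    have h3 : (16 : ℝ) * s ≤ k := by exact_mod_cast hs
    linarith
  obtain ⟨z₁, z₂, c, hz₁c, hz₂c, hcc, hall⟩ := fiber_selection (dgs (D := ZMod k)) U₁ U₂ hU₁ hU₂ hV₁ hV₁' hV₂ hV₂'
    (8 / 109) (by norm_num) gap T1_form Q hQc hQV hQQ hQr 63 (by norm_num)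
  refine ⟨z₁, z₂, c, hz₁c, hz₂c, hcc, fun x => ?_⟩
  obtain ⟨h1, h2, h3, h4, h5⟩ := hall x
  have h71 : ∀ z ∈ Zset (dgs (D := ZMod k)) (63 + 2),
      ((71 : ℝ) • (1 : Matrix (Fin 4 × ZMod k) (Fin 4 × ZMod k) ℂ) - z).PosSemidef := by
    intro z hz
    have : (71 : ℝ) • (1 : Matrix (Fin 4 × ZMod k) (Fin 4 × ZMod k) ℂ) - z
        = (6 : ℝ) • (1 : Matrix (Fin 4 × ZMod k) (Fin 4 × ZMod k) ℂ) + ((63 + 2 : ℝ) • (1 : Matrix (Fin 4 × ZMod k) (Fin 4 × ZMod k) ℂ) - z) := by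
      rw [← add_sub_assoc, ← add_smul]
      norm_num
    rw [this]
    exact (psd_smul_one (by norm_num)).add hz.2.2
  refine ⟨h1.2.1, h71 _ h1, h2.2.1, h71 _ h2, h3.2.1, h3.2.2, ?_, ?_⟩
  · rw [hkron]
    exact h4
  · rw [eq_sub_iff_add_eq]
    exact h5

end Crest.Agent.Lib.QTFiber
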