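import Mathlib

/-!
Module C5 of the S0188 blueprint (row 137): pointwise duality.
Hahn–Banach (closest point) + joint spectral quantile + T1 + spectral gap.
-/

set_option autoImplicit false
set_option linter.unusedSectionVars false

open Matrix
open scoped ComplexOrder

namespace Crest.Agent.Lib.QTFiberPoint

variable {J : Type} [Fintype J] [DecidableEq J]

local notation "M" => Matrix J J ℂ

/-- real Hilbert–Schmidt inner product -/
noncomputable def ip (a b : M) : ℝ := (aᴴ * b).trace.re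

/-- squared Frobenius norm -/
noncomputable def fro (a : M) : ℝ := ip a a

lemma ip_add_right (a b c : M) : ip a (b + c) = ip a b + ip a c := by
  simp [ip, mul_add, trace_add]

lemma ip_sub_right (a b c : M) : ip a (b - c) = ip a b - ip a c := by
  simp [ip, mul_sub, trace_sub]

lemma ip_smul_right (r : ℝ) (a b : M) : ip a (r • b) = r * ip a b := by
  simp [ip, trace_smul]

lemma ip_comm (a b : M) : ip a b = ip b a := by
  unfold ip
  have : (bᴴ * a) = (aᴴ * b)ᴴ := by simp [conjTranspose_mul]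
  rw [this, trace_conjTranspose]
  simp

lemma ip_add_left (a b c : M) : ip (a + b) c = ip a c + ip b c := by
  rw [ip_comm, ip_add_right, ip_comm c a, ip_comm c b]

lemma ip_sub_left (a b c : M) : ip (a - b) c = ip a c - ip b c := by
  rw [ip_comm, ip_sub_right, ip_comm c a, ip_comm c b]

lemma ip_smul_left (r : ℝ) (a b : M) : ip (r • a) b = r * ip a b := by
  rw [ip_comm, ip_smul_right, ip_comm]

lemma fro_eq_sum (a : M) : fro a = ∑ i, ∑ j, ‖a j i‖ ^ 2 := by
  unfold fro ip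
  simp only [trace, diag_apply, mul_apply, conjTranspose_apply, Complex.re_sum]
  refine Finset.sum_congr rfl fun i _ => Finset.sum_congr rfl fun j _ => ?_
  rw [Complex.star_def, ← Complex.normSq_eq_conj_mul_self, Complex.ofReal_re, Complex.normSq_eq_norm_sq]

lemma fro_nonneg (a : M) : 0 ≤ fro a := by
  rw [fro_eq_sum]; positivity

lemma entry_sq_le_fro (a : M) (i j : J) : ‖a i j‖ ^ 2 ≤ fro a := by
  rw [fro_eq_sum]
  calc ‖a i j‖ ^ 2 ≤ ∑ j', ‖a j' j‖ ^ 2 :=
        Finset.single_le_sum (f := fun j' => ‖a j' j‖ ^ 2) (fun _ _ => by positivity) (Finset.mem_univ i)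
    _ ≤ ∑ i', ∑ j', ‖a j' i'‖ ^ 2 :=
        Finset.single_le_sum (f := fun i' => ∑ j', ‖a j' i'‖ ^ 2) (fun _ _ => by positivity) (Finset.mem_univ j)

lemma fro_eq_zero {a : M} (h : fro a = 0) : a = 0 := by
  ext i j
  have := entry_sq_le_fro a i j
  rw [h] at this
  have h2 : ‖a i j‖ ^ 2 = 0 := le_antisymm this (by positivity)
  simpa using h2

lemma fro_sub (a b : M) : fro (a - b) = fro a - 2 * ip a b + fro b := by
  unfold fro
  rw [ip_sub_left, ip_sub_right, ip_sub_right, ip_comm b a]; ring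

lemma fro_sub_smul (x y : M) (t : ℝ) : fro (x - t • y) = fro x - 2 * t * ip x y + t ^ 2 * fro y := by
  rw [fro_sub, ip_smul_right]
  unfold fro
  rw [ip_smul_right, ip_smul_left]
  ring

lemma continuous_ip_const (a : M) : Continuous fun b : M => ip a b := by
  unfold ip
  exact Complex.continuous_re.comp (Continuous.matrix_trace (continuous_const.matrix_mul continuous_id))

lemma continuous_fro : Continuous fun a : M => fro a := by
  unfold fro ip
  exact Complex.continuous_re.comp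
    (Continuous.matrix_trace ((Continuous.matrix_conjTranspose continuous_id).matrix_mul continuous_id))

/-- Closest-point separation in the Hilbert–Schmidt geometry. -/
lemma exists_sep (K : Set M) (hc : IsCompact K) (hcv : Convex ℝ K) (hne : K.Nonempty)
    (a : M) (ha : a ∉ K) :
    ∃ k₀ ∈ K, 0 < fro (a - k₀) ∧ ∀ k ∈ K, ip (a - k₀) k < ip (a - k₀) a := by
  obtain ⟨k₀, hk₀, hmin⟩ := hc.exists_isMinOn hne
    (f := fun k => fro (a - k)) ((continuous_fro.comp (continuous_const.sub continuous_id)).continuousOn)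
  have hpos : 0 < fro (a - k₀) := by
    refine lt_of_le_of_ne (fro_nonneg _) fun h => ?_
    have : a - k₀ = 0 := fro_eq_zero h.symm
    rw [sub_eq_zero] at this
    exact ha (this ▸ hk₀)
  refine ⟨k₀, hk₀, hpos, fun k hk => ?_⟩
  -- first-order optimality
  have key : ip (a - k₀) (k - k₀) ≤ 0 := by
    by_contra hβ
    push Not at hβ
    set β := ip (a - k₀) (k - k₀) with hβdef
    set F := fro (k - k₀) with hF
    have hF0 : 0 ≤ F := fro_nonneg _
    set t : ℝ := min 1 (β / (F + 1)) with ht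
    have ht0 : 0 < t := lt_min one_pos (div_pos hβ (by linarith))
    have ht1 : t ≤ 1 := min_le_left _ _
    have ht2 : t * (F + 1) ≤ β := by
      have : t ≤ β / (F + 1) := min_le_right _ _
      rwa [le_div_iff₀ (by linarith)] at this
    have hmem : k₀ + t • (k - k₀) ∈ K := by
      have := hcv hk₀ hk (by linarith : (0 : ℝ) ≤ 1 - t) ht0.le (by ring)
      convert this using 1
      simp only [smul_sub, sub_smul, one_smul]
      abel
    have hle : fro (a - k₀) ≤ fro (a - (k₀ + t • (k - k₀))) := hmin hmem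
    have hexp : fro (a - (k₀ + t • (k - k₀))) = fro (a - k₀) - 2 * t * β + t ^ 2 * F := by
      have : a - (k₀ + t • (k - k₀)) = (a - k₀) - t • (k - k₀) := by abel
      rw [this, fro_sub_smul]
    rw [hexp] at hle
    nlinarith
  have h2 : ip (a - k₀) a = ip (a - k₀) k₀ + fro (a - k₀) := by
    unfold fro
    rw [ip_sub_right]; ring
  rw [ip_sub_right] at key
  linarith

/-! ### Spectral helpers -/

lemma contOn (f : ℝ → ℝ) (A : M) : ContinuousOn f (spectrum ℝ A) :=
  A.finite_real_spectrum.continuousOn f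

lemma cfc_herm (f : ℝ → ℝ) (A : M) : (cfc f A).IsHermitian :=
  (cfc_predicate f A : IsSelfAdjoint _)

lemma trace_cfc {A : M} (hA : A.IsHermitian) (f : ℝ → ℝ) :
    (cfc f A).trace = ∑ j, ((f (hA.eigenvalues j) : ℝ) : ℂ) := by
  rw [hA.cfc_eq, IsHermitian.cfc, Unitary.conjStarAlgAut_apply, trace_mul_cycle]
  simp [trace_diagonal]

lemma cfc_mul' {A : M} (f g : ℝ → ℝ) :
    cfc f A * cfc g A = cfc (fun t => f t * g t) A :=
  (cfc_mul f g A (contOn f A) (contOn g A)).symm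

lemma cfc_psd {A : M} (hA : A.IsHermitian) (f : ℝ → ℝ) (hf : ∀ t, 0 ≤ f t) :
    (cfc f A).PosSemidef := by
  have h1 : cfc f A = (cfc (fun t => Real.sqrt (f t)) A)ᴴ * cfc (fun t => Real.sqrt (f t)) A := by
    rw [(cfc_herm _ A).eq, cfc_mul']
    congr 1
    ext t
    exact (Real.mul_self_sqrt (hf t)).symm
  rw [h1]
  exact posSemidef_conjTranspose_mul_self _

lemma cfc_self {A : M} (hA : A.IsHermitian) : cfc (fun t : ℝ => t) A = A :=
  cfc_id' ℝ A (p := IsSelfAdjoint) hA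

lemma psd_factor {a : M} (ha : a.PosSemidef) : ∃ c : M, a = cᴴ * c := by
  refine ⟨cfc (fun t => Real.sqrt t) a, ?_⟩
  rw [(cfc_herm _ a).eq, cfc_mul']
  conv_lhs => rw [← cfc_self ha.1]
  apply cfc_congr
  intro t ht
  have : t ∈ Set.range ha.1.eigenvalues := by
    rwa [ha.1.spectrum_real_eq_range_eigenvalues] at ht
  obtain ⟨i, rfl⟩ := this
  exact (Real.mul_self_sqrt (ha.eigenvalues_nonneg i)).symm

lemma trace_mul_psd_nonneg {a b : M} (ha : a.PosSemidef) (hb : b.PosSemidef) :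
    0 ≤ (a * b).trace.re := by
  obtain ⟨c, rfl⟩ := psd_factor ha
  obtain ⟨d, rfl⟩ := psd_factor hb
  have : (cᴴ * c * (dᴴ * d)).trace = ((d * cᴴ)ᴴ * (d * cᴴ)).trace := by
    rw [conjTranspose_mul, conjTranspose_conjTranspose]
    rw [Matrix.mul_assoc, ← Matrix.mul_assoc c, Matrix.trace_mul_comm]
    simp only [Matrix.mul_assoc]
  rw [this]
  exact fro_nonneg (d * cᴴ)

/-! ### Quantile -/

lemma exists_quantile [Nonempty J] (μ : J → ℝ) (m : ℝ) (hm0 : 0 < m) (hm : m ≤ Fintype.card J) :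
    ∃ l : ℝ, ((Finset.univ.filter fun j => l < μ j).card : ℝ) < m ∧
      m ≤ ((Finset.univ.filter fun j => l ≤ μ j).card : ℝ) := by
  classical
  set S : Finset J := Finset.univ.filter fun j =>
    m ≤ ((Finset.univ.filter fun i => μ j ≤ μ i).card : ℝ) with hS
  have hSne : S.Nonempty := by
    obtain ⟨j₀, -, hj₀⟩ := Finset.exists_min_image Finset.univ μ Finset.univ_nonempty
    refine ⟨j₀, ?_⟩
    simp only [hS, Finset.mem_filter, Finset.mem_univ, true_and]
    have : (Finset.univ.filter fun i => μ j₀ ≤ μ i) = Finset.univ := by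
      ext i; simp [hj₀ i]
    rw [this, Finset.card_univ]
    exact hm
  obtain ⟨j₁, hj₁S, hj₁⟩ := Finset.exists_max_image S μ hSne
  refine ⟨μ j₁, ?_, by simpa [hS] using hj₁S⟩
  by_contra hcon
  push Not at hcon
  have hTne : (Finset.univ.filter fun j => μ j₁ < μ j).Nonempty := by
    rw [← Finset.card_pos]
    have : (0 : ℝ) < ((Finset.univ.filter fun j => μ j₁ < μ j).card : ℝ) := lt_of_lt_of_le hm0 hcon
    exact_mod_cast this
  obtain ⟨i₀, hi₀T, hi₀⟩ := Finset.exists_min_image _ μ hTne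
  have hi₀' : μ j₁ < μ i₀ := by simpa using hi₀T
  have hi₀S : i₀ ∈ S := by
    simp only [hS, Finset.mem_filter, Finset.mem_univ, true_and]
    refine le_trans hcon ?_
    have : (Finset.univ.filter fun j => μ j₁ < μ j) ⊆ (Finset.univ.filter fun i => μ i₀ ≤ μ i) := by
      intro i hi
      simp only [Finset.mem_filter, Finset.mem_univ, true_and] at hi ⊢
      exact hi₀ i (by simpa using hi)
    exact_mod_cast Finset.card_le_card this
  exact absurd (hj₁ i₀ hi₀S) (not_le.mpr hi₀')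

/-! ### Admissible sets -/

/-- Hermitian matrices commuting with a family `𝔇` (block-diagonal Hermitian matrices). -/
def V (𝔇 : Set M) : Set M := {y | y.IsHermitian ∧ ∀ d ∈ 𝔇, Commute y d}

lemma V_cfc {𝔇 : Set M} {y : M} (hy : y ∈ V 𝔇) (f : ℝ → ℝ) : cfc f y ∈ V 𝔇 :=
  ⟨cfc_herm f y, fun d hd => Commute.cfc_real (hy.2 d hd) f⟩

lemma V_add {𝔇 : Set M} {y y' : M} (hy : y ∈ V 𝔇) (hy' : y' ∈ V 𝔇) : y + y' ∈ V 𝔇 :=
  ⟨hy.1.add hy'.1, fun d hd => (hy.2 d hd).add_left (hy'.2 d hd)⟩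

lemma V_sub {𝔇 : Set M} {y y' : M} (hy : y ∈ V 𝔇) (hy' : y' ∈ V 𝔇) : y - y' ∈ V 𝔇 :=
  ⟨hy.1.sub hy'.1, fun d hd => (hy.2 d hd).sub_left (hy'.2 d hd)⟩

lemma V_smul {𝔇 : Set M} {y : M} (r : ℝ) (hy : y ∈ V 𝔇) : r • y ∈ V 𝔇 := by
  refine ⟨?_, fun d hd => ?_⟩
  · have : (r • y)ᴴ = r • y := by
      rw [conjTranspose_smul, hy.1.eq]; simp
    exact this
  · exact Commute.smul_left (hy.2 d hd) r

lemma V_one {𝔇 : Set M} : (1 : M) ∈ V 𝔇 :=
  ⟨isHermitian_one, fun d _ => Commute.one_left d⟩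

lemma V_zero {𝔇 : Set M} : (0 : M) ∈ V 𝔇 :=
  ⟨isHermitian_zero, fun d _ => Commute.zero_left d⟩

/-- `0 ≤ z ≤ R`, `z` block-diagonal. -/
def Zset (𝔇 : Set M) (R : ℝ) : Set M :=
  {z | z ∈ V 𝔇 ∧ z.PosSemidef ∧ (R • (1 : M) - z).PosSemidef}

/-- `0 ≤ c ≤ 16`, `c = QcQ`, `c` block-diagonal. -/
def Cset (𝔇 : Set M) (Q : M) : Set M :=
  {c | c ∈ Zset 𝔇 16 ∧ Q * c * Q = c}

lemma psd_smul_one {R : ℝ} (hR : 0 ≤ R) : (R • (1 : M)).PosSemidef :=
  PosSemidef.one.smul hR

lemma psd_smul_one_herm (R : ℝ) : (R • (1 : M)).IsHermitian := by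
  change (R • (1 : M))ᴴ = R • (1 : M)
  rw [conjTranspose_smul, conjTranspose_one]
  simp

lemma zero_mem_Zset {𝔇 : Set M} {R : ℝ} (hR : 0 ≤ R) : (0 : M) ∈ Zset 𝔇 R :=
  ⟨V_zero, PosSemidef.zero, by simpa using psd_smul_one hR⟩

lemma convex_Zset (𝔇 : Set M) (R : ℝ) : Convex ℝ (Zset 𝔇 R) := by
  intro x hx y hy a b ha hb hab
  refine ⟨V_add (V_smul a hx.1) (V_smul b hy.1), (hx.2.1.smul ha).add (hy.2.1.smul hb), ?_⟩
  have : R • (1 : M) - (a • x + b • y) = a • (R • (1 : M) - x) + b • (R • (1 : M) - y) := by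
    have h1 : R • (1 : M) = (a + b) • (R • (1 : M)) := by rw [hab, one_smul]
    conv_lhs => rw [h1]
    simp only [smul_sub, add_smul]
    abel
  rw [this]
  exact (hx.2.2.smul ha).add (hy.2.2.smul hb)

lemma convex_Cset (𝔇 : Set M) (Q : M) : Convex ℝ (Cset 𝔇 Q) := by
  intro x hx y hy a b ha hb hab
  refine ⟨convex_Zset 𝔇 16 hx.1 hy.1 ha hb hab, ?_⟩
  simp only [Matrix.mul_add, Matrix.add_mul, Matrix.mul_smul, Matrix.smul_mul, hx.2, hy.2]

lemma isClosed_herm : IsClosed {z : M | z.IsHermitian} :=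
  isClosed_eq (Continuous.matrix_conjTranspose continuous_id) continuous_id

lemma isClosed_psd : IsClosed {z : M | z.PosSemidef} := by
  have : {z : M | z.PosSemidef} = {z | z.IsHermitian} ∩ ⋂ x : J → ℂ, {z | 0 ≤ star x ⬝ᵥ (z *ᵥ x)} := by
    ext z
    simp only [Set.mem_setOf_eq, Set.mem_inter_iff, Set.mem_iInter]
    exact Matrix.posSemidef_iff_dotProduct_mulVec
  rw [this]
  refine isClosed_herm.inter (isClosed_iInter fun x => ?_)
  exact isClosed_le continuous_const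
    (Continuous.dotProduct continuous_const (Continuous.matrix_mulVec continuous_id continuous_const))

lemma isClosed_V (𝔇 : Set M) : IsClosed (V 𝔇) := by
  have : V 𝔇 = {z | z.IsHermitian} ∩ ⋂ d ∈ 𝔇, {z | Commute z d} := by
    ext z
    simp [V]
  rw [this]
  refine isClosed_herm.inter (isClosed_biInter fun d _ => ?_)
  exact isClosed_eq (continuous_id.matrix_mul continuous_const) (continuous_const.matrix_mul continuous_id)

lemma isClosed_Zset (𝔇 : Set M) (R : ℝ) : IsClosed (Zset 𝔇 R) := by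
  have : Zset 𝔇 R = V 𝔇 ∩ ({z | z.PosSemidef} ∩ (fun z : M => R • (1 : M) - z) ⁻¹' {z | z.PosSemidef}) := rfl
  rw [this]
  exact (isClosed_V 𝔇).inter (isClosed_psd.inter (isClosed_psd.preimage (continuous_const.sub continuous_id)))

lemma fro_le_of_mem_Zset {𝔇 : Set M} {R : ℝ} (hR : 0 ≤ R) {z : M} (hz : z ∈ Zset 𝔇 R) :
    fro z ≤ R * (R * Fintype.card J) := by
  have h1 := trace_mul_psd_nonneg hz.2.1 hz.2.2
  have h2 : 0 ≤ (R • (1 : M) - z).trace.re := by
    have := hz.2.2.trace_nonneg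
    exact (Complex.le_def.mp this).1
  have h3 : (z * (R • (1 : M) - z)).trace.re = R * z.trace.re - (z * z).trace.re := by
    simp [Matrix.mul_sub, trace_sub, trace_smul]
  have h4 : (R • (1 : M) - z).trace.re = R * Fintype.card J - z.trace.re := by
    simp [trace_sub, trace_smul, trace_one]
  have h5 : fro z = (z * z).trace.re := by
    unfold fro ip
    rw [hz.1.1.eq]
  rw [h5]
  rw [h3] at h1
  rw [h4] at h2
  nlinarith [mul_le_mul_of_nonneg_left (by linarith : z.trace.re ≤ R * Fintype.card J) hR]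

lemma isCompact_of_fro_le (S : Set M) (hS : IsClosed S) (B : ℝ) (hB : ∀ z ∈ S, fro z ≤ B) :
    IsCompact S := by
  have hcomp : IsCompact (Set.pi Set.univ fun _ : J => Set.pi Set.univ fun _ : J =>
      Metric.closedBall (0 : ℂ) (Real.sqrt B)) :=
    isCompact_univ_pi fun _ => isCompact_univ_pi fun _ => isCompact_closedBall _ _
  refine IsCompact.of_isClosed_subset hcomp hS ?_
  intro z hz i _ j _
  simp only [mem_closedBall_zero_iff]
  exact Real.le_sqrt_of_sq_le ((entry_sq_le_fro z i j).trans (hB z hz))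

lemma isCompact_Zset (𝔇 : Set M) {R : ℝ} (hR : 0 ≤ R) : IsCompact (Zset 𝔇 R) :=
  isCompact_of_fro_le _ (isClosed_Zset 𝔇 R) _ fun _ hz => fro_le_of_mem_Zset hR hz

lemma isCompact_Cset (𝔇 : Set M) (Q : M) : IsCompact (Cset 𝔇 Q) := by
  have hcl : IsClosed (Cset 𝔇 Q) := by
    have : Cset 𝔇 Q = Zset 𝔇 16 ∩ {c | Q * c * Q = c} := rfl
    rw [this]
    exact (isClosed_Zset 𝔇 16).inter
      (isClosed_eq ((continuous_const.matrix_mul continuous_id).matrix_mul continuous_const) continuous_id)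
  exact isCompact_of_fro_le _ hcl _ fun _ hz => fro_le_of_mem_Zset (by norm_num) hz.1

/-! ### Functional calculus computations -/

/-- `√(t₊)` -/
noncomputable def sqp (t : ℝ) : ℝ := Real.sqrt (max t 0)

/-- trace of the positive part -/
noncomputable def ptr (Y : M) : ℝ := (cfc (fun t : ℝ => max t 0) Y).trace.re

/-- trace of the negative part -/
noncomputable def ntr (Y : M) : ℝ := (cfc (fun t : ℝ => max (-t) 0) Y).trace.re

lemma trace_cfc_re {A : M} (hA : A.IsHermitian) (f : ℝ → ℝ) :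
    (cfc f A).trace.re = ∑ j, f (hA.eigenvalues j) := by
  rw [trace_cfc hA f]
  simp

lemma ptr_sub_ntr {Y : M} (hY : Y.IsHermitian) : ptr Y - ntr Y = Y.trace.re := by
  unfold ptr ntr
  rw [trace_cfc_re hY, trace_cfc_re hY]
  conv_rhs => rw [← cfc_self hY, trace_cfc_re hY]
  rw [← Finset.sum_sub_distrib]
  refine Finset.sum_congr rfl fun j _ => ?_
  rcases le_total (hY.eigenvalues j) 0 with h | h
  · rw [max_eq_right h, max_eq_left (by linarith)]; ring
  · rw [max_eq_left h, max_eq_right (by linarith)]; ring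

lemma ptr_nonneg {Y : M} (hY : Y.IsHermitian) : 0 ≤ ptr Y := by
  unfold ptr
  rw [trace_cfc_re hY]
  exact Finset.sum_nonneg fun j _ => le_max_right _ _

/-- conjugation by a unitary commutes with the functional calculus -/
lemma conj_cfc (U : M) (hU : Uᴴ * U = 1) (A : M) (hA : A.IsHermitian) (f : ℝ → ℝ) :
    Uᴴ * cfc f A * U = cfc f (Uᴴ * A * U) := by
  have hU' : U * Uᴴ = 1 := mul_eq_one_comm.mp hU
  let u : unitary M := ⟨Uᴴ, by
    rw [Unitary.mem_iff]
    constructor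
    · rw [star_eq_conjTranspose, conjTranspose_conjTranspose]; exact hU'
    · rw [star_eq_conjTranspose, conjTranspose_conjTranspose]; exact hU⟩
  have h := StarAlgHomClass.map_cfc (S := ℝ) (R := ℝ) (p := IsSelfAdjoint) (q := IsSelfAdjoint)
    (Unitary.conjStarAlgAut ℝ M u) f A (contOn f A)
    (by
      change Continuous fun x : M => (Uᴴ) * x * star (Uᴴ)
      exact (continuous_const.matrix_mul continuous_id).matrix_mul continuous_const)
    hA
    (by
      change IsSelfAdjoint ((Uᴴ) * A * star (Uᴴ))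
      rw [star_eq_conjTranspose, conjTranspose_conjTranspose]
      change (Uᴴ * A * U)ᴴ = Uᴴ * A * U
      rw [conjTranspose_mul, conjTranspose_mul, conjTranspose_conjTranspose, hA.eq, Matrix.mul_assoc])
  have h2 : ∀ x : M, Unitary.conjStarAlgAut ℝ M u x = Uᴴ * x * U := by
    intro x
    change (Uᴴ) * x * star (Uᴴ) = _
    rw [star_eq_conjTranspose, conjTranspose_conjTranspose]
  rw [h2, h2] at h
  exact h

/-- shift: `cfc g (H - l) = cfc (g ∘ (· - l)) H` -/
lemma cfc_shift {H : M} (hH : H.IsHermitian) (l : ℝ) (g : ℝ → ℝ) :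
    cfc g (H - l • (1 : M)) = cfc (fun t => g (t - l)) H := by
  have h1 : H - l • (1 : M) = cfc (fun t : ℝ => t - l) H := by
    rw [cfc_sub (fun t : ℝ => t) (fun _ => l) H (contOn _ H) (contOn _ H), cfc_self hH,
      cfc_const l H (p := IsSelfAdjoint) hH]
    congr 1
    simp [Algebra.algebraMap_eq_smul_one]
  rw [h1]
  exact (cfc_comp' g (fun t : ℝ => t - l) H
    ((H.finite_real_spectrum.image _).continuousOn g) (contOn _ H) hH).symm

/-- **Lemma B** of the duality: T1 + gap control the positive part above the quantile. -/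
lemma fro_conj_le (T1 : ∀ x y : M, x.IsHermitian → y.IsHermitian →
      fro (cfc sqp x - cfc sqp y) ≤ 2 * (ptr (x - y) + ntr (x - y)))
    {H U : M} (hH : H.IsHermitian) (hU : Uᴴ * U = 1) (l : ℝ) :
    fro (Uᴴ * cfc (fun t => sqp (t - l)) H * U - cfc (fun t => sqp (t - l)) H)
      ≤ 4 * ptr (Uᴴ * H * U - H) := by
  have hH' : (Uᴴ * H * U).IsHermitian := by
    change (Uᴴ * H * U)ᴴ = Uᴴ * H * U
    rw [conjTranspose_mul, conjTranspose_mul, conjTranspose_conjTranspose, hH.eq, Matrix.mul_assoc]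
  have hsmul : (l • (1 : M)).IsHermitian := (psd_smul_one_herm l)
  have hx : (H - l • (1 : M)).IsHermitian := hH.sub hsmul
  have hx' : (Uᴴ * H * U - l • (1 : M)).IsHermitian := hH'.sub hsmul
  have h := T1 _ _ hx' hx
  rw [cfc_shift hH l, cfc_shift hH' l, sub_sub_sub_cancel_right] at h
  rw [conj_cfc U hU H hH]
  have hY : (Uᴴ * H * U - H).IsHermitian := hH'.sub hH
  have htr : (Uᴴ * H * U - H).trace.re = 0 := by
    rw [trace_sub, Matrix.trace_mul_comm, ← Matrix.mul_assoc, mul_eq_one_comm.mp hU, Matrix.one_mul]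
    simp
  have := ptr_sub_ntr hY
  rw [htr] at this
  linarith

lemma gap_bound {𝔇 : Set M} {U₁ U₂ H : M} (hH : H ∈ V 𝔇) (hU₁ : U₁ᴴ * U₁ = 1) (hU₂ : U₂ᴴ * U₂ = 1)
    (κ : ℝ) (hκ : 0 < κ) (hJ : 0 < (Fintype.card J : ℝ))
    (gap : ∀ f ∈ V 𝔇, κ * (fro f - ‖f.trace‖ ^ 2 / Fintype.card J)
      ≤ fro (U₁ᴴ * f * U₁ - f) + fro (U₂ᴴ * f * U₂ - f))
    (T1 : ∀ x y : M, x.IsHermitian → y.IsHermitian →
      fro (cfc sqp x - cfc sqp y) ≤ 2 * (ptr (x - y) + ntr (x - y)))
    (l : ℝ)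
    (hl : ((Finset.univ.filter fun j => l < hH.1.eigenvalues j).card : ℝ) ≤ Fintype.card J / 8) :
    κ * (7 / 8) * (∑ j, max (hH.1.eigenvalues j - l) 0)
      ≤ 4 * (ptr (U₁ᴴ * H * U₁ - H) + ptr (U₂ᴴ * H * U₂ - H)) := by
  set μ := hH.1.eigenvalues with hμ
  set f : M := cfc (fun t => sqp (t - l)) H with hf
  have hfV : f ∈ V 𝔇 := V_cfc hH _
  set P := ∑ j, max (μ j - l) 0 with hP
  have hP0 : 0 ≤ P := Finset.sum_nonneg fun j _ => le_max_right _ _
  have hfro : fro f = P := by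
    unfold fro ip
    rw [(cfc_herm _ H).eq, hf, cfc_mul', trace_cfc_re hH.1]
    refine Finset.sum_congr rfl fun j _ => ?_
    exact Real.mul_self_sqrt (le_max_right _ _)
  have htr : ‖f.trace‖ ^ 2 ≤ (Fintype.card J / 8) * P := by
    have h1 : f.trace = ((∑ j, sqp (μ j - l) : ℝ) : ℂ) := by
      rw [hf, trace_cfc hH.1]
      push_cast
      rfl
    set T := Finset.univ.filter fun j => l < μ j with hT
    have h2 : ∑ j, sqp (μ j - l) = ∑ j ∈ T, sqp (μ j - l) := by
      rw [hT, Finset.sum_filter]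
      refine Finset.sum_congr rfl fun j _ => ?_
      split_ifs with h
      · rfl
      · have : max (μ j - l) 0 = 0 := max_eq_right (by linarith [not_lt.mp h])
        simp [sqp, this]
    have h3 : (∑ j ∈ T, sqp (μ j - l)) ^ 2 ≤ (T.card : ℝ) * ∑ j ∈ T, sqp (μ j - l) ^ 2 :=
      sq_sum_le_card_mul_sum_sq
    have h4 : ∑ j ∈ T, sqp (μ j - l) ^ 2 ≤ P := by
      have h5 : ∀ j, sqp (μ j - l) ^ 2 = max (μ j - l) 0 := fun j => Real.sq_sqrt (le_max_right _ _)
      simp_rw [h5]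
      exact Finset.sum_le_sum_of_subset_of_nonneg (Finset.subset_univ _) fun j _ _ => le_max_right _ _
    rw [h1, Complex.norm_real, Real.norm_eq_abs, sq_abs, h2]
    calc _ ≤ (T.card : ℝ) * ∑ j ∈ T, sqp (μ j - l) ^ 2 := h3
      _ ≤ (T.card : ℝ) * P := mul_le_mul_of_nonneg_left h4 (by positivity)
      _ ≤ _ := mul_le_mul_of_nonneg_right hl hP0
  have hg := gap f hfV
  have h7 : (7 / 8) * P ≤ fro f - ‖f.trace‖ ^ 2 / Fintype.card J := by
    rw [hfro]
    have : ‖f.trace‖ ^ 2 / Fintype.card J ≤ P / 8 := by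
      rw [div_le_iff₀ hJ]
      linarith
    linarith
  have h8 := fro_conj_le T1 hH.1 hU₁ l
  have h9 := fro_conj_le T1 hH.1 hU₂ l
  calc κ * (7 / 8) * P = κ * ((7 / 8) * P) := by ring
    _ ≤ κ * (fro f - ‖f.trace‖ ^ 2 / Fintype.card J) := mul_le_mul_of_nonneg_left h7 hκ.le
    _ ≤ _ := hg
    _ ≤ _ := by linarith

/-! ### The projection part -/

lemma rank_proj {Q : M} (hQ : Q.IsHermitian) (hQQ : Q * Q = Q) : (Q.rank : ℝ) = Q.trace.re := by
  have h0 : ∀ j, hQ.eigenvalues j = 0 ∨ hQ.eigenvalues j = 1 := by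
    have h1 : cfc (fun t : ℝ => (t * t - t) * (t * t - t)) Q = 0 := by
      rw [← cfc_mul' (fun t : ℝ => t * t - t) (fun t : ℝ => t * t - t)]
      have : cfc (fun t : ℝ => t * t - t) Q = 0 := by
        rw [cfc_sub (fun t : ℝ => t * t) (fun t : ℝ => t) Q (contOn _ Q) (contOn _ Q),
          ← cfc_mul' (fun t : ℝ => t) (fun t : ℝ => t), cfc_self hQ, hQQ, sub_self]
      rw [this, zero_mul]
    have h2 := trace_cfc_re hQ (fun t : ℝ => (t * t - t) * (t * t - t))
    rw [h1] at h2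
    simp only [trace_zero, Complex.zero_re] at h2
    intro j
    have h3 := (Finset.sum_eq_zero_iff_of_nonneg
      (fun i _ => mul_self_nonneg (hQ.eigenvalues i * hQ.eigenvalues i - hQ.eigenvalues i))).mp h2.symm j
      (Finset.mem_univ j)
    have h4 : hQ.eigenvalues j * (hQ.eigenvalues j - 1) = 0 := by
      have := mul_self_eq_zero.mp h3
      linarith
    rcases mul_eq_zero.mp h4 with h | h
    · exact Or.inl h
    · exact Or.inr (by linarith)
  rw [hQ.rank_eq_card_non_zero_eigs]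
  conv_rhs => rw [← cfc_self hQ, trace_cfc_re hQ]
  rw [Fintype.card_subtype]
  simp only [Finset.card_filter]
  push_cast
  refine Finset.sum_congr rfl fun j _ => ?_
  rcases h0 j with h | h <;> simp [h]

lemma one_sub_idem {P : M} (h : P * P = P) : (1 - P) * (1 - P) = 1 - P := by
  rw [Matrix.mul_sub, Matrix.sub_mul, Matrix.sub_mul, h]
  simp

lemma proj_psd {E : M} (hE : E.IsHermitian) (hEE : E * E = E) : E.PosSemidef := by
  have : E = Eᴴ * E := by rw [hE.eq, hEE]
  rw [this]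
  exact posSemidef_conjTranspose_mul_self _

/-- the main construction of the test element `c` -/
lemma exists_c [Nonempty J] {𝔇 : Set M} {H Q : M} (hH : H ∈ V 𝔇) (hQ : Q ∈ V 𝔇) (hQQ : Q * Q = Q)
    (hQr : 15 * (Fintype.card J : ℝ) ≤ 16 * Q.trace.re) (l : ℝ)
    (hl : (Fintype.card J : ℝ) / 8 ≤ ((Finset.univ.filter fun j => l ≤ hH.1.eigenvalues j).card : ℝ)) :
    ∃ c ∈ Cset 𝔇 Q, H.trace.re - (∑ j, max (hH.1.eigenvalues j - l) 0) ≤ ip H c := by
  have hJ : 0 < (Fintype.card J : ℝ) := by exact_mod_cast Fintype.card_pos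
  set n := (Fintype.card J : ℝ) with hn
  set μ := hH.1.eigenvalues with hμ
  -- the spectral projection
  set gN : ℝ → ℝ := fun t => if l ≤ t then 1 else 0 with hgN
  set N : M := cfc gN H with hNdef
  have hNV : N ∈ V 𝔇 := V_cfc hH _
  have hNN : N * N = N := by
    rw [hNdef, cfc_mul']
    congr 1
    ext t
    simp only [hgN]
    split_ifs <;> simp
  have hNtr : N.trace.re = ((Finset.univ.filter fun j => l ≤ μ j).card : ℝ) := by
    rw [hNdef, trace_cfc_re hH.1]
    simp only [hgN, Finset.card_filter]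
    push_cast
    rfl
  -- A = N (1 - Q) N
  set A : M := N - N * Q * N with hAdef
  have hAfac : A = N * (1 - Q) * N := by
    rw [hAdef, Matrix.mul_sub, Matrix.sub_mul, Matrix.mul_one, hNN]
  have hNQNV : N * Q * N ∈ V 𝔇 := by
    refine ⟨?_, fun d hd => ?_⟩
    · change (N * Q * N)ᴴ = N * Q * N
      rw [conjTranspose_mul, conjTranspose_mul, hNV.1.eq, hQ.1.eq, Matrix.mul_assoc]
    · exact ((hNV.2 d hd).mul_left (hQ.2 d hd)).mul_left (hNV.2 d hd)
  have hAV : A ∈ V 𝔇 := V_sub hNV hNQNV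
  have hNA : N * A = A := by
    rw [hAdef, Matrix.mul_sub, hNN, ← Matrix.mul_assoc, ← Matrix.mul_assoc, hNN]
  have hAN : A * N = A := by
    rw [hAdef, Matrix.sub_mul, hNN, Matrix.mul_assoc, hNN]
  -- support projection of A
  set gS : ℝ → ℝ := fun t => if t = 0 then 0 else 1 with hgS
  set gI : ℝ → ℝ := fun t => if t = 0 then 0 else t⁻¹ with hgI
  set S : M := cfc gS A with hSdef
  have hSV : S ∈ V 𝔇 := V_cfc hAV _
  have hSS : S * S = S := by
    rw [hSdef, cfc_mul']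
    congr 1
    ext t
    simp only [hgS]
    split_ifs <;> simp
  have hAS : A * S = A := by
    conv_lhs => rw [hSdef]
    conv_lhs => enter [1]; rw [← cfc_self hAV.1]
    rw [cfc_mul']
    conv_rhs => rw [← cfc_self hAV.1]
    congr 1
    ext t
    simp only [hgS]
    split_ifs with h <;> simp [h]
  have hSfac : S = A * cfc gI A := by
    conv_rhs => enter [1]; rw [← cfc_self hAV.1]
    rw [cfc_mul', hSdef]
    congr 1
    ext t
    simp only [hgS, hgI]
    split_ifs with h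
    · simp [h]
    · field_simp
  have hNS : N * S = S := by
    rw [hSfac, ← Matrix.mul_assoc, hNA]
  have hSN : S * N = S := by
    have := congrArg conjTranspose hNS
    rwa [conjTranspose_mul, hSV.1.eq, hNV.1.eq] at this
  -- E
  set E : M := N - S with hEdef
  have hEV : E ∈ V 𝔇 := V_sub hNV hSV
  have hEE : E * E = E := by
    rw [hEdef, Matrix.mul_sub, Matrix.sub_mul, Matrix.sub_mul, hNN, hNS, hSN, hSS]
    abel
  have hNE : N * E = E := by
    rw [hEdef, Matrix.mul_sub, hNN, hNS]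
  have hEN : E * N = E := by
    rw [hEdef, Matrix.sub_mul, hNN, hSN]
  have hAE : A * E = 0 := by
    rw [hEdef, Matrix.mul_sub, hAN, hAS, sub_self]
  -- E ≤ Q
  have hQE : Q * E = E := by
    have hW : fro ((1 - Q) * E) = 0 := by
      unfold fro ip
      have h1 : ((1 - Q) * E)ᴴ * ((1 - Q) * E) = E * (1 - Q) * E := by
        have h2 : (1 - Q)ᴴ = 1 - Q := by
          rw [conjTranspose_sub, conjTranspose_one, hQ.1.eq]
        have h3 : (1 - Q) * (1 - Q) = 1 - Q := by
          rw [Matrix.mul_sub, Matrix.sub_mul, Matrix.sub_mul, hQQ]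
          simp
        rw [conjTranspose_mul, h2, hEV.1.eq]
        rw [Matrix.mul_assoc, ← Matrix.mul_assoc (1 - Q), h3, Matrix.mul_assoc]
      rw [h1]
      have h4 : E * (1 - Q) * E = E * (A * E) := by
        calc E * (1 - Q) * E = (E * N) * (1 - Q) * (N * E) := by rw [hEN, hNE]
          _ = E * ((N * (1 - Q) * N) * E) := by simp only [Matrix.mul_assoc]
          _ = E * (A * E) := by rw [← hAfac]
      rw [h4, hAE, Matrix.mul_zero]
      simp
    have := fro_eq_zero hW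
    rw [Matrix.sub_mul, Matrix.one_mul, sub_eq_zero] at this
    exact this.symm
  have hEQ : E * Q = E := by
    have := congrArg conjTranspose hQE
    rwa [conjTranspose_mul, hEV.1.eq, hQ.1.eq] at this
  -- rank estimate
  set r := E.trace.re with hr
  have hSrank : S.trace.re = (A.rank : ℝ) := by
    rw [hSdef, trace_cfc_re hAV.1, hAV.1.rank_eq_card_non_zero_eigs, Fintype.card_subtype]
    simp only [Finset.card_filter]
    push_cast
    refine Finset.sum_congr rfl fun j _ => ?_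
    simp only [hgS]
    split_ifs <;> simp_all
  have hArank : (A.rank : ℝ) ≤ n / 16 := by
    have h1 : A.rank ≤ (1 - Q).rank := by
      rw [hAfac]
      exact (rank_mul_le_left _ _).trans (rank_mul_le_right _ _)
    have h2 : ((1 - Q).rank : ℝ) = (1 - Q).trace.re := by
      refine rank_proj (V_sub V_one hQ).1 ?_
      rw [Matrix.mul_sub, Matrix.sub_mul, Matrix.sub_mul, hQQ]
      simp
    have h3 : (1 - Q).trace.re = n - Q.trace.re := by
      simp [trace_sub, trace_one, hn]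
    have h4 : (A.rank : ℝ) ≤ ((1 - Q).rank : ℝ) := by exact_mod_cast h1
    rw [h2, h3] at h4
    linarith
  have hrlow : n / 16 ≤ r := by
    have h1 : r = N.trace.re - S.trace.re := by
      rw [hr, hEdef, trace_sub, Complex.sub_re]
    rw [h1, hNtr, hSrank]
    linarith
  have hr0 : 0 < r := by
    have : 0 < n / 16 := by positivity
    linarith
  -- c
  set a : ℝ := n / r with ha
  have ha0 : 0 ≤ a := by positivity
  have ha16 : a ≤ 16 := by
    rw [ha, div_le_iff₀ hr0]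
    linarith
  have hEpsd : E.PosSemidef := proj_psd hEV.1 hEE
  have hE'psd : (1 - E).PosSemidef := by
    exact proj_psd (V_sub V_one hEV).1 (one_sub_idem hEE)
  refine ⟨a • E, ⟨⟨V_smul a hEV, hEpsd.smul ha0, ?_⟩, ?_⟩, ?_⟩
  · have : (16 : ℝ) • (1 : M) - a • E = (16 : ℝ) • (1 - E) + (16 - a) • E := by
      simp only [smul_sub, sub_smul]
      abel
    rw [this]
    exact (hE'psd.smul (by norm_num)).add (hEpsd.smul (by linarith))
  · rw [Matrix.mul_smul, Matrix.smul_mul, hQE, hEQ]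
  · -- the trace estimate
    set G : M := cfc (fun t => (t - l) * gN t) H with hG
    have hGpsd : G.PosSemidef := by
      refine cfc_psd hH.1 _ fun t => ?_
      simp only [hgN]
      split_ifs with h
      · simpa using h
      · simp
    have hGeq : (H - l • (1 : M)) * N = G := by
      have h1 : H - l • (1 : M) = cfc (fun t : ℝ => t - l) H := by
        rw [cfc_sub (fun t : ℝ => t) (fun _ => l) H (contOn _ H) (contOn _ H), cfc_self hH.1,
          cfc_const l H (p := IsSelfAdjoint) hH.1]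
        congr 1
        simp [Algebra.algebraMap_eq_smul_one]
      rw [h1, hNdef, cfc_mul']
    have hxE : 0 ≤ ((H - l • (1 : M)) * E).trace.re := by
      have : (H - l • (1 : M)) * E = G * E := by
        rw [← hGeq, Matrix.mul_assoc, hNE]
      rw [this]
      exact trace_mul_psd_nonneg hGpsd hEpsd
    have hHE : l * r ≤ (H * E).trace.re := by
      have : ((H - l • (1 : M)) * E).trace.re = (H * E).trace.re - l * r := by
        rw [Matrix.sub_mul, trace_sub, Complex.sub_re, Matrix.smul_mul, Matrix.one_mul, trace_smul, hr]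
        simp
      linarith
    have hipc : ip H (a • E) = a * (H * E).trace.re := by
      rw [ip_smul_right]
      unfold ip
      rw [hH.1.eq]
    rw [hipc]
    have h1 : l * n ≤ a * (H * E).trace.re := by
      have h2 : a * r = n := by
        rw [ha]; field_simp
      calc l * n = a * (l * r) := by rw [← h2]; ring
        _ ≤ _ := mul_le_mul_of_nonneg_left hHE ha0
    have h2 : H.trace.re - (∑ j, max (μ j - l) 0) ≤ l * n := by
      have h3 : H.trace.re = ∑ j, μ j := by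
        conv_lhs => rw [← cfc_self hH.1, trace_cfc_re hH.1]
      have h4 : l * n = ∑ _j : J, l := by
        rw [Finset.sum_const, Finset.card_univ, nsmul_eq_mul, hn]; ring
      rw [h3, h4, ← Finset.sum_sub_distrib]
      refine Finset.sum_le_sum fun j _ => ?_
      have := le_max_left (μ j - l) 0
      linarith
    linarith

/-! ### The duality theorem -/

lemma ip_conj (H U z : M) (hH : H.IsHermitian) : ip H (U * z * Uᴴ - z) = ip (Uᴴ * H * U - H) z := by
  unfold ip
  rw [hH.eq]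
  have hherm : (Uᴴ * H * U - H)ᴴ = Uᴴ * H * U - H := by
    rw [conjTranspose_sub, conjTranspose_mul, conjTranspose_mul, conjTranspose_conjTranspose, hH.eq,
      Matrix.mul_assoc]
  have hcyc : (H * (U * z * Uᴴ)).trace = (Uᴴ * H * U * z).trace := by
    rw [show H * (U * z * Uᴴ) = (H * U * z) * Uᴴ by simp only [Matrix.mul_assoc],
      Matrix.trace_mul_comm]
    simp only [Matrix.mul_assoc]
  rw [hherm, Matrix.mul_sub, Matrix.sub_mul, trace_sub, trace_sub, hcyc]

/-- **Pointwise duality** (module C5 of the S0188 blueprint). -/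
theorem point_duality [Nonempty J] (𝔇 : Set M) (U₁ U₂ : M) (hU₁ : U₁ᴴ * U₁ = 1) (hU₂ : U₂ᴴ * U₂ = 1)
    (hV₁ : ∀ y ∈ V 𝔇, U₁ * y * U₁ᴴ ∈ V 𝔇) (hV₁' : ∀ y ∈ V 𝔇, U₁ᴴ * y * U₁ ∈ V 𝔇)
    (hV₂ : ∀ y ∈ V 𝔇, U₂ * y * U₂ᴴ ∈ V 𝔇) (hV₂' : ∀ y ∈ V 𝔇, U₂ᴴ * y * U₂ ∈ V 𝔇)
    (κ : ℝ) (hκ : 0 < κ)
    (gap : ∀ f ∈ V 𝔇, κ * (fro f - ‖f.trace‖ ^ 2 / Fintype.card J)
      ≤ fro (U₁ᴴ * f * U₁ - f) + fro (U₂ᴴ * f * U₂ - f))
    (T1 : ∀ x y : M, x.IsHermitian → y.IsHermitian →
      fro (cfc sqp x - cfc sqp y) ≤ 2 * (ptr (x - y) + ntr (x - y)))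
    (Q : M) (hQ : Q ∈ V 𝔇) (hQQ : Q * Q = Q) (hQr : 15 * (Fintype.card J : ℝ) ≤ 16 * Q.trace.re)
    (R : ℝ) (hR : 4 ≤ R * (κ * (7 / 8))) :
    ∃ z₁ ∈ Zset 𝔇 R, ∃ z₂ ∈ Zset 𝔇 R, ∃ c ∈ Cset 𝔇 Q,
      (U₁ * z₁ * U₁ᴴ - z₁) + (U₂ * z₂ * U₂ᴴ - z₂) + c = 1 := by
  have hJ : 0 < (Fintype.card J : ℝ) := by exact_mod_cast Fintype.card_pos
  have hκ' : 0 < κ * (7 / 8) := by positivity
  have hR0 : 0 < R := by
    by_contra h
    push Not at h
    nlinarith
  set L : M × M × M → M := fun p => (U₁ * p.1 * U₁ᴴ - p.1) + (U₂ * p.2.1 * U₂ᴴ - p.2.1) + p.2.2 with hL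
  set K : Set M := L '' (Zset 𝔇 R ×ˢ (Zset 𝔇 R ×ˢ Cset 𝔇 Q)) with hK
  by_contra hcon
  have h1K : (1 : M) ∉ K := by
    rintro ⟨⟨z₁, z₂, c⟩, ⟨hz₁, hz₂, hc⟩, heq⟩
    exact hcon ⟨z₁, hz₁, z₂, hz₂, c, hc, heq⟩
  have hKcomp : IsCompact K := by
    refine ((isCompact_Zset 𝔇 hR0.le).prod ((isCompact_Zset 𝔇 hR0.le).prod (isCompact_Cset 𝔇 Q))).image ?_
    have h1 : ∀ U : M, Continuous fun p : M × M × M => U * p.1 * Uᴴ - p.1 := fun U =>
      ((continuous_const.matrix_mul continuous_fst).matrix_mul continuous_const).sub continuous_fst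
    have h2 : ∀ U : M, Continuous fun p : M × M × M => U * p.2.1 * Uᴴ - p.2.1 := fun U =>
      ((continuous_const.matrix_mul (continuous_fst.comp continuous_snd)).matrix_mul continuous_const).sub
        (continuous_fst.comp continuous_snd)
    exact ((h1 U₁).add (h2 U₂)).add (continuous_snd.comp continuous_snd)
  have hKconv : Convex ℝ K := by
    rintro _ ⟨⟨z₁, z₂, c⟩, ⟨hz₁, hz₂, hc⟩, rfl⟩ _ ⟨⟨w₁, w₂, d⟩, ⟨hw₁, hw₂, hd⟩, rfl⟩ a b ha hb hab
    refine ⟨⟨a • z₁ + b • w₁, a • z₂ + b • w₂, a • c + b • d⟩,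
      ⟨convex_Zset 𝔇 R hz₁ hw₁ ha hb hab, convex_Zset 𝔇 R hz₂ hw₂ ha hb hab,
        convex_Cset 𝔇 Q hc hd ha hb hab⟩, ?_⟩
    simp only [hL, Matrix.mul_add, Matrix.add_mul, Matrix.mul_smul, Matrix.smul_mul, smul_add, smul_sub]
    abel
  have hKne : K.Nonempty := by
    refine ⟨L (0, 0, 0), ⟨0, 0, 0⟩, ⟨zero_mem_Zset hR0.le, zero_mem_Zset hR0.le, ?_⟩, rfl⟩
    exact ⟨zero_mem_Zset (by norm_num), by simp⟩
  have hKV : K ⊆ V 𝔇 := by
    rintro _ ⟨⟨z₁, z₂, c⟩, ⟨hz₁, hz₂, hc⟩, rfl⟩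
    exact V_add (V_add (V_sub (hV₁ _ hz₁.1) hz₁.1) (V_sub (hV₂ _ hz₂.1) hz₂.1)) hc.1.1
  obtain ⟨k₀, hk₀, -, hsep⟩ := exists_sep K hKcomp hKconv hKne 1 h1K
  set H : M := 1 - k₀ with hH
  have hHV : H ∈ V 𝔇 := V_sub V_one (hKV hk₀)
  -- the two error terms
  set Y₁ : M := U₁ᴴ * H * U₁ - H with hY₁
  set Y₂ : M := U₂ᴴ * H * U₂ - H with hY₂
  have hY₁V : Y₁ ∈ V 𝔇 := V_sub (hV₁' _ hHV) hHV
  have hY₂V : Y₂ ∈ V 𝔇 := V_sub (hV₂' _ hHV) hHV
  -- the test elements
  have htest : ∀ Y : M, Y ∈ V 𝔇 → (R • cfc (fun t : ℝ => if 0 < t then (1 : ℝ) else 0) Y ∈ Zset 𝔇 R) ∧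
      ip Y (R • cfc (fun t : ℝ => if 0 < t then (1 : ℝ) else 0) Y) = R * ptr Y := by
    intro Y hY
    set s : ℝ → ℝ := fun t : ℝ => if 0 < t then (1 : ℝ) else 0 with hs
    have hs0 : ∀ t, 0 ≤ s t := fun t => by simp only [hs]; split_ifs <;> norm_num
    have hs1 : ∀ t, 0 ≤ 1 - s t := fun t => by simp only [hs]; split_ifs <;> norm_num
    refine ⟨⟨V_smul R (V_cfc hY s), (cfc_psd hY.1 s hs0).smul hR0.le, ?_⟩, ?_⟩
    · have h1 : (1 : M) - cfc s Y = cfc (fun t => 1 - s t) Y := by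
        rw [cfc_sub (fun _ : ℝ => (1 : ℝ)) s Y (contOn _ Y) (contOn _ Y),
          cfc_const_one ℝ Y (p := IsSelfAdjoint) hY.1]
      have h2 : R • (1 : M) - R • cfc s Y = R • ((1 : M) - cfc s Y) := by rw [smul_sub]
      rw [h2, h1]
      exact (cfc_psd hY.1 _ hs1).smul hR0.le
    · have hkey : cfc (fun t : ℝ => t) Y * cfc s Y = cfc (fun t : ℝ => max t 0) Y := by
        rw [cfc_mul']
        congr 1
        ext t
        simp only [hs]
        split_ifs with h
        · rw [mul_one, max_eq_left h.le]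
        · rw [mul_zero, max_eq_right (not_lt.mp h)]
      rw [ip_smul_right]
      unfold ip ptr
      rw [hY.1.eq, ← hkey, cfc_self hY.1]
  obtain ⟨hz₁, hz₁'⟩ := htest Y₁ hY₁V
  obtain ⟨hz₂, hz₂'⟩ := htest Y₂ hY₂V
  set z₁ := R • cfc (fun t : ℝ => if 0 < t then (1 : ℝ) else 0) Y₁ with hz₁def
  set z₂ := R • cfc (fun t : ℝ => if 0 < t then (1 : ℝ) else 0) Y₂ with hz₂def
  -- quantile
  obtain ⟨l, hl₁, hl₂⟩ := exists_quantile hHV.1.eigenvalues ((Fintype.card J : ℝ) / 8) (by positivity)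
    (by linarith)
  obtain ⟨c, hc, hcH⟩ := exists_c hHV hQ hQQ hQr l hl₂
  have hB := gap_bound hHV hU₁ hU₂ κ hκ hJ gap T1 l hl₁.le
  set P := ∑ j, max (hHV.1.eigenvalues j - l) 0 with hP
  -- evaluate separation at (z₁, z₂, c)
  have hmem : L (z₁, z₂, c) ∈ K := ⟨_, ⟨hz₁, hz₂, hc⟩, rfl⟩
  have hs := hsep _ hmem
  have hconj : ∀ (U z : M), ip H (U * z * Uᴴ - z) = ip (Uᴴ * H * U - H) z :=
    fun U z => ip_conj H U z hHV.1
  have heval : ip H (L (z₁, z₂, c)) = R * ptr Y₁ + R * ptr Y₂ + ip H c := by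
    simp only [hL]
    rw [ip_add_right, ip_add_right, hconj, hconj, ← hY₁, ← hY₂, hz₁', hz₂']
  have hone : ip H 1 = H.trace.re := by
    unfold ip
    rw [hHV.1.eq, Matrix.mul_one]
  rw [heval, hone] at hs
  have hfin : R * (ptr Y₁ + ptr Y₂) < P := by linarith
  have hp1 := ptr_nonneg hY₁V.1
  have hp2 := ptr_nonneg hY₂V.1
  have h3 : κ * (7 / 8) * P ≤ R * (κ * (7 / 8)) * (ptr Y₁ + ptr Y₂) :=
    hB.trans (mul_le_mul_of_nonneg_right hR (by linarith))
  have h4 : κ * (7 / 8) * P ≤ κ * (7 / 8) * (R * (ptr Y₁ + ptr Y₂)) := by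
    calc _ ≤ _ := h3
      _ = _ := by ring
  have h5 : P ≤ R * (ptr Y₁ + ptr Y₂) := le_of_mul_le_mul_left h4 hκ'
  linarith

end Crest.Agent.Lib.QTFiberPoint
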