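import Crest.Agent.Lib.QTFiberPoint

set_option maxHeartbeats 400000

/-!
Module C6 of the S0188 blueprint (row 137): continuous selection over a compact space.
-/

set_option autoImplicit false
set_option linter.unusedSectionVars false

open Matrix
open scoped ComplexOrder

namespace Crest.Agent.Lib.QTFiberPoint

variable {J : Type} [Fintype J] [DecidableEq J]

local notation "M" => Matrix J J ℂ

/-! ### `fro` scaling and convexity -/

lemma fro_smul (r : ℝ) (a : M) : fro (r • a) = r ^ 2 * fro a := by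
  unfold fro
  rw [ip_smul_left, ip_smul_right]; ring

lemma fro_add_le (a b : M) : fro (a + b) ≤ 2 * fro a + 2 * fro b := by
  have h1 : fro (a + b) + fro (a - b) = 2 * fro a + 2 * fro b := by
    unfold fro
    simp only [ip_add_left, ip_add_right, ip_sub_left, ip_sub_right]
    ring
  have := fro_nonneg (a - b)
  linarith

lemma fro_convex_comb (a b : ℝ) (ha : 0 ≤ a) (hb : 0 ≤ b) (hab : a + b = 1) (x y : M) :
    fro (a • x + b • y) ≤ a * fro x + b * fro y := by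
  have h1 : a * fro x + b * fro y - fro (a • x + b • y) = a * b * fro (x - y) := by
    have e : b = 1 - a := by linarith
    subst e
    unfold fro
    simp only [ip_add_left, ip_add_right, ip_sub_left, ip_sub_right, ip_smul_left, ip_smul_right]
    rw [ip_comm y x]
    ring
  have := mul_nonneg (mul_nonneg ha hb) (fro_nonneg (x - y))
  linarith

lemma fro_convexOn : ConvexOn ℝ Set.univ (fun x : M => fro x) :=
  ⟨convex_univ, fun x _ y _ a b ha hb hab => by
    simpa [smul_eq_mul] using fro_convex_comb a b ha hb hab x y⟩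

lemma fro_sum_le {ι : Type*} (s : Finset ι) (t : ι → ℝ) (a : ι → M) (h0 : ∀ i ∈ s, 0 ≤ t i)
    (h1 : ∑ i ∈ s, t i = 1) : fro (∑ i ∈ s, t i • a i) ≤ ∑ i ∈ s, t i * fro (a i) := by
  have := fro_convexOn.map_sum_le (t := s) (w := t) (p := a) h0 h1 (fun _ _ => Set.mem_univ _)
  simpa [smul_eq_mul] using this

lemma sq_trace_le (y : M) : ‖y.trace‖ ^ 2 ≤ Fintype.card J * fro y := by
  have h1 : ‖y.trace‖ ≤ ∑ i, ‖y i i‖ := norm_sum_le _ _
  have h2 : (∑ i, ‖y i i‖) ^ 2 ≤ (Finset.univ.card : ℝ) * ∑ i, ‖y i i‖ ^ 2 := sq_sum_le_card_mul_sum_sq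
  have h3 : ∑ i, ‖y i i‖ ^ 2 ≤ fro y := by
    rw [fro_eq_sum]
    refine Finset.sum_le_sum fun i _ => ?_
    exact Finset.single_le_sum (f := fun j => ‖y j i‖ ^ 2) (fun _ _ => by positivity) (Finset.mem_univ i)
  rw [Finset.card_univ] at h2
  have h4 : ‖y.trace‖ ^ 2 ≤ (∑ i, ‖y i i‖) ^ 2 := pow_le_pow_left₀ (norm_nonneg _) h1 2
  have h5 : (0 : ℝ) ≤ Fintype.card J := by positivity
  nlinarith

/-- Hermitian with `fro w ≤ 1` implies `-1 ≤ w ≤ 1`. -/
lemma psd_of_fro_le_one {w : M} (hw : w.IsHermitian) (h : fro w ≤ 1) :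
    ((1 : M) - w).PosSemidef ∧ ((1 : M) + w).PosSemidef := by
  have hev : ∀ j, (hw.eigenvalues j) ^ 2 ≤ 1 := by
    intro j
    have h1 : fro w = ∑ i, hw.eigenvalues i * hw.eigenvalues i := by
      unfold fro ip
      rw [hw.eq]
      conv_lhs => rw [← cfc_self hw]
      rw [cfc_mul', trace_cfc_re hw]
    have h2 : hw.eigenvalues j * hw.eigenvalues j ≤ ∑ i, hw.eigenvalues i * hw.eigenvalues i :=
      Finset.single_le_sum (f := fun i => hw.eigenvalues i * hw.eigenvalues i)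
        (fun i _ => mul_self_nonneg _) (Finset.mem_univ j)
    nlinarith
  have hspec : ∀ t ∈ spectrum ℝ w, -1 ≤ t ∧ t ≤ 1 := by
    intro t ht
    have : t ∈ Set.range hw.eigenvalues := by rwa [hw.spectrum_real_eq_range_eigenvalues] at ht
    obtain ⟨i, rfl⟩ := this
    exact abs_le.mp ((sq_le_one_iff_abs_le_one _).mp (hev i))
  constructor
  · have h1 : (1 : M) - w = cfc (fun t : ℝ => max (1 - t) 0) w := by
      have : cfc (fun t : ℝ => max (1 - t) 0) w = cfc (fun t : ℝ => 1 - t) w := by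
        apply cfc_congr
        intro t ht
        exact max_eq_left (by linarith [(hspec t ht).2])
      rw [this, cfc_sub (fun _ : ℝ => (1 : ℝ)) (fun t : ℝ => t) w (contOn _ w) (contOn _ w),
        cfc_self hw, cfc_const_one ℝ w (p := IsSelfAdjoint) hw]
    rw [h1]
    exact cfc_psd hw _ fun t => le_max_right _ _
  · have h1 : (1 : M) + w = cfc (fun t : ℝ => max (1 + t) 0) w := by
      have : cfc (fun t : ℝ => max (1 + t) 0) w = cfc (fun t : ℝ => 1 + t) w := by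
        apply cfc_congr
        intro t ht
        exact max_eq_left (by linarith [(hspec t ht).1])
      rw [this, cfc_add w (fun _ : ℝ => (1 : ℝ)) (fun t : ℝ => t) (contOn _ w) (contOn _ w),
        cfc_self hw, cfc_const_one ℝ w (p := IsSelfAdjoint) hw]
    rw [h1]
    exact cfc_psd hw _ fun t => le_max_right _ _

/-! ### The linear correction -/

/-- `V 𝔇` as a real subspace -/
def VS (𝔇 : Set M) : Submodule ℝ M where
  carrier := V 𝔇
  add_mem' := V_add
  zero_mem' := V_zero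
  smul_mem' r _ hy := V_smul r hy

/-- trace-zero part of `V 𝔇` -/
def V0S (𝔇 : Set M) : Submodule ℝ M where
  carrier := {y | y ∈ V 𝔇 ∧ y.trace.re = 0}
  add_mem' {a b} ha hb := ⟨V_add ha.1 hb.1, by simp [trace_add, ha.2, hb.2]⟩
  zero_mem' := ⟨V_zero, by simp⟩
  smul_mem' r y hy := ⟨V_smul r hy.1, by simp [trace_smul, hy.2]⟩

lemma trace_eq_zero_of_mem_V0 {𝔇 : Set M} {y : M} (hy : y ∈ V0S 𝔇) : y.trace = 0 := by
  have hy' : y.IsHermitian := hy.1.1
  apply Complex.ext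
  · exact hy.2
  · have h := trace_cfc hy' (fun t => t)
    rw [cfc_self hy'] at h
    rw [h]
    simp

/-- the conjugation difference `y ↦ U* y U - y`, a real-linear map on matrices -/
noncomputable def dAdj (U : M) : M →ₗ[ℝ] M where
  toFun y := Uᴴ * y * U - y
  map_add' a b := by simp only [Matrix.mul_add, Matrix.add_mul]; abel
  map_smul' r a := by simp [smul_sub]

/-- the conjugation difference `y ↦ U y U* - y` -/
noncomputable def dFwd (U : M) : M →ₗ[ℝ] M where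
  toFun y := U * y * Uᴴ - y
  map_add' a b := by simp only [Matrix.mul_add, Matrix.add_mul]; abel
  map_smul' r a := by simp [smul_sub]

@[simp] lemma dAdj_apply (U y : M) : dAdj U y = Uᴴ * y * U - y := rfl
@[simp] lemma dFwd_apply (U y : M) : dFwd U y = U * y * Uᴴ - y := rfl

lemma trace_dFwd (U y : M) (hU : Uᴴ * U = 1) : (dFwd U y).trace = 0 := by
  rw [dFwd_apply, trace_sub, Matrix.trace_mul_comm, ← Matrix.mul_assoc, hU, Matrix.one_mul, sub_self]

lemma trace_dAdj (U y : M) (hU : Uᴴ * U = 1) : (dAdj U y).trace = 0 := by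
  rw [dAdj_apply, trace_sub, Matrix.trace_mul_comm, ← Matrix.mul_assoc, mul_eq_one_comm.mp hU,
    Matrix.one_mul, sub_self]

/-- the linear correction with a quantitative bound -/
theorem exists_correction [Nonempty J] (𝔇 : Set M) (U₁ U₂ : M) (hU₁ : U₁ᴴ * U₁ = 1) (hU₂ : U₂ᴴ * U₂ = 1)
    (hV₁ : ∀ y ∈ V 𝔇, U₁ * y * U₁ᴴ ∈ V 𝔇) (hV₁' : ∀ y ∈ V 𝔇, U₁ᴴ * y * U₁ ∈ V 𝔇)
    (hV₂ : ∀ y ∈ V 𝔇, U₂ * y * U₂ᴴ ∈ V 𝔇) (hV₂' : ∀ y ∈ V 𝔇, U₂ᴴ * y * U₂ ∈ V 𝔇)
    (κ : ℝ) (hκ : 0 < κ)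
    (gap : ∀ f ∈ V 𝔇, κ * (fro f - ‖f.trace‖ ^ 2 / Fintype.card J)
      ≤ fro (U₁ᴴ * f * U₁ - f) + fro (U₂ᴴ * f * U₂ - f)) :
    ∃ (S₁ S₂ : V0S 𝔇 →ₗ[ℝ] M) (C : ℝ), 0 ≤ C ∧ Continuous S₁ ∧ Continuous S₂ ∧
      (∀ y, S₁ y ∈ V 𝔇) ∧ (∀ y, S₂ y ∈ V 𝔇) ∧
      (∀ y : V0S 𝔇, fro (S₁ y) ≤ C * fro (y : M) ∧ fro (S₂ y) ≤ C * fro (y : M)) ∧
      ∀ y : V0S 𝔇, dFwd U₁ (S₁ y) + dFwd U₂ (S₂ y) = y := by
  classical
  -- adjoint maps on `V0S`
  let A₁ : V0S 𝔇 →ₗ[ℝ] M := (dAdj U₁).comp (V0S 𝔇).subtype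
  let A₂ : V0S 𝔇 →ₗ[ℝ] M := (dAdj U₂).comp (V0S 𝔇).subtype
  have hA₁V : ∀ y, A₁ y ∈ V 𝔇 := fun y => V_sub (hV₁' _ y.2.1) y.2.1
  have hA₂V : ∀ y, A₂ y ∈ V 𝔇 := fun y => V_sub (hV₂' _ y.2.1) y.2.1
  let G₀ : V0S 𝔇 →ₗ[ℝ] M := (dFwd U₁).comp A₁ + (dFwd U₂).comp A₂
  have hG₀ : ∀ y, G₀ y ∈ V0S 𝔇 := fun y =>
    ⟨V_add (V_sub (hV₁ _ (hA₁V y)) (hA₁V y)) (V_sub (hV₂ _ (hA₂V y)) (hA₂V y)), by
      change ((dFwd U₁ (A₁ y)) + (dFwd U₂ (A₂ y))).trace.re = 0
      rw [trace_add, trace_dFwd _ _ hU₁, trace_dFwd _ _ hU₂]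
      simp⟩
  let G : V0S 𝔇 →ₗ[ℝ] V0S 𝔇 := G₀.codRestrict _ hG₀
  have hJ : 0 < (Fintype.card J : ℝ) := by exact_mod_cast Fintype.card_pos
  have hGinj : Function.Injective G := by
    rw [injective_iff_map_eq_zero]
    intro y hy
    have h0 : G₀ y = 0 := congrArg Subtype.val hy
    have h1 : ip (y : M) (G₀ y) = fro (A₁ y) + fro (A₂ y) := by
      change ip (y : M) (dFwd U₁ (A₁ y) + dFwd U₂ (A₂ y)) = _
      rw [ip_add_right]
      simp only [dFwd_apply]
      rw [ip_conj _ _ _ y.2.1.1, ip_conj _ _ _ y.2.1.1]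
      rfl
    rw [h0] at h1
    have h2 : ip (y : M) 0 = 0 := by simp [ip]
    rw [h2] at h1
    have h3 := gap (y : M) y.2.1
    rw [trace_eq_zero_of_mem_V0 y.2] at h3
    simp only [norm_zero, ne_eq, OfNat.ofNat_ne_zero, not_false_eq_true, zero_pow, zero_div, sub_zero] at h3
    have h4 : κ * fro (y : M) ≤ 0 := by
      have : fro (U₁ᴴ * (y : M) * U₁ - (y : M)) + fro (U₂ᴴ * (y : M) * U₂ - (y : M)) = fro (A₁ y) + fro (A₂ y) := rfl
      linarith
    have h5 : fro (y : M) = 0 := le_antisymm (by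
      by_contra hc
      push Not at hc
      have := mul_pos hκ hc
      linarith) (fro_nonneg _)
    exact Subtype.ext (fro_eq_zero h5)
  let Ginv : V0S 𝔇 ≃ₗ[ℝ] V0S 𝔇 := LinearEquiv.ofInjectiveEndo G hGinj
  let S₁ : V0S 𝔇 →ₗ[ℝ] M := A₁.comp Ginv.symm.toLinearMap
  let S₂ : V0S 𝔇 →ₗ[ℝ] M := A₂.comp Ginv.symm.toLinearMap
  have hS₁c : Continuous S₁ := LinearMap.continuous_of_finiteDimensional S₁
  have hS₂c : Continuous S₂ := LinearMap.continuous_of_finiteDimensional S₂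
  -- the bound
  have hbound : ∃ C : ℝ, 0 ≤ C ∧ ∀ y : V0S 𝔇, fro (S₁ y) + fro (S₂ y) ≤ C * fro (y : M) := by
    let sph : Set (V0S 𝔇) := {y | fro (y : M) = 1}
    have hsph : IsCompact sph := by
      rw [Subtype.isCompact_iff]
      refine isCompact_of_fro_le _ ?_ 1 ?_
      · have : (Subtype.val '' sph) = ((V0S 𝔇 : Set M) ∩ {y | fro y = 1}) := by
          ext y
          constructor
          · rintro ⟨y', hy', rfl⟩
            exact ⟨y'.2, hy'⟩
          · rintro ⟨h1, h2⟩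
            exact ⟨⟨y, h1⟩, h2, rfl⟩
        rw [this]
        refine IsClosed.inter ?_ (isClosed_eq continuous_fro continuous_const)
        have h : (V0S 𝔇 : Set M) = V 𝔇 ∩ {y | y.trace.re = 0} := rfl
        rw [h]
        exact (isClosed_V 𝔇).inter (isClosed_eq
          (Complex.continuous_re.comp (Continuous.matrix_trace continuous_id)) continuous_const)
      · rintro _ ⟨y', hy', rfl⟩
        exact le_of_eq hy'
    by_cases hne : sph.Nonempty
    · obtain ⟨y₀, -, hmax⟩ := hsph.exists_isMaxOn hne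
        (f := fun y => fro (S₁ y) + fro (S₂ y))
        ((continuous_fro.comp hS₁c).add (continuous_fro.comp hS₂c)).continuousOn
      refine ⟨fro (S₁ y₀) + fro (S₂ y₀), add_nonneg (fro_nonneg _) (fro_nonneg _), fun y => ?_⟩
      by_cases hy0 : fro (y : M) = 0
      · have : y = 0 := Subtype.ext (fro_eq_zero hy0)
        subst this
        simp [fro, ip]
      · have hpos : 0 < fro (y : M) := lt_of_le_of_ne (fro_nonneg _) (Ne.symm hy0)
        set r : ℝ := (Real.sqrt (fro (y : M)))⁻¹ with hr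
        have hr2 : r ^ 2 * fro (y : M) = 1 := by
          rw [hr, inv_pow, Real.sq_sqrt hpos.le]
          field_simp
        have hmem : r • y ∈ sph := by
          change fro (r • (y : M)) = 1
          rw [fro_smul, hr2]
        have h1 := hmax hmem
        simp only [Set.mem_setOf_eq, map_smul] at h1
        rw [fro_smul, fro_smul, ← mul_add] at h1
        calc fro (S₁ y) + fro (S₂ y) = (r ^ 2 * fro (y : M)) * (fro (S₁ y) + fro (S₂ y)) := by
              rw [hr2, one_mul]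
          _ = (r ^ 2 * (fro (S₁ y) + fro (S₂ y))) * fro (y : M) := by ring
          _ ≤ _ := mul_le_mul_of_nonneg_right h1 hpos.le
    · refine ⟨0, le_refl _, fun y => ?_⟩
      by_cases hy0 : fro (y : M) = 0
      · have : y = 0 := Subtype.ext (fro_eq_zero hy0)
        subst this
        simp [fro, ip]
      · exfalso
        have hpos : 0 < fro (y : M) := lt_of_le_of_ne (fro_nonneg _) (Ne.symm hy0)
        apply hne
        refine ⟨(Real.sqrt (fro (y : M)))⁻¹ • y, ?_⟩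
        change fro ((Real.sqrt (fro (y : M)))⁻¹ • (y : M)) = 1
        rw [fro_smul, inv_pow, Real.sq_sqrt hpos.le]
        field_simp
  obtain ⟨C, hC0, hC⟩ := hbound
  refine ⟨S₁, S₂, C, hC0, hS₁c, hS₂c, fun y => hA₁V _, fun y => hA₂V _, fun y => ?_, fun y => ?_⟩
  · have h := hC y
    have h1 := fro_nonneg (S₁ y)
    have h2 := fro_nonneg (S₂ y)
    constructor <;> linarith
  · have h : G (Ginv.symm y) = y := Ginv.apply_symm_apply y
    have h2 := congrArg Subtype.val h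
    exact h2

/-! ### Selection -/

lemma corner_mem_Zset {𝔇 : Set M} {Q c : M} (hQ : Q ∈ V 𝔇) (hQQ : Q * Q = Q) {r : ℝ} (hr : 0 ≤ r)
    (hc : c ∈ Zset 𝔇 r) : Q * c * Q ∈ Zset 𝔇 r := by
  refine ⟨⟨?_, fun d hd => ?_⟩, ?_, ?_⟩
  · change (Q * c * Q)ᴴ = Q * c * Q
    rw [conjTranspose_mul, conjTranspose_mul, hQ.1.eq, hc.1.1.eq, Matrix.mul_assoc]
  · exact ((hQ.2 d hd).mul_left (hc.1.2 d hd)).mul_left (hQ.2 d hd)
  · have := hc.2.1.mul_mul_conjTranspose_same Q
    rwa [hQ.1.eq] at this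
  · have h1 : r • (1 : M) - Q * c * Q = Q * (r • (1 : M) - c) * Q + r • (1 - Q) := by
      simp only [Matrix.mul_sub, Matrix.sub_mul, Matrix.mul_smul, Matrix.smul_mul, Matrix.mul_one,
        Matrix.one_mul, hQQ, smul_sub]
      abel
    rw [h1]
    have h2 := hc.2.2.mul_mul_conjTranspose_same Q
    rw [hQ.1.eq] at h2
    exact h2.add ((proj_psd (V_sub V_one hQ).1 (one_sub_idem hQQ)).smul hr)

/-- **Continuous selection** (module C6 of the S0188 blueprint). -/
theorem fiber_selection {X : Type*} [TopologicalSpace X] [CompactSpace X] [Nonempty J]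
    (𝔇 : Set M) (U₁ U₂ : M) (hU₁ : U₁ᴴ * U₁ = 1) (hU₂ : U₂ᴴ * U₂ = 1)
    (hV₁ : ∀ y ∈ V 𝔇, U₁ * y * U₁ᴴ ∈ V 𝔇) (hV₁' : ∀ y ∈ V 𝔇, U₁ᴴ * y * U₁ ∈ V 𝔇)
    (hV₂ : ∀ y ∈ V 𝔇, U₂ * y * U₂ᴴ ∈ V 𝔇) (hV₂' : ∀ y ∈ V 𝔇, U₂ᴴ * y * U₂ ∈ V 𝔇)
    (κ : ℝ) (hκ : 0 < κ)
    (gap : ∀ f ∈ V 𝔇, κ * (fro f - ‖f.trace‖ ^ 2 / Fintype.card J)
      ≤ fro (U₁ᴴ * f * U₁ - f) + fro (U₂ᴴ * f * U₂ - f))
    (T1 : ∀ x y : M, x.IsHermitian → y.IsHermitian →
      fro (cfc sqp x - cfc sqp y) ≤ 2 * (ptr (x - y) + ntr (x - y)))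
    (Q : X → M) (hQc : Continuous Q) (hQV : ∀ x, Q x ∈ V 𝔇) (hQQ : ∀ x, Q x * Q x = Q x)
    (hQr : ∀ x, 15 * (Fintype.card J : ℝ) ≤ 16 * (Q x).trace.re)
    (R : ℝ) (hR : 4 ≤ R * (κ * (7 / 8))) :
    ∃ z₁ z₂ c : X → M, Continuous z₁ ∧ Continuous z₂ ∧ Continuous c ∧ ∀ x,
      z₁ x ∈ Zset 𝔇 (R + 2) ∧ z₂ x ∈ Zset 𝔇 (R + 2) ∧ c x ∈ Zset 𝔇 17 ∧ Q x * c x * Q x = c x ∧
        (U₁ * z₁ x * U₁ᴴ - z₁ x) + (U₂ * z₂ x * U₂ᴴ - z₂ x) + c x = 1 := by
  classical
  have hκ' : 0 < κ * (7 / 8) := by positivity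
  have hR0 : 0 < R := by
    by_contra h
    push Not at h
    nlinarith
  have hn1 : (1 : ℝ) ≤ Fintype.card J := by exact_mod_cast Fintype.card_pos
  set n : ℝ := (Fintype.card J : ℝ) with hn
  obtain ⟨S₁, S₂, C, hC0, hS₁c, hS₂c, hS₁V, hS₂V, hSb, hSL⟩ :=
    exists_correction 𝔇 U₁ U₂ hU₁ hU₂ hV₁ hV₁' hV₂ hV₂' κ hκ gap
  set δ : ℝ := 1 / (580 * (C + 1)) with hδ
  have hδ0 : 0 < δ := by positivity
  have hδ1 : δ ≤ 1 / 289 := by
    rw [hδ]
    apply one_div_le_one_div_of_le (by norm_num)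
    nlinarith
  have hδC : C * (580 * δ) ≤ 1 := by
    rw [hδ]
    have : C * (580 * (1 / (580 * (C + 1)))) = C / (C + 1) := by
      field_simp
    rw [this, div_le_one (by positivity)]
    linarith
  -- pointwise solutions
  have hpt : ∀ x, ∃ z₁ ∈ Zset 𝔇 R, ∃ z₂ ∈ Zset 𝔇 R, ∃ c ∈ Cset 𝔇 (Q x),
      (U₁ * z₁ * U₁ᴴ - z₁) + (U₂ * z₂ * U₂ᴴ - z₂) + c = 1 := fun x =>
    point_duality 𝔇 U₁ U₂ hU₁ hU₂ hV₁ hV₁' hV₂ hV₂' κ hκ gap T1 (Q x) (hQV x) (hQQ x) (hQr x) R hR
  choose a₁ ha₁ a₂ ha₂ b hb hrel using hpt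
  -- errors
  set Err : X → X → M := fun i x => b i - Q x * b i * Q x with hErr
  have hErrc : ∀ i, Continuous (Err i) := fun i =>
    continuous_const.sub ((hQc.matrix_mul continuous_const).matrix_mul hQc)
  set W : X → Set X := fun i => {x | fro (Err i x) < δ} with hW
  have hWo : ∀ i, IsOpen (W i) := fun i =>
    isOpen_lt (continuous_fro.comp (hErrc i)) continuous_const
  have hWm : ∀ i, i ∈ W i := fun i => by
    change fro (b i - Q i * b i * Q i) < δ
    rw [(hb i).2, sub_self]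
    simpa [fro, ip] using hδ0
  obtain ⟨t, ht⟩ := isCompact_univ.elim_nhds_subcover W (fun i _ => (hWo i).mem_nhds (hWm i))
  have htcov : ∀ x, ∃ i ∈ t, x ∈ W i := fun x => by
    have := ht.2 (Set.mem_univ x)
    simpa using this
  -- explicit partition of unity
  set g : X → X → ℝ := fun i x => max (δ - fro (Err i x)) 0 with hg
  have hgc : ∀ i, Continuous (g i) := fun i =>
    (continuous_const.sub (continuous_fro.comp (hErrc i))).max continuous_const
  have hg0 : ∀ i x, 0 ≤ g i x := fun i x => le_max_right _ _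
  set G : X → ℝ := fun x => ∑ i ∈ t, g i x with hG
  have hGc : Continuous G := continuous_finset_sum _ fun i _ => hgc i
  have hGpos : ∀ x, 0 < G x := fun x => by
    obtain ⟨i, hi, hxi⟩ := htcov x
    have h1 : 0 < g i x := lt_of_lt_of_le (sub_pos.mpr hxi) (le_max_left _ _)
    exact lt_of_lt_of_le h1 (Finset.single_le_sum (f := fun i => g i x) (fun j _ => hg0 j x) hi)
  set φ : X → X → ℝ := fun i x => g i x / G x with hφ
  have hφc : ∀ i, Continuous (φ i) := fun i => (hgc i).div hGc fun x => (hGpos x).ne'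
  have hφ0 : ∀ i x, 0 ≤ φ i x := fun i x => div_nonneg (hg0 i x) (hGpos x).le
  have hφ1 : ∀ x, ∑ i ∈ t, φ i x = 1 := fun x => by
    simp only [hφ]
    rw [← Finset.sum_div]
    exact div_self (hGpos x).ne'
  have hφs : ∀ i x, 0 < φ i x → fro (Err i x) < δ := fun i x h => by
    by_contra hc
    push Not at hc
    have : g i x = 0 := max_eq_right (by linarith)
    simp [hφ, this] at h
  -- convex combinations
  set z₁' : X → M := fun x => ∑ i ∈ t, φ i x • a₁ i with hz₁'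
  set z₂' : X → M := fun x => ∑ i ∈ t, φ i x • a₂ i with hz₂'
  set c' : X → M := fun x => ∑ i ∈ t, φ i x • (Q x * b i * Q x) with hc'
  set E : X → M := fun x => ∑ i ∈ t, φ i x • Err i x with hE
  have hz₁'c : Continuous z₁' := continuous_finset_sum _ fun i _ => (hφc i).smul continuous_const
  have hz₂'c : Continuous z₂' := continuous_finset_sum _ fun i _ => (hφc i).smul continuous_const
  have hc'c : Continuous c' := continuous_finset_sum _ fun i _ =>
    (hφc i).smul ((hQc.matrix_mul continuous_const).matrix_mul hQc)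
  have hEc : Continuous E := continuous_finset_sum _ fun i _ => (hφc i).smul (hErrc i)
  have hz₁'m : ∀ x, z₁' x ∈ Zset 𝔇 R := fun x =>
    (convex_Zset 𝔇 R).sum_mem (fun i _ => hφ0 i x) (hφ1 x) (fun i _ => ha₁ i)
  have hz₂'m : ∀ x, z₂' x ∈ Zset 𝔇 R := fun x =>
    (convex_Zset 𝔇 R).sum_mem (fun i _ => hφ0 i x) (hφ1 x) (fun i _ => ha₂ i)
  have hc'm : ∀ x, c' x ∈ Zset 𝔇 16 := fun x =>
    (convex_Zset 𝔇 16).sum_mem (fun i _ => hφ0 i x) (hφ1 x)
      (fun i _ => corner_mem_Zset (hQV x) (hQQ x) (by norm_num) (hb i).1)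
  have hc'Q : ∀ x, Q x * c' x * Q x = c' x := fun x => by
    simp only [hc', Finset.mul_sum, Finset.sum_mul, Matrix.mul_smul, Matrix.smul_mul]
    refine Finset.sum_congr rfl fun i _ => ?_
    congr 1
    calc Q x * (Q x * b i * Q x) * Q x = (Q x * Q x) * b i * (Q x * Q x) := by
          simp only [Matrix.mul_assoc]
      _ = _ := by rw [hQQ]
  have hEfro : ∀ x, fro (E x) ≤ δ := fun x => by
    refine (fro_sum_le t (fun i => φ i x) (fun i => Err i x) (fun i _ => hφ0 i x) (hφ1 x)).trans ?_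
    calc ∑ i ∈ t, φ i x * fro (Err i x) ≤ ∑ i ∈ t, φ i x * δ := by
          refine Finset.sum_le_sum fun i _ => ?_
          rcases (hφ0 i x).eq_or_lt with h | h
          · rw [← h]; simp
          · exact mul_le_mul_of_nonneg_left (hφs i x h).le h.le
      _ = δ := by rw [← Finset.sum_mul, hφ1, one_mul]
  -- main relation
  have hmain : ∀ x, dFwd U₁ (z₁' x) + dFwd U₂ (z₂' x) + c' x + E x = 1 := fun x => by
    have h1 : c' x + E x = ∑ i ∈ t, φ i x • b i := by
      simp only [hc', hE, hErr, ← Finset.sum_add_distrib, ← smul_add]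
      refine Finset.sum_congr rfl fun i _ => ?_
      congr 1
      abel
    rw [add_assoc, h1]
    simp only [hz₁', hz₂', map_sum, map_smul]
    rw [← Finset.sum_add_distrib, ← Finset.sum_add_distrib]
    simp only [← smul_add]
    have h2 : ∀ i, dFwd U₁ (a₁ i) + dFwd U₂ (a₂ i) + b i = 1 := hrel
    simp only [h2]
    rw [← Finset.sum_smul, hφ1, one_smul]
  have hEV : ∀ x, E x ∈ V 𝔇 := fun x => by
    refine (VS 𝔇).sum_mem fun i _ => (VS 𝔇).smul_mem _ ?_
    exact V_sub (hb i).1.1 (corner_mem_Zset (hQV x) (hQQ x) (by norm_num) (hb i).1).1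
  -- the trace of `c'`
  set T : X → ℝ := fun x => (c' x).trace.re with hT
  have hTc : Continuous T := Complex.continuous_re.comp (Continuous.matrix_trace hc'c)
  have hTeq : ∀ x, T x = n - (E x).trace.re := fun x => by
    have h := congrArg (fun a : M => a.trace.re) (hmain x)
    simp only [trace_add, trace_dFwd _ _ hU₁, trace_dFwd _ _ hU₂, trace_one, Complex.add_re,
      Complex.zero_re, zero_add] at h
    simp only [hT]
    have h3 : ((Fintype.card J : ℕ) : ℂ).re = n := by simp [hn]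
    rw [h3] at h
    linarith
  have htrE : ∀ x, (E x).trace.re ^ 2 ≤ n * δ := fun x => by
    have h1 : (E x).trace.re ^ 2 ≤ ‖(E x).trace‖ ^ 2 := by
      rw [sq_le_sq, abs_of_nonneg (norm_nonneg _)]
      exact Complex.abs_re_le_norm _
    have h2 := sq_trace_le (E x)
    have h3 := hEfro x
    have : n * fro (E x) ≤ n * δ := mul_le_mul_of_nonneg_left h3 (by linarith)
    linarith
  have hTlow : ∀ x, (16 / 17) * n ≤ T x := fun x => by
    rw [hTeq]
    have h1 := htrE x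
    have h2 : (E x).trace.re ≤ n / 17 := by
      have h3 : (E x).trace.re ^ 2 ≤ (n / 17) ^ 2 := by
        refine h1.trans ?_
        have : n * δ ≤ n * (1 / 289) := mul_le_mul_of_nonneg_left hδ1 (by linarith)
        nlinarith
      exact abs_le_of_sq_le_sq' h3 (by positivity) |>.2
    linarith
  have hTpos : ∀ x, 0 < T x := fun x => lt_of_lt_of_le (by positivity) (hTlow x)
  -- scaling
  set τ : X → ℝ := fun x => n / T x with hτ
  have hτc : Continuous τ := continuous_const.div hTc fun x => (hTpos x).ne'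
  have hτ0 : ∀ x, 0 < τ x := fun x => div_pos (by linarith) (hTpos x)
  have hτ1 : ∀ x, τ x ≤ 17 / 16 := fun x => by
    simp only [hτ]
    rw [div_le_iff₀ (hTpos x)]
    have := hTlow x
    linarith
  have hτT : ∀ x, τ x * T x = n := fun x => by
    simp only [hτ]
    exact div_mul_cancel₀ _ (hTpos x).ne'
  set c : X → M := fun x => τ x • c' x with hc
  have hcc : Continuous c := hτc.smul hc'c
  have hcm : ∀ x, c x ∈ Zset 𝔇 17 := fun x => by
    refine ⟨V_smul _ (hc'm x).1, (hc'm x).2.1.smul (hτ0 x).le, ?_⟩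
    have h1 : (17 : ℝ) • (1 : M) - τ x • c' x
        = (17 - 16 * τ x) • (1 : M) + τ x • ((16 : ℝ) • (1 : M) - c' x) := by
      simp only [smul_sub, sub_smul, smul_smul]
      rw [mul_comm (τ x) 16]
      abel
    rw [h1]
    exact (psd_smul_one (by linarith [hτ1 x])).add ((hc'm x).2.2.smul (hτ0 x).le)
  have hcQ : ∀ x, Q x * c x * Q x = c x := fun x => by
    simp only [hc, Matrix.mul_smul, Matrix.smul_mul, hc'Q]
  -- the residual
  set E₂ : X → M := fun x => E x + (1 - τ x) • c' x with hE₂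
  have hE₂c : Continuous E₂ := hEc.add ((continuous_const.sub hτc).smul hc'c)
  have hE₂rel : ∀ x, dFwd U₁ (z₁' x) + dFwd U₂ (z₂' x) + c x + E₂ x = 1 := fun x => by
    have h := hmain x
    simp only [hc, hE₂, sub_smul, one_smul]
    rw [← h]
    abel
  have hE₂V0 : ∀ x, E₂ x ∈ V0S 𝔇 := fun x => by
    refine ⟨V_add (hEV x) (V_smul _ (hc'm x).1), ?_⟩
    simp only [hE₂, trace_add, trace_smul, Complex.add_re, Complex.real_smul, Complex.mul_re,
      Complex.ofReal_re, Complex.ofReal_im, zero_mul, sub_zero]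
    have h1 := hTeq x
    have h2 := hτT x
    simp only [hT] at h1 h2
    nlinarith
  have hE₂fro : ∀ x, fro (E₂ x) ≤ 580 * δ := fun x => by
    have h1 := fro_add_le (E x) ((1 - τ x) • c' x)
    rw [fro_smul] at h1
    have h2 := fro_le_of_mem_Zset (by norm_num) (hc'm x)
    have h3 := hEfro x
    have h4 : (1 - τ x) ^ 2 * n ≤ (17 / 16) ^ 2 * δ := by
      have h5 : 1 - τ x = -(E x).trace.re / T x := by
        simp only [hτ]
        have := hTeq x
        field_simp [(hTpos x).ne']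
        linarith
      rw [h5, div_pow, neg_sq]
      have h6 := htrE x
      have h7 := hTlow x
      have h8 : ((16 / 17) * n) ^ 2 ≤ T x ^ 2 := pow_le_pow_left₀ (by positivity) h7 2
      have hnpos : 0 < n := by linarith
      rw [div_mul_eq_mul_div, div_le_iff₀ (by have := hTpos x; positivity)]
      calc (E x).trace.re ^ 2 * n ≤ (n * δ) * n := mul_le_mul_of_nonneg_right h6 hnpos.le
        _ = (17 / 16) ^ 2 * δ * ((16 / 17) * n) ^ 2 := by ring
        _ ≤ _ := mul_le_mul_of_nonneg_left h8 (by positivity)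
    have h9 : (1 - τ x) ^ 2 * fro (c' x) ≤ (1 - τ x) ^ 2 * (16 * (16 * n)) :=
      mul_le_mul_of_nonneg_left h2 (by positivity)
    have h10 : (1 - τ x) ^ 2 * (16 * (16 * n)) ≤ 256 * ((17 / 16) ^ 2 * δ) := by
      nlinarith
    simp only [hE₂]
    nlinarith
  -- corrections
  set y : X → V0S 𝔇 := fun x => ⟨E₂ x, hE₂V0 x⟩ with hy
  have hyc : Continuous y := hE₂c.subtype_mk _
  set w₁ : X → M := fun x => S₁ (y x) with hw₁
  set w₂ : X → M := fun x => S₂ (y x) with hw₂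
  have hw₁c : Continuous w₁ := hS₁c.comp hyc
  have hw₂c : Continuous w₂ := hS₂c.comp hyc
  have hw₁b : ∀ x, fro (w₁ x) ≤ 1 := fun x => by
    refine (hSb (y x)).1.trans (le_trans ?_ hδC)
    exact mul_le_mul_of_nonneg_left (hE₂fro x) hC0
  have hw₂b : ∀ x, fro (w₂ x) ≤ 1 := fun x => by
    refine (hSb (y x)).2.trans (le_trans ?_ hδC)
    exact mul_le_mul_of_nonneg_left (hE₂fro x) hC0
  have hZ : ∀ (z w : M), z ∈ Zset 𝔇 R → w ∈ V 𝔇 → fro w ≤ 1 → z + w + 1 ∈ Zset 𝔇 (R + 2) := by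
    intro z w hz hw hwb
    obtain ⟨h1, h2⟩ := psd_of_fro_le_one hw.1 hwb
    refine ⟨V_add (V_add hz.1 hw) V_one, ?_, ?_⟩
    · have : z + w + 1 = z + (1 + w) := by abel
      rw [this]
      exact hz.2.1.add h2
    · have : (R + 2) • (1 : M) - (z + w + 1) = (R • (1 : M) - z) + (1 - w) := by
        rw [add_smul]
        have : (2 : ℝ) • (1 : M) = 1 + 1 := two_smul ℝ 1
        rw [this]
        abel
      rw [this]
      exact hz.2.2.add h1
  refine ⟨fun x => z₁' x + w₁ x + 1, fun x => z₂' x + w₂ x + 1, c,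
    (hz₁'c.add hw₁c).add continuous_const, (hz₂'c.add hw₂c).add continuous_const, hcc, fun x =>
    ⟨hZ _ _ (hz₁'m x) (hS₁V _) (hw₁b x), hZ _ _ (hz₂'m x) (hS₂V _) (hw₂b x), hcm x, hcQ x, ?_⟩⟩
  have h1 := hSL (y x)
  have h2 := hE₂rel x
  have hone : ∀ U : M, Uᴴ * U = 1 → dFwd U 1 = 0 := fun U hU => by
    simp [dFwd_apply, mul_eq_one_comm.mp hU]
  have h3 : dFwd U₁ (z₁' x + w₁ x + 1) + dFwd U₂ (z₂' x + w₂ x + 1) + c x = 1 := by
    rw [map_add, map_add, map_add, map_add, hone U₁ hU₁, hone U₂ hU₂, add_zero, add_zero]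
    rw [← h2]
    have h4 : dFwd U₁ (w₁ x) + dFwd U₂ (w₂ x) = E₂ x := h1
    rw [← h4]
    abel
  exact h3

end Crest.Agent.Lib.QTFiberPoint
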