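/-
Module B2 of S0188 (row 137): algebra of the Cayley rotations used to parametrize the Grassmannian.
-/
import Mathlib

set_option autoImplicit false
set_option linter.unusedSimpArgs false
set_option linter.unusedSectionVars false
set_option linter.unusedVariables false

open Matrix

namespace Crest.Agent.Lib.QTGrass

section Cay

variable {ι : Type*} [Fintype ι] [DecidableEq ι]

/-- Squared Euclidean norm of a coordinate vector. -/
noncomputable def usq (a : ι → ℂ) : ℝ := ∑ i, ‖a i‖ ^ 2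

lemma usq_nonneg (a : ι → ℂ) : 0 ≤ usq a := Finset.sum_nonneg fun _ _ => by positivity

lemma star_dot_self (a : ι → ℂ) : star a ⬝ᵥ a = (usq a : ℂ) := by
  simp only [dotProduct, Pi.star_apply, usq]
  push_cast
  refine Finset.sum_congr rfl fun i _ => ?_
  rw [← Complex.ofReal_pow, ← Complex.normSq_eq_norm_sq, Complex.normSq_eq_conj_mul_self]
  simp

lemma one_add_usq_ne (a : ι → ℂ) : (1 + (usq a : ℂ)) ≠ 0 := by
  have := usq_nonneg a
  have h : (1 + usq a : ℝ) ≠ 0 := by positivity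
  exact_mod_cast h

/-- `|u⟩⟨v|` -/
noncomputable def vmv (u v : ι → ℂ) : Matrix ι ι ℂ := vecMulVec u (star v)

lemma vmv_mul (u v w x : ι → ℂ) : vmv u v * vmv w x = (star v ⬝ᵥ w) • vmv u x := by
  ext i k
  simp [vmv, vecMulVec_mul_vecMulVec, vecMulVec_apply]
  ring

lemma vmv_conjTranspose (u v : ι → ℂ) : (vmv u v)ᴴ = vmv v u := by
  simp [vmv, conjTranspose_vecMulVec]

lemma vmv_mulVec (u v w : ι → ℂ) : vmv u v *ᵥ w = (star v ⬝ᵥ w) • u := by
  ext i
  simp [vmv, vecMulVec_mulVec, mul_comm]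

lemma mul_vmv (M : Matrix ι ι ℂ) (u v : ι → ℂ) : M * vmv u v = vmv (M *ᵥ u) v := by
  simp [vmv, mul_vecMulVec]

lemma vmv_mul' (M : Matrix ι ι ℂ) (u v : ι → ℂ) : vmv u v * M = vmv u (Mᴴ *ᵥ v) := by
  simp only [vmv, vecMulVec_mul, star_mulVec, conjTranspose_conjTranspose]

lemma vmv_smul_left (c : ℂ) (u v : ι → ℂ) : vmv (c • u) v = c • vmv u v := by
  ext i k; simp [vmv, vecMulVec_apply, mul_assoc]

lemma vmv_smul_right (c : ℂ) (u v : ι → ℂ) : vmv u (c • v) = star c • vmv u v := by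
  ext i k; simp [vmv, vecMulVec_apply]; ring

/-- The generator `|a⟩⟨e| - |e⟩⟨a|` -/
noncomputable def cayX (e a : ι → ℂ) : Matrix ι ι ℂ := vmv a e - vmv e a

/-- The Cayley-type unitary: `G = 1 + (2/(1+u)) (X + X²)`, `u = |a|²`. -/
noncomputable def cay (e a : ι → ℂ) : Matrix ι ι ℂ :=
  1 + ((2 : ℂ) / (1 + (usq a : ℂ))) • (cayX e a + cayX e a * cayX e a)

lemma star_dot_swap (x y : ι → ℂ) : star x ⬝ᵥ y = star (star y ⬝ᵥ x) := by
  simp only [dotProduct, Pi.star_apply, star_sum, star_mul', star_star, mul_comm]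

lemma star_dot_zero_symm {x y : ι → ℂ} (h : star x ⬝ᵥ y = 0) : star y ⬝ᵥ x = 0 := by
  rw [star_dot_swap, h, star_zero]

section rel
variable {e a : ι → ℂ}

lemma cayX_sq (h1 : star e ⬝ᵥ e = 1) (h2 : star e ⬝ᵥ a = 0) :
    cayX e a * cayX e a = - vmv a a - (usq a : ℂ) • vmv e e := by
  have h2' : star a ⬝ᵥ e = 0 := star_dot_zero_symm h2
  simp only [cayX, sub_mul, mul_sub, vmv_mul, h1, h2, h2', star_dot_self,
    zero_smul, one_smul, sub_zero, zero_sub]
  abel

lemma cayX_cube (h1 : star e ⬝ᵥ e = 1) (h2 : star e ⬝ᵥ a = 0) :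
    cayX e a * (cayX e a * cayX e a) = - (usq a : ℂ) • cayX e a := by
  have h2' : star a ⬝ᵥ e = 0 := star_dot_zero_symm h2
  rw [cayX_sq h1 h2]
  simp only [cayX, sub_mul, mul_sub, mul_neg, mul_smul_comm, vmv_mul, h1, h2, h2',
    star_dot_self, zero_smul, one_smul, smul_zero, neg_zero, sub_zero, zero_sub]
  module

lemma cayX_conjTranspose (e a : ι → ℂ) : (cayX e a)ᴴ = - cayX e a := by
  simp [cayX, conjTranspose_sub, vmv_conjTranspose]

lemma cay_conjTranspose (e a : ι → ℂ) :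
    (cay e a)ᴴ = 1 + ((2 : ℂ) / (1 + (usq a : ℂ))) • (- cayX e a + cayX e a * cayX e a) := by
  have h : star ((2 : ℂ) / (1 + (usq a : ℂ))) = (2 : ℂ) / (1 + (usq a : ℂ)) := by
    simp [star_div₀]
  simp only [cay, conjTranspose_add, conjTranspose_one, conjTranspose_smul, conjTranspose_mul,
    cayX_conjTranspose, h]
  simp

lemma cay_unitary (h1 : star e ⬝ᵥ e = 1) (h2 : star e ⬝ᵥ a = 0) :
    (cay e a)ᴴ * cay e a = 1 := by
  rw [cay_conjTranspose]
  set X := cayX e a with hX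
  have h3 : X * (X * X) = - (usq a : ℂ) • X := cayX_cube h1 h2
  set α : ℂ := (2 : ℂ) / (1 + (usq a : ℂ)) with hα
  have hαu : α * (1 + (usq a : ℂ)) = 2 := by
    rw [hα]; field_simp [one_add_usq_ne a]
  have h4 : (X * X) * (X * X) = - (usq a : ℂ) • (X * X) := by
    calc (X * X) * (X * X) = (X * (X * X)) * X := by noncomm_ring
      _ = _ := by rw [h3, smul_mul_assoc]
  simp only [cay, ← hX, ← hα]
  have h3' : (X * X) * X = - (usq a : ℂ) • X := by rw [mul_assoc, h3]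
  set X2 := X * X with hX2
  have : ((1 : Matrix ι ι ℂ) + α • (-X + X2)) * (1 + α • (X + X2))
      = 1 + (2 * α - α * (α * (1 + (usq a : ℂ)))) • X2 := by
    simp only [add_mul, mul_add, one_mul, mul_one, smul_mul_assoc, mul_smul_comm, smul_add, neg_mul,
      mul_neg, h3, h3', h4, ← hX2, smul_neg, neg_smul, smul_smul]
    module
  rw [this, hαu]
  have : 2 * α - α * 2 = 0 := by ring
  rw [this]; simp

lemma cay_unitary' (h1 : star e ⬝ᵥ e = 1) (h2 : star e ⬝ᵥ a = 0) :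
    cay e a * (cay e a)ᴴ = 1 :=
  mul_eq_one_comm.mp (cay_unitary h1 h2)

lemma cayX_mulVec_e (h1 : star e ⬝ᵥ e = 1) (h2 : star e ⬝ᵥ a = 0) : cayX e a *ᵥ e = a := by
  have h2' : star a ⬝ᵥ e = 0 := star_dot_zero_symm h2
  simp [cayX, sub_mulVec, vmv_mulVec, h1, h2']

lemma cayX_mulVec_a (h1 : star e ⬝ᵥ e = 1) (h2 : star e ⬝ᵥ a = 0) :
    cayX e a *ᵥ a = - (usq a : ℂ) • e := by
  simp [cayX, sub_mulVec, vmv_mulVec, h2, star_dot_self]

lemma cay_mulVec_e (h1 : star e ⬝ᵥ e = 1) (h2 : star e ⬝ᵥ a = 0) :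
    cay e a *ᵥ e = (1 / (1 + (usq a : ℂ))) • ((1 - (usq a : ℂ)) • e + (2 : ℂ) • a) := by
  have hu := one_add_usq_ne a
  simp only [cay, add_mulVec, one_mulVec, smul_mulVec, ← mulVec_mulVec, cayX_mulVec_e h1 h2,
    cayX_mulVec_a h1 h2]
  rw [← sub_eq_zero]
  have : e + (2 / (1 + (usq a : ℂ))) • (a + -(usq a : ℂ) • e) -
      (1 / (1 + (usq a : ℂ))) • ((1 - (usq a : ℂ)) • e + (2 : ℂ) • a) =
      ((1 / (1 + (usq a : ℂ))) * (1 + (usq a : ℂ)) - 1) • e := by
    simp only [smul_add, smul_smul, div_mul_eq_mul_div]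
    rw [← sub_eq_zero]
    ext i
    simp only [Pi.sub_apply, Pi.add_apply, Pi.smul_apply, smul_eq_mul, Pi.zero_apply, Pi.neg_apply]
    field_simp
    ring
  rw [this]
  rw [one_div, inv_mul_cancel₀ hu]
  simp

lemma cay_mulVec_fix {v : ι → ℂ} (h1 : star e ⬝ᵥ v = 0) (h2 : star a ⬝ᵥ v = 0) :
    cay e a *ᵥ v = v := by
  have : cayX e a *ᵥ v = 0 := by
    simp [cayX, sub_mulVec, vmv_mulVec, h1, h2]
  simp [cay, add_mulVec, smul_mulVec, ← mulVec_mulVec, this]

lemma cay_zero (e : ι → ℂ) : cay e (0 : ι → ℂ) = 1 := by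
  have : usq (0 : ι → ℂ) = 0 := by simp [usq]
  ext i k
  simp [cay, cayX, vmv, this, vmv]

/-- The diagonal phase matrix `Y = 1 + (c-1)|e⟩⟨e| + (c̄-1)|b⟩⟨b|`. -/
noncomputable def phaseY (e b : ι → ℂ) (c : ℂ) : Matrix ι ι ℂ :=
  1 + (c - 1) • vmv e e + (star c - 1) • vmv b b

variable {b : ι → ℂ} {c : ℂ}

lemma usq_smul_of_unit (hc : star c * c = 1) (b : ι → ℂ) : usq (c • b) = usq b := by
  have h1 : ((usq (c • b) : ℝ) : ℂ) = (usq b : ℂ) := by
    rw [← star_dot_self, ← star_dot_self]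
    simp only [star_smul, smul_dotProduct, dotProduct_smul, smul_eq_mul]
    rw [← mul_assoc, mul_comm c, hc, one_mul]
  exact_mod_cast h1

/-- Key face identity: a unit phase of `b` can be moved out. -/
lemma cay_phase (h1 : star e ⬝ᵥ e = 1) (h2 : star e ⬝ᵥ b = 0) (hb : usq b = 1)
    (hc : star c * c = 1) :
    cay e (c • b) = cay e b * phaseY e b c := by
  have h2' : star b ⬝ᵥ e = 0 := star_dot_zero_symm h2
  have hb' : star b ⬝ᵥ b = 1 := by rw [star_dot_self, hb]; simp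
  have hcb : star e ⬝ᵥ (c • b) = 0 := by simp [dotProduct_smul, h2]
  have hu : usq (c • b) = 1 := by rw [usq_smul_of_unit hc, hb]
  have hc' : c * star c = 1 := by rw [mul_comm]; exact hc
  have e1 : cay e (c • b) = 1 + (cayX e (c • b) + cayX e (c • b) * cayX e (c • b)) := by
    simp [cay, hu]; norm_num
  have e2 : cay e b = 1 + (cayX e b + cayX e b * cayX e b) := by
    simp [cay, hb]; norm_num
  rw [e1, e2, cayX_sq h1 hcb, cayX_sq h1 h2, hu, hb]
  simp only [cayX, phaseY, vmv_smul_left, vmv_smul_right, Complex.ofReal_one, one_smul, smul_smul,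
    hc, hc', add_mul, mul_add, sub_mul, mul_sub, one_mul, mul_one, mul_smul_comm, smul_mul_assoc,
    vmv_mul, neg_mul, h1, h2, h2', hb', zero_smul, smul_zero, sub_zero, zero_sub, add_zero, zero_add,
    sub_self, neg_zero]
  module

lemma phaseY_conjTranspose (e b : ι → ℂ) (c : ℂ) : (phaseY e b c)ᴴ = phaseY e b (star c) := by
  simp [phaseY, conjTranspose_add, conjTranspose_smul, vmv_conjTranspose]

lemma phaseY_unitary (h1 : star e ⬝ᵥ e = 1) (h2 : star e ⬝ᵥ b = 0) (hb : usq b = 1)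
    (hc : star c * c = 1) : (phaseY e b c)ᴴ * phaseY e b c = 1 := by
  have h2' : star b ⬝ᵥ e = 0 := star_dot_zero_symm h2
  have hb' : star b ⬝ᵥ b = 1 := by rw [star_dot_self, hb]; simp
  have hc' : c * star c = 1 := by rw [mul_comm]; exact hc
  rw [phaseY_conjTranspose]
  simp only [phaseY, star_star, add_mul, mul_add, sub_mul, mul_sub, one_mul, mul_one, mul_smul_comm,
    smul_mul_assoc, vmv_mul, h1, h2, h2', hb', zero_smul, smul_zero, sub_zero, zero_sub, add_zero,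
    zero_add, one_smul, smul_smul]
  have e1 : (1 : Matrix ι ι ℂ) + (star c - 1) • vmv e e + (c - 1) • vmv b b
      + (c - 1) • (vmv e e + (star c - 1) • vmv e e) + (star c - 1) • (vmv b b + (c - 1) • vmv b b)
      = 1 + (c * star c - 1) • vmv e e + (star c * c - 1) • vmv b b := by module
  rw [e1, hc, hc']
  simp

lemma phaseY_unitary' (h1 : star e ⬝ᵥ e = 1) (h2 : star e ⬝ᵥ b = 0) (hb : usq b = 1)
    (hc : star c * c = 1) : phaseY e b c * (phaseY e b c)ᴴ = 1 :=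
  mul_eq_one_comm.mp (phaseY_unitary h1 h2 hb hc)

lemma phaseY_mulVec_e (h1 : star e ⬝ᵥ e = 1) (h2 : star e ⬝ᵥ b = 0) :
    phaseY e b c *ᵥ e = c • e := by
  have h2' : star b ⬝ᵥ e = 0 := star_dot_zero_symm h2
  simp only [phaseY, add_mulVec, one_mulVec, smul_mulVec, vmv_mulVec, h1, h2', one_smul, zero_smul,
    smul_zero, add_zero]
  module

lemma phaseY_mulVec_fix {v : ι → ℂ} (h1 : star e ⬝ᵥ v = 0) (h2 : star b ⬝ᵥ v = 0) :
    phaseY e b c *ᵥ v = v := by
  simp [phaseY, add_mulVec, smul_mulVec, vmv_mulVec, h1, h2]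

/-- Conjugation of a Cayley rotation by a unitary fixing `e'`. -/
lemma unitary_mul_cay {Y : Matrix ι ι ℂ} {e' a' : ι → ℂ} (hY : Yᴴ * Y = 1) (hY' : Y * Yᴴ = 1)
    (hYe : Y *ᵥ e' = e') :
    cay e' (Y *ᵥ a') * Y = Y * cay e' a' := by
  have hYe' : Yᴴ *ᵥ e' = e' := by
    calc Yᴴ *ᵥ e' = Yᴴ *ᵥ (Y *ᵥ e') := by rw [hYe]
      _ = e' := by rw [mulVec_mulVec, hY, one_mulVec]
  have hu : usq (Y *ᵥ a') = usq a' := by
    have h1 : ((usq (Y *ᵥ a') : ℝ) : ℂ) = (usq a' : ℂ) := by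
      rw [← star_dot_self, ← star_dot_self, star_mulVec, ← dotProduct_mulVec, mulVec_mulVec, hY,
        one_mulVec]
    exact_mod_cast h1
  have hX : cayX e' (Y *ᵥ a') * Y = Y * cayX e' a' := by
    simp only [cayX, sub_mul, mul_sub, vmv_mul', mul_vmv, hYe, hYe', hY, mulVec_mulVec, one_mulVec]
  have hX2 : (cayX e' (Y *ᵥ a') * cayX e' (Y *ᵥ a')) * Y = Y * (cayX e' a' * cayX e' a') := by
    rw [mul_assoc, hX, ← mul_assoc, hX, mul_assoc]
  simp only [cay, hu, add_mul, mul_add, one_mul, mul_one, smul_mul_assoc, mul_smul_comm, hX, hX2]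

end rel

end Cay

end Crest.Agent.Lib.QTGrass
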