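/-
Module B2 of S0188 (row 137): the tower of Cayley rotations, frames, and the projection.
-/
import Crest.Agent.Lib.QTGrassCayley

set_option autoImplicit false
set_option linter.unusedSimpArgs false
set_option linter.unusedSectionVars false
set_option linter.unusedVariables false

open Matrix

namespace Crest.Agent.Lib.QTGrass

variable {R L : ℕ}

/-- The index type `ℂ^R ⊕ ℂ^L`. -/
abbrev Idx (R L : ℕ) := Fin R ⊕ Fin L

/-- `e_j`, `j : Fin R`. -/
noncomputable def eR (j : Fin R) : Idx R L → ℂ := Pi.single (Sum.inl j) 1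

/-- Embedding `ℂ^L ⊂ ℂ^R ⊕ ℂ^L`. -/
noncomputable def emb (a : Fin L → ℂ) : Idx R L → ℂ := Sum.elim 0 a

lemma eR_norm (j : Fin R) : star (eR (L := L) j) ⬝ᵥ eR j = 1 := by
  simp [eR, dotProduct, Pi.single_apply]

lemma eR_orth {i j : Fin R} (h : i ≠ j) : star (eR (L := L) i) ⬝ᵥ eR j = 0 := by
  rw [eR, eR, dotProduct, Finset.sum_eq_zero]
  intro x _
  by_cases hx : x = Sum.inl i
  · subst hx
    simp [Pi.single_apply, h.symm]
  · simp [Pi.single_apply, hx]

lemma eR_emb (j : Fin R) (a : Fin L → ℂ) : star (eR j) ⬝ᵥ emb a = 0 := by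
  simp [eR, emb, dotProduct, Pi.single_apply, Fintype.sum_sum_type]

lemma emb_eR (j : Fin R) (a : Fin L → ℂ) : star (emb a) ⬝ᵥ eR j = 0 :=
  star_dot_zero_symm (eR_emb j a)

lemma usq_emb (a : Fin L → ℂ) : usq (emb (R := R) a) = usq a := by
  simp [usq, emb, Fintype.sum_sum_type]

lemma emb_smul (c : ℂ) (a : Fin L → ℂ) : emb (R := R) (c • a) = c • emb a := by
  ext i; cases i <;> simp [emb]

lemma emb_dot (a b : Fin L → ℂ) : star (emb (R := R) a) ⬝ᵥ emb b = star a ⬝ᵥ b := by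
  simp [emb, dotProduct, Fintype.sum_sum_type]

@[simp] lemma emb_inr (a : Fin L → ℂ) (m : Fin L) : emb (R := R) a (Sum.inr m) = a m := rfl
@[simp] lemma emb_inl (a : Fin L → ℂ) (j : Fin R) : emb (R := R) a (Sum.inl j) = 0 := rfl
@[simp] lemma eR_inr (j : Fin R) (m : Fin L) : eR (L := L) j (Sum.inr m) = 0 := by simp [eR]

/-- The rotation at level `j`. -/
noncomputable def gG (j : Fin R) (a : Fin L → ℂ) : Matrix (Idx R L) (Idx R L) ℂ :=
  cay (eR j) (emb a)

lemma gG_unitary (j : Fin R) (a : Fin L → ℂ) : (gG j a)ᴴ * gG j a = 1 :=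
  cay_unitary (eR_norm j) (eR_emb j a)

lemma gG_unitary' (j : Fin R) (a : Fin L → ℂ) : gG j a * (gG j a)ᴴ = 1 :=
  cay_unitary' (eR_norm j) (eR_emb j a)

lemma gG_zero (j : Fin R) : gG (L := L) j 0 = 1 := by
  have : emb (R := R) (0 : Fin L → ℂ) = 0 := by ext i; cases i <;> simp [emb]
  rw [gG, this, cay_zero]

lemma gG_fix {i j : Fin R} (h : i ≠ j) (a : Fin L → ℂ) : gG i a *ᵥ eR j = eR j :=
  cay_mulVec_fix (eR_orth h) (emb_eR j a)

lemma gG_mulVec_self_inr (j : Fin R) (a : Fin L → ℂ) (m : Fin L) :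
    (gG j a *ᵥ eR j) (Sum.inr m) = (2 / (1 + (usq a : ℂ))) * a m := by
  rw [gG, cay_mulVec_e (eR_norm j) (eR_emb j a), usq_emb]
  simp
  ring

/-- Ordered products of rotations along a list of levels. -/
noncomputable def wL (a : Fin R → Fin L → ℂ) (l : List (Fin R)) : Matrix (Idx R L) (Idx R L) ℂ :=
  (l.map fun i => gG i (a i)).prod

@[simp] lemma wL_nil (a : Fin R → Fin L → ℂ) : wL a [] = 1 := rfl

@[simp] lemma wL_cons (a : Fin R → Fin L → ℂ) (i : Fin R) (l : List (Fin R)) :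
    wL a (i :: l) = gG i (a i) * wL a l := by simp [wL]

lemma wL_append (a : Fin R → Fin L → ℂ) (l₁ l₂ : List (Fin R)) :
    wL a (l₁ ++ l₂) = wL a l₁ * wL a l₂ := by simp [wL]

lemma wL_congr {a b : Fin R → Fin L → ℂ} {l : List (Fin R)} (h : ∀ i ∈ l, a i = b i) :
    wL a l = wL b l := by
  induction l with
  | nil => rfl
  | cons i l ih =>
    rw [wL_cons, wL_cons, h i (by simp), ih fun k hk => h k (by simp [hk])]

lemma wL_unitary (a : Fin R → Fin L → ℂ) (l : List (Fin R)) : (wL a l)ᴴ * wL a l = 1 := by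
  induction l with
  | nil => simp
  | cons i l ih =>
    rw [wL_cons, conjTranspose_mul, Matrix.mul_assoc, ← Matrix.mul_assoc _ (gG i (a i)),
      gG_unitary, Matrix.one_mul, ih]

lemma wL_fix (a : Fin R → Fin L → ℂ) {l : List (Fin R)} {j : Fin R} (h : j ∉ l) :
    wL a l *ᵥ eR j = eR j := by
  induction l with
  | nil => simp
  | cons i l ih =>
    have h1 : j ≠ i := fun e => h (by simp [e])
    have h2 : j ∉ l := fun e => h (by simp [e])
    rw [wL_cons, ← mulVec_mulVec, ih h2, gG_fix h1.symm]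

lemma wL_eq_one {a : Fin R → Fin L → ℂ} {l : List (Fin R)} (h : ∀ i ∈ l, a i = 0) :
    wL a l = 1 := by
  induction l with
  | nil => rfl
  | cons i l ih =>
    rw [wL_cons, h i (by simp), gG_zero, Matrix.one_mul, ih fun k hk => h k (by simp [hk])]

/-- The whole tower. -/
noncomputable def W (a : Fin R → Fin L → ℂ) : Matrix (Idx R L) (Idx R L) ℂ :=
  wL a (List.finRange R)

lemma W_unitary (a : Fin R → Fin L → ℂ) : (W a)ᴴ * W a = 1 := wL_unitary _ _

lemma W_unitary' (a : Fin R → Fin L → ℂ) : W a * (W a)ᴴ = 1 := mul_eq_one_comm.mp (W_unitary a)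

/-- Levels before `j`. -/
def pre (j : Fin R) : List (Fin R) := (List.finRange R).filter (· < j)

/-- Levels after `j`. -/
def post (j : Fin R) : List (Fin R) := (List.finRange R).filter (j < ·)

lemma finRange_split (j : Fin R) : List.finRange R = pre j ++ j :: post j := by
  obtain ⟨l₁, l₂, h⟩ := List.append_of_mem (List.mem_finRange j)
  have hp := List.pairwise_lt_finRange R
  rw [h, List.pairwise_append, List.pairwise_cons] at hp
  obtain ⟨_, ⟨h3, _⟩, h4⟩ := hp
  have h5 : ∀ i ∈ l₁, i < j := fun i hi => h4 i hi j (by simp)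
  have e1 : pre j = l₁ := by
    rw [pre, h, List.filter_append, List.filter_eq_self.2 (by simpa using h5), List.filter_cons_of_neg (by simp)]
    rw [List.filter_eq_nil_iff.2]
    · simp
    · intro i hi
      have := h3 i hi
      simp [this.le]
  have e2 : post j = l₂ := by
    rw [post, h, List.filter_append, List.filter_eq_nil_iff.2, List.filter_cons_of_neg (by simp),
      List.filter_eq_self.2 (by simpa using h3)]
    · simp
    · intro i hi
      have := h5 i hi
      simp [this.le]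
  rw [e1, e2]; exact h

lemma mem_pre {i j : Fin R} : i ∈ pre j ↔ i < j := by simp [pre]

lemma mem_post {i j : Fin R} : i ∈ post j ↔ j < i := by simp [post]

/-- The frame vectors. -/
noncomputable def frame (a : Fin R → Fin L → ℂ) (j : Fin R) : Idx R L → ℂ := W a *ᵥ eR j

lemma frame_eq (a : Fin R → Fin L → ℂ) (j : Fin R) :
    frame a j = wL a (pre j) *ᵥ (gG j (a j) *ᵥ eR j) := by
  have h : j ∉ post j := by simp [mem_post]
  rw [frame, W, finRange_split j, wL_append, wL_cons, ← mulVec_mulVec, ← mulVec_mulVec, wL_fix a h]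

lemma frame_dot (a : Fin R → Fin L → ℂ) (i j : Fin R) :
    star (frame a i) ⬝ᵥ frame a j = if i = j then 1 else 0 := by
  rw [frame, frame, star_mulVec, ← dotProduct_mulVec, mulVec_mulVec, W_unitary, one_mulVec]
  split_ifs with h
  · subst h; exact eR_norm i
  · exact eR_orth h

/-- The projection `Σ_j |v_j⟩⟨v_j|`. -/
noncomputable def Pm (a : Fin R → Fin L → ℂ) : Matrix (Idx R L) (Idx R L) ℂ :=
  ∑ j, vmv (frame a j) (frame a j)

lemma Pm_conjTranspose (a : Fin R → Fin L → ℂ) : (Pm a)ᴴ = Pm a := by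
  simp [Pm, conjTranspose_sum, vmv_conjTranspose]

lemma Pm_mul_self (a : Fin R → Fin L → ℂ) : Pm a * Pm a = Pm a := by
  simp only [Pm, Finset.sum_mul, Finset.mul_sum, vmv_mul, frame_dot]
  refine Finset.sum_congr rfl fun i _ => ?_
  rw [Finset.sum_eq_single i]
  · simp
  · intro k _ hk; simp [hk, hk.symm]
  · simp

lemma Pm_trace (a : Fin R → Fin L → ℂ) : (Pm a).trace = (R : ℂ) := by
  have : ∀ j, (vmv (frame a j) (frame a j)).trace = 1 := by
    intro j
    rw [vmv, trace_vecMulVec]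
    have := frame_dot a j j
    simp only [if_true] at this
    rw [dotProduct_comm]; exact this
  simp [Pm, trace_sum, this]

lemma Pm_mulVec (a : Fin R → Fin L → ℂ) (v : Idx R L → ℂ) :
    Pm a *ᵥ v = ∑ j, (star (frame a j) ⬝ᵥ v) • frame a j := by
  simp [Pm, sum_mulVec, vmv_mulVec]

/-! ### The vector `w ζ` -/

section wvec
variable {N : ℕ}

/-- `e₀` in `ℂ^{N+1}`. -/
noncomputable def e0 : Fin (N + 1) → ℂ := Pi.single 0 1

/-- `ℂ^N ⊂ ℂ^{N+1}`. -/
noncomputable def em0 (ζ : Fin N → ℂ) : Fin (N + 1) → ℂ := Fin.cons 0 ζ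

lemma e0_norm : star (e0 (N := N)) ⬝ᵥ e0 = 1 := by
  simp [e0, dotProduct, Pi.single_apply]

lemma e0_em0 (ζ : Fin N → ℂ) : star e0 ⬝ᵥ em0 ζ = 0 := by
  simp [e0, em0, dotProduct, Fin.sum_univ_succ, Pi.single_apply]

lemma usq_em0 (ζ : Fin N → ℂ) : usq (em0 ζ) = usq ζ := by
  simp [usq, em0, Fin.sum_univ_succ]

lemma em0_smul (c : ℂ) (ζ : Fin N → ℂ) : em0 (c • ζ) = c • em0 ζ := by
  ext k
  refine Fin.cases ?_ (fun k => ?_) k <;> simp [em0]

/-- The unitary `g ζ` with `g ζ e₀ = w ζ`. -/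
noncomputable def gg (ζ : Fin N → ℂ) : Matrix (Fin (N + 1)) (Fin (N + 1)) ℂ := cay e0 (em0 ζ)

lemma gg_unitary (ζ : Fin N → ℂ) : (gg ζ)ᴴ * gg ζ = 1 := cay_unitary e0_norm (e0_em0 ζ)

lemma gg_unitary' (ζ : Fin N → ℂ) : gg ζ * (gg ζ)ᴴ = 1 := cay_unitary' e0_norm (e0_em0 ζ)

/-- The unit vector `w ζ`. -/
noncomputable def wv (ζ : Fin N → ℂ) : Fin (N + 1) → ℂ := gg ζ *ᵥ e0

lemma wv_eq (ζ : Fin N → ℂ) :
    wv ζ = (1 / (1 + (usq ζ : ℂ))) • ((1 - (usq ζ : ℂ)) • e0 + (2 : ℂ) • em0 ζ) := by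
  rw [wv, gg, cay_mulVec_e e0_norm (e0_em0 ζ), usq_em0]

lemma wv_zero (ζ : Fin N → ℂ) : wv ζ 0 = (((1 - usq ζ) / (1 + usq ζ) : ℝ) : ℂ) := by
  rw [wv_eq]
  simp [e0, em0]
  ring

lemma wv_succ (ζ : Fin N → ℂ) (k : Fin N) : wv ζ k.succ = (2 / (1 + (usq ζ : ℂ))) * ζ k := by
  rw [wv_eq]
  simp [e0, em0]
  ring

lemma wv_dot (ζ : Fin N → ℂ) : star (wv ζ) ⬝ᵥ wv ζ = 1 := by
  rw [wv, star_mulVec, ← dotProduct_mulVec, mulVec_mulVec, gg_unitary, one_mulVec, e0_norm]

lemma wv_ne_zero (ζ : Fin N → ℂ) : wv ζ ≠ 0 := by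
  intro h
  have := wv_dot ζ
  rw [h] at this
  simp at this

/-- At the boundary `w` is just `em0 ζ`. -/
lemma wv_unit {ζ : Fin N → ℂ} (h : usq ζ = 1) : wv ζ = em0 ζ := by
  rw [wv_eq, h]
  ext k
  simp
  ring

end wvec

/-! ### The parametrization of unit vectors up to a phase -/

section sigma
variable {M : ℕ}

/-- The map `ℂ^M → sphere in ℂ^{M+1}`. -/
noncomputable def sigma (b : Fin M → ℂ) : Fin (M + 1) → ℂ :=
  Fin.cons (((1 - usq b) / (1 + usq b) : ℝ) : ℂ) ((2 / (1 + (usq b : ℂ))) • b)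

lemma usq_succ (a : Fin (M + 1) → ℂ) :
    usq a = ‖a 0‖ ^ 2 + usq (fun k : Fin M => a k.succ) := by
  simp [usq, Fin.sum_univ_succ]

lemma usq_smul (c : ℂ) (a : Fin M → ℂ) : usq (c • a) = ‖c‖ ^ 2 * usq a := by
  simp [usq, Finset.mul_sum, mul_pow]

lemma usq_sigma (b : Fin M → ℂ) : usq (sigma b) = 1 := by
  have hu := usq_nonneg b
  have hne : (1 + usq b) ≠ 0 := by positivity
  rw [usq_succ]
  have h1 : (fun k : Fin M => sigma b k.succ) = (2 / (1 + (usq b : ℂ))) • b := by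
    ext k; simp [sigma]
  rw [h1, usq_smul]
  have h2 : sigma b 0 = (((1 - usq b) / (1 + usq b) : ℝ) : ℂ) := by simp [sigma]
  rw [h2, Complex.norm_real, Real.norm_eq_abs, sq_abs]
  have h3 : ‖(2 / (1 + (usq b : ℂ)))‖ = 2 / (1 + usq b) := by
    have : (2 / (1 + (usq b : ℂ))) = ((2 / (1 + usq b) : ℝ) : ℂ) := by push_cast; rfl
    rw [this, Complex.norm_real, Real.norm_eq_abs, abs_of_nonneg]
    positivity
  rw [h3]
  field_simp
  ring

/-- Every unit vector of `ℂ^{M+1}` with real nonnegative first coordinate is in the image of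
`sigma`. -/
lemma exists_sigma {a : Fin (M + 1) → ℂ} (ha : usq a = 1) {r : ℝ} (hr : 0 ≤ r) (h0 : a 0 = r) :
    ∃ b, a = sigma b := by
  set t : Fin M → ℂ := fun k => a k.succ with ht
  have h1 : r ^ 2 + usq t = 1 := by
    rw [usq_succ, h0, Complex.norm_real, Real.norm_eq_abs, sq_abs] at ha
    exact ha
  have hr1 : (1 + r) ≠ 0 := by positivity
  refine ⟨((1 / (1 + r) : ℝ) : ℂ) • t, ?_⟩
  have hub : usq (((1 / (1 + r) : ℝ) : ℂ) • t) = (1 - r) / (1 + r) := by
    rw [usq_smul, Complex.norm_real, Real.norm_eq_abs, sq_abs]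
    have : usq t = 1 - r ^ 2 := by linarith
    rw [this]
    field_simp
    ring
  have hr2 : (1 + (1 - r) / (1 + r)) = 2 / (1 + r) := by field_simp; ring
  ext k
  refine Fin.cases ?_ (fun k => ?_) k
  · simp only [sigma, Fin.cons_zero, hub, h0]
    congr 1
    rw [hr2]
    field_simp
    ring
  · simp only [sigma, Fin.cons_succ, Pi.smul_apply, smul_eq_mul, hub]
    have hc : ((1 : ℂ) + (((1 - r) / (1 + r) : ℝ) : ℂ)) = ((2 / (1 + r) : ℝ) : ℂ) := by
      rw [← hr2]; push_cast; rfl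
    rw [hc]
    have hr3 : (1 + (r : ℂ)) ≠ 0 := by exact_mod_cast hr1
    push_cast
    simp only [ht]
    field_simp

/-- Every unit vector (in any `ℂ^{M}`) is a phase times one with real nonnegative first
coordinate. -/
lemma exists_phase {M : ℕ} (a : Fin M → ℂ) :
    ∃ c : ℂ, star c * c = 1 ∧ ∃ a' : Fin M → ℂ, a = c • a' ∧
      ∀ k : Fin M, k.val = 0 → ∃ r : ℝ, 0 ≤ r ∧ a' k = r := by
  cases M with
  | zero => exact ⟨1, by simp, a, by simp, fun k => k.elim0⟩
  | succ M =>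
    by_cases h : a 0 = 0
    · refine ⟨1, by simp, a, by simp, fun k hk => ⟨0, le_rfl, ?_⟩⟩
      have : k = 0 := Fin.ext hk
      rw [this, h]; simp
    · have hn : (‖a 0‖ : ℂ) ≠ 0 := by simpa using h
      set c : ℂ := a 0 / ‖a 0‖ with hc
      have hcc : star c * c = 1 := by
        have : star c * c = ((Complex.normSq (a 0) / ‖a 0‖ ^ 2 : ℝ) : ℂ) := by
          rw [hc, star_div₀]
          simp only [Complex.star_def, Complex.conj_ofReal]
          rw [div_mul_div_comm, ← Complex.normSq_eq_conj_mul_self]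
          push_cast
          rw [sq]
        rw [this, Complex.normSq_eq_norm_sq, div_self]
        · simp
        · have : ‖a 0‖ ≠ 0 := by simpa using h
          positivity
      refine ⟨c, hcc, star c • a, ?_, fun k hk => ⟨‖a 0‖, norm_nonneg _, ?_⟩⟩
      · rw [smul_smul, mul_comm, hcc, one_smul]
      · have : k = 0 := Fin.ext hk
        rw [this, Pi.smul_apply, smul_eq_mul, hc, star_div₀]
        simp only [Complex.star_def, Complex.conj_ofReal]
        rw [div_mul_eq_mul_div, ← Complex.normSq_eq_conj_mul_self, Complex.normSq_eq_norm_sq]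
        push_cast
        field_simp

end sigma

end Crest.Agent.Lib.QTGrass
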