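/-
Module B2 of S0188 (row 137): collapse of boundary faces, the kernel parametrization.
-/
import Crest.Agent.Lib.QTGrassTower

set_option autoImplicit false
set_option linter.unusedSimpArgs false
set_option linter.unusedSectionVars false
set_option linter.unusedVariables false

open Matrix

namespace Crest.Agent.Lib.QTGrass

variable {R L N : ℕ}

/-- The phase map on `ℂ^L` induced by `phaseY`. -/
noncomputable def phaseL (b c : ℂ) (b0 : Fin L → ℂ) (z : Fin L → ℂ) : Fin L → ℂ :=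
  z + ((star c - 1) * (star b0 ⬝ᵥ z)) • b0

/-- The matrix `Y` for the level `j`. -/
noncomputable def YY (j : Fin R) (b0 : Fin L → ℂ) (c : ℂ) : Matrix (Idx R L) (Idx R L) ℂ :=
  phaseY (eR j) (emb b0) c

lemma YY_emb (j : Fin R) (b0 : Fin L → ℂ) (c : ℂ) (z : Fin L → ℂ) :
    YY j b0 c *ᵥ emb z = emb (phaseL 0 c b0 z) := by
  have : emb (R := R) (phaseL 0 c b0 z) = emb z + ((star c - 1) * (star b0 ⬝ᵥ z)) • emb b0 := by
    rw [phaseL, ← emb_smul]
    ext i; cases i <;> simp [emb]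
  rw [this, YY, phaseY]
  simp only [add_mulVec, one_mulVec, smul_mulVec, vmv_mulVec, eR_emb, emb_dot, zero_smul,
    smul_zero, add_zero, smul_smul]

lemma YY_unitary (j : Fin R) {b0 : Fin L → ℂ} {c : ℂ} (hb : usq b0 = 1) (hc : star c * c = 1) :
    (YY j b0 c)ᴴ * YY j b0 c = 1 :=
  phaseY_unitary (eR_norm j) (eR_emb j b0) (by rw [usq_emb, hb]) hc

lemma YY_unitary' (j : Fin R) {b0 : Fin L → ℂ} {c : ℂ} (hb : usq b0 = 1) (hc : star c * c = 1) :
    YY j b0 c * (YY j b0 c)ᴴ = 1 :=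
  phaseY_unitary' (eR_norm j) (eR_emb j b0) (by rw [usq_emb, hb]) hc

lemma YY_fix {i j : Fin R} (h : i ≠ j) (b0 : Fin L → ℂ) (c : ℂ) :
    YY j b0 c *ᵥ eR i = eR i :=
  phaseY_mulVec_fix (eR_orth h.symm) (emb_eR i b0)

lemma YY_self (j : Fin R) (b0 : Fin L → ℂ) (c : ℂ) :
    YY j b0 c *ᵥ eR j = c • eR j :=
  phaseY_mulVec_e (eR_norm j) (eR_emb j b0)

lemma YY_mul_gG {i j : Fin R} (h : i ≠ j) {b0 : Fin L → ℂ} {c : ℂ} (hb : usq b0 = 1)
    (hc : star c * c = 1) (a : Fin L → ℂ) :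
    YY j b0 c * gG i a = gG i (phaseL 0 c b0 a) * YY j b0 c := by
  have := unitary_mul_cay (e' := eR i) (a' := emb a) (YY_unitary j hb hc) (YY_unitary' j hb hc)
    (YY_fix h b0 c)
  rw [YY_emb] at this
  exact this.symm

lemma YY_mul_wL {j : Fin R} {b0 : Fin L → ℂ} {c : ℂ} (hb : usq b0 = 1)
    (hc : star c * c = 1) (a : Fin R → Fin L → ℂ) {l : List (Fin R)} (hl : j ∉ l) :
    YY j b0 c * wL a l = wL (fun i => phaseL 0 c b0 (a i)) l * YY j b0 c := by
  induction l with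
  | nil => simp
  | cons i l ih =>
    have h1 : i ≠ j := fun e => hl (by simp [e])
    have h2 : j ∉ l := fun e => hl (by simp [e])
    rw [wL_cons, wL_cons, ← Matrix.mul_assoc, YY_mul_gG h1 hb hc, Matrix.mul_assoc, ih h2,
      Matrix.mul_assoc]

lemma gG_smul (j : Fin R) {b0 : Fin L → ℂ} {c : ℂ} (hb : usq b0 = 1) (hc : star c * c = 1) :
    gG j (c • b0) = gG j b0 * YY j b0 c := by
  rw [gG, gG, emb_smul, YY]
  exact cay_phase (eR_norm j) (eR_emb j b0) (by rw [usq_emb, hb]) hc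

/-- The collapsed tuple. -/
noncomputable def collapse (a : Fin R → Fin L → ℂ) (j : Fin R) (b0 : Fin L → ℂ) (c : ℂ) :
    Fin R → Fin L → ℂ :=
  fun i => if i < j then a i else if i = j then b0 else phaseL 0 c b0 (a i)

lemma W_collapse (a : Fin R → Fin L → ℂ) (j : Fin R) {b0 : Fin L → ℂ} {c : ℂ} (hb : usq b0 = 1)
    (hc : star c * c = 1) (haj : a j = c • b0) :
    W a = W (collapse a j b0 c) * YY j b0 c := by
  have hpost : j ∉ post j := by simp [mem_post]
  have e1 : wL (collapse a j b0 c) (pre j) = wL a (pre j) :=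
    wL_congr fun i hi => by simp [collapse, mem_pre.1 hi]
  have e2 : wL (collapse a j b0 c) (post j) = wL (fun i => phaseL 0 c b0 (a i)) (post j) :=
    wL_congr fun i hi => by
      have h := mem_post.1 hi
      simp [collapse, h.not_gt, h.ne']
  have e3 : collapse a j b0 c j = b0 := by simp [collapse]
  rw [W, W, finRange_split j, wL_append, wL_append, wL_cons, wL_cons, e1, e2, e3, haj,
    gG_smul j hb hc, Matrix.mul_assoc, Matrix.mul_assoc, Matrix.mul_assoc,
    YY_mul_wL hb hc a hpost]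

lemma frame_collapse_ne (a : Fin R → Fin L → ℂ) {i j : Fin R} (hij : i ≠ j) {b0 : Fin L → ℂ} {c : ℂ}
    (hb : usq b0 = 1) (hc : star c * c = 1) (haj : a j = c • b0) :
    frame a i = frame (collapse a j b0 c) i := by
  rw [frame, W_collapse a j hb hc haj, ← mulVec_mulVec, YY_fix hij, frame]

lemma frame_collapse_self (a : Fin R → Fin L → ℂ) (j : Fin R) {b0 : Fin L → ℂ} {c : ℂ}
    (hb : usq b0 = 1) (hc : star c * c = 1) (haj : a j = c • b0) :
    frame a j = c • frame (collapse a j b0 c) j := by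
  rw [frame, W_collapse a j hb hc haj, ← mulVec_mulVec, YY_self, mulVec_smul, frame]

lemma Pm_collapse (a : Fin R → Fin L → ℂ) (j : Fin R) {b0 : Fin L → ℂ} {c : ℂ}
    (hb : usq b0 = 1) (hc : star c * c = 1) (haj : a j = c • b0) :
    Pm a = Pm (collapse a j b0 c) := by
  refine Finset.sum_congr rfl fun i _ => ?_
  by_cases h : i = j
  · subst h
    rw [frame_collapse_self a i hb hc haj, vmv_smul_left, vmv_smul_right, smul_smul]
    rw [mul_comm, hc, one_smul]
  · rw [frame_collapse_ne a h hb hc haj]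

/-! ### The coordinate data -/

/-- The space of data `B = (B₀, (B_m)_m)`. -/
abbrev EE (R L N : ℕ) := (Fin N → Fin (N + 1) → ℂ) × (Fin L → Idx R L → Fin (N + 1) → ℂ)

/-- The section in coordinates. -/
noncomputable def Mval (a : Fin R → Fin L → ℂ) (ζ : Fin N → ℂ) (B : EE R L N) :
    (Fin R → Fin L → ℂ) × (Fin N → ℂ) :=
  (fun j m => star ((of (B.2 m)) *ᵥ wv ζ) ⬝ᵥ frame a j, (of B.1) *ᵥ wv ζ)

lemma Mval_comb (a : Fin R → Fin L → ℂ) (ζ : Fin N → ℂ) (B B' : EE R L N) (r s : ℝ) :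
    Mval a ζ (r • B + s • B') = r • Mval a ζ B + s • Mval a ζ B' := by
  ext j m
  · simp only [Mval, Prod.snd_add, Prod.smul_snd, Pi.add_apply, Pi.smul_apply, Prod.fst_add,
      Prod.smul_fst]
    simp only [dotProduct, mulVec, Pi.star_apply, Finset.mul_sum, Finset.sum_mul, star_sum, of_apply,
      Pi.add_apply, Pi.smul_apply, star_mul', star_add, add_mul, mul_add, Finset.sum_add_distrib,
      Complex.real_smul, star_trivial, Complex.star_def, map_mul, Complex.conj_ofReal]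
    congr 1 <;> (refine Finset.sum_congr rfl fun _ _ => Finset.sum_congr rfl fun _ _ => ?_; ring)
  · simp only [Mval, Prod.snd_add, Prod.smul_snd, Pi.add_apply, Pi.smul_apply, Prod.fst_add,
      Prod.smul_fst]
    simp only [dotProduct, mulVec, Finset.mul_sum, of_apply,
      Pi.add_apply, Pi.smul_apply, add_mul, mul_add, Finset.sum_add_distrib,
      Complex.real_smul]
    congr 1 <;> (refine Finset.sum_congr rfl fun _ _ => ?_; ring)

lemma Mval_eq_zero_iff (a : Fin R → Fin L → ℂ) (ζ : Fin N → ℂ) (B : EE R L N) :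
    Mval a ζ B = 0 ↔ (of B.1) *ᵥ wv ζ = 0 ∧
      ∀ m j, star (frame a j) ⬝ᵥ ((of (B.2 m)) *ᵥ wv ζ) = 0 := by
  constructor
  · intro h
    have h1 := congrArg Prod.fst h
    have h2 := congrArg Prod.snd h
    refine ⟨h2, fun m j => ?_⟩
    have := congrFun (congrFun h1 j) m
    exact star_dot_zero_symm this
  · rintro ⟨h1, h2⟩
    refine Prod.ext ?_ h1
    funext j m
    exact star_dot_zero_symm (h2 m j)

/-- Collapse at an `a`-face. -/
lemma Mval_collapse_a {a : Fin R → Fin L → ℂ} {ζ : Fin N → ℂ} {B : EE R L N} (j : Fin R)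
    {b0 : Fin L → ℂ} {c : ℂ} (hb : usq b0 = 1) (hc : star c * c = 1) (haj : a j = c • b0)
    (h : Mval a ζ B = 0) : Mval (collapse a j b0 c) ζ B = 0 := by
  rw [Mval_eq_zero_iff] at h ⊢
  refine ⟨h.1, fun m i => ?_⟩
  have h' := h.2 m i
  by_cases hij : i = j
  · subst hij
    rw [frame_collapse_self a i hb hc haj, star_smul, smul_dotProduct, smul_eq_mul] at h'
    have hc0 : star c ≠ 0 := by
      intro h0; rw [h0] at hc; simp at hc
    exact (mul_eq_zero.1 h').resolve_left hc0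
  · rwa [frame_collapse_ne a hij hb hc haj] at h'

/-- Collapse at the `ζ`-face. -/
lemma Mval_collapse_z {a : Fin R → Fin L → ℂ} {ζ ζ' : Fin N → ℂ} {B : EE R L N}
    {c : ℂ} (hb : usq ζ' = 1) (hc : star c * c = 1) (hz : ζ = c • ζ')
    (h : Mval a ζ B = 0) : Mval a ζ' B = 0 := by
  have hu : usq ζ = 1 := by rw [hz, usq_smul_of_unit hc, hb]
  have hw : wv ζ = c • wv ζ' := by
    rw [wv_unit hu, wv_unit hb, hz, em0_smul]
  have hc0 : c ≠ 0 := by
    intro h0; rw [h0] at hc; simp at hc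
  rw [Mval_eq_zero_iff] at h ⊢
  rw [hw] at h
  refine ⟨?_, fun m i => ?_⟩
  · have := h.1
    rw [mulVec_smul] at this
    exact (smul_eq_zero.1 this).resolve_left hc0
  · have := h.2 m i
    rw [mulVec_smul, dotProduct_smul, smul_eq_mul] at this
    exact (mul_eq_zero.1 this).resolve_left hc0

/-! ### The kernel of `Mval` -/

/-- Free parameters of the kernel. -/
abbrev FF (R L N : ℕ) :=
  (Fin N → Fin N → ℂ) × (Fin L → Fin L → ℂ) × (Fin L → Idx R L → Fin N → ℂ)

/-- First block. -/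
noncomputable def F0 (c0 : Fin N → Fin N → ℂ) : Matrix (Fin N) (Fin (N + 1)) ℂ :=
  of fun i k => Fin.cases 0 (c0 i) k

/-- Second block. -/
noncomputable def F1 (c1 : Fin L → ℂ) (c2 : Idx R L → Fin N → ℂ) :
    Matrix (Idx R L) (Fin (N + 1)) ℂ :=
  of fun i k => Fin.cases (Sum.elim (fun _ => 0) c1 i) (c2 i) k

/-- Rotated kernel element. -/
noncomputable def Rot (a : Fin R → Fin L → ℂ) (ζ : Fin N → ℂ) (c : FF R L N) : EE R L N :=
  (fun i k => (F0 c.1 * (gg ζ)ᴴ) i k, fun m i k => (W a * F1 (c.2.1 m) (c.2.2 m) * (gg ζ)ᴴ) i k)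

lemma mulVec_e0_apply {m : Type*} (M : Matrix m (Fin (N + 1)) ℂ) (i : m) :
    (M *ᵥ e0) i = M i 0 := by
  simp [e0, mulVec, dotProduct, Pi.single_apply]

lemma mulVec_eR_apply (v : Idx R L → ℂ) (j : Fin R) : star (eR j) ⬝ᵥ v = v (Sum.inl j) := by
  simp [eR, dotProduct, Pi.single_apply]

theorem kernel_param {a : Fin R → Fin L → ℂ} {ζ : Fin N → ℂ} {B : EE R L N}
    (h : Mval a ζ B = 0) : ∃ c : FF R L N, B = Rot a ζ c := by
  rw [Mval_eq_zero_iff] at h
  obtain ⟨h0, h1⟩ := h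
  set g := gg ζ with hg
  set M0 : Matrix (Fin N) (Fin (N + 1)) ℂ := of B.1 * g with hM0
  set M1 : Fin L → Matrix (Idx R L) (Fin (N + 1)) ℂ := fun m => (W a)ᴴ * of (B.2 m) * g with hM1
  refine ⟨(fun i k => M0 i k.succ, fun m l => M1 m (Sum.inr l) 0, fun m i k => M1 m i k.succ), ?_⟩
  have key0 : M0 *ᵥ e0 = 0 := by rw [hM0, ← mulVec_mulVec]; exact h0
  have e0' : F0 (fun i k => M0 i k.succ) = M0 := by
    ext i k
    refine Fin.cases ?_ (fun k => ?_) k
    · have : M0 i 0 = 0 := by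
        rw [← mulVec_e0_apply M0 i, key0]; rfl
      simp [F0, this]
    · simp [F0]
  have key1 : ∀ m j, M1 m (Sum.inl j) 0 = 0 := by
    intro m j
    rw [← mulVec_e0_apply (M1 m) (Sum.inl j), ← mulVec_eR_apply (M1 m *ᵥ e0) j]
    have : M1 m *ᵥ e0 = (W a)ᴴ *ᵥ (of (B.2 m) *ᵥ wv ζ) := by
      simp only [hM1, wv, ← hg, mulVec_mulVec, Matrix.mul_assoc]
    rw [this, dotProduct_mulVec, ← star_mulVec]
    exact h1 m j
  have e1' : ∀ m, F1 (fun l => M1 m (Sum.inr l) 0) (fun i k => M1 m i k.succ) = M1 m := by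
    intro m
    ext i k
    refine Fin.cases ?_ (fun k => ?_) k
    · cases i with
      | inl j => simp [F1, key1 m j]
      | inr l => simp [F1]
    · simp [F1]
  refine Prod.ext ?_ ?_
  · change B.1 = F0 (fun i k => M0 i k.succ) * (gg ζ)ᴴ
    rw [e0', hM0, Matrix.mul_assoc, hg, gg_unitary', Matrix.mul_one]
    rfl
  · funext m
    change B.2 m = W a * F1 (fun l => M1 m (Sum.inr l) 0) (fun i k => M1 m i k.succ) * (gg ζ)ᴴ
    rw [e1' m]
    simp only [hM1]
    rw [← Matrix.mul_assoc, ← Matrix.mul_assoc, W_unitary', Matrix.one_mul, Matrix.mul_assoc, hg,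
      gg_unitary', Matrix.mul_one]
    rfl

end Crest.Agent.Lib.QTGrass
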