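/-
Module B2 of S0188 (row 137): smoothness of the parametrization; the bad sets are thin.
-/
import Crest.Agent.Lib.QTGrassFace

set_option autoImplicit false
set_option linter.unusedSimpArgs false
set_option linter.unusedSectionVars false
set_option linter.unusedVariables false

open Matrix

namespace Crest.Agent.Lib.QTGrass

section Sm

variable {A : Type*} [NormedAddCommGroup A] [NormedSpace ℝ A]
variable {m n o : Type*}

/-- Entrywise `C¹` matrix valued maps. -/
def Sm (f : A → Matrix m n ℂ) : Prop := ∀ i k, ContDiff ℝ 1 fun x => f x i k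

/-- Entrywise `C¹` vector valued maps. -/
def SmV (f : A → m → ℂ) : Prop := ∀ i, ContDiff ℝ 1 fun x => f x i

lemma cd_star {f : A → ℂ} (h : ContDiff ℝ 1 f) : ContDiff ℝ 1 fun x => star (f x) :=
  (Complex.conjCLE : ℂ ≃L[ℝ] ℂ).contDiff.comp h

lemma cd_ofReal {f : A → ℝ} (h : ContDiff ℝ 1 f) : ContDiff ℝ 1 fun x => (f x : ℂ) :=
  Complex.ofRealCLM.contDiff.comp h

lemma Sm.const (M : Matrix m n ℂ) : Sm (fun _ : A => M) := fun _ _ => contDiff_const

lemma Sm.add {f g : A → Matrix m n ℂ} (hf : Sm f) (hg : Sm g) : Sm fun x => f x + g x :=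
  fun i k => (hf i k).add (hg i k)

lemma Sm.sub {f g : A → Matrix m n ℂ} (hf : Sm f) (hg : Sm g) : Sm fun x => f x - g x :=
  fun i k => (hf i k).sub (hg i k)

lemma Sm.neg {f : A → Matrix m n ℂ} (hf : Sm f) : Sm fun x => - f x :=
  fun i k => (hf i k).neg

lemma Sm.smul {c : A → ℂ} {f : A → Matrix m n ℂ} (hc : ContDiff ℝ 1 c) (hf : Sm f) :
    Sm fun x => c x • f x :=
  fun i k => hc.mul (hf i k)

lemma Sm.mul [Fintype n] {f : A → Matrix m n ℂ} {g : A → Matrix n o ℂ} (hf : Sm f) (hg : Sm g) :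
    Sm fun x => f x * g x := by
  intro i k
  simp only [Matrix.mul_apply]
  exact ContDiff.sum fun j _ => (hf i j).mul (hg j k)

lemma Sm.conjT {f : A → Matrix m n ℂ} (hf : Sm f) : Sm fun x => (f x)ᴴ :=
  fun i k => cd_star (hf k i)

lemma Sm.sum {ι : Type*} {s : Finset ι} {f : ι → A → Matrix m n ℂ} (hf : ∀ i ∈ s, Sm (f i)) :
    Sm fun x => ∑ i ∈ s, f i x := by
  intro i k
  simp only [Matrix.sum_apply]
  exact ContDiff.sum fun j hj => hf j hj i k

lemma Sm.mulVec [Fintype n] {f : A → Matrix m n ℂ} {v : A → n → ℂ} (hf : Sm f) (hv : SmV v) :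
    SmV fun x => f x *ᵥ v x := by
  intro i
  simp only [Matrix.mulVec, dotProduct]
  exact ContDiff.sum fun j _ => (hf i j).mul (hv j)

lemma SmV.const (v : m → ℂ) : SmV (fun _ : A => v) := fun _ => contDiff_const

lemma SmV.star_dot [Fintype m] {u v : A → m → ℂ} (hu : SmV u) (hv : SmV v) :
    ContDiff ℝ 1 fun x => star (u x) ⬝ᵥ v x := by
  simp only [dotProduct, Pi.star_apply]
  exact ContDiff.sum fun j _ => (cd_star (hu j)).mul (hv j)

lemma SmV.usq [Fintype m] {u : A → m → ℂ} (hu : SmV u) : ContDiff ℝ 1 fun x => usq (u x) := by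
  simp only [QTGrass.usq]
  exact ContDiff.sum fun j _ => (hu j).norm_sq ℝ

lemma SmV.vmv {ι : Type*} [Fintype ι] {u v : A → ι → ℂ} (hu : SmV u) (hv : SmV v) :
    Sm fun x => QTGrass.vmv (u x) (v x) := by
  intro i k
  simp only [QTGrass.vmv, vecMulVec_apply, Pi.star_apply]
  exact (hu i).mul (cd_star (hv k))

lemma SmV.cay {ι : Type*} [Fintype ι] [DecidableEq ι] {e : ι → ℂ} {u : A → ι → ℂ} (hu : SmV u) :
    Sm fun x => QTGrass.cay e (u x) := by
  have h1 : ContDiff ℝ 1 fun x => (2 : ℂ) / (1 + (QTGrass.usq (u x) : ℂ)) :=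
    by
      simp only [div_eq_mul_inv]
      exact contDiff_const.mul (ContDiff.inv (contDiff_const.add (cd_ofReal hu.usq))
        (fun x => one_add_usq_ne _))
  have hX : Sm fun x => cayX e (u x) := by
    have := (SmV.vmv hu (SmV.const (A := A) e)).sub (SmV.vmv (SmV.const (A := A) e) hu)
    exact this
  exact (Sm.const 1).add (Sm.smul h1 (hX.add (hX.mul hX)))

end Sm

variable {R L N : ℕ}

section tower
variable {A : Type*} [NormedAddCommGroup A] [NormedSpace ℝ A]

lemma SmV.emb {a : A → Fin L → ℂ} (ha : SmV a) : SmV fun x => emb (R := R) (a x) := by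
  intro i
  cases i with
  | inl j => simpa [QTGrass.emb] using contDiff_const
  | inr k => simpa [QTGrass.emb] using ha k

lemma SmV.em0 {a : A → Fin N → ℂ} (ha : SmV a) : SmV fun x => QTGrass.em0 (a x) := by
  intro i
  refine Fin.cases ?_ (fun k => ?_) i
  · simpa [QTGrass.em0] using contDiff_const
  · simpa [QTGrass.em0] using ha k

lemma SmV.gG {a : A → Fin L → ℂ} (ha : SmV a) (j : Fin R) : Sm fun x => QTGrass.gG j (a x) :=
  SmV.cay (SmV.emb ha)

lemma SmV.gg {a : A → Fin N → ℂ} (ha : SmV a) : Sm fun x => QTGrass.gg (a x) :=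
  SmV.cay (SmV.em0 ha)

lemma SmV.wv {a : A → Fin N → ℂ} (ha : SmV a) : SmV fun x => QTGrass.wv (a x) :=
  Sm.mulVec (SmV.gg ha) (SmV.const _)

lemma wL_smooth {a : A → Fin R → Fin L → ℂ} (ha : ∀ i, SmV fun x => a x i) (l : List (Fin R)) :
    Sm fun x => wL (a x) l := by
  induction l with
  | nil => simpa using Sm.const 1
  | cons i l ih =>
    simp only [wL_cons]
    exact Sm.mul (SmV.gG (ha i) i) ih

lemma W_smooth {a : A → Fin R → Fin L → ℂ} (ha : ∀ i, SmV fun x => a x i) : Sm fun x => W (a x) :=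
  wL_smooth ha _

lemma frame_smooth {a : A → Fin R → Fin L → ℂ} (ha : ∀ i, SmV fun x => a x i) (j : Fin R) :
    SmV fun x => frame (a x) j :=
  Sm.mulVec (W_smooth ha) (SmV.const _)

lemma Pm_smooth {a : A → Fin R → Fin L → ℂ} (ha : ∀ i, SmV fun x => a x i) : Sm fun x => Pm (a x) :=
  Sm.sum fun j _ => SmV.vmv (frame_smooth ha j) (frame_smooth ha j)

lemma F0_smooth {c : A → Fin N → Fin N → ℂ} (hc : ContDiff ℝ 1 c) : Sm fun x => F0 (c x) := by
  intro i k
  refine Fin.cases ?_ (fun k => ?_) k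
  · simpa [F0] using contDiff_const
  · simp only [F0, of_apply, Fin.cases_succ]
    exact (contDiff_pi.1 (contDiff_pi.1 hc i) k)

lemma F1_smooth {c1 : A → Fin L → ℂ} {c2 : A → Idx R L → Fin N → ℂ} (hc1 : ContDiff ℝ 1 c1)
    (hc2 : ContDiff ℝ 1 c2) : Sm fun x => F1 (c1 x) (c2 x) := by
  intro i k
  refine Fin.cases ?_ (fun k => ?_) k
  · cases i with
    | inl j => simpa [F1] using contDiff_const
    | inr l =>
      simp only [F1, of_apply, Fin.cases_zero, Sum.elim_inr]
      exact contDiff_pi.1 hc1 l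
  · simp only [F1, of_apply, Fin.cases_succ]
    exact (contDiff_pi.1 (contDiff_pi.1 hc2 i) k)

/-- The universal parametrization of the bad sets. -/
noncomputable def Psi (Vt : (Idx R L → Idx R L → ℂ) → EE R L N) (a : Fin R → Fin L → ℂ)
    (ζ : Fin N → ℂ) (t : ℝ) (c : FF R L N) : EE R L N :=
  Rot a ζ c - t • Vt (fun i k => Pm a i k)

lemma contDiff_Pm {a : A → Fin R → Fin L → ℂ} (ha : ∀ i, SmV fun x => a x i) :
    ContDiff ℝ 1 fun x => (fun i k => Pm (a x) i k : Idx R L → Idx R L → ℂ) :=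
  contDiff_pi.2 fun i => contDiff_pi.2 fun k => Pm_smooth ha i k

lemma contDiff_Psi {Vt : (Idx R L → Idx R L → ℂ) → EE R L N} (hV : ContDiff ℝ 1 Vt)
    {a : A → Fin R → Fin L → ℂ} (ha : ∀ i, SmV fun x => a x i)
    {ζ : A → Fin N → ℂ} (hz : SmV ζ) {t : A → ℝ} (ht : ContDiff ℝ 1 t)
    {c : A → FF R L N} (hc : ContDiff ℝ 1 c) :
    ContDiff ℝ 1 fun x => Psi Vt (a x) (ζ x) (t x) (c x) := by
  have hR : ContDiff ℝ 1 fun x => Rot (a x) (ζ x) (c x) := by
    refine ContDiff.prodMk ?_ ?_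
    · refine contDiff_pi.2 fun i => contDiff_pi.2 fun k => ?_
      exact Sm.mul (F0_smooth hc.fst) (Sm.conjT (SmV.gg hz)) i k
    · refine contDiff_pi.2 fun m => contDiff_pi.2 fun i => contDiff_pi.2 fun k => ?_
      have h1 : ContDiff ℝ 1 fun x => (c x).2.1 m := contDiff_pi.1 hc.snd.fst m
      have h2 : ContDiff ℝ 1 fun x => (c x).2.2 m := contDiff_pi.1 hc.snd.snd m
      exact Sm.mul (Sm.mul (W_smooth ha) (F1_smooth h1 h2)) (Sm.conjT (SmV.gg hz)) i k
  exact hR.sub (ht.smul (hV.comp (contDiff_Pm ha)))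

end tower

/-! ### Bad sets -/

/-- Bad set attached to the face `|a_j| = 1`. -/
def badA (Vt : (Idx R L → Idx R L → ℂ) → EE R L N) (j : Fin R) : Set (EE R L N) :=
  {B | ∃ (a : Fin R → Fin L → ℂ) (ζ : Fin N → ℂ) (t : ℝ) (c : FF R L N), usq (a j) = 1 ∧
    (∀ k : Fin L, k.val = 0 → ∃ r : ℝ, 0 ≤ r ∧ a j k = r) ∧ B = Psi Vt a ζ t c}

/-- Bad set attached to the face `|ζ| = 1`. -/
def badZ (Vt : (Idx R L → Idx R L → ℂ) → EE R L N) : Set (EE R L N) :=
  {B | ∃ (a : Fin R → Fin L → ℂ) (ζ : Fin N → ℂ) (t : ℝ) (c : FF R L N), usq ζ = 1 ∧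
    (∀ k : Fin N, k.val = 0 → ∃ r : ℝ, 0 ≤ r ∧ ζ k = r) ∧ B = Psi Vt a ζ t c}

lemma finrank_EE : Module.finrank ℝ (EE R L N) = 2 * (N * (N + 1) + L * ((R + L) * (N + 1))) := by
  simp [Module.finrank_prod, Module.finrank_pi_fintype, Complex.finrank_real_complex]
  ring

lemma finrank_FF : Module.finrank ℝ (FF R L N) = 2 * (N * N + L * L + L * ((R + L) * N)) := by
  simp [Module.finrank_prod, Module.finrank_pi_fintype, Complex.finrank_real_complex]
  ring

/-- Insert a value at position `j`. -/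
def ins {α : Type*} (j : Fin R) (a : {i : Fin R // i ≠ j} → α) (s : α) : Fin R → α :=
  fun i => if h : i = j then s else a ⟨i, h⟩

lemma SmV.of_contDiff {A : Type*} [NormedAddCommGroup A] [NormedSpace ℝ A] {m : Type*} [Fintype m]
    {f : A → m → ℂ} (h : ContDiff ℝ 1 f) : SmV f :=
  fun k => contDiff_pi.1 h k

lemma SmV.sigma {A : Type*} [NormedAddCommGroup A] [NormedSpace ℝ A] {M : ℕ}
    {b : A → Fin M → ℂ} (hb : SmV b) : SmV fun x => QTGrass.sigma (b x) := by
  have hu := hb.usq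
  have hne : ∀ x, (1 + QTGrass.usq (b x)) ≠ 0 := fun x => by
    have := QTGrass.usq_nonneg (b x)
    positivity
  intro k
  refine Fin.cases ?_ (fun k => ?_) k
  · simp only [QTGrass.sigma, Fin.cons_zero]
    exact cd_ofReal ((contDiff_const.sub hu).div (contDiff_const.add hu) hne)
  · simp only [QTGrass.sigma, Fin.cons_succ, Pi.smul_apply, smul_eq_mul, div_eq_mul_inv]
    exact (contDiff_const.mul (ContDiff.inv (contDiff_const.add (cd_ofReal hu))
      (fun x => one_add_usq_ne _))).mul (hb k)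

lemma ins_smooth {A : Type*} [NormedAddCommGroup A] [NormedSpace ℝ A] {M : ℕ} (j : Fin R)
    {a : A → {i : Fin R // i ≠ j} → Fin M → ℂ} (ha : ContDiff ℝ 1 a) {s : A → Fin M → ℂ}
    (hs : SmV s) (i : Fin R) : SmV fun x => ins j (a x) (s x) i := by
  intro k
  by_cases h : i = j
  · subst h
    simpa [ins] using hs k
  · simp only [ins, dif_neg h]
    exact contDiff_pi.1 (contDiff_pi.1 ha ⟨i, h⟩) k

lemma thin_badA (Vt : (Idx R L → Idx R L → ℂ) → EE R L N) (hV : ContDiff ℝ 1 Vt) (j : Fin R)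
    (hpos : 0 < Module.finrank ℝ (EE R L N)) :
    dimH (badA Vt j) < Module.finrank ℝ (EE R L N) := by
  cases L with
  | zero =>
    have : badA Vt j = ∅ := by
      ext B
      simp only [badA, Set.mem_ofPred_eq, Set.mem_empty_iff_false, iff_false]
      rintro ⟨a, ζ, t, c, h, -⟩
      simp [usq] at h
    rw [this, dimH_empty]
    exact_mod_cast hpos
  | succ L =>
    let D := ({i : Fin R // i ≠ j} → Fin (L + 1) → ℂ) × (Fin L → ℂ) × (Fin N → ℂ) × ℝ × FF R (L + 1) N
    let f : D → EE R (L + 1) N :=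
      fun p => Psi Vt (ins j p.1 (sigma p.2.1)) p.2.2.1 p.2.2.2.1 p.2.2.2.2
    have hf : ContDiff ℝ 1 f := by
      refine contDiff_Psi hV (ins_smooth j contDiff_fst (SmV.sigma (SmV.of_contDiff contDiff_snd.fst)))
        (SmV.of_contDiff contDiff_snd.snd.fst) contDiff_snd.snd.snd.fst contDiff_snd.snd.snd.snd
    have hsub : badA Vt j ⊆ Set.range f := by
      rintro B ⟨a, ζ, t, c, h1, h2, rfl⟩
      obtain ⟨r, hr, hr0⟩ := h2 0 rfl
      obtain ⟨b, hb⟩ := exists_sigma h1 hr hr0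
      refine ⟨(fun i => a i.1, b, ζ, t, c), ?_⟩
      have : ins j (fun i : {i : Fin R // i ≠ j} => a i.1) (sigma b) = a := by
        funext i
        by_cases h : i = j
        · subst h; simp [ins, hb]
        · simp [ins, h]
      simp only [f, this]
    refine (dimH_mono hsub).trans_lt (hf.dimH_range_le.trans_lt ?_)
    have hR : 1 ≤ R := j.pos
    obtain ⟨R', rfl⟩ : ∃ R', R = R' + 1 := ⟨R - 1, by omega⟩
    have hcard : Fintype.card {i : Fin (R' + 1) // i ≠ j} = R' := by
      simp [Fintype.card_subtype_compl]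
    have e1 : Module.finrank ℝ D = 2 * (R' * (L + 1) + L + N + (N * N + (L + 1) * (L + 1) + (L + 1) * ((R' + 1 + (L + 1)) * N))) + 1 := by
      simp only [D, Module.finrank_prod, Module.finrank_pi_fintype, Complex.finrank_real_complex,
        Module.finrank_self, Finset.sum_const, Finset.card_univ, hcard, Fintype.card_fin, smul_eq_mul,
        Fintype.card_sum]
      ring
    rw [e1, finrank_EE]
    norm_cast
    nlinarith

lemma thin_badZ (Vt : (Idx R L → Idx R L → ℂ) → EE R L N) (hV : ContDiff ℝ 1 Vt)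
    (hpos : 0 < Module.finrank ℝ (EE R L N)) :
    dimH (badZ Vt) < Module.finrank ℝ (EE R L N) := by
  cases N with
  | zero =>
    have : badZ Vt = ∅ := by
      ext B
      simp only [badZ, Set.mem_ofPred_eq, Set.mem_empty_iff_false, iff_false]
      rintro ⟨a, ζ, t, c, h, -⟩
      simp [usq] at h
    rw [this, dimH_empty]
    exact_mod_cast hpos
  | succ N =>
    let D := (Fin R → Fin L → ℂ) × (Fin N → ℂ) × ℝ × FF R L (N + 1)
    let f : D → EE R L (N + 1) :=
      fun p => Psi Vt p.1 (sigma p.2.1) p.2.2.1 p.2.2.2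
    have hf : ContDiff ℝ 1 f := by
      refine contDiff_Psi hV (fun i => SmV.of_contDiff (contDiff_pi.1 contDiff_fst i))
        (SmV.sigma (SmV.of_contDiff contDiff_snd.fst)) contDiff_snd.snd.fst contDiff_snd.snd.snd
    have hsub : badZ Vt ⊆ Set.range f := by
      rintro B ⟨a, ζ, t, c, h1, h2, rfl⟩
      obtain ⟨r, hr, hr0⟩ := h2 0 rfl
      obtain ⟨b, hb⟩ := exists_sigma h1 hr hr0
      refine ⟨(a, b, t, c), ?_⟩
      simp only [f, ← hb]
    refine (dimH_mono hsub).trans_lt (hf.dimH_range_le.trans_lt ?_)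
    have e1 : Module.finrank ℝ D = 2 * (R * L + N + ((N + 1) * (N + 1) + L * L + L * ((R + L) * (N + 1)))) + 1 := by
      simp only [D, Module.finrank_prod, Module.finrank_pi_fintype, Complex.finrank_real_complex,
        Module.finrank_self, Finset.sum_const, Finset.card_univ, Fintype.card_fin, smul_eq_mul,
        Fintype.card_sum]
      ring
    rw [e1, finrank_EE]
    norm_cast
    nlinarith

/-- The complement of all bad sets is dense. -/
theorem dense_good (Vt : (Idx R L → Idx R L → ℂ) → EE R L N) (hV : ContDiff ℝ 1 Vt)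
    (hpos : 0 < Module.finrank ℝ (EE R L N)) :
    Dense (((⋃ j, badA Vt j) ∪ badZ Vt)ᶜ) := by
  apply dense_compl_of_dimH_lt_finrank
  rw [dimH_union, max_lt_iff]
  refine ⟨?_, thin_badZ Vt hV hpos⟩
  rw [dimH_iUnion]
  have hn : (0 : ENNReal) < (Module.finrank ℝ (EE R L N) : ENNReal) := by exact_mod_cast hpos
  rcases isEmpty_or_nonempty (Fin R) with he | hne
  · simpa using hn
  · obtain ⟨j, hj⟩ := Finite.exists_max fun j => dimH (badA Vt j)
    exact (iSup_le hj).trans_lt (thin_badA Vt hV j hpos)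

end Crest.Agent.Lib.QTGrass
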