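/-
Module B2 of S0188 (row 137): every section of the relevant bundle over Gr × ℂP^N has a zero.
-/
import Crest.Agent.Lib.QTGrassSmooth
import Crest.Agent.Lib.QTBrouwer

set_option autoImplicit false
set_option linter.unusedSimpArgs false
set_option linter.unusedSectionVars false
set_option linter.unusedVariables false

open Matrix Set Metric

namespace Crest.Agent.Lib.QTGrass

section homotopy

variable {E V : Type*} [NormedAddCommGroup E] [NormedSpace ℝ E]
  [NormedAddCommGroup V] [NormedSpace ℝ V]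

/-- Homotopy through nonvanishing maps on the unit sphere. -/
def Hmt (f g : E → V) : Prop :=
  ∃ H : ℝ → E → V, ContinuousOn (fun q : ℝ × E => H q.1 q.2) (Icc 0 1 ×ˢ sphere 0 1) ∧
    (∀ x ∈ sphere (0 : E) 1, H 0 x = f x) ∧ (∀ x ∈ sphere (0 : E) 1, H 1 x = g x) ∧
    ∀ s ∈ Icc (0 : ℝ) 1, ∀ x ∈ sphere (0 : E) 1, H s x ≠ 0

lemma Hmt.trans {f g k : E → V} (h₁ : Hmt f g) (h₂ : Hmt g k) : Hmt f k := by
  obtain ⟨H₁, c₁, a₁, b₁, n₁⟩ := h₁
  obtain ⟨H₂, c₂, a₂, b₂, n₂⟩ := h₂
  refine ⟨fun s x => if s ≤ 1 / 2 then H₁ (2 * s) x else H₂ (2 * s - 1) x, ?_, ?_, ?_, ?_⟩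
  · refine ContinuousOn.if ?_ ?_ ?_
    · rintro ⟨s, x⟩ ⟨⟨_, hx⟩, hs⟩
      have hs' : s = 1 / 2 :=
        frontier_le_subset_eq (f := fun q : ℝ × E => q.1) (g := fun _ => (1 / 2 : ℝ))
          continuous_fst continuous_const hs
      subst hs'
      simp only at hx ⊢
      norm_num
      rw [b₁ x hx, a₂ x hx]
    · refine c₁.comp (f := fun q : ℝ × E => (2 * q.1, q.2)) (by fun_prop) ?_
      rintro ⟨s, x⟩ ⟨⟨hs, hx⟩, hc⟩
      have hc' : s ≤ 1 / 2 := by
        have : closure {q : ℝ × E | q.1 ≤ 1 / 2} = {q : ℝ × E | q.1 ≤ 1 / 2} :=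
          (isClosed_le continuous_fst continuous_const).closure_eq
        rw [this] at hc
        exact hc
      exact ⟨⟨by have := hs.1; simp only at this ⊢; linarith, by simp only; linarith⟩, hx⟩
    · refine c₂.comp (f := fun q : ℝ × E => (2 * q.1 - 1, q.2)) (by fun_prop) ?_
      rintro ⟨s, x⟩ ⟨⟨hs, hx⟩, hc⟩
      have hc' : 1 / 2 ≤ s := by
        have h1 : {q : ℝ × E | ¬ q.1 ≤ 1 / 2} ⊆ {q : ℝ × E | 1 / 2 ≤ q.1} := fun q hq =>
          (not_le.1 hq).le
        have h2 : IsClosed {q : ℝ × E | 1 / 2 ≤ q.1} :=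
          isClosed_le continuous_const continuous_fst
        exact closure_minimal h1 h2 hc
      exact ⟨⟨by simp only; linarith, by have := hs.2; simp only at this ⊢; linarith⟩, hx⟩
  · intro x hx
    simp [a₁ x hx]
  · intro x hx
    norm_num
    rw [b₂ x hx]
  · intro s hs x hx
    dsimp only
    split_ifs with h
    · exact n₁ _ ⟨by linarith [hs.1], by linarith⟩ x hx
    · have := not_le.1 h
      exact n₂ _ ⟨by linarith, by linarith [hs.2]⟩ x hx

end homotopy

variable {R L N : ℕ}

/-- The domain: a closed ball is the product of the Euclidean balls. -/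
abbrev EP (R L N : ℕ) := (Fin R → EuclideanSpace ℂ (Fin L)) × EuclideanSpace ℂ (Fin N)

/-- Raw coordinates. -/
noncomputable def rawA (x : EP R L N) : Fin R → Fin L → ℂ := fun j m => x.1 j m

/-- Raw coordinates. -/
noncomputable def rawZ (x : EP R L N) : Fin N → ℂ := fun k => x.2 k

/-- From raw coordinates to the domain. -/
noncomputable def toE (r : (Fin R → Fin L → ℂ) × (Fin N → ℂ)) : EP R L N :=
  (fun j => WithLp.toLp 2 (r.1 j), WithLp.toLp 2 r.2)

lemma toE_raw (x : EP R L N) : toE (rawA x, rawZ x) = x := by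
  refine Prod.ext ?_ ?_
  · funext j
    ext m
    rfl
  · ext k
    rfl

lemma continuous_rawA : Continuous (rawA : EP R L N → _) := by
  refine continuous_pi fun j => continuous_pi fun m => ?_
  exact (PiLp.continuous_apply 2 _ m).comp ((continuous_apply j).comp continuous_fst)

lemma continuous_rawZ : Continuous (rawZ : EP R L N → _) := by
  refine continuous_pi fun k => ?_
  exact (PiLp.continuous_apply 2 _ k).comp continuous_snd

lemma continuous_toE : Continuous (toE : _ → EP R L N) := by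
  refine Continuous.prodMk ?_ ?_
  · refine continuous_pi fun j => ?_
    exact (PiLp.continuous_toLp 2 _).comp ((continuous_apply j).comp continuous_fst)
  · exact (PiLp.continuous_toLp 2 _).comp continuous_snd

lemma toE_eq_zero {r : (Fin R → Fin L → ℂ) × (Fin N → ℂ)} (h : toE r = (0 : EP R L N)) : r = 0 := by
  have h1 := congrArg Prod.fst h
  have h2 := congrArg Prod.snd h
  refine Prod.ext ?_ ?_
  · funext j
    have := congrFun h1 j
    exact congrArg WithLp.ofLp this
  · exact congrArg WithLp.ofLp h2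

lemma rawA_add_smul (r s : ℝ) (x y : EP R L N) :
    rawA (r • x + s • y) = fun j m => (r : ℂ) * rawA x j m + (s : ℂ) * rawA y j m := by
  funext j m
  simp [rawA]

lemma rawZ_add_smul (r s : ℝ) (x y : EP R L N) :
    rawZ (r • x + s • y) = fun k => (r : ℂ) * rawZ x k + (s : ℂ) * rawZ y k := by
  funext k
  simp [rawZ]

lemma rawA_toE (r : (Fin R → Fin L → ℂ) × (Fin N → ℂ)) : rawA (toE r) = r.1 := rfl

lemma rawZ_toE (r : (Fin R → Fin L → ℂ) × (Fin N → ℂ)) : rawZ (toE r) = r.2 := rfl

lemma usq_norm {M : ℕ} (x : EuclideanSpace ℂ (Fin M)) : usq (fun k => x k) = ‖x‖ ^ 2 := by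
  rw [EuclideanSpace.norm_sq_eq]
  rfl

/-- The sphere consists of faces. -/
lemma sphere_face {x : EP R L N} (hx : x ∈ sphere (0 : EP R L N) 1) :
    (∃ j, usq (rawA x j) = 1) ∨ usq (rawZ x) = 1 := by
  have hx1 : ‖x‖ = 1 := by simpa using hx
  by_contra hcon
  push Not at hcon
  obtain ⟨h1, h2⟩ := hcon
  have hle1 : ‖x.1‖ ≤ 1 := by rw [← hx1]; exact norm_fst_le x
  have hle2 : ‖x.2‖ ≤ 1 := by rw [← hx1]; exact norm_snd_le x
  have hA : ‖x.1‖ < 1 := by
    rw [pi_norm_lt_iff zero_lt_one]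
    intro j
    have h3 : ‖x.1 j‖ ≤ 1 := (norm_le_pi_norm x.1 j).trans hle1
    refine lt_of_le_of_ne h3 fun h4 => h1 j ?_
    have e : rawA x j = fun k => x.1 j k := rfl
    rw [e, usq_norm, h4]; norm_num
  have hZ : ‖x.2‖ < 1 := by
    refine lt_of_le_of_ne hle2 fun h4 => h2 ?_
    have e : rawZ x = fun k => x.2 k := rfl
    rw [e, usq_norm, h4]; norm_num
  have : ‖x‖ < 1 := by
    rw [Prod.norm_def]
    exact max_lt hA hZ
  linarith

/-- The section on the domain. -/
noncomputable def Mx (x : EP R L N) (B : EE R L N) : EP R L N := toE (Mval (rawA x) (rawZ x) B)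

lemma continuous_Mval :
    Continuous fun q : (Fin R → Fin L → ℂ) × (Fin N → ℂ) × EE R L N => Mval q.1 q.2.1 q.2.2 := by
  have h : ContDiff ℝ 1
      fun q : (Fin R → Fin L → ℂ) × (Fin N → ℂ) × EE R L N => Mval q.1 q.2.1 q.2.2 := by
    have hw : SmV fun q : (Fin R → Fin L → ℂ) × (Fin N → ℂ) × EE R L N => wv q.2.1 :=
      SmV.wv (SmV.of_contDiff contDiff_snd.fst)
    refine ContDiff.prodMk ?_ ?_
    · refine contDiff_pi.2 fun j => contDiff_pi.2 fun m => ?_
      refine SmV.star_dot ?_ (frame_smooth (fun i => SmV.of_contDiff (contDiff_pi.1 contDiff_fst i)) j)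
      refine Sm.mulVec ?_ hw
      intro i k
      have : ContDiff ℝ 1 fun q : (Fin R → Fin L → ℂ) × (Fin N → ℂ) × EE R L N => q.2.2.2 :=
        contDiff_snd.snd.snd
      exact contDiff_pi.1 (contDiff_pi.1 (contDiff_pi.1 this m) i) k
    · refine contDiff_pi.2 fun i => ?_
      refine Sm.mulVec ?_ hw i
      intro i k
      have : ContDiff ℝ 1 fun q : (Fin R → Fin L → ℂ) × (Fin N → ℂ) × EE R L N => q.2.2.1 :=
        contDiff_snd.snd.fst
      exact contDiff_pi.1 (contDiff_pi.1 this i) k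
  exact h.continuous

lemma continuous_Mx {β : ℝ × EP R L N → EE R L N} (hβ : Continuous β) :
    Continuous fun q : ℝ × EP R L N => Mx q.2 (β q) := by
  have h0 : Continuous fun q : ℝ × EP R L N => q.2 := continuous_snd
  have h3 : Continuous fun q : ℝ × EP R L N => rawA q.2 := continuous_rawA.comp h0
  have h4 : Continuous fun q : ℝ × EP R L N => rawZ q.2 := continuous_rawZ.comp h0
  have h5 : Continuous fun q : ℝ × EP R L N => (rawZ q.2, β q) := h4.prodMk hβ
  have h1 : Continuous fun q : ℝ × EP R L N => (rawA q.2, rawZ q.2, β q) := h3.prodMk h5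
  have h2 := continuous_Mval.comp h1
  have h6 := continuous_toE.comp h2
  exact h6

/-- Straight line homotopy in the data. -/
lemma hmt_line {β₀ β₁ : EP R L N → EE R L N} (h₀ : Continuous β₀) (h₁ : Continuous β₁)
    (hne : ∀ s ∈ Icc (0 : ℝ) 1, ∀ x ∈ sphere (0 : EP R L N) 1,
      Mval (rawA x) (rawZ x) ((1 - s) • β₀ x + s • β₁ x) ≠ 0) :
    Hmt (fun x => Mx x (β₀ x)) (fun x => Mx x (β₁ x)) := by
  refine ⟨fun s x => Mx x ((1 - s) • β₀ x + s • β₁ x), ?_, ?_, ?_, ?_⟩
  · refine (continuous_Mx (β := fun q => (1 - q.1) • β₀ q.2 + q.1 • β₁ q.2) ?_).continuousOn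
    have := h₀.comp (continuous_snd (X := ℝ) (Y := EP R L N))
    have := h₁.comp (continuous_snd (X := ℝ) (Y := EP R L N))
    exact ((continuous_const.sub continuous_fst).smul (h₀.comp continuous_snd)).add
      (continuous_fst.smul (h₁.comp continuous_snd))
  · intro x _; simp
  · intro x _; simp
  · intro s hs x hx h
    exact hne s hs x hx (toE_eq_zero h)

/-! ### The standard section -/

/-- The standard data `B⁰`. -/
noncomputable def B0 : EE R L N :=
  (fun i k => if k = i.succ then 1 else 0, fun m i k => if i = Sum.inr m ∧ k = 0 then 1 else 0)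

/-- The scaled tuple. -/
noncomputable def scaleA (τ : ℝ) (a : Fin R → Fin L → ℂ) : Fin R → Fin L → ℂ :=
  fun i k => (τ : ℂ) * a i k

/-- The deformation of the standard section. -/
noncomputable def Traw (τ : ℝ) (a : Fin R → Fin L → ℂ) (ζ : Fin N → ℂ) :
    (Fin R → Fin L → ℂ) × (Fin N → ℂ) :=
  (fun j m => wv ζ 0 * (wL (scaleA τ a) (pre j) *ᵥ (gG j (a j) *ᵥ eR j)) (Sum.inr m),
    fun k => wv ζ k.succ)

lemma wv_zero_star (ζ : Fin N → ℂ) : star (wv ζ 0) = wv ζ 0 := by
  rw [wv_zero]; simp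

lemma Mval_B0 (a : Fin R → Fin L → ℂ) (ζ : Fin N → ℂ) : Mval a ζ (B0 (R := R) (L := L)) = Traw 1 a ζ := by
  have hs : scaleA 1 a = a := by
    funext i k; simp [scaleA]
  refine Prod.ext ?_ ?_
  · funext j m
    simp only [Mval, Traw, hs, B0, ← frame_eq]
    have h1 : (of (fun i k => if i = Sum.inr m ∧ k = 0 then (1 : ℂ) else 0) :
        Matrix (Idx R L) (Fin (N + 1)) ℂ) *ᵥ wv ζ
        = fun i => if i = Sum.inr m then wv ζ 0 else 0 := by
      funext i
      simp only [mulVec, dotProduct, of_apply]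
      by_cases h : i = Sum.inr m
      · simp [h, Finset.sum_ite_eq']
      · simp [h]
    rw [h1]
    simp only [dotProduct, Pi.star_apply]
    rw [Finset.sum_eq_single (Sum.inr m)]
    · simp [wv_zero_star]
    · intro i _ hi
      simp [hi]
    · simp
  · funext i
    simp only [Mval, Traw, B0, mulVec, dotProduct, of_apply]
    simp [Finset.sum_ite_eq']

lemma Traw_one_eq (a : Fin R → Fin L → ℂ) (ζ : Fin N → ℂ) : Traw 1 a ζ = Mval a ζ (B0 (R := R) (L := L)) :=
  (Mval_B0 a ζ).symm

lemma Traw_zero (a : Fin R → Fin L → ℂ) (ζ : Fin N → ℂ) :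
    Traw 0 a ζ = (fun j m => wv ζ 0 * ((2 / (1 + (usq (a j) : ℂ))) * a j m),
      fun k => (2 / (1 + (usq ζ : ℂ))) * ζ k) := by
  have hs : scaleA 0 a = 0 := by
    funext i k; simp [scaleA]
  refine Prod.ext ?_ ?_
  · funext j m
    simp only [Traw, hs]
    rw [wL_eq_one (a := 0) (fun i _ => rfl), one_mulVec, gG_mulVec_self_inr]
  · funext k
    simp only [Traw, wv_succ]

lemma two_div_ne (u : ℝ) (hu : 0 ≤ u) : (2 / (1 + (u : ℂ))) ≠ 0 := by
  have h : (1 + u : ℝ) ≠ 0 := by positivity
  have h' : (1 + (u : ℂ)) ≠ 0 := by exact_mod_cast h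
  exact div_ne_zero two_ne_zero h'

lemma zeta_zero_of_tail {ζ : Fin N → ℂ} (h : ∀ k : Fin N, wv ζ k.succ = 0) : ζ = 0 := by
  funext k
  have := h k
  rw [wv_succ] at this
  exact (mul_eq_zero.1 this).resolve_left (two_div_ne _ (usq_nonneg ζ))

lemma wv_at_zero : wv (0 : Fin N → ℂ) 0 = 1 := by
  rw [wv_zero]
  have : usq (0 : Fin N → ℂ) = 0 := by simp [usq]
  simp [this]

/-- The deformed standard section only vanishes at the origin. -/
lemma Traw_eq_zero {τ : ℝ} {a : Fin R → Fin L → ℂ} {ζ : Fin N → ℂ} (h : Traw τ a ζ = 0) :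
    a = 0 ∧ ζ = 0 := by
  have h2 : ∀ k : Fin N, wv ζ k.succ = 0 := fun k => congrFun (congrArg Prod.snd h) k
  have hz : ζ = 0 := zeta_zero_of_tail h2
  refine ⟨?_, hz⟩
  have h1 : ∀ j m, wv ζ 0 * (wL (scaleA τ a) (pre j) *ᵥ (gG j (a j) *ᵥ eR j)) (Sum.inr m) = 0 :=
    fun j m => congrFun (congrFun (congrArg Prod.fst h) j) m
  rw [hz, wv_at_zero] at h1
  simp only [one_mul] at h1
  have key : ∀ n : ℕ, ∀ j : Fin R, j.val = n → a j = 0 := by
    intro n
    induction n using Nat.strong_induction_on with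
    | _ n ih =>
      intro j hj
      have h3 : ∀ i ∈ pre j, scaleA τ a i = 0 := by
        intro i hi
        have := mem_pre.1 hi
        have h4 : a i = 0 := ih i.val (by rw [← hj]; exact this) i rfl
        funext k
        simp [scaleA, h4]
      funext m
      have := h1 j m
      rw [wL_eq_one h3, one_mulVec, gG_mulVec_self_inr] at this
      exact (mul_eq_zero.1 this).resolve_left (two_div_ne _ (usq_nonneg _))
  funext j
  exact key _ j rfl

lemma eq_zero_of_raw {x : EP R L N} (h1 : rawA x = 0) (h2 : rawZ x = 0) : x = 0 := by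
  rw [← toE_raw x, h1, h2]
  rfl

lemma continuous_Traw :
    Continuous fun q : ℝ × (Fin R → Fin L → ℂ) × (Fin N → ℂ) => Traw q.1 q.2.1 q.2.2 := by
  have h : ContDiff ℝ 1 fun q : ℝ × (Fin R → Fin L → ℂ) × (Fin N → ℂ) => Traw q.1 q.2.1 q.2.2 := by
    have hw : SmV fun q : ℝ × (Fin R → Fin L → ℂ) × (Fin N → ℂ) => wv q.2.2 :=
      SmV.wv (SmV.of_contDiff contDiff_snd.snd)
    have ha : ∀ i, SmV fun q : ℝ × (Fin R → Fin L → ℂ) × (Fin N → ℂ) => q.2.1 i :=
      fun i => SmV.of_contDiff (contDiff_pi.1 contDiff_snd.fst i)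
    refine ContDiff.prodMk ?_ ?_
    · refine contDiff_pi.2 fun j => contDiff_pi.2 fun m => ?_
      refine (hw 0).mul ?_
      refine Sm.mulVec (wL_smooth ?_ _) (Sm.mulVec (SmV.gG (ha j) j) (SmV.const _)) _
      intro i k
      exact (cd_ofReal contDiff_fst).mul (ha i k)
    · exact contDiff_pi.2 fun k => hw k.succ
  exact h.continuous


lemma toE_Traw_ne {τ : ℝ} {x : EP R L N} (hx : x ∈ sphere (0 : EP R L N) 1) :
    toE (Traw τ (rawA x) (rawZ x)) ≠ (0 : EP R L N) := by
  intro h
  obtain ⟨h1, h2⟩ := Traw_eq_zero (toE_eq_zero h)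
  have := eq_zero_of_raw h1 h2
  rw [this] at hx
  simp at hx

lemma hmt_T : Hmt (fun x : EP R L N => toE (Traw 1 (rawA x) (rawZ x)))
    (fun x => toE (Traw 0 (rawA x) (rawZ x))) := by
  refine ⟨fun s x => toE (Traw (1 - s) (rawA x) (rawZ x)), ?_, ?_, ?_, ?_⟩
  · have h0 : Continuous fun q : ℝ × EP R L N => q.2 := continuous_snd
    have h3 : Continuous fun q : ℝ × EP R L N => rawA q.2 := continuous_rawA.comp h0
    have h4 : Continuous fun q : ℝ × EP R L N => rawZ q.2 := continuous_rawZ.comp h0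
    have h5 : Continuous fun q : ℝ × EP R L N => 1 - q.1 := continuous_const.sub continuous_fst
    have h6 : Continuous fun q : ℝ × EP R L N => (1 - q.1, rawA q.2, rawZ q.2) :=
      h5.prodMk (h3.prodMk h4)
    have h7 := continuous_Traw.comp h6
    have h8 := continuous_toE.comp h7
    exact h8.continuousOn
  · intro x _; simp
  · intro x _; simp
  · intro s _ x hx
    exact toE_Traw_ne hx

lemma coef_zero {s : ℝ} (hs : s ∈ Icc (0 : ℝ) 1) {u : ℝ} (hu : 0 ≤ u) {z : ℂ}
    (h : ((1 - s : ℝ) : ℂ) * ((2 / (1 + (u : ℂ))) * z) + (s : ℂ) * z = 0) : z = 0 := by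
  have h1 : (0 : ℝ) < 2 / (1 + u) := by positivity
  have hc : (0 : ℝ) < (1 - s) * (2 / (1 + u)) + s := by
    rcases eq_or_lt_of_le hs.1 with h0 | h0
    · subst h0
      simpa using h1
    · have : 0 ≤ (1 - s) * (2 / (1 + u)) := mul_nonneg (by linarith [hs.2]) h1.le
      linarith
  have h2 : (((1 - s) * (2 / (1 + u)) + s : ℝ) : ℂ) * z = 0 := by
    push_cast
    push_cast at h
    linear_combination h
  have h3 : (((1 - s) * (2 / (1 + u)) + s : ℝ) : ℂ) ≠ 0 := by
    exact_mod_cast hc.ne'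
  exact (mul_eq_zero.1 h2).resolve_left h3

lemma hmt_last : Hmt (fun x : EP R L N => toE (Traw 0 (rawA x) (rawZ x))) (fun x => x) := by
  refine ⟨fun s x => (1 - s) • toE (Traw 0 (rawA x) (rawZ x)) + s • x, ?_, ?_, ?_, ?_⟩
  · have h0 : Continuous fun q : ℝ × EP R L N => q.2 := continuous_snd
    have h3 : Continuous fun q : ℝ × EP R L N => rawA q.2 := continuous_rawA.comp h0
    have h4 : Continuous fun q : ℝ × EP R L N => rawZ q.2 := continuous_rawZ.comp h0
    have h5 : Continuous fun q : ℝ × EP R L N => (0 : ℝ) := continuous_const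
    have h6 : Continuous fun q : ℝ × EP R L N => ((0 : ℝ), rawA q.2, rawZ q.2) :=
      h5.prodMk (h3.prodMk h4)
    have h7 := continuous_Traw.comp h6
    have h8 := continuous_toE.comp h7
    have h9 : Continuous fun q : ℝ × EP R L N => 1 - q.1 := continuous_const.sub continuous_fst
    have h10 : Continuous fun q : ℝ × EP R L N => q.1 := continuous_fst
    exact ((h9.smul h8).add (h10.smul h0)).continuousOn
  · intro x _; simp
  · intro x _; simp
  · intro s hs x hx h
    have hA := rawA_add_smul (1 - s) s (toE (Traw 0 (rawA x) (rawZ x))) x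
    have hZ := rawZ_add_smul (1 - s) s (toE (Traw 0 (rawA x) (rawZ x))) x
    simp only [h] at hA hZ
    rw [rawZ_toE, Traw_zero] at hZ
    rw [rawA_toE, Traw_zero] at hA
    have hz : rawZ x = 0 := by
      funext k
      have h1 := congrFun hZ k
      exact coef_zero hs (usq_nonneg (rawZ x)) (z := rawZ x k) (by simpa [rawZ] using h1.symm)
    have ha : rawA x = 0 := by
      funext j m
      have h1 := congrFun (congrFun hA j) m
      rw [hz, wv_at_zero] at h1
      simp only [one_mul] at h1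
      exact coef_zero hs (usq_nonneg (rawA x j)) (z := rawA x j m) (by simpa [rawA] using h1.symm)
    have := eq_zero_of_raw ha hz
    rw [this] at hx
    simp at hx

/-- Vanishing on the boundary means that the data lies in a bad set. -/
lemma mem_bad (Vt : (Idx R L → Idx R L → ℂ) → EE R L N) {x : EP R L N}
    (hx : x ∈ sphere (0 : EP R L N) 1) (B : EE R L N) (t : ℝ)
    (h : Mval (rawA x) (rawZ x) (B + t • Vt (fun i k => Pm (rawA x) i k)) = 0) :
    B ∈ (⋃ j, badA Vt j) ∪ badZ Vt := by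
  rcases sphere_face hx with ⟨j, hj⟩ | hz
  · left
    rw [mem_iUnion]
    refine ⟨j, ?_⟩
    obtain ⟨c, hc, b0, hb0, hnorm⟩ := exists_phase (rawA x j)
    have hub : usq b0 = 1 := by
      rw [hb0, usq_smul_of_unit hc] at hj
      exact hj
    have h2 := Mval_collapse_a j hub hc hb0 h
    obtain ⟨c', hc'⟩ := kernel_param h2
    have hP := Pm_collapse (rawA x) j hub hc hb0
    refine ⟨collapse (rawA x) j b0 c, rawZ x, t, c', ?_, ?_, ?_⟩
    · simpa [collapse] using hub
    · simpa [collapse] using hnorm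
    · rw [Psi, ← hc', ← hP]
      simp
  · right
    obtain ⟨c, hc, z0, hz0, hnorm⟩ := exists_phase (rawZ x)
    have hub : usq z0 = 1 := by
      rw [hz0, usq_smul_of_unit hc] at hz
      exact hz
    have h2 := Mval_collapse_z hub hc hz0 h
    obtain ⟨c', hc'⟩ := kernel_param h2
    refine ⟨rawA x, z0, t, c', hub, hnorm, ?_⟩
    rw [Psi, ← hc']
    simp

/-- Every `C¹` section has a zero. -/
theorem exists_zero_smooth (Vt : (Idx R L → Idx R L → ℂ) → EE R L N) (hV : ContDiff ℝ 1 Vt) :
    ∃ x ∈ closedBall (0 : EP R L N) 1,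
      Mval (rawA x) (rawZ x) (Vt (fun i k => Pm (rawA x) i k)) = 0 := by
  by_cases hpos : 0 < Module.finrank ℝ (EE R L N)
  swap
  · have hf : Module.finrank ℝ (EE R L N) = 0 := by omega
    rw [finrank_EE] at hf
    have hN : N = 0 := by
      by_contra h
      have : 0 < N * (N + 1) := by positivity
      omega
    have hL : L = 0 := by
      by_contra h
      have h2 : 0 < R + L := by omega
      have : 0 < L * ((R + L) * (N + 1)) := by positivity
      omega
    subst hN hL
    exact ⟨0, by simp, Subsingleton.elim _ _⟩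
  by_contra hcon
  push Not at hcon
  -- a neighbourhood of `B0`
  have hcont : Continuous fun q : EE R L N × EP R L N => Mval (rawA q.2) (rawZ q.2) q.1 := by
    have h0 : Continuous fun q : EE R L N × EP R L N => q.2 := continuous_snd
    have h3 : Continuous fun q : EE R L N × EP R L N => rawA q.2 := continuous_rawA.comp h0
    have h4 : Continuous fun q : EE R L N × EP R L N => rawZ q.2 := continuous_rawZ.comp h0
    have h5 : Continuous fun q : EE R L N × EP R L N => q.1 := continuous_fst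
    have h6 : Continuous fun q : EE R L N × EP R L N => (rawA q.2, rawZ q.2, q.1) :=
      h3.prodMk (h4.prodMk h5)
    have h7 := continuous_Mval.comp h6
    exact h7
  have htube : ∀ᶠ B in nhds (B0 : EE R L N), ∀ x ∈ sphere (0 : EP R L N) 1,
      Mval (rawA x) (rawZ x) B ≠ 0 := by
    refine (isCompact_sphere (0 : EP R L N) 1).eventually_forall_of_forall_eventually fun y hy => ?_
    refine (hcont.continuousAt (x := ((B0 : EE R L N), y))).eventually_ne ?_
    simp only
    rw [Mval_B0]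
    intro h
    obtain ⟨h1, h2⟩ := Traw_eq_zero h
    have := eq_zero_of_raw h1 h2
    rw [this] at hy
    simp at hy
  obtain ⟨ε, hε, hball⟩ := Metric.eventually_nhds_iff_ball.1 htube
  obtain ⟨B, hB1, hB2⟩ := (dense_good Vt hV hpos).inter_open_nonempty (ball B0 ε) isOpen_ball
    ⟨B0, mem_ball_self hε⟩
  have hV1 : Continuous fun x : EP R L N => Vt (fun i k => Pm (rawA x) i k) := by
    have h1 : Continuous fun a : Fin R → Fin L → ℂ => (fun i k => Pm a i k : Idx R L → Idx R L → ℂ) :=
      (contDiff_Pm (a := fun a => a)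
        (fun i => SmV.of_contDiff (contDiff_pi.1 contDiff_id i))).continuous
    have h2 := h1.comp (continuous_rawA (N := N))
    have h3 := hV.continuous.comp h2
    exact h3
  -- the chain
  have c1 : Hmt (fun x : EP R L N => Mx x (Vt (fun i k => Pm (rawA x) i k))) (fun x => Mx x B) := by
    refine hmt_line hV1 continuous_const ?_
    intro s hs x hx h
    rcases eq_or_lt_of_le hs.1 with h0 | h0
    · subst h0
      simp only [sub_zero, one_smul, zero_smul, add_zero] at h
      exact hcon x (sphere_subset_closedBall hx) h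
    · refine hB2 (mem_bad Vt hx B ((1 - s) / s) ?_)
      rw [Mval_comb] at h
      have e : B + ((1 - s) / s) • Vt (fun i k => Pm (rawA x) i k)
          = (1 : ℝ) • B + ((1 - s) / s) • Vt (fun i k => Pm (rawA x) i k) := by simp
      rw [e, Mval_comb]
      have e2 : (1 : ℝ) • Mval (rawA x) (rawZ x) B + ((1 - s) / s) • Mval (rawA x) (rawZ x)
          (Vt fun i k => Pm (rawA x) i k) = (1 / s) • ((1 - s) • Mval (rawA x) (rawZ x)
          (Vt fun i k => Pm (rawA x) i k) + s • Mval (rawA x) (rawZ x) B) := by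
        rw [smul_add, smul_smul, smul_smul]
        have e3 : 1 / s * (1 - s) = (1 - s) / s := by ring
        have e4 : 1 / s * s = 1 := by field_simp
        rw [e3, e4, add_comm]
      rw [e2, h, smul_zero]
  have c2 : Hmt (fun x : EP R L N => Mx x B) (fun x => Mx x B0) := by
    refine hmt_line (β₀ := fun _ => B) (β₁ := fun _ => B0) continuous_const continuous_const ?_
    intro s hs x hx
    refine hball _ ?_ x hx
    have h0 : 0 ≤ 1 - s := by linarith [hs.2]
    exact (convex_ball (B0 : EE R L N) ε) hB1 (mem_ball_self hε) h0 hs.1 (by ring)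
  have c3 : (fun x : EP R L N => Mx x B0) = fun x => toE (Traw 1 (rawA x) (rawZ x)) := by
    funext x
    rw [Mx, Mval_B0]
  rw [c3] at c2
  obtain ⟨H, hH, hH0, hH1, hne⟩ := (c1.trans c2).trans (hmt_T.trans hmt_last)
  have hfr : frontier (closedBall (0 : EP R L N) 1) = sphere 0 1 :=
    frontier_closedBall _ one_ne_zero
  obtain ⟨x, hx, hx0⟩ := QTBrouwer.exists_zero_of_homotopy (E := EP R L N) (V := EP R L N)
    (D := closedBall 0 1) (convex_closedBall _ _) (isCompact_closedBall _ _)
    (closedBall_mem_nhds _ one_pos) (ContinuousLinearEquiv.refl ℝ _)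
    (F := fun x => Mx x (Vt (fun i k => Pm (rawA x) i k)))
    ((continuous_Mx (β := fun q : ℝ × EP R L N => Vt (fun i k => Pm (rawA q.2) i k))
      (hV1.comp continuous_snd)).comp (Continuous.prodMk (continuous_const (y := (0 : ℝ))) continuous_id)).continuousOn
    (H := H) (by rwa [hfr]) (by rwa [hfr]) (by rwa [hfr]) (by rwa [hfr])
  exact hcon x hx (toE_eq_zero hx0)

/-! ### From continuous to smooth -/

lemma exists_smooth_approx {A F : Type*} [NormedAddCommGroup A] [NormedSpace ℝ A]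
    [FiniteDimensional ℝ A] [NormedAddCommGroup F] [NormedSpace ℝ F]
    {K : Set A} (hK : IsClosed K) {f : A → F} (hf : ContinuousOn f K) {δ : ℝ} (hδ : 0 < δ) :
    ∃ g : A → F, ContDiff ℝ 1 g ∧ ∀ x ∈ K, dist (g x) (f x) < δ := by
  classical
  let t : A → Set F := fun x => if x ∈ K then ball (f x) δ else univ
  have ht : ∀ x, Convex ℝ (t x) := by
    intro x
    by_cases hx : x ∈ K
    · simpa [t, hx] using convex_ball _ _
    · simpa [t, hx] using convex_univ
  have Hloc : ∀ x : A, ∃ c : F, ∀ᶠ y in nhds x, c ∈ t y := by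
    intro x
    by_cases hx : x ∈ K
    · refine ⟨f x, ?_⟩
      have h1 := (hf x hx).eventually (Metric.ball_mem_nhds (f x) hδ)
      rw [eventually_nhdsWithin_iff] at h1
      filter_upwards [h1] with y hy
      by_cases hyK : y ∈ K
      · have := hy hyK
        simp only [t, hyK, if_true, mem_ball]
        rw [dist_comm]
        exact this
      · simp [t, hyK]
    · refine ⟨0, ?_⟩
      have h1 : ∀ᶠ y in nhds x, y ∉ K := hK.isOpen_compl.mem_nhds hx
      filter_upwards [h1] with y hy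
      simp [t, hy]
  obtain ⟨g, hg⟩ := exists_contMDiffMap_forall_mem_convex_of_local_const
    (I := modelWithCornersSelf ℝ A) (n := (⊤ : ℕ∞)) ht Hloc
  refine ⟨g, ?_, ?_⟩
  · have := g.contMDiff.contDiff
    exact this.of_le (by exact_mod_cast le_top)
  · intro x hx
    have := hg x
    simpa [t, hx] using this

/-- The real Grassmannian of rank `R` projections of `ℂ^R ⊕ ℂ^L`. -/
def Gr (R L : ℕ) : Set (Matrix (Fin R ⊕ Fin L) (Fin R ⊕ Fin L) ℂ) :=
  {P | Pᴴ = P ∧ P * P = P ∧ P.trace = (R : ℂ)}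

lemma Pm_mem_Gr (a : Fin R → Fin L → ℂ) : Pm a ∈ Gr R L :=
  ⟨Pm_conjTranspose a, Pm_mul_self a, Pm_trace a⟩

/-- Matrices as plain functions. -/
abbrev RawP (R L : ℕ) := Idx R L → Idx R L → ℂ

/-- **Euler class nonvanishing.** -/
theorem grass_section_zero (R L N : ℕ)
    (V₀ : Matrix (Fin R ⊕ Fin L) (Fin R ⊕ Fin L) ℂ → Matrix (Fin N) (Fin (N + 1)) ℂ)
    (V : Fin L → Matrix (Fin R ⊕ Fin L) (Fin R ⊕ Fin L) ℂ → Matrix (Fin R ⊕ Fin L) (Fin (N + 1)) ℂ)
    (hV₀ : ContinuousOn V₀ (Gr R L)) (hV : ∀ m, ContinuousOn (V m) (Gr R L)) :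
    ∃ P ∈ Gr R L, ∃ w : Fin (N + 1) → ℂ, w ≠ 0 ∧ V₀ P *ᵥ w = 0 ∧ ∀ m, P *ᵥ (V m P *ᵥ w) = 0 := by
  by_contra hcon
  push Not at hcon
  let Pr : EP R L N → RawP R L := fun x => fun i k => Pm (rawA x) i k
  have hPr : Continuous Pr := by
    have h1 : Continuous fun a : Fin R → Fin L → ℂ => (fun i k => Pm a i k : Idx R L → Idx R L → ℂ) :=
      (contDiff_Pm (a := fun a => a)
        (fun i => SmV.of_contDiff (contDiff_pi.1 contDiff_id i))).continuous
    have h2 := h1.comp (continuous_rawA (N := N))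
    exact h2
  let K₀ : Set (RawP R L) := Pr '' closedBall 0 1
  have hK₀ : IsCompact K₀ := (isCompact_closedBall _ _).image hPr
  have hK₀Gr : ∀ P ∈ K₀, (of P : Matrix _ _ ℂ) ∈ Gr R L := by
    rintro P ⟨x, -, rfl⟩
    exact Pm_mem_Gr (rawA x)
  let Vh : RawP R L → EE R L N := fun P => (fun i k => V₀ (of P) i k, fun m i k => V m (of P) i k)
  have hVh : ContinuousOn Vh K₀ := by
    refine ContinuousOn.prodMk ?_ ?_
    · refine continuousOn_pi.2 fun i => continuousOn_pi.2 fun k => ?_
      have h1 : ContinuousOn (fun P : RawP R L => V₀ (of P)) K₀ :=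
        hV₀.comp continuous_id.continuousOn hK₀Gr
      exact (continuous_id.matrix_elem i k).comp_continuousOn h1
    · refine continuousOn_pi.2 fun m => continuousOn_pi.2 fun i => continuousOn_pi.2 fun k => ?_
      have h1 : ContinuousOn (fun P : RawP R L => V m (of P)) K₀ :=
        (hV m).comp continuous_id.continuousOn hK₀Gr
      exact (continuous_id.matrix_elem i k).comp_continuousOn h1
  let Θ : RawP R L × (Fin (N + 1) → ℂ) × EE R L N → (Fin N → ℂ) × (Fin L → Idx R L → ℂ) :=
    fun q => (of q.2.2.1 *ᵥ q.2.1, fun m => of q.1 *ᵥ (of (q.2.2.2 m) *ᵥ q.2.1))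
  have hΘ : Continuous Θ := by
    have hw : Continuous fun q : RawP R L × (Fin (N + 1) → ℂ) × EE R L N => q.2.1 :=
      continuous_snd.fst
    refine Continuous.prodMk ?_ ?_
    · have hM : Continuous fun q : RawP R L × (Fin (N + 1) → ℂ) × EE R L N =>
          (of q.2.2.1 : Matrix (Fin N) (Fin (N + 1)) ℂ) := continuous_snd.snd.fst
      exact hM.matrix_mulVec hw
    · refine continuous_pi fun m => ?_
      have hM : Continuous fun q : RawP R L × (Fin (N + 1) → ℂ) × EE R L N =>
          (of (q.2.2.2 m) : Matrix (Idx R L) (Fin (N + 1)) ℂ) :=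
        (continuous_apply m).comp continuous_snd.snd.snd
      have hM0 : Continuous fun q : RawP R L × (Fin (N + 1) → ℂ) × EE R L N =>
          (of q.1 : Matrix (Idx R L) (Idx R L) ℂ) := continuous_fst
      exact hM0.matrix_mulVec (hM.matrix_mulVec hw)
  have hU : IsOpen {q | Θ q ≠ 0} := isOpen_ne_fun hΘ continuous_const
  let Φ : EP R L N → RawP R L × (Fin (N + 1) → ℂ) × EE R L N :=
    fun x => (Pr x, wv (rawZ x), Vh (Pr x))
  have hΦ : ContinuousOn Φ (closedBall 0 1) := by
    refine hPr.continuousOn.prodMk (ContinuousOn.prodMk ?_ ?_)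
    · have hw : Continuous fun ζ : Fin N → ℂ => wv ζ :=
        contDiff_pi.2 (SmV.wv (fun k => contDiff_pi.1 contDiff_id k)) |>.continuous
      exact (hw.comp continuous_rawZ).continuousOn
    · exact hVh.comp hPr.continuousOn (fun x hx => mem_image_of_mem _ hx)
  have hK' : IsCompact (Φ '' closedBall 0 1) := (isCompact_closedBall _ _).image_of_continuousOn hΦ
  have hsub : Φ '' closedBall 0 1 ⊆ {q | Θ q ≠ 0} := by
    rintro _ ⟨x, hx, rfl⟩ h0
    have h1 := congrArg Prod.fst h0
    have h2 := congrArg Prod.snd h0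
    obtain ⟨m, hm⟩ := hcon (of (Pr x)) (Pm_mem_Gr (rawA x)) (wv (rawZ x)) (wv_ne_zero _) h1
    exact hm (congrFun h2 m)
  obtain ⟨δ, hδ, hthick⟩ := hK'.exists_thickening_subset_open hU hsub
  obtain ⟨Vt, hVt, hclose⟩ := exists_smooth_approx hK₀.isClosed hVh hδ
  obtain ⟨x, hx, hzero⟩ := exists_zero_smooth (N := N) Vt hVt
  have hmem : (Pr x, wv (rawZ x), Vt (Pr x)) ∈ thickening δ (Φ '' closedBall 0 1) := by
    rw [Metric.mem_thickening_iff]
    refine ⟨Φ x, mem_image_of_mem _ hx, ?_⟩
    have h1 := hclose (Pr x) (mem_image_of_mem _ hx)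
    simp only [Φ, dist_prod_same_left]
    exact h1
  refine hthick hmem ?_
  rw [Mval_eq_zero_iff] at hzero
  refine Prod.ext hzero.1 ?_
  funext m
  change Pm (rawA x) *ᵥ (of ((Vt (Pr x)).2 m) *ᵥ wv (rawZ x)) = 0
  rw [Pm_mulVec, Finset.sum_eq_zero]
  intro j _
  have := hzero.2 m j
  rw [this, zero_smul]

end Crest.Agent.Lib.QTGrass
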