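import Crest.Agent.Lib.CStarQuot

/-!
# S0188 assembly, part 1 (row 137, Module E): no rectangular isometries in `A ⧸ genIdeal p`

Abstract criterion: if every finite system "`C w = 0`, `p B' w = 0`" has a nonzero solution in some
finite-dimensional representation of `A`, then `A ⧸ genIdeal p` has no `m × n` isometry with `m < n`.
-/

set_option autoImplicit false
set_option linter.unusedVariables false

namespace Crest.Agent.Lib.QTRC

open Crest.Agent.Lib.CStarQuot
open scoped Matrix Matrix.Norms.L2Operator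

/-- The Euclidean norm of a vector. -/
noncomputable def nrm {T : Type} [Fintype T] (u : T → ℂ) : ℝ :=
  ‖(WithLp.toLp 2 u : EuclideanSpace ℂ T)‖

lemma nrm_nonneg {T : Type} [Fintype T] (u : T → ℂ) : 0 ≤ nrm u := norm_nonneg _

lemma dot_self_eq {T : Type} [Fintype T] (u : T → ℂ) :
    star u ⬝ᵥ u = ((nrm u ^ 2 : ℝ) : ℂ) := by
  have h := EuclideanSpace.inner_eq_star_dotProduct (𝕜 := ℂ) (WithLp.toLp 2 u : EuclideanSpace ℂ T)
    (WithLp.toLp 2 u)
  have h2 : (inner ℂ (WithLp.toLp 2 u : EuclideanSpace ℂ T) (WithLp.toLp 2 u) : ℂ)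
      = ((nrm u ^ 2 : ℝ) : ℂ) := by
    rw [inner_self_eq_norm_sq_to_K]
    simp [nrm]
  rw [← h2, h]
  simp [dotProduct_comm]

lemma nrm_eq_zero {T : Type} [Fintype T] {u : T → ℂ} (h : nrm u = 0) : u = 0 := by
  have : (WithLp.toLp 2 u : EuclideanSpace ℂ T) = 0 := norm_eq_zero.1 h
  simpa using this

lemma dot_bound {T : Type} [Fintype T] [DecidableEq T] (M : Matrix T T ℂ) (u v : T → ℂ) :
    ‖star u ⬝ᵥ (M *ᵥ v)‖ ≤ ‖M‖ * (nrm u * nrm v) := by
  have h := EuclideanSpace.inner_eq_star_dotProduct (𝕜 := ℂ) (WithLp.toLp 2 u : EuclideanSpace ℂ T)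
    (WithLp.toLp 2 (M *ᵥ v))
  have h1 : ‖(WithLp.toLp 2 (M *ᵥ v) : EuclideanSpace ℂ T)‖ ≤ ‖M‖ * nrm v :=
    Matrix.l2_opNorm_mulVec M (WithLp.toLp 2 v)
  have h2 := norm_inner_le_norm (𝕜 := ℂ) (WithLp.toLp 2 u : EuclideanSpace ℂ T)
    (WithLp.toLp 2 (M *ᵥ v))
  have h3 : star u ⬝ᵥ (M *ᵥ v)
      = inner ℂ (WithLp.toLp 2 u : EuclideanSpace ℂ T) (WithLp.toLp 2 (M *ᵥ v)) := by
    rw [h]; simp [dotProduct_comm]
  rw [h3]
  calc _ ≤ _ := h2
    _ = nrm u * ‖(WithLp.toLp 2 (M *ᵥ v) : EuclideanSpace ℂ T)‖ := rfl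
    _ ≤ nrm u * (‖M‖ * nrm v) := by gcongr; exact nrm_nonneg u
    _ = _ := by ring

/-- No rectangular isometries. -/
def RC (B : Type*) [Ring B] [StarRing B] : Prop :=
  ∀ m n : ℕ, m < n → ∀ c : Matrix (Fin m) (Fin n) B, c.conjTranspose * c ≠ 1

/-- RC passes along unital star ring homomorphisms. -/
lemma RC.of_hom {B B' : Type*} [Ring B] [StarRing B] [Ring B'] [StarRing B'] (h : RC B')
    (φ : B →+* B') (hφ : ∀ x, φ (star x) = star (φ x)) : RC B := by
  intro m n hmn c hc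
  refine h m n hmn (c.map φ) ?_
  have h1 : (c.map φ).conjTranspose = c.conjTranspose.map φ := by
    ext i j; simp [Matrix.conjTranspose_apply, hφ]
  rw [h1, ← Matrix.map_mul, hc, Matrix.map_one φ (map_zero φ) (map_one φ)]

/-- Quadratic form computation: the sum of `⟨w_i, (∑_a C_ai^* C_aj) w_j⟩` vanishes when `C w = 0`. -/
lemma sum_dot_eq_zero {T : Type} [Fintype T] [DecidableEq T] {m n : ℕ}
    (C : Fin m → Fin n → Matrix T T ℂ) (w : Fin n → T → ℂ)
    (h : ∀ a, ∑ i, C a i *ᵥ w i = 0) :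
    ∑ i, ∑ j, star (w i) ⬝ᵥ ((∑ a, star (C a i) * C a j) *ᵥ w j) = 0 := by
  have h1 : ∀ i j, star (w i) ⬝ᵥ ((∑ a, star (C a i) * C a j) *ᵥ w j)
      = ∑ a, star (C a i *ᵥ w i) ⬝ᵥ (C a j *ᵥ w j) := by
    intro i j
    rw [Matrix.sum_mulVec, dotProduct_sum]
    refine Finset.sum_congr rfl fun a _ => ?_
    rw [← Matrix.mulVec_mulVec, Matrix.star_mulVec, Matrix.star_eq_conjTranspose,
      Matrix.dotProduct_mulVec]
  simp_rw [h1]
  rw [Finset.sum_congr rfl fun i _ => Finset.sum_comm]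
  rw [Finset.sum_comm]
  refine Finset.sum_eq_zero fun a _ => ?_
  have h2 : ∑ i, ∑ j, star (C a i *ᵥ w i) ⬝ᵥ (C a j *ᵥ w j)
      = star (∑ i, C a i *ᵥ w i) ⬝ᵥ (∑ j, C a j *ᵥ w j) := by
    rw [star_sum, sum_dotProduct]
    refine Finset.sum_congr rfl fun i _ => ?_
    rw [dotProduct_sum]
  rw [h2, h a]
  simp

variable {A : Type*} [CStarAlgebra A]

/-- The abstract criterion for RC of the quotient. -/
theorem rc_quot_of_sec (p : A) [Fact (IsSelfAdjoint p)]
    (hSEC : ∀ m n : ℕ, m < n → ∀ q : ℕ, ∀ (C : Fin m → Fin n → A) (B' : Fin q → A)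
      (j : Fin q → Fin n),
      ∃ (T : Type) (_ : Fintype T) (_ : DecidableEq T) (π : A →⋆ₐ[ℂ] Matrix T T ℂ)
        (w : Fin n → T → ℂ), w ≠ 0 ∧ (∀ a, ∑ i, π (C a i) *ᵥ w i = 0) ∧
          ∀ r, π p *ᵥ (π (B' r) *ᵥ w (j r)) = 0) :
    RC (A ⧸ genIdeal p) := by
  intro m n hmn c hc
  have hn : 0 < n := by omega
  have hn' : (0 : ℝ) < n := by exact_mod_cast hn
  -- lift
  choose cl hcl using fun (a : Fin m) (i : Fin n) => Ideal.Quotient.mk_surjective (c a i)
  set x : Fin n → Fin n → A := fun i j =>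
    ∑ a, star (cl a i) * cl a j - (1 : Matrix (Fin n) (Fin n) A) i j with hx
  have hxJ : ∀ i j, x i j ∈ genIdeal p := by
    intro i j
    rw [← qmk_eq_zero_iff]
    have h1 := congrFun (congrFun hc i) j
    rw [Matrix.mul_apply] at h1
    have h2 : qmk (genIdeal p) ((1 : Matrix (Fin n) (Fin n) A) i j)
        = (1 : Matrix (Fin n) (Fin n) (A ⧸ genIdeal p)) i j := by
      by_cases hij : i = j
      · subst hij; simp
      · simp [hij]
    simp only [hx, map_sub, map_sum, map_mul, h2]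
    rw [← h1, sub_eq_zero]
    refine Finset.sum_congr rfl fun a _ => ?_
    rw [Matrix.conjTranspose_apply, ← hcl a i, ← hcl a j]
    rfl
  set ε : ℝ := 1 / (2 * n) with hε
  have hε0 : 0 < ε := by positivity
  choose N a b hab using fun (i j : Fin n) => genIdeal_approx (hxJ i j) hε0
  -- index the `b`
  let Idx := Σ i : Fin n, Σ j : Fin n, Fin (N i j)
  let e : Fin (Fintype.card Idx) ≃ Idx := (Fintype.equivFin Idx).symm
  obtain ⟨T, _, _, π, w, hw0, hw1, hw2⟩ := hSEC m n hmn (Fintype.card Idx) cl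
    (fun r => b (e r).1 (e r).2.1 (e r).2.2) (fun r => (e r).2.1)
  have hw2' : ∀ i j (s : Fin (N i j)), π p *ᵥ (π (b i j s) *ᵥ w j) = 0 := by
    intro i j s
    have key : ∀ r, ∀ t : Idx, e r = t → π p *ᵥ (π (b t.1 t.2.1 t.2.2) *ᵥ w t.2.1) = 0 := by
      rintro r t rfl; exact hw2 r
    exact key _ ⟨i, j, s⟩ (e.apply_symm_apply _)
  -- replace `x` by the small error
  set y : Fin n → Fin n → A := fun i j => x i j - ∑ s, a i j s * p * b i j s with hy
  have hy1 : ∀ i j, π (x i j) *ᵥ w j = π (y i j) *ᵥ w j := by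
    intro i j
    have h1 : x i j = y i j + ∑ s, a i j s * p * b i j s := by simp [hy]
    rw [h1, map_add, Matrix.add_mulVec, map_sum, Matrix.sum_mulVec]
    have h2 : ∀ s, π (a i j s * p * b i j s) *ᵥ w j = 0 := by
      intro s
      rw [map_mul, map_mul, ← Matrix.mulVec_mulVec, ← Matrix.mulVec_mulVec, hw2' i j s,
        Matrix.mulVec_zero]
    rw [Finset.sum_eq_zero fun s _ => h2 s, add_zero]
  have hy2 : ∀ i j, ‖π (y i j)‖ ≤ ε := fun i j =>
    (NonUnitalStarAlgHom.norm_apply_le π (y i j)).trans (hab i j).le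
  -- the quadratic form
  set W : ℝ := ∑ i, nrm (w i) ^ 2 with hW
  have hS : ∑ i, ∑ j, star (w i) ⬝ᵥ (π (x i j) *ᵥ w j) = -((W : ℝ) : ℂ) := by
    have h1 : ∀ i j, π (x i j) = ∑ a, star (π (cl a i)) * π (cl a j)
        - (1 : Matrix (Fin n) (Fin n) (Matrix T T ℂ)) i j := by
      intro i j
      simp only [hx, map_sub, map_sum, map_mul, map_star]
      congr 1
      by_cases hij : i = j
      · subst hij; simp
      · simp [hij]
    have h2 := sum_dot_eq_zero (fun a i => π (cl a i)) w hw1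
    have h3 : ∀ i j, star (w i) ⬝ᵥ (π (x i j) *ᵥ w j)
        = star (w i) ⬝ᵥ ((∑ a, star (π (cl a i)) * π (cl a j)) *ᵥ w j)
          - (if i = j then star (w i) ⬝ᵥ w j else 0) := by
      intro i j
      rw [h1, Matrix.sub_mulVec, dotProduct_sub]
      congr 1
      by_cases hij : i = j
      · subst hij; simp
      · simp [hij]
    simp_rw [h3, Finset.sum_sub_distrib]
    rw [h2]
    simp [hW, dot_self_eq]
  have hbound : W ≤ ε * (∑ i, nrm (w i)) ^ 2 := by
    have h1 : ‖∑ i, ∑ j, star (w i) ⬝ᵥ (π (x i j) *ᵥ w j)‖ = W := by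
      rw [hS, norm_neg, Complex.norm_real, Real.norm_eq_abs, abs_of_nonneg]
      exact Finset.sum_nonneg fun i _ => by positivity
    rw [← h1, sq, Finset.sum_mul_sum, Finset.mul_sum]
    refine (norm_sum_le _ _).trans (Finset.sum_le_sum fun i _ => ?_)
    rw [Finset.mul_sum]
    refine (norm_sum_le _ _).trans (Finset.sum_le_sum fun j _ => ?_)
    rw [hy1]
    refine (dot_bound _ _ _).trans ?_
    gcongr
    · exact mul_nonneg (nrm_nonneg _) (nrm_nonneg _)
    · exact hy2 i j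
  have hcs : (∑ i, nrm (w i)) ^ 2 ≤ n * W := by
    have := sq_sum_le_card_mul_sum_sq (s := (Finset.univ : Finset (Fin n))) (f := fun i => nrm (w i))
    simpa [hW] using this
  have hW2 : W ≤ W / 2 := by
    calc W ≤ ε * (∑ i, nrm (w i)) ^ 2 := hbound
      _ ≤ ε * (n * W) := by gcongr
      _ = W / 2 := by rw [hε]; field_simp
  have hW0 : W ≤ 0 := by linarith
  have hw00 : ∀ i, nrm (w i) ^ 2 = 0 := by
    have h1 := (Finset.sum_eq_zero_iff_of_nonneg (fun i _ => by positivity)).1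
      (le_antisymm hW0 (Finset.sum_nonneg fun i _ => by positivity))
    exact fun i => h1 i (Finset.mem_univ i)
  apply hw0
  funext i
  have := hw00 i
  exact nrm_eq_zero (by simpa using this)

end Crest.Agent.Lib.QTRC
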