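import Mathlib

/-!
# The inequality T1 (row 137, module C1)

For Hermitian `x, y` with `D = x - y`: `‖√x₊ - √y₊‖₂² ≤ 2 (Tr D₊ + Tr D₋)`.

The abstract form `T1_abstract` takes any decomposition `x = a² - n`, `y = b² - m` with
`a, b, n, m ≥ 0`, `a n = 0`, `b m = 0` and any decomposition `x - y = P - Q`, `P, Q ≥ 0`.
The concrete form `T1` uses the functional calculus.
-/

set_option autoImplicit false

namespace Crest.Agent.Lib.QTT1

open Matrix
open scoped ComplexOrder MatrixOrder Matrix.Norms.L2Operator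

variable {ι : Type*} [Fintype ι] [DecidableEq ι]

/-- Real part of the trace. -/
noncomputable def rt (A : Matrix ι ι ℂ) : ℝ := A.trace.re

lemma rt_add (A B : Matrix ι ι ℂ) : rt (A + B) = rt A + rt B := by simp [rt, trace_add]
lemma rt_sub (A B : Matrix ι ι ℂ) : rt (A - B) = rt A - rt B := by simp [rt, trace_sub]
lemma rt_mul_comm (A B : Matrix ι ι ℂ) : rt (A * B) = rt (B * A) := by
  unfold rt; rw [trace_mul_comm]

lemma rt_nonneg {A : Matrix ι ι ℂ} (hA : A.PosSemidef) : 0 ≤ rt A := by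
  have := hA.trace_nonneg
  exact (Complex.le_def.mp this).1

/-- `Tr (A B) ≥ 0` for `A, B ≥ 0`. -/
lemma rt_mul_nonneg {A B : Matrix ι ι ℂ} (hA : A.PosSemidef) (hB : B.PosSemidef) :
    0 ≤ rt (A * B) := by
  obtain ⟨C, rfl⟩ := CStarAlgebra.nonneg_iff_eq_star_mul_self.mp hA.nonneg
  rw [star_eq_conjTranspose]
  have h : rt (Cᴴ * C * B) = rt (C * B * Cᴴ) := by
    rw [rt_mul_comm (Cᴴ * C) B, ← Matrix.mul_assoc, rt_mul_comm (B * Cᴴ) C, Matrix.mul_assoc]
  rw [h]
  exact rt_nonneg (hB.mul_mul_conjTranspose_same C)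

lemma exists_sqrt_psd {A : Matrix ι ι ℂ} (hA : A.PosSemidef) :
    ∃ s : Matrix ι ι ℂ, s.PosSemidef ∧ s * s = A := by
  refine ⟨CFC.sqrt A, (CFC.sqrt_nonneg A).posSemidef, CFC.sqrt_mul_sqrt_self A hA.nonneg⟩

/-- Operator monotonicity of the square root. -/
lemma psd_sub_of_mul_self {p q : Matrix ι ι ℂ} (hp : p.PosSemidef) (hq : q.PosSemidef)
    (h : (q * q - p * p).PosSemidef) : (q - p).PosSemidef := by
  have h1 : p * p ≤ q * q := h
  have h2 := CFC.sqrt_le_sqrt _ _ h1
  rw [CFC.sqrt_mul_self p hp.nonneg, CFC.sqrt_mul_self q hq.nonneg] at h2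
  exact h2

/-- The support projection. -/
lemma exists_support {a : Matrix ι ι ℂ} (ha : a.PosSemidef) :
    ∃ e : Matrix ι ι ℂ, e.IsHermitian ∧ e * e = e ∧ e * a = a ∧ ∀ n, a * n = 0 → e * n = 0 := by
  have hsa : IsSelfAdjoint a := ha.1
  have hfin : (spectrum ℝ a).Finite := Matrix.finite_real_spectrum
  have hc : ∀ f : ℝ → ℝ, ContinuousOn f (spectrum ℝ a) := fun f => hfin.continuousOn f
  refine ⟨cfc (fun t : ℝ => t⁻¹ * t) a, ?_, ?_, ?_, ?_⟩
  · exact cfc_predicate _ _
  · rw [← cfc_mul _ _ a (hc _) (hc _)]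
    congr 1
    funext t
    by_cases ht : t = 0
    · simp [ht]
    · field_simp
  · have h2 := cfc_mul (fun t : ℝ => t⁻¹ * t) (fun t : ℝ => t) a (hc _) (hc _)
    rw [cfc_id' ℝ a hsa] at h2
    rw [← h2]
    have h3 : (fun t : ℝ => t⁻¹ * t * t) = fun t : ℝ => t := by
      funext t
      by_cases ht : t = 0
      · simp [ht]
      · field_simp
    rw [h3, cfc_id' ℝ a hsa]
  · intro n hn
    have h1 : cfc (fun t : ℝ => t⁻¹ * t) a = cfc (fun t : ℝ => t⁻¹) a * a := by
      have := cfc_mul (fun t : ℝ => t⁻¹) (fun t : ℝ => t) a (hc _) (hc _)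
      rwa [cfc_id' ℝ a hsa] at this
    rw [h1, Matrix.mul_assoc, hn, Matrix.mul_zero]

/-- Half of the estimate. -/
lemma half {a b n m P Q e : Matrix ι ι ℂ} (ha : a.PosSemidef) (hb : b.PosSemidef)
    (hm : m.PosSemidef) (hP : P.PosSemidef) (hQ : Q.PosSemidef) (hn : n.PosSemidef)
    (he : e.IsHermitian) (hee : e * e = e) (hea : e * a = a) (hen : e * n = 0)
    (hD : (a * a - n) - (b * b - m) = P - Q) :
    rt (a * a) - rt (a * b) ≤ rt ((1 - e) * (b * b)) + rt (e * P) := by
  have hae : a * e = a := by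
    have := congrArg conjTranspose hea
    rwa [conjTranspose_mul, he.eq, ha.1.eq] at this
  have hne : n * e = 0 := by
    have := congrArg conjTranspose hen
    rwa [conjTranspose_mul, he.eq, hn.1.eq, conjTranspose_zero] at this
  have hE : (e ᴴ) = e := he.eq
  -- positivity of e' := 1 - e
  have hee' : (1 - e) * (1 - e) = 1 - e := by
    rw [Matrix.sub_mul, Matrix.mul_sub, Matrix.mul_sub, hee]
    simp
  have he'H : (1 - e)ᴴ = 1 - e := by simp [conjTranspose_sub, hE]
  have he'psd : (1 - e).PosSemidef := by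
    have := posSemidef_conjTranspose_mul_self (1 - e)
    rwa [he'H, hee'] at this
  have hbb : (b * b).PosSemidef := by
    have := posSemidef_conjTranspose_mul_self b
    rwa [hb.1.eq] at this
  -- H
  set H : Matrix ι ι ℂ := e * (b * b + P) * e with hH
  have hHpsd : H.PosSemidef := by
    have := (hbb.add hP).mul_mul_conjTranspose_same e
    rwa [hE] at this
  obtain ⟨c, hc, hcc⟩ := exists_sqrt_psd hHpsd
  set p : Matrix ι ι ℂ := e * b * e with hp
  have hppsd : p.PosSemidef := by
    have := hb.mul_mul_conjTranspose_same e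
    rwa [hE] at this
  -- a ≤ c
  have hbP : b * b + P - a * a = m + Q - n := by
    have : P = (a * a - n) - (b * b - m) + Q := by rw [hD]; abel
    rw [this]; abel
  have h1 : (c * c - a * a).PosSemidef := by
    have e1 : c * c - a * a = e * (m + Q) * e := by
      have e2 : e * (a * a) * e = a * a := by
        rw [← Matrix.mul_assoc, hea, Matrix.mul_assoc, hae]
      have e3 : e * n * e = 0 := by rw [hen, Matrix.zero_mul]
      have e4 : e * (b * b + P - a * a) * e = H - a * a := by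
        rw [hH, Matrix.mul_sub, Matrix.sub_mul, e2]
      rw [hcc, ← e4, hbP, Matrix.mul_sub, Matrix.sub_mul, e3, sub_zero]
    rw [e1]
    have := (hm.add hQ).mul_mul_conjTranspose_same e
    rwa [hE] at this
  have h2 : (c * c - p * p).PosSemidef := by
    have e1 : c * c - p * p = e * (b * (1 - e) * b + P) * e := by
      have e2 : p * p = e * (b * e * b) * e := by
        simp only [hp]
        calc e * b * e * (e * b * e) = e * b * (e * e) * b * e := by
              simp only [Matrix.mul_assoc]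
          _ = e * (b * e * b) * e := by rw [hee]; simp only [Matrix.mul_assoc]
      rw [hcc, e2, hH, ← Matrix.sub_mul, ← Matrix.mul_sub]
      congr 2
      rw [Matrix.mul_sub, Matrix.sub_mul, Matrix.mul_one]
      abel
    rw [e1]
    have h3 : (b * (1 - e) * b).PosSemidef := by
      have := he'psd.conjTranspose_mul_mul_same b
      rwa [hb.1.eq] at this
    have := (h3.add hP).mul_mul_conjTranspose_same e
    rwa [hE] at this
  have hac := psd_sub_of_mul_self ha hc h1
  have hpc := psd_sub_of_mul_self hppsd hc h2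
  have t1 := rt_mul_nonneg ha hac
  have t2 := rt_mul_nonneg hac hpc
  have t3 := rt_mul_nonneg hpc hppsd
  rw [Matrix.mul_sub, rt_sub] at t1
  rw [Matrix.mul_sub, Matrix.sub_mul, Matrix.sub_mul, rt_sub, rt_sub, rt_sub] at t2
  rw [Matrix.sub_mul, rt_sub] at t3
  -- identities
  have i1 : rt (a * p) = rt (a * b) := by
    have : a * p = a * b * e := by
      simp only [hp]
      rw [← Matrix.mul_assoc, ← Matrix.mul_assoc, hae]
    rw [this, rt_mul_comm, ← Matrix.mul_assoc, hea]
  have i2 : rt (c * c) = rt (e * (b * b)) + rt (e * P) := by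
    rw [hcc, hH, rt_mul_comm, ← Matrix.mul_assoc, hee, Matrix.mul_add, rt_add]
  have i3 : rt (p * p) = rt (e * b * e * b) := by
    have e1 : p * p = (e * b * e * b) * e := by
      simp only [hp]
      calc e * b * e * (e * b * e) = e * b * (e * e) * b * e := by simp only [Matrix.mul_assoc]
        _ = e * b * e * b * e := by rw [hee]
    have e2 : e * (e * b * e * b) = e * b * e * b := by
      simp only [← Matrix.mul_assoc]
      rw [hee]
    rw [e1, rt_mul_comm, e2]
  have t4 : 0 ≤ rt ((1 - e) * (b * (1 - e) * b)) := by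
    refine rt_mul_nonneg he'psd ?_
    have := he'psd.conjTranspose_mul_mul_same b
    rwa [hb.1.eq] at this
  have i4 : rt ((1 - e) * (b * (1 - e) * b)) =
      rt (b * b) - 2 * rt (e * (b * b)) + rt (e * b * e * b) := by
    have e1 : (1 - e) * (b * (1 - e) * b) = b * b - b * e * b - e * (b * b) + e * b * e * b := by
      noncomm_ring
    have e2 : rt (b * e * b) = rt (e * (b * b)) := by
      rw [rt_mul_comm, ← Matrix.mul_assoc, rt_mul_comm]
    rw [e1, rt_add, rt_sub, rt_sub, e2]
    ring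
  have i5 : rt ((1 - e) * (b * b)) = rt (b * b) - rt (e * (b * b)) := by
    rw [Matrix.sub_mul, Matrix.one_mul, rt_sub]
  rw [i5]
  linarith

/-- T1, abstract form. -/
theorem T1_abstract {a b n m P Q : Matrix ι ι ℂ} (ha : a.PosSemidef) (hb : b.PosSemidef)
    (hn : n.PosSemidef) (hm : m.PosSemidef) (hP : P.PosSemidef) (hQ : Q.PosSemidef)
    (han : a * n = 0) (hbm : b * m = 0) (hD : (a * a - n) - (b * b - m) = P - Q) :
    rt ((a - b)ᴴ * (a - b)) ≤ 2 * (rt P + rt Q) := by
  obtain ⟨e, he, hee, hea, hen⟩ := exists_support ha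
  obtain ⟨f, hf, hff, hfb, hfm⟩ := exists_support hb
  have hen0 := hen n han
  have hfm0 := hfm m hbm
  have hD' : (b * b - m) - (a * a - n) = Q - P := by
    rw [← neg_sub (a * a - n), hD, neg_sub]
  have h1 := half ha hb hm hP hQ hn he hee hea hen0 hD
  have h2 := half hb ha hn hQ hP hm hf hff hfb hfm0 hD'
  have hpsd : ∀ {g : Matrix ι ι ℂ}, g.IsHermitian → g * g = g → g.PosSemidef ∧ (1 - g).PosSemidef := by
    intro g hg hgg
    constructor
    · have := posSemidef_conjTranspose_mul_self g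
      rwa [hg.eq, hgg] at this
    · have h3 : (1 - g) * (1 - g) = 1 - g := by
        rw [Matrix.sub_mul, Matrix.mul_sub, Matrix.mul_sub, hgg]
        simp
      have h4 : (1 - g)ᴴ = 1 - g := by simp [conjTranspose_sub, hg.eq]
      have := posSemidef_conjTranspose_mul_self (1 - g)
      rwa [h4, h3] at this
  obtain ⟨heP, he'P⟩ := hpsd he hee
  obtain ⟨hfP, hf'P⟩ := hpsd hf hff
  -- expansions
  have hbb : b * b = a * a - n + m - P + Q := by
    have : a * a - n - (b * b - m) - (P - Q) = 0 := sub_eq_zero.mpr hD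
    have h3 : b * b = a * a - n + m - P + Q - (a * a - n - (b * b - m) - (P - Q)) := by abel
    rw [h3, this, sub_zero]
  have haa : a * a = b * b - m + n + P - Q := by
    have : a * a - n - (b * b - m) - (P - Q) = 0 := sub_eq_zero.mpr hD
    have h3 : a * a = b * b - m + n + P - Q + (a * a - n - (b * b - m) - (P - Q)) := by abel
    rw [h3, this, add_zero]
  have e1 : rt ((1 - e) * (b * b)) =
      - rt n + (rt m - rt (e * m)) - rt ((1 - e) * P) + rt ((1 - e) * Q) := by
    have h3 : (1 - e) * (a * a) = 0 := by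
      rw [Matrix.sub_mul, Matrix.one_mul, ← Matrix.mul_assoc e, hea, sub_self]
    have h4 : (1 - e) * n = n := by rw [Matrix.sub_mul, hen0]; simp
    rw [hbb, Matrix.mul_add, Matrix.mul_sub, Matrix.mul_add, Matrix.mul_sub, h3, h4]
    simp only [rt_add, rt_sub]
    have h5 : rt ((1 - e) * m) = rt m - rt (e * m) := by
      rw [Matrix.sub_mul, Matrix.one_mul, rt_sub]
    rw [h5]
    simp [rt]
  have e2 : rt ((1 - f) * (a * a)) =
      - rt m + (rt n - rt (f * n)) + rt ((1 - f) * P) - rt ((1 - f) * Q) := by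
    have h3 : (1 - f) * (b * b) = 0 := by
      rw [Matrix.sub_mul, Matrix.one_mul, ← Matrix.mul_assoc f, hfb, sub_self]
    have h4 : (1 - f) * m = m := by rw [Matrix.sub_mul, hfm0]; simp
    rw [haa, Matrix.mul_sub, Matrix.mul_add, Matrix.mul_add, Matrix.mul_sub, h3, h4]
    simp only [rt_add, rt_sub]
    have h5 : rt ((1 - f) * n) = rt n - rt (f * n) := by
      rw [Matrix.sub_mul, Matrix.one_mul, rt_sub]
    rw [h5]
    simp [rt]
  have hsplit : ∀ (g X : Matrix ι ι ℂ), rt ((1 - g) * X) = rt X - rt (g * X) := fun g X => by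
    rw [Matrix.sub_mul, Matrix.one_mul, rt_sub]
  have a1 := rt_mul_nonneg heP hm
  have a2 := rt_mul_nonneg hfP hn
  have a3 := rt_mul_nonneg he'P hP
  have a4 := rt_mul_nonneg hf'P hQ
  have a5 := rt_mul_nonneg heP hQ
  have a6 := rt_mul_nonneg hfP hP
  have a7 := rt_mul_nonneg heP hP
  have a8 := rt_mul_nonneg hfP hQ
  have e3 : rt ((a - b)ᴴ * (a - b)) = rt (a * a) - rt (a * b) + (rt (b * b) - rt (b * a)) := by
    rw [conjTranspose_sub, ha.1.eq, hb.1.eq, Matrix.sub_mul, Matrix.mul_sub, Matrix.mul_sub]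
    simp only [rt_sub]
    ring
  rw [e3]
  rw [e1] at h1
  rw [e2] at h2
  rw [hsplit e P, hsplit e Q] at h1
  rw [hsplit f P, hsplit f Q] at h2
  rw [hsplit] at a3 a4
  linarith

/-! ### The concrete form -/

/-- `√x₊`. -/
noncomputable def posRoot (x : Matrix ι ι ℂ) : Matrix ι ι ℂ := cfc Real.sqrt x
/-- `x₊`. -/
noncomputable def posP (x : Matrix ι ι ℂ) : Matrix ι ι ℂ := cfc (fun t : ℝ => max t 0) x
/-- `x₋`. -/
noncomputable def negP (x : Matrix ι ι ℂ) : Matrix ι ι ℂ := cfc (fun t : ℝ => max (-t) 0) x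

lemma posRoot_psd (x : Matrix ι ι ℂ) (hx : x.IsHermitian) : (posRoot x).PosSemidef := by
  have : (0 : Matrix ι ι ℂ) ≤ posRoot x :=
    cfc_nonneg (a := x) (f := Real.sqrt) (fun t _ => Real.sqrt_nonneg t)
  exact this.posSemidef

lemma posP_psd (x : Matrix ι ι ℂ) (hx : x.IsHermitian) : (posP x).PosSemidef := by
  have : (0 : Matrix ι ι ℂ) ≤ posP x :=
    cfc_nonneg (a := x) (f := fun t : ℝ => max t 0) (fun t _ => le_max_right _ _)
  exact this.posSemidef

lemma negP_psd (x : Matrix ι ι ℂ) (hx : x.IsHermitian) : (negP x).PosSemidef := by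
  have : (0 : Matrix ι ι ℂ) ≤ negP x :=
    cfc_nonneg (a := x) (f := fun t : ℝ => max (-t) 0) (fun t _ => le_max_right _ _)
  exact this.posSemidef

lemma posP_sub_negP (x : Matrix ι ι ℂ) (hx : x.IsHermitian) : posP x - negP x = x := by
  have hsa : IsSelfAdjoint x := hx
  unfold posP negP
  rw [← cfc_sub _ _ x (by fun_prop) (by fun_prop)]
  have h : (fun t : ℝ => max t 0 - max (-t) 0) = fun t : ℝ => t := by
    funext t
    rcases le_total t 0 with h | h
    · rw [max_eq_right h, max_eq_left (by linarith)]; ring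
    · rw [max_eq_left h, max_eq_right (by linarith)]; ring
  rw [h, cfc_id' ℝ x hsa]

lemma posRoot_mul_self (x : Matrix ι ι ℂ) (hx : x.IsHermitian) : posRoot x * posRoot x = posP x := by
  unfold posRoot posP
  rw [← cfc_mul _ _ x (by fun_prop) (by fun_prop)]
  congr 1
  funext t
  rcases le_total t 0 with h | h
  · rw [max_eq_right h, Real.sqrt_eq_zero_of_nonpos h]; ring
  · rw [max_eq_left h, Real.mul_self_sqrt h]

lemma posRoot_mul_negP (x : Matrix ι ι ℂ) (hx : x.IsHermitian) : posRoot x * negP x = 0 := by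
  have hsa : IsSelfAdjoint x := hx
  unfold posRoot negP
  rw [← cfc_mul _ _ x (by fun_prop) (by fun_prop)]
  have h : (fun t : ℝ => Real.sqrt t * max (-t) 0) = fun _ => 0 := by
    funext t
    rcases le_total t 0 with h | h
    · rw [Real.sqrt_eq_zero_of_nonpos h]; ring
    · rw [max_eq_right (by linarith)]; ring
  rw [h]
  exact cfc_const_zero ℝ x

/-- **T1**: for Hermitian `x, y`, `‖√x₊ - √y₊‖₂² ≤ 2 (Tr (x-y)₊ + Tr (x-y)₋)`. -/
theorem T1 (x y : Matrix ι ι ℂ) (hx : x.IsHermitian) (hy : y.IsHermitian) :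
    rt ((posRoot x - posRoot y)ᴴ * (posRoot x - posRoot y)) ≤
      2 * (rt (posP (x - y)) + rt (negP (x - y))) := by
  have hD : (x - y).IsHermitian := hx.sub hy
  refine T1_abstract (posRoot_psd x hx) (posRoot_psd y hy) (negP_psd x hx) (negP_psd y hy)
    (posP_psd _ hD) (negP_psd _ hD) (posRoot_mul_negP x hx) (posRoot_mul_negP y hy) ?_
  rw [posRoot_mul_self x hx, posRoot_mul_self y hy, posP_sub_negP x hx, posP_sub_negP y hy,
    posP_sub_negP _ hD]

/-- The trace of the positive and negative parts. -/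
lemma rt_posP_sub_negP (x : Matrix ι ι ℂ) (hx : x.IsHermitian) :
    rt (posP x) - rt (negP x) = rt x := by
  rw [← rt_sub, posP_sub_negP x hx]

section conj

variable (U : Matrix ι ι ℂ)

/-- Conjugation covariance of the functional calculus. -/
lemma cfc_conj (f : ℝ → ℝ) (x : Matrix ι ι ℂ) (hx : x.IsHermitian) (hU : Uᴴ * U = 1) :
    cfc f (U * x * Uᴴ) = U * cfc f x * Uᴴ := by
  have hU' : U * Uᴴ = 1 := by
    exact mul_eq_one_comm.mp hU
  let u : unitary (Matrix ι ι ℂ) := ⟨U, ⟨hU, hU'⟩⟩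
  have hfin : (spectrum ℝ x).Finite := Matrix.finite_real_spectrum
  have hc : ContinuousOn f (spectrum ℝ x) := hfin.continuousOn f
  have hconjH : (U * x * Uᴴ).IsHermitian := by
    exact isHermitian_mul_mul_conjTranspose U hx
  have hφc : Continuous (Unitary.conjStarAlgAut ℝ (Matrix ι ι ℂ) u) := by
    have : Continuous (fun y : Matrix ι ι ℂ => U * y * Uᴴ) := by
      fun_prop
    exact this
  have := StarAlgHomClass.map_cfc (S := ℝ) (p := IsSelfAdjoint) (q := IsSelfAdjoint) (R := ℝ)
    (Unitary.conjStarAlgAut ℝ (Matrix ι ι ℂ) u) f x hc hφc hx hconjH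
  exact this.symm

/-- Unitary covariance of `posRoot`. -/
lemma posRoot_conj (x : Matrix ι ι ℂ) (hx : x.IsHermitian) (hU : Uᴴ * U = 1) :
    posRoot (U * x * Uᴴ) = U * posRoot x * Uᴴ := cfc_conj U _ x hx hU

/-- Unitary covariance of `posP`. -/
lemma posP_conj (x : Matrix ι ι ℂ) (hx : x.IsHermitian) (hU : Uᴴ * U = 1) :
    posP (U * x * Uᴴ) = U * posP x * Uᴴ := cfc_conj U _ x hx hU

/-- Unitary covariance of `negP`. -/
lemma negP_conj (x : Matrix ι ι ℂ) (hx : x.IsHermitian) (hU : Uᴴ * U = 1) :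
    negP (U * x * Uᴴ) = U * negP x * Uᴴ := cfc_conj U _ x hx hU

end conj

end Crest.Agent.Lib.QTT1
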