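import Mathlib
import Crest.Agent.Lib.QQCompute

/-!
# A computable smooth transition function (Rvachev / Fabius)

We construct `τ : ℝ → ℝ` with `τ = 0` on `(-∞, 0]`, `τ = 1` on `[1, ∞)`, and
`τ' x = 2 * τ (2 * x) - 2 * τ (2 * x - 1)`, as the uniform limit of explicit piecewise polynomial
functions `a m`; every derivative of `τ` is an explicit finite combination of values of `τ`.
-/

set_option autoImplicit false
open scoped ContDiff Nat
open MeasureTheory

namespace Crest.Agent.Lib.Rvachev

/-! ### Thue–Morse signs and iterated differences -/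

/-- The list of signs `∏_{k<m} (1 - z^(2^k))`. -/
def signs : ℕ → List ℤ
  | 0 => [1]
  | m + 1 => signs m ++ (signs m).map (fun z => -z)

theorem signs_length (m : ℕ) : (signs m).length = 2 ^ m := by
  induction m with
  | zero => rfl
  | succ m ih => simp [signs, ih, pow_succ, mul_two]

/-- The `e`-th sign at level `m`. -/
def sgn (m e : ℕ) : ℤ := (signs m).getD e 0

theorem sgn_succ_left {m e : ℕ} (h : e < 2 ^ m) : sgn (m + 1) e = sgn m e := by
  unfold sgn
  simp only [signs]
  rw [List.getD_append]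
  rwa [signs_length]

theorem sgn_succ_right {m e : ℕ} (h : e < 2 ^ m) : sgn (m + 1) (2 ^ m + e) = - sgn m e := by
  unfold sgn
  simp only [signs]
  rw [List.getD_append_right _ _ _ _ (by rw [signs_length]; omega)]
  rw [signs_length]
  have h1 : 2 ^ m + e - 2 ^ m = e := by omega
  rw [h1]
  have hl : e < (signs m).length := by rwa [signs_length]
  simp [hl]

theorem sgn_abs_le (m e : ℕ) : |sgn m e| ≤ 1 := by
  induction m generalizing e with
  | zero =>
    unfold sgn
    rcases e with _ | e <;> simp [signs]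
  | succ m ih =>
    by_cases h : e < 2 ^ m
    · rw [sgn_succ_left h]; exact ih e
    · by_cases h2 : e - 2 ^ m < 2 ^ m
      · have : e = 2 ^ m + (e - 2 ^ m) := by omega
        rw [this, sgn_succ_right h2, abs_neg]
        exact ih _
      · have : (signs (m + 1)).length ≤ e := by
          rw [signs_length, pow_succ]; omega
        unfold sgn
        rw [List.getD_eq_default _ _ this]
        simp

/-- The iterated difference operator. -/
noncomputable def Diff (m : ℕ) (f : ℝ → ℝ) (x : ℝ) : ℝ :=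
  ∑ e ∈ Finset.range (2 ^ m), (sgn m e : ℝ) * f (2 ^ m * x - e)

theorem Diff_zero (f : ℝ → ℝ) (x : ℝ) : Diff 0 f x = f x := by
  simp [Diff, sgn, signs]

theorem Diff_succ (m : ℕ) (f : ℝ → ℝ) (x : ℝ) :
    Diff (m + 1) f x = Diff m f (2 * x) - Diff m f (2 * x - 1) := by
  unfold Diff
  rw [pow_succ 2 m, mul_two, Finset.sum_range_add, sub_eq_add_neg, ← Finset.sum_neg_distrib]
  congr 1
  · refine Finset.sum_congr rfl fun e he => ?_
    rw [sgn_succ_left (Finset.mem_range.mp he)]
    congr 2
    ring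
  · refine Finset.sum_congr rfl fun e he => ?_
    rw [sgn_succ_right (Finset.mem_range.mp he)]
    have : ((2 : ℝ) ^ (m + 1)) * x - ((2 ^ m + e : ℕ) : ℝ) = 2 ^ m * (2 * x - 1) - e := by
      push_cast
      ring
    rw [this]
    push_cast
    ring

theorem abs_Diff_le (m : ℕ) {f : ℝ → ℝ} {C : ℝ} (hf : ∀ y, |f y| ≤ C) (x : ℝ) :
    |Diff m f x| ≤ 2 ^ m * C := by
  unfold Diff
  refine (Finset.abs_sum_le_sum_abs _ _).trans ?_
  have : ∀ e ∈ Finset.range (2 ^ m), |(sgn m e : ℝ) * f (2 ^ m * x - e)| ≤ C := by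
    intro e _
    rw [abs_mul]
    have h1 : |(sgn m e : ℝ)| ≤ 1 := by exact_mod_cast sgn_abs_le m e
    calc |(sgn m e : ℝ)| * |f (2 ^ m * x - e)| ≤ 1 * C :=
          mul_le_mul h1 (hf _) (abs_nonneg _) zero_le_one
      _ = C := one_mul C
  refine (Finset.sum_le_sum this).trans ?_
  simp

theorem Diff_congr_sub (m : ℕ) {f g : ℝ → ℝ} (x : ℝ) :
    Diff m f x - Diff m g x = Diff m (fun y => f y - g y) x := by
  unfold Diff
  rw [← Finset.sum_sub_distrib]
  refine Finset.sum_congr rfl fun e _ => ?_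
  ring

/-! ### Truncated powers -/

/-- The truncated power `x₊^j / j!`. -/
noncomputable def R (j : ℕ) (x : ℝ) : ℝ := (max x 0) ^ j / (j ! : ℝ)

theorem R_hasDerivAt (j : ℕ) (x : ℝ) : HasDerivAt (R (j + 2)) (R (j + 1) x) x := by
  have hc : ((j + 2 : ℕ) ! : ℝ) = (j + 2) * ((j + 1 : ℕ) ! : ℝ) := by
    rw [Nat.factorial_succ (j + 1)]
    push_cast
    ring
  have hc0 : ((j + 1 : ℕ) ! : ℝ) ≠ 0 := by positivity
  have hc1 : ((j : ℝ) + 2) ≠ 0 := by positivity
  rcases lt_trichotomy x 0 with hx | rfl | hx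
  · have h1 : R (j + 2) =ᶠ[nhds x] fun _ => 0 := by
      filter_upwards [Iio_mem_nhds hx] with y hy
      have hy' : y < 0 := hy
      simp [R, max_eq_right hy'.le]
    have h2 : R (j + 1) x = 0 := by simp [R, max_eq_right hx.le]
    rw [h2]
    exact (hasDerivAt_const x (0 : ℝ)).congr_of_eventuallyEq h1
  · have h2 : R (j + 1) 0 = 0 := by simp [R]
    rw [h2]
    have h3 : HasDerivWithinAt (R (j + 2)) 0 (Set.Iic 0) 0 := by
      refine (hasDerivWithinAt_const (0 : ℝ) (Set.Iic 0) (0 : ℝ)).congr ?_ (by simp [R])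
      intro y hy
      have hy' : y ≤ 0 := hy
      simp [R, max_eq_right hy']
    have h4 : HasDerivWithinAt (R (j + 2)) 0 (Set.Ici 0) 0 := by
      have h5 : HasDerivAt (fun y : ℝ => y ^ (j + 2) / ((j + 2 : ℕ) ! : ℝ)) 0 0 := by
        have := (hasDerivAt_pow (j + 2) (0 : ℝ)).div_const ((j + 2 : ℕ) ! : ℝ)
        simpa using this
      refine (h5.hasDerivWithinAt).congr ?_ (by simp [R])
      intro y hy
      have hy' : 0 ≤ y := hy
      simp [R, max_eq_left hy']
    have := h3.union h4
    rwa [Set.Iic_union_Ici, hasDerivWithinAt_univ] at this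
  · have h1 : R (j + 2) =ᶠ[nhds x] fun y => y ^ (j + 2) / ((j + 2 : ℕ) ! : ℝ) := by
      filter_upwards [Ioi_mem_nhds hx] with y hy
      have hy' : 0 < y := hy
      simp [R, max_eq_left hy'.le]
    have h2 : R (j + 1) x = ((j + 2 : ℕ) : ℝ) * x ^ (j + 1) / ((j + 2 : ℕ) ! : ℝ) := by
      simp only [R, max_eq_left hx.le]
      rw [hc]
      push_cast
      field_simp
    rw [h2]
    refine HasDerivAt.congr_of_eventuallyEq ?_ h1
    have := (hasDerivAt_pow (j + 2) x).div_const ((j + 2 : ℕ) ! : ℝ)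
    simpa using this

/-- The base functions. -/
noncomputable def Z (j : ℕ) (x : ℝ) : ℝ := R (j + 1) x - R (j + 1) (x - 1)

theorem Z_hasDerivAt (j : ℕ) (x : ℝ) : HasDerivAt (Z (j + 1)) (Z j x) x := by
  unfold Z
  have h1 := R_hasDerivAt j x
  have h2 := (R_hasDerivAt j (x - 1)).comp_sub_const x 1
  exact h1.sub h2

theorem Z_zero_continuous : Continuous (Z 0) := by
  unfold Z R
  fun_prop

/-- The approximating family: `A m j` is the `j`-fold antiderivative of the `m`-th iterate. -/
noncomputable def A : ℕ → ℕ → ℝ → ℝ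
  | 0, j, x => Z j x
  | m + 1, j, x => (1 / 2) ^ j * (A m (j + 1) (2 * x) - A m (j + 1) (2 * x - 1))

theorem A_hasDerivAt (m j : ℕ) (x : ℝ) : HasDerivAt (A m (j + 1)) (A m j x) x := by
  induction m generalizing j x with
  | zero => exact Z_hasDerivAt j x
  | succ m ih =>
    have h0 : HasDerivAt (fun y : ℝ => 2 * y) 2 x := by
      simpa using (hasDerivAt_id x).const_mul (2 : ℝ)
    have h1 : HasDerivAt (fun y => A m (j + 2) (2 * y)) (A m (j + 1) (2 * x) * 2) x :=
      HasDerivAt.comp (h₂ := A m (j + 2)) (h := fun y => 2 * y) x (ih (j + 1) (2 * x)) h0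
    have h2 : HasDerivAt (fun y => A m (j + 2) (2 * y - 1)) (A m (j + 1) (2 * x - 1) * 2) x :=
      HasDerivAt.comp (h₂ := A m (j + 2)) (h := fun y => 2 * y - 1) x (ih (j + 1) (2 * x - 1))
        (h0.sub_const 1)
    have h3 := (h1.fun_sub h2).const_mul ((1 / 2 : ℝ) ^ (j + 1))
    have e : (fun y => (1 / 2 : ℝ) ^ (j + 1) * (A m (j + 2) (2 * y) - A m (j + 2) (2 * y - 1)))
        = A (m + 1) (j + 1) := by
      funext y
      simp only [A]
    rw [e] at h3
    refine h3.congr_deriv ?_
    simp only [A]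
    rw [pow_succ]
    ring

/-- The `m`-th approximation of the transition function. -/
noncomputable def a (m : ℕ) (x : ℝ) : ℝ := A m 0 x

theorem a_succ (m : ℕ) (x : ℝ) : a (m + 1) x = A m 1 (2 * x) - A m 1 (2 * x - 1) := by
  simp [a, A]

theorem a_continuous (m : ℕ) : Continuous (a m) := by
  cases m with
  | zero => exact Z_zero_continuous
  | succ m =>
    have : Continuous (A m 1) :=
      continuous_iff_continuousAt.mpr fun x => (A_hasDerivAt m 0 x).continuousAt
    have h : a (m + 1) = fun x => A m 1 (2 * x) - A m 1 (2 * x - 1) := by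
      funext x; exact a_succ m x
    rw [h]
    fun_prop

/-- The integral form of the recursion. -/
theorem a_succ_integral (m : ℕ) (x : ℝ) :
    a (m + 1) x = ∫ v in (2 * x - 1)..(2 * x), a m v := by
  rw [a_succ]
  symm
  exact intervalIntegral.integral_eq_sub_of_hasDerivAt
    (fun v _ => A_hasDerivAt m 0 v) ((a_continuous m).intervalIntegrable _ _)

/-- The class of admissible functions (invariant under the recursion). -/
structure Adm (f : ℝ → ℝ) : Prop where
  cont : Continuous f
  zero : ∀ x ≤ 0, f x = 0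
  one : ∀ x, 1 ≤ x → f x = 1
  nonneg : ∀ x, 0 ≤ f x
  le_one : ∀ x, f x ≤ 1
  symm : ∀ x, f (1 - x) = 1 - f x

/-- The integral operator. -/
noncomputable def T (f : ℝ → ℝ) (x : ℝ) : ℝ := ∫ v in (2 * x - 1)..(2 * x), f v

theorem Adm.T {f : ℝ → ℝ} (hf : Adm f) : Adm (T f) := by
  have hint : ∀ a b, IntervalIntegrable f volume a b := fun a b => hf.cont.intervalIntegrable a b
  have hFTC : ∀ y, HasDerivAt (fun c => ∫ v in (0 : ℝ)..c, f v) (f y) y := fun y =>
    intervalIntegral.integral_hasDerivAt_right (hint _ _)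
      (hf.cont.stronglyMeasurableAtFilter _ _) hf.cont.continuousAt
  refine ⟨?_, ?_, ?_, ?_, ?_, ?_⟩
  · -- continuity
    have : Crest.Agent.Lib.Rvachev.T f =
        fun x => (∫ v in (0 : ℝ)..(2 * x), f v) - ∫ v in (0 : ℝ)..(2 * x - 1), f v := by
      funext x
      unfold Crest.Agent.Lib.Rvachev.T
      rw [intervalIntegral.integral_interval_sub_left (hint _ _) (hint _ _)]
    rw [this]
    have hc : Continuous fun c => ∫ v in (0 : ℝ)..c, f v :=
      continuous_iff_continuousAt.mpr fun y => (hFTC y).continuousAt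
    fun_prop
  · intro x hx
    unfold Crest.Agent.Lib.Rvachev.T
    rw [intervalIntegral.integral_congr (g := fun _ => (0 : ℝ))]
    · simp
    · intro v hv
      rw [Set.uIcc_of_le (by linarith)] at hv
      exact hf.zero v (by linarith [hv.2])
  · intro x hx
    unfold Crest.Agent.Lib.Rvachev.T
    rw [intervalIntegral.integral_congr (g := fun _ => (1 : ℝ))]
    · simp
    · intro v hv
      rw [Set.uIcc_of_le (by linarith)] at hv
      exact hf.one v (by linarith [hv.1])
  · intro x
    unfold Crest.Agent.Lib.Rvachev.T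
    exact intervalIntegral.integral_nonneg (by linarith) fun v _ => hf.nonneg v
  · intro x
    unfold Crest.Agent.Lib.Rvachev.T
    have : ∫ v in (2 * x - 1)..(2 * x), f v ≤ ∫ _ in (2 * x - 1)..(2 * x), (1 : ℝ) :=
      intervalIntegral.integral_mono_on (by linarith) (hint _ _)
        (intervalIntegrable_const) fun v _ => hf.le_one v
    simpa using this
  · intro x
    unfold Crest.Agent.Lib.Rvachev.T
    have h1 : ∫ v in (2 * (1 - x) - 1)..(2 * (1 - x)), f v
        = ∫ w in (2 * x - 1)..(2 * x), f (1 - w) := by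
      rw [intervalIntegral.integral_comp_sub_left (fun v => f v) 1]
      congr 1 <;> ring
    rw [h1]
    have h2 : ∫ w in (2 * x - 1)..(2 * x), f (1 - w)
        = ∫ w in (2 * x - 1)..(2 * x), (1 - f w) :=
      intervalIntegral.integral_congr fun w _ => hf.symm w
    rw [h2, intervalIntegral.integral_sub intervalIntegrable_const (hint _ _)]
    simp

theorem a_eq_T (m : ℕ) : a (m + 1) = T (a m) := by
  funext x
  exact a_succ_integral m x

theorem Z_zero_eq (x : ℝ) : Z 0 x = max x 0 - max (x - 1) 0 := by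
  simp [Z, R]

theorem adm_a (m : ℕ) : Adm (a m) := by
  induction m with
  | zero =>
    have h : a 0 = Z 0 := rfl
    rw [h]
    refine ⟨Z_zero_continuous, ?_, ?_, ?_, ?_, ?_⟩
    · intro x hx
      rw [Z_zero_eq, max_eq_right hx, max_eq_right (by linarith)]
      simp
    · intro x hx
      rw [Z_zero_eq, max_eq_left (by linarith), max_eq_left (by linarith)]
      ring
    · intro x
      rw [Z_zero_eq]
      rcases le_total x 0 with h | h
      · rw [max_eq_right h, max_eq_right (by linarith)]; simp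
      · rw [max_eq_left h]
        rcases le_total (x - 1) 0 with h2 | h2
        · rw [max_eq_right h2]; linarith
        · rw [max_eq_left h2]; linarith
    · intro x
      rw [Z_zero_eq]
      rcases le_total x 0 with h | h
      · rw [max_eq_right h, max_eq_right (by linarith)]; norm_num
      · rw [max_eq_left h]
        rcases le_total (x - 1) 0 with h2 | h2
        · rw [max_eq_right h2]; linarith
        · rw [max_eq_left h2]; linarith
    · intro x
      rw [Z_zero_eq, Z_zero_eq]
      rcases le_total x 0 with h | h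
      · rw [max_eq_right h, max_eq_right (by linarith : x - 1 ≤ 0),
          max_eq_left (by linarith : 0 ≤ 1 - x), max_eq_left (by linarith : 0 ≤ 1 - x - 1)]
        ring
      · rw [max_eq_left h]
        rcases le_total (x - 1) 0 with h2 | h2
        · rw [max_eq_right h2, max_eq_left (by linarith : 0 ≤ 1 - x),
            max_eq_right (by linarith : 1 - x - 1 ≤ 0)]
          ring
        · rw [max_eq_left h2, max_eq_right (by linarith : 1 - x ≤ 0),
            max_eq_right (by linarith : 1 - x - 1 ≤ 0)]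
          ring
  | succ m ih =>
    rw [a_eq_T]
    exact ih.T

/-- The contraction estimate. -/
theorem abs_T_sub_T_le {f g : ℝ → ℝ} (hf : Adm f) (hg : Adm g) {M : ℝ}
    (hM : ∀ x, |f x - g x| ≤ M) (x : ℝ) : |T f x - T g x| ≤ M / 2 := by
  set h : ℝ → ℝ := fun y => f y - g y with hh
  have hcont : Continuous h := hf.cont.sub hg.cont
  have hint : ∀ a b, IntervalIntegrable h volume a b := fun a b => hcont.intervalIntegrable a b
  have hM0 : 0 ≤ M := (abs_nonneg _).trans (hM 0)
  have hTsub : T f x - T g x = ∫ v in (2 * x - 1)..(2 * x), h v := by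
    unfold T
    rw [← intervalIntegral.integral_sub (hf.cont.intervalIntegrable _ _)
      (hg.cont.intervalIntegrable _ _)]
  have h0 : ∀ y ≤ 0, h y = 0 := fun y hy => by simp [hh, hf.zero y hy, hg.zero y hy]
  have h1 : ∀ y, 1 ≤ y → h y = 0 := fun y hy => by simp [hh, hf.one y hy, hg.one y hy]
  have hanti : ∀ y, h (1 - y) = - h y := fun y => by
    simp only [hh, hf.symm y, hg.symm y]
    ring
  -- the primitive
  set J : ℝ → ℝ := fun c => ∫ v in (0 : ℝ)..c, h v with hJ
  have hJ1 : J 1 = 0 := by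
    have e : ∫ v in (0 : ℝ)..1, h (1 - v) = ∫ v in (0 : ℝ)..1, h v := by
      rw [intervalIntegral.integral_comp_sub_left (fun v => h v) 1]
      simp
    have e2 : ∫ v in (0 : ℝ)..1, h (1 - v) = - ∫ v in (0 : ℝ)..1, h v := by
      rw [← intervalIntegral.integral_neg]
      exact intervalIntegral.integral_congr fun v _ => hanti v
    simp only [hJ]
    linarith
  have hbound : ∀ a b : ℝ, a ≤ b → |∫ v in a..b, h v| ≤ M * (b - a) := by
    intro a b hab
    have := intervalIntegral.norm_integral_le_of_norm_le_const (a := a) (b := b) (f := h)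
      (C := M) (fun y _ => hM y)
    simpa [abs_of_nonneg (sub_nonneg.mpr hab)] using this
  have hJneg : ∀ c ≤ 0, J c = 0 := by
    intro c hc
    simp only [hJ]
    rw [intervalIntegral.integral_congr (g := fun _ => (0 : ℝ))]
    · simp
    · intro v hv
      rw [Set.uIcc_of_ge hc] at hv
      exact h0 v hv.2
  have hJbig : ∀ c, 1 ≤ c → J c = 0 := by
    intro c hc
    have e : ∫ v in (1 : ℝ)..c, h v = 0 := by
      rw [intervalIntegral.integral_congr (g := fun _ => (0 : ℝ))]
      · simp
      · intro v hv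
        rw [Set.uIcc_of_le hc] at hv
        exact h1 v hv.1
    have e2 := intervalIntegral.integral_add_adjacent_intervals (hint 0 1) (hint 1 c)
    simp only [hJ] at hJ1 ⊢
    linarith
  have hJall : ∀ c, |J c| ≤ M / 2 := by
    intro c
    rcases le_total c 0 with hc | hc
    · rw [hJneg c hc]; simpa using by positivity
    rcases le_total 1 c with hc1 | hc1
    · rw [hJbig c hc1]; simpa using by positivity
    have e1 : |J c| ≤ M * (c - 0) := hbound 0 c hc
    have e2 : |∫ v in c..1, h v| ≤ M * (1 - c) := hbound c 1 hc1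
    have e3 := intervalIntegral.integral_add_adjacent_intervals (hint 0 c) (hint c 1)
    have e4 : ∫ v in c..1, h v = - J c := by
      simp only [hJ] at hJ1 ⊢
      linarith
    rw [e4, abs_neg] at e2
    rcases le_total c (1 / 2) with hc2 | hc2
    · have : M * (c - 0) ≤ M / 2 := by nlinarith
      linarith
    · have : M * (1 - c) ≤ M / 2 := by nlinarith
      linarith
  rw [hTsub]
  have e : ∫ v in (2 * x - 1)..(2 * x), h v = J (2 * x) - J (2 * x - 1) := by
    simp only [hJ]
    rw [intervalIntegral.integral_interval_sub_left (hint _ _) (hint _ _)]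
  rw [e]
  rcases le_total x (1 / 2) with hx | hx
  · rw [hJneg (2 * x - 1) (by linarith), sub_zero]
    exact hJall _
  · rw [hJbig (2 * x) (by linarith), zero_sub, abs_neg]
    exact hJall _

theorem abs_a_succ_sub_le (m : ℕ) (x : ℝ) : |a (m + 1) x - a m x| ≤ (1 / 2) ^ m := by
  induction m generalizing x with
  | zero =>
    have h1 := (adm_a 1).nonneg x
    have h2 := (adm_a 1).le_one x
    have h3 := (adm_a 0).nonneg x
    have h4 := (adm_a 0).le_one x
    rw [abs_le]
    constructor <;> norm_num <;> linarith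
  | succ m ih =>
    rw [a_eq_T (m + 1), a_eq_T m]
    have := abs_T_sub_T_le (adm_a (m + 1)) (adm_a m) ih x
    rw [pow_succ]
    rw [← a_eq_T m] at this ⊢
    linarith

/-! ### The limit -/

theorem exists_lim (x : ℝ) : ∃ l : ℝ, ∀ m : ℕ, |a m x - l| ≤ 2 / 2 ^ m := by
  have hd : ∀ n, dist (a n x) (a (n + 1) x) ≤ (2 : ℝ) / 2 / 2 ^ n := by
    intro n
    rw [Real.dist_eq, abs_sub_comm]
    have := abs_a_succ_sub_le n x
    have e : (2 : ℝ) / 2 / 2 ^ n = (1 / 2) ^ n := by
      rw [div_self (by norm_num), one_div_pow]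
    rwa [e]
  have hc : CauchySeq fun n => a n x := cauchySeq_of_le_geometric_two hd
  obtain ⟨l, hl⟩ := cauchySeq_tendsto_of_complete hc
  refine ⟨l, fun m => ?_⟩
  have := dist_le_of_le_geometric_two_of_tendsto hd hl m
  rwa [Real.dist_eq] at this

/-- The transition function. -/
noncomputable def tau (x : ℝ) : ℝ := Classical.choose (exists_lim x)

theorem abs_a_sub_tau (m : ℕ) (x : ℝ) : |a m x - tau x| ≤ 2 / 2 ^ m :=
  Classical.choose_spec (exists_lim x) m

theorem tendsto_two_div : Filter.Tendsto (fun m : ℕ => (2 : ℝ) / 2 ^ m) Filter.atTop (nhds 0) := by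
  have h := tendsto_pow_atTop_nhds_zero_of_lt_one (r := (1 / 2 : ℝ)) (by norm_num) (by norm_num)
  have h2 := h.const_mul (2 : ℝ)
  simp only [mul_zero] at h2
  refine h2.congr fun m => ?_
  rw [one_div_pow]
  ring

theorem tendsto_a (x : ℝ) : Filter.Tendsto (fun m => a m x) Filter.atTop (nhds (tau x)) := by
  rw [tendsto_iff_dist_tendsto_zero]
  refine squeeze_zero (fun _ => dist_nonneg) (fun m => ?_) tendsto_two_div
  rw [Real.dist_eq]
  exact abs_a_sub_tau m x

theorem tendstoUniformly_a : TendstoUniformly a tau Filter.atTop := by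
  rw [Metric.tendstoUniformly_iff]
  intro ε hε
  have := (tendsto_order.1 tendsto_two_div).2 ε hε
  filter_upwards [this] with m hm x
  rw [Real.dist_eq, abs_sub_comm]
  exact (abs_a_sub_tau m x).trans_lt hm

theorem tau_continuous : Continuous tau :=
  tendstoUniformly_a.continuous (Filter.Frequently.of_forall fun m => (adm_a m).cont)

theorem adm_tau : Adm tau := by
  refine ⟨tau_continuous, ?_, ?_, ?_, ?_, ?_⟩
  · intro x hx
    refine tendsto_nhds_unique (tendsto_a x) ?_
    simp [(adm_a _).zero x hx]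
  · intro x hx
    refine tendsto_nhds_unique (tendsto_a x) ?_
    simp [(adm_a _).one x hx]
  · intro x
    exact ge_of_tendsto' (tendsto_a x) fun m => (adm_a m).nonneg x
  · intro x
    exact le_of_tendsto' (tendsto_a x) fun m => (adm_a m).le_one x
  · intro x
    refine tendsto_nhds_unique (tendsto_a (1 - x)) ?_
    simp only [(adm_a _).symm x]
    exact (tendsto_a x).const_sub 1

theorem tau_eq_T (x : ℝ) : tau x = T tau x := by
  have h1 : Filter.Tendsto (fun m => a (m + 1) x) Filter.atTop (nhds (tau x)) :=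
    (tendsto_a x).comp (Filter.tendsto_add_atTop_nat 1)
  refine tendsto_nhds_unique h1 ?_
  rw [tendsto_iff_dist_tendsto_zero]
  refine squeeze_zero (fun _ => dist_nonneg) (fun m => ?_) tendsto_two_div
  rw [Real.dist_eq, a_eq_T]
  unfold T
  rw [← intervalIntegral.integral_sub ((adm_a m).cont.intervalIntegrable _ _)
      (tau_continuous.intervalIntegrable _ _)]
  have := intervalIntegral.norm_integral_le_of_norm_le_const
    (a := 2 * x - 1) (b := 2 * x) (f := fun v => a m v - tau v)
      (C := 2 / 2 ^ m) (fun y _ => abs_a_sub_tau m y)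
  simpa using this

/-- The basic functional-differential equation. -/
theorem tau_hasDerivAt (x : ℝ) : HasDerivAt tau (2 * tau (2 * x) - 2 * tau (2 * x - 1)) x := by
  have hint : ∀ a b, IntervalIntegrable tau volume a b := fun a b =>
    tau_continuous.intervalIntegrable a b
  have hFTC : ∀ y, HasDerivAt (fun c => ∫ v in (0 : ℝ)..c, tau v) (tau y) y := fun y =>
    intervalIntegral.integral_hasDerivAt_right (hint _ _)
      (tau_continuous.stronglyMeasurableAtFilter _ _) tau_continuous.continuousAt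
  have h0 : HasDerivAt (fun y : ℝ => 2 * y) 2 x := by
    simpa using (hasDerivAt_id x).const_mul (2 : ℝ)
  have h1 : HasDerivAt (fun y => ∫ v in (0 : ℝ)..(2 * y), tau v) (tau (2 * x) * 2) x :=
    HasDerivAt.comp (h₂ := fun c => ∫ v in (0 : ℝ)..c, tau v) (h := fun y => 2 * y) x (hFTC _) h0
  have h2 : HasDerivAt (fun y => ∫ v in (0 : ℝ)..(2 * y - 1), tau v) (tau (2 * x - 1) * 2) x :=
    HasDerivAt.comp (h₂ := fun c => ∫ v in (0 : ℝ)..c, tau v) (h := fun y => 2 * y - 1) x (hFTC _)
      (h0.sub_const 1)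
  have h3 := h1.fun_sub h2
  have e : (fun y => (∫ v in (0 : ℝ)..(2 * y), tau v) - ∫ v in (0 : ℝ)..(2 * y - 1), tau v) = tau := by
    funext y
    rw [tau_eq_T y]
    unfold T
    rw [intervalIntegral.integral_interval_sub_left (hint _ _) (hint _ _)]
  rw [e] at h3
  refine h3.congr_deriv ?_
  ring

/-! ### Derivatives -/

/-- The derivatives of `τ`, by recursion. -/
noncomputable def D : ℕ → ℝ → ℝ
  | 0, x => tau x
  | n + 1, x => 2 ^ (n + 1) * (D n (2 * x) - D n (2 * x - 1))

theorem D_hasDerivAt (n : ℕ) (x : ℝ) : HasDerivAt (D n) (D (n + 1) x) x := by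
  induction n generalizing x with
  | zero =>
    have : D 1 x = 2 * tau (2 * x) - 2 * tau (2 * x - 1) := by
      simp only [D]
      ring
    rw [this]
    exact tau_hasDerivAt x
  | succ n ih =>
    have h0 : HasDerivAt (fun y : ℝ => 2 * y) 2 x := by
      simpa using (hasDerivAt_id x).const_mul (2 : ℝ)
    have h1 : HasDerivAt (fun y => D n (2 * y)) (D (n + 1) (2 * x) * 2) x :=
      HasDerivAt.comp (h₂ := D n) (h := fun y => 2 * y) x (ih (2 * x)) h0
    have h2 : HasDerivAt (fun y => D n (2 * y - 1)) (D (n + 1) (2 * x - 1) * 2) x :=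
      HasDerivAt.comp (h₂ := D n) (h := fun y => 2 * y - 1) x (ih (2 * x - 1)) (h0.sub_const 1)
    have h3 := (h1.fun_sub h2).const_mul ((2 : ℝ) ^ (n + 1))
    have e : (fun y => (2 : ℝ) ^ (n + 1) * (D n (2 * y) - D n (2 * y - 1))) = D (n + 1) := by
      funext y
      simp only [D]
    rw [e] at h3
    refine h3.congr_deriv ?_
    simp only [D]
    rw [pow_succ 2 (n + 1)]
    ring

theorem iteratedDeriv_tau (n : ℕ) : iteratedDeriv n tau = D n := by
  induction n with
  | zero => funext x; simp [D]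
  | succ n ih =>
    rw [iteratedDeriv_succ, ih]
    funext x
    exact (D_hasDerivAt n x).deriv

theorem tau_contDiff : ContDiff ℝ ∞ tau := by
  refine contDiff_of_differentiable_iteratedDeriv fun m _ => ?_
  rw [iteratedDeriv_tau]
  exact fun x => (D_hasDerivAt m x).differentiableAt

/-- Crude computable bound for the derivatives. -/
theorem abs_D_le (n : ℕ) (x : ℝ) : |D n x| ≤ 2 ^ ((n + 1) ^ 2) := by
  induction n generalizing x with
  | zero =>
    have h1 := adm_tau.nonneg x
    have h2 := adm_tau.le_one x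
    simp only [D]
    rw [abs_of_nonneg h1]
    norm_num
    linarith
  | succ n ih =>
    simp only [D]
    rw [abs_mul, abs_of_pos (by positivity : (0 : ℝ) < 2 ^ (n + 1))]
    have h1 : |D n (2 * x) - D n (2 * x - 1)| ≤ 2 ^ ((n + 1) ^ 2) + 2 ^ ((n + 1) ^ 2) :=
      (abs_sub _ _).trans (add_le_add (ih _) (ih _))
    calc (2 : ℝ) ^ (n + 1) * |D n (2 * x) - D n (2 * x - 1)|
        ≤ 2 ^ (n + 1) * (2 ^ ((n + 1) ^ 2) + 2 ^ ((n + 1) ^ 2)) := by gcongr
      _ = 2 ^ ((n + 1) ^ 2 + n + 2) := by
        ring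
      _ ≤ 2 ^ ((n + 1 + 1) ^ 2) := by
        apply pow_le_pow_right₀ (by norm_num)
        nlinarith

/-! ### Closed forms -/

/-- The normalising constant in the closed form of `D`. -/
def c (n : ℕ) : ℕ := ∏ i ∈ Finset.range n, 2 ^ (i + 1)

theorem D_closed (n : ℕ) (x : ℝ) : D n x = (c n : ℝ) * Diff n tau x := by
  induction n generalizing x with
  | zero => simp [D, c, Diff_zero]
  | succ n ih =>
    simp only [D]
    rw [ih, ih, Diff_succ]
    simp only [c, Finset.prod_range_succ]
    push_cast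
    ring

theorem c_le (n : ℕ) : (c n : ℝ) ≤ 2 ^ (n ^ 2) := by
  induction n with
  | zero => simp [c]
  | succ n ih =>
    have : (c (n + 1) : ℝ) = (c n : ℝ) * 2 ^ (n + 1) := by
      simp only [c, Finset.prod_range_succ]
      push_cast
      ring
    rw [this]
    calc (c n : ℝ) * 2 ^ (n + 1) ≤ 2 ^ (n ^ 2) * 2 ^ (n + 1) := by gcongr
      _ = 2 ^ (n ^ 2 + (n + 1)) := by ring
      _ ≤ 2 ^ ((n + 1) ^ 2) := by
        apply pow_le_pow_right₀ (by norm_num)
        nlinarith

/-- The normalising constant in the closed form of `A`. -/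
noncomputable def dd (m j : ℕ) : ℝ := ∏ i ∈ Finset.range m, (1 / 2 : ℝ) ^ (j + i)

theorem A_closed (m j : ℕ) (x : ℝ) : A m j x = dd m j * Diff m (Z (j + m)) x := by
  induction m generalizing j x with
  | zero => simp [A, dd, Diff_zero]
  | succ m ih =>
    simp only [A]
    rw [ih, ih, Diff_succ]
    have e : j + 1 + m = j + (m + 1) := by omega
    rw [e]
    have : dd (m + 1) j = (1 / 2) ^ j * dd m (j + 1) := by
      unfold dd
      rw [Finset.prod_range_succ']
      simp only [add_zero]
      rw [mul_comm]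
      congr 1
      refine Finset.prod_congr rfl fun i _ => ?_
      congr 1
      omega
    rw [this]
    ring

/-! ### Rational versions -/

/-- Rational truncated power. -/
def Rq (j : ℕ) (y : ℚ) : ℚ := (if 0 ≤ y then y else 0) ^ j / ∏ i ∈ Finset.range j, ((i : ℚ) + 1)

theorem R_cast (j : ℕ) (y : ℚ) : R j (y : ℝ) = (Rq j y : ℝ) := by
  unfold R Rq
  have h1 : ((j ! : ℕ) : ℝ) = ((∏ i ∈ Finset.range j, ((i : ℚ) + 1) : ℚ) : ℝ) := by
    rw [← Finset.prod_range_add_one_eq_factorial]
    push_cast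
    rfl
  rw [h1]
  by_cases hy : 0 ≤ y
  · have : (0 : ℝ) ≤ (y : ℝ) := by exact_mod_cast hy
    rw [max_eq_left this, if_pos hy]
    push_cast
    rfl
  · have : (y : ℝ) ≤ 0 := by
      have := not_le.mp hy
      exact_mod_cast this.le
    rw [max_eq_right this, if_neg hy]
    push_cast
    rfl

/-- Rational approximants. -/
def aq (m : ℕ) (q : ℚ) : ℚ :=
  (∏ i ∈ Finset.range m, (1 / 2 : ℚ) ^ i) *
    ∑ e ∈ Finset.range (2 ^ m), (sgn m e : ℚ) *
      (Rq (m + 1) (2 ^ m * q - e) - Rq (m + 1) (2 ^ m * q - e - 1))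

theorem aq_cast (m : ℕ) (q : ℚ) : a m (q : ℝ) = (aq m q : ℝ) := by
  unfold a aq
  rw [A_closed]
  unfold dd Diff Z
  push_cast
  congr 1
  · refine Finset.prod_congr rfl fun i _ => ?_
    simp
  · refine Finset.sum_congr rfl fun e _ => ?_
    rw [show (0 + m + 1) = m + 1 by omega]
    have h1 : ((2 : ℝ) ^ m * (q : ℝ) - e) = ((2 ^ m * q - e : ℚ) : ℝ) := by push_cast; rfl
    have h2 : (((2 ^ m * q - e : ℚ) : ℝ) - 1) = ((2 ^ m * q - e - 1 : ℚ) : ℝ) := by push_cast; rfl
    rw [h1, h2, R_cast, R_cast]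

/-- Rational approximants of derivatives. -/
def Dq (n : ℕ) (q : ℚ) (M : ℕ) : ℚ :=
  (c n : ℚ) * ∑ e ∈ Finset.range (2 ^ n), (sgn n e : ℚ) * aq M (2 ^ n * q - e)

theorem abs_D_sub_Dq (n : ℕ) (q : ℚ) (M : ℕ) :
    |D n (q : ℝ) - (Dq n q M : ℝ)| ≤ 2 ^ (n ^ 2) * (2 ^ n * (2 / 2 ^ M)) := by
  have e : (Dq n q M : ℝ) = (c n : ℝ) * Diff n (a M) (q : ℝ) := by
    unfold Dq Diff
    push_cast
    congr 1
    refine Finset.sum_congr rfl fun e _ => ?_
    congr 1
    rw [← aq_cast]
    push_cast
    rfl
  rw [e, D_closed, ← mul_sub, Diff_congr_sub, abs_mul, Nat.abs_cast]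
  have h1 : |Diff n (fun y => tau y - a M y) (q : ℝ)| ≤ 2 ^ n * (2 / 2 ^ M) := by
    refine abs_Diff_le n (fun y => ?_) _
    rw [abs_sub_comm]
    exact abs_a_sub_tau M y
  exact mul_le_mul (c_le n) h1 (abs_nonneg _) (by positivity)

theorem abs_D_sub_Dq' (d n : ℕ) (q : ℚ) :
    |D d (q : ℝ) - (Dq d q (n + d ^ 2 + d + 1) : ℝ)| ≤ 1 / ((n : ℝ) + 1) := by
  refine (abs_D_sub_Dq d q _).trans ?_
  have e : (2 : ℝ) ^ (d ^ 2) * (2 ^ d * (2 / 2 ^ (n + d ^ 2 + d + 1))) = 1 / 2 ^ n := by
    field_simp
    ring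
  rw [e]
  apply one_div_le_one_div_of_le (by positivity)
  have : n + 1 ≤ 2 ^ n := Nat.lt_two_pow_self
  exact_mod_cast this

/-! ### Computability -/

open Crest.Agent.Lib.QQCompute

theorem primrec_signs : Primrec signs := by
  have h : Primrec (Nat.rec (motive := fun _ => List ℤ) [1]
      (fun _ l => l ++ l.map (fun z => -z))) := by
    refine Primrec.nat_rec₁ [1] ?_
    refine Primrec₂.mk ?_
    refine Primrec.list_append.comp Primrec.snd ?_
    exact Primrec.list_map Primrec.snd (primrec_intNeg.comp Primrec.snd).to₂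
  refine h.of_eq fun n => ?_
  induction n with
  | zero => rfl
  | succ n ih => simp only [signs]; rw [← ih]

theorem primrec_sgn : Primrec₂ sgn :=
  (Primrec.list_getD (0 : ℤ)).comp (primrec_signs.comp Primrec.fst) Primrec.snd

theorem primrec_natPow : Primrec₂ (fun a b : ℕ => a ^ b) := by
  have h : Primrec (fun p : ℕ × ℕ => Nat.rec (motive := fun _ => ℕ) 1
      (fun n IH => (fun (p : ℕ × ℕ) (q : ℕ × ℕ) => q.2 * p.1) p (n, IH)) p.2) := by
    refine Primrec.nat_rec' (f := fun p : ℕ × ℕ => p.2) (g := fun _ => 1)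
      (h := fun (p : ℕ × ℕ) (q : ℕ × ℕ) => q.2 * p.1) Primrec.snd (Primrec.const 1) ?_
    exact Primrec.nat_mul.comp (Primrec.snd.comp Primrec.snd) (Primrec.fst.comp Primrec.fst)
  refine h.of_eq fun p => ?_
  obtain ⟨a, b⟩ := p
  simp only
  induction b with
  | zero => rfl
  | succ b ih => simp only [pow_succ]; rw [← ih]

theorem computable_natPow {α : Type*} [Primcodable α] {f g : α → ℕ} (hf : Computable f)
    (hg : Computable g) : Computable (fun a => f a ^ g a) :=
  primrec_natPow.to_comp.comp hf hg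

section
variable {α : Type*} [Primcodable α]

theorem computable_Rq {f : α → ℕ} {g : α → ℚ} (hf : Computable f) (hg : Computable g) :
    Computable (fun a => Rq (f a) (g a)) := by
  unfold Rq
  refine Computable.ratDiv (Computable.ratPow ?_ hf) ?_
  · exact Computable.ratIte (Computable.ratLe (Computable.const 0) hg) hg (Computable.const 0)
  · refine Computable.ratProd hf ?_
    refine Computable₂.mk ?_
    exact Computable.ratAdd (Computable.ratNatCast Computable.snd) (Computable.const 1)

theorem computable_sgn {f g : α → ℕ} (hf : Computable f) (hg : Computable g) :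
    Computable (fun a => (sgn (f a) (g a) : ℚ)) :=
  Computable.ratIntCast (primrec_sgn.to_comp.comp hf hg)

theorem computable_two_pow {f : α → ℕ} (hf : Computable f) : Computable (fun a => 2 ^ f a) :=
  computable_natPow (Computable.const 2) hf

theorem computable_aq {f : α → ℕ} {g : α → ℚ} (hf : Computable f) (hg : Computable g) :
    Computable (fun a => aq (f a) (g a)) := by
  unfold aq
  refine Computable.ratMul ?_ ?_
  · refine Computable.ratProd hf ?_
    refine Computable₂.mk ?_
    exact Computable.ratPow (Computable.const _) Computable.snd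
  · refine Computable.ratSum (computable_two_pow hf) ?_
    refine Computable₂.mk ?_
    have hm : Computable (fun p : α × ℕ => f p.1) := hf.comp Computable.fst
    have hq : Computable (fun p : α × ℕ => g p.1) := hg.comp Computable.fst
    have h2 : Computable (fun p : α × ℕ => (2 : ℚ) ^ f p.1) :=
      Computable.ratPow (Computable.const _) hm
    have hy : Computable (fun p : α × ℕ => (2 : ℚ) ^ f p.1 * g p.1 - (p.2 : ℚ)) :=
      Computable.ratSub (Computable.ratMul h2 hq) (Computable.ratNatCast Computable.snd)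
    refine Computable.ratMul (computable_sgn hm Computable.snd) ?_
    refine Computable.ratSub ?_ ?_
    · exact computable_Rq (Computable.succ.comp hm) hy
    · exact computable_Rq (Computable.succ.comp hm) (Computable.ratSub hy (Computable.const 1))

theorem computable_c {f : α → ℕ} (hf : Computable f) : Computable (fun a => (c (f a) : ℚ)) := by
  have h : ∀ n, (c n : ℚ) = ∏ i ∈ Finset.range n, (2 : ℚ) ^ (i + 1) := by
    intro n
    simp [c]
  simp only [h]
  refine Computable.ratProd hf ?_
  refine Computable₂.mk ?_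
  exact Computable.ratPow (Computable.const _) (Computable.succ.comp Computable.snd)

theorem computable_Dq {f h : α → ℕ} {g : α → ℚ} (hf : Computable f) (hg : Computable g)
    (hh : Computable h) : Computable (fun a => Dq (f a) (g a) (h a)) := by
  unfold Dq
  refine Computable.ratMul (computable_c hf) ?_
  refine Computable.ratSum (computable_two_pow hf) ?_
  refine Computable₂.mk ?_
  have hm : Computable (fun p : α × ℕ => f p.1) := hf.comp Computable.fst
  have hq : Computable (fun p : α × ℕ => g p.1) := hg.comp Computable.fst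
  have h2 : Computable (fun p : α × ℕ => (2 : ℚ) ^ f p.1) :=
    Computable.ratPow (Computable.const _) hm
  have hy : Computable (fun p : α × ℕ => (2 : ℚ) ^ f p.1 * g p.1 - (p.2 : ℚ)) :=
    Computable.ratSub (Computable.ratMul h2 hq) (Computable.ratNatCast Computable.snd)
  refine Computable.ratMul (computable_sgn hm Computable.snd) ?_
  exact computable_aq (hh.comp Computable.fst) hy

end

/-! ### Effective one-variable functions -/

/-- A smooth function of one real variable all of whose derivatives are computably approximable at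
rational points and computably bounded. -/
structure Eff1 (f : ℝ → ℝ) : Prop where
  smooth : ContDiff ℝ ∞ f
  approx : ∃ A : ℕ × ℚ × ℕ → ℚ, Computable A ∧
    ∀ (d : ℕ) (q : ℚ) (n : ℕ), |iteratedDeriv d f (q : ℝ) - (A (d, q, n) : ℝ)| ≤ 1 / ((n : ℝ) + 1)
  bound : ∃ B : ℕ → ℕ, Computable B ∧ ∀ d x, |iteratedDeriv d f x| ≤ (B d : ℝ)

theorem eff1_tau : Eff1 tau := by
  refine ⟨tau_contDiff, ?_, ?_⟩
  · refine ⟨fun p => Dq p.1 p.2.1 (p.2.2 + p.1 ^ 2 + p.1 + 1), ?_, ?_⟩
    · refine computable_Dq Computable.fst (Computable.fst.comp Computable.snd) ?_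
      have hd : Computable (fun p : ℕ × ℚ × ℕ => p.1) := Computable.fst
      have hn : Computable (fun p : ℕ × ℚ × ℕ => p.2.2) := Computable.snd.comp Computable.snd
      have hadd := Primrec.nat_add.to_comp
      exact Computable.succ.comp (hadd.comp (hadd.comp hn (computable_natPow hd (Computable.const 2))) hd)
    · intro d q n
      rw [iteratedDeriv_tau]
      exact abs_D_sub_Dq' d n q
  · refine ⟨fun n => 2 ^ ((n + 1) ^ 2), ?_, ?_⟩
    · refine computable_two_pow (computable_natPow Computable.succ (Computable.const 2))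
    · intro d x
      rw [iteratedDeriv_tau]
      have := abs_D_le d x
      exact_mod_cast this

/-! ### Closure properties -/

/-- A family of successive derivatives. -/
theorem iteratedDeriv_of_family {F : ℕ → ℝ → ℝ} (h : ∀ n x, HasDerivAt (F n) (F (n + 1) x) x)
    (n : ℕ) : iteratedDeriv n (F 0) = F n := by
  induction n with
  | zero => simp
  | succ n ih =>
    rw [iteratedDeriv_succ, ih]
    funext x
    exact (h n x).deriv

theorem contDiff_of_family {F : ℕ → ℝ → ℝ} (h : ∀ n x, HasDerivAt (F n) (F (n + 1) x) x) :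
    ContDiff ℝ ∞ (F 0) := by
  refine contDiff_of_differentiable_iteratedDeriv fun m _ => ?_
  rw [iteratedDeriv_of_family h]
  exact fun x => (h m x).differentiableAt

theorem hasDerivAt_iteratedDeriv {f : ℝ → ℝ} (hf : ContDiff ℝ ∞ f) (n : ℕ) (x : ℝ) :
    HasDerivAt (iteratedDeriv n f) (iteratedDeriv (n + 1) f x) x := by
  have hd : Differentiable ℝ (iteratedDeriv n f) :=
    hf.differentiable_iteratedDeriv n (by exact_mod_cast WithTop.coe_lt_top _)
  rw [iteratedDeriv_succ]
  exact (hd x).hasDerivAt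

/-- Building effective functions from families. -/
theorem Eff1.of_family {F : ℕ → ℝ → ℝ} (h : ∀ n x, HasDerivAt (F n) (F (n + 1) x) x)
    (A : ℕ × ℚ × ℕ → ℚ) (hA : Computable A)
    (hA' : ∀ (d : ℕ) (q : ℚ) (n : ℕ), |F d (q : ℝ) - (A (d, q, n) : ℝ)| ≤ 1 / ((n : ℝ) + 1))
    (B : ℕ → ℕ) (hB : Computable B) (hB' : ∀ d x, |F d x| ≤ (B d : ℝ)) : Eff1 (F 0) := by
  refine ⟨contDiff_of_family h, ⟨A, hA, fun d q n => ?_⟩, ⟨B, hB, fun d x => ?_⟩⟩
  · rw [iteratedDeriv_of_family h]; exact hA' d q n
  · rw [iteratedDeriv_of_family h]; exact hB' d x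

theorem abs_rat_le (r : ℚ) : |(r : ℝ)| ≤ (r.num.natAbs : ℝ) := by
  have h1 : |(r : ℝ)| = ((|r| : ℚ) : ℝ) := by push_cast; rfl
  have h2 : |r| ≤ (r.num.natAbs : ℚ) := by
    rw [← Rat.num_div_den r, abs_div]
    have hd : (1 : ℚ) ≤ |(r.den : ℚ)| := by
      rw [Nat.abs_cast]
      exact_mod_cast r.den_pos
    have : |(r.num : ℚ)| = (r.num.natAbs : ℚ) := by
      rw [Nat.cast_natAbs, Int.cast_abs]
    simp only [Rat.num_div_den]
    calc |(r.num : ℚ)| / |(r.den : ℚ)| ≤ |(r.num : ℚ)| / 1 :=
          div_le_div_of_nonneg_left (abs_nonneg _) (by norm_num) hd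
      _ = (r.num.natAbs : ℚ) := by rw [div_one, this]
  rw [h1]
  exact_mod_cast h2

/-- Scaling the tolerance: if `x` is within `1 / (K * (n+1) + 1)` of `y` and `|c| ≤ K`, then
`c x` is within `1 / (n+1)` of `c y`. -/
theorem abs_mul_sub_le {c x y : ℝ} {K n : ℕ} (hc : |c| ≤ K)
    (h : |x - y| ≤ 1 / (((K * (n + 1) : ℕ) : ℝ) + 1)) : |c * x - c * y| ≤ 1 / ((n : ℝ) + 1) := by
  rw [← mul_sub, abs_mul]
  have hn : (0 : ℝ) < (n : ℝ) + 1 := by positivity
  rcases Nat.eq_zero_or_pos K with rfl | hK
  · have : |c| = 0 := le_antisymm (by simpa using hc) (abs_nonneg c)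
    rw [this, zero_mul]
    positivity
  · have hK' : (0 : ℝ) < K := by exact_mod_cast hK
    calc |c| * |x - y| ≤ K * (1 / (((K * (n + 1) : ℕ) : ℝ) + 1)) :=
          mul_le_mul hc h (abs_nonneg _) hK'.le
      _ ≤ K * (1 / (K * ((n : ℝ) + 1))) := by
          apply mul_le_mul_of_nonneg_left _ hK'.le
          apply one_div_le_one_div_of_le (by positivity)
          push_cast
          linarith
      _ = 1 / ((n : ℝ) + 1) := by
          field_simp

namespace Eff1

variable {f g : ℝ → ℝ}

theorem congr (hf : Eff1 f) (h : ∀ x, f x = g x) : Eff1 g := by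
  have : f = g := funext h
  rwa [← this]

theorem of_family' {F : ℕ → ℝ → ℝ} (h : ∀ n x, HasDerivAt (F n) (F (n + 1) x) x)
    (h0 : ∀ x, F 0 x = f x)
    (A : ℕ × ℚ × ℕ → ℚ) (hA : Computable A)
    (hA' : ∀ (d : ℕ) (q : ℚ) (n : ℕ), |F d (q : ℝ) - (A (d, q, n) : ℝ)| ≤ 1 / ((n : ℝ) + 1))
    (B : ℕ → ℕ) (hB : Computable B) (hB' : ∀ d x, |F d x| ≤ (B d : ℝ)) : Eff1 f :=
  (Eff1.of_family h A hA hA' B hB hB').congr h0

theorem const (r : ℚ) : Eff1 (fun _ => (r : ℝ)) := by
  refine of_family' (F := fun n _ => if n = 0 then (r : ℝ) else 0) ?_ (by simp)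
    (fun p => if p.1 = 0 then r else 0) ?_ ?_ (fun _ => r.num.natAbs) (Computable.const _) ?_
  · intro n x
    simp only [Nat.add_eq_zero_iff, one_ne_zero, and_false, if_false]
    exact hasDerivAt_const x _
  · refine Computable.ite' ?_ (Computable.const _) (Computable.const _)
    exact ((Primrec.eq (α := ℕ)).comp Primrec.fst (Primrec.const 0)).decide.to_comp
  · intro d q n
    by_cases hd : d = 0 <;> simp only [hd, if_true, if_false] <;> simp <;> positivity
  · intro d x
    by_cases hd : d = 0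
    · simp only [hd, if_true]
      exact abs_rat_le r
    · simp only [hd, if_false]
      simp

theorem add (hf : Eff1 f) (hg : Eff1 g) : Eff1 (fun x => f x + g x) := by
  obtain ⟨hfs, ⟨Af, hAf, hAf'⟩, ⟨Bf, hBf, hBf'⟩⟩ := hf
  obtain ⟨hgs, ⟨Ag, hAg, hAg'⟩, ⟨Bg, hBg, hBg'⟩⟩ := hg
  refine of_family' (F := fun n x => iteratedDeriv n f x + iteratedDeriv n g x) ?_ (by simp)
    (fun p => Af (p.1, p.2.1, 2 * p.2.2 + 1) + Ag (p.1, p.2.1, 2 * p.2.2 + 1)) ?_ ?_
    (fun d => Bf d + Bg d) ?_ ?_
  · intro n x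
    exact (hasDerivAt_iteratedDeriv hfs n x).fun_add (hasDerivAt_iteratedDeriv hgs n x)
  · have hN : Computable (fun p : ℕ × ℚ × ℕ => (p.1, p.2.1, 2 * p.2.2 + 1)) := by
      refine Computable.fst.pair ((Computable.fst.comp Computable.snd).pair ?_)
      exact (Primrec.nat_double_succ.comp (Primrec.snd.comp Primrec.snd)).to_comp
    exact Computable.ratAdd (hAf.comp hN) (hAg.comp hN)
  · intro d q n
    have h1 := hAf' d q (2 * n + 1)
    have h2 := hAg' d q (2 * n + 1)
    have e : (1 : ℝ) / (((2 * n + 1 : ℕ) : ℝ) + 1) = 1 / (2 * ((n : ℝ) + 1)) := by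
      push_cast
      ring_nf
    rw [e] at h1 h2
    have e2 : (1 : ℝ) / ((n : ℝ) + 1) = 1 / (2 * ((n : ℝ) + 1)) + 1 / (2 * ((n : ℝ) + 1)) := by
      field_simp
      ring
    rw [e2]
    push_cast
    calc _ = |(iteratedDeriv d f (q : ℝ) - (Af (d, q, 2 * n + 1) : ℝ)) +
            (iteratedDeriv d g (q : ℝ) - (Ag (d, q, 2 * n + 1) : ℝ))| := by congr 1; ring
      _ ≤ _ := (abs_add_le _ _).trans (add_le_add h1 h2)
  · exact Primrec.nat_add.to_comp.comp hBf hBg
  · intro d x
    push_cast
    exact (abs_add_le _ _).trans (add_le_add (hBf' d x) (hBg' d x))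

theorem const_mul (r : ℚ) (hf : Eff1 f) : Eff1 (fun x => (r : ℝ) * f x) := by
  obtain ⟨hfs, ⟨Af, hAf, hAf'⟩, ⟨Bf, hBf, hBf'⟩⟩ := hf
  set K : ℕ := r.num.natAbs with hK
  have hKr : |(r : ℝ)| ≤ K := abs_rat_le r
  refine of_family' (F := fun n x => (r : ℝ) * iteratedDeriv n f x) ?_ (by simp)
    (fun p => r * Af (p.1, p.2.1, K * (p.2.2 + 1))) ?_ ?_
    (fun d => K * Bf d) ?_ ?_
  · intro n x
    exact (hasDerivAt_iteratedDeriv hfs n x).const_mul _
  · have hN : Computable (fun p : ℕ × ℚ × ℕ => (p.1, p.2.1, K * (p.2.2 + 1))) := by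
      refine Computable.fst.pair ((Computable.fst.comp Computable.snd).pair ?_)
      exact Primrec.nat_mul.to_comp.comp (Computable.const K)
        (Computable.succ.comp (Computable.snd.comp Computable.snd))
    exact Computable.ratMul (Computable.const r) (hAf.comp hN)
  · intro d q n
    push_cast
    exact abs_mul_sub_le hKr (hAf' d q _)
  · exact Primrec.nat_mul.to_comp.comp (Computable.const K) hBf
  · intro d x
    push_cast
    rw [abs_mul]
    exact mul_le_mul hKr (hBf' d x) (abs_nonneg _) (by positivity)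

theorem neg (hf : Eff1 f) : Eff1 (fun x => - f x) :=
  (const_mul (-1) hf).congr fun x => by push_cast; ring

theorem sub (hf : Eff1 f) (hg : Eff1 g) : Eff1 (fun x => f x - g x) :=
  (add hf hg.neg).congr fun x => by ring

theorem comp_affine (r s : ℚ) (hf : Eff1 f) : Eff1 (fun x => f ((r : ℝ) * x + (s : ℝ))) := by
  obtain ⟨hfs, ⟨Af, hAf, hAf'⟩, ⟨Bf, hBf, hBf'⟩⟩ := hf
  set K : ℕ := r.num.natAbs with hK
  have hKr : |(r : ℝ)| ≤ K := abs_rat_le r
  have hKp : ∀ d : ℕ, |(r : ℝ) ^ d| ≤ ((K ^ d : ℕ) : ℝ) := by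
    intro d
    rw [abs_pow]
    push_cast
    exact pow_le_pow_left₀ (abs_nonneg _) hKr d
  refine of_family'
    (F := fun n x => (r : ℝ) ^ n * iteratedDeriv n f ((r : ℝ) * x + (s : ℝ))) ?_ (by simp)
    (fun p => r ^ p.1 * Af (p.1, r * p.2.1 + s, K ^ p.1 * (p.2.2 + 1))) ?_ ?_
    (fun d => K ^ d * Bf d) ?_ ?_
  · intro n x
    have h0 : HasDerivAt (fun y : ℝ => (r : ℝ) * y + (s : ℝ)) (r : ℝ) x := by
      simpa using ((hasDerivAt_id x).const_mul (r : ℝ)).add_const (s : ℝ)
    have h1 : HasDerivAt (fun y => iteratedDeriv n f ((r : ℝ) * y + (s : ℝ)))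
        (iteratedDeriv (n + 1) f ((r : ℝ) * x + (s : ℝ)) * (r : ℝ)) x :=
      HasDerivAt.comp (h₂ := iteratedDeriv n f) (h := fun y => (r : ℝ) * y + (s : ℝ)) x
        (hasDerivAt_iteratedDeriv hfs n _) h0
    refine (h1.const_mul ((r : ℝ) ^ n)).congr_deriv ?_
    rw [pow_succ]
    ring
  · have hd : Computable (fun p : ℕ × ℚ × ℕ => p.1) := Computable.fst
    have hN : Computable (fun p : ℕ × ℚ × ℕ => (p.1, r * p.2.1 + s, K ^ p.1 * (p.2.2 + 1))) := by
      refine hd.pair (Computable.pair ?_ ?_)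
      · exact Computable.ratAdd (Computable.ratMul (Computable.const r)
          (Computable.fst.comp Computable.snd)) (Computable.const s)
      · exact Primrec.nat_mul.to_comp.comp (computable_natPow (Computable.const K) hd)
          (Computable.succ.comp (Computable.snd.comp Computable.snd))
    exact Computable.ratMul (Computable.ratPow (Computable.const r) hd) (hAf.comp hN)
  · intro d q n
    have h2 := hAf' d (r * q + s) (K ^ d * (n + 1))
    have e : ((r * q + s : ℚ) : ℝ) = (r : ℝ) * (q : ℝ) + (s : ℝ) := by push_cast; rfl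
    rw [e] at h2
    push_cast
    exact abs_mul_sub_le (hKp d) h2
  · exact Primrec.nat_mul.to_comp.comp (computable_natPow (Computable.const K) Computable.id) hBf
  · intro d x
    rw [abs_mul]
    push_cast
    have := hKp d
    push_cast at this
    exact mul_le_mul this (hBf' d _) (abs_nonneg _) (by positivity)

theorem deriv' (hf : Eff1 f) : Eff1 (deriv f) := by
  obtain ⟨hfs, ⟨Af, hAf, hAf'⟩, ⟨Bf, hBf, hBf'⟩⟩ := hf
  refine of_family' (F := fun n x => iteratedDeriv (n + 1) f x) ?_ (by simp)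
    (fun p => Af (p.1 + 1, p.2.1, p.2.2)) ?_ ?_
    (fun d => Bf (d + 1)) ?_ ?_
  · intro n x
    exact hasDerivAt_iteratedDeriv hfs (n + 1) x
  · have hN : Computable (fun p : ℕ × ℚ × ℕ => (p.1 + 1, p.2.1, p.2.2)) :=
      (Computable.succ.comp Computable.fst).pair Computable.snd
    exact hAf.comp hN
  · intro d q n
    exact hAf' _ _ _
  · exact hBf.comp Computable.succ
  · intro d x
    exact hBf' _ _

theorem iteratedDeriv_eq_zero {R : ℕ} (hf : ∀ x, (R : ℝ) < |x| → f x = 0) (d : ℕ) (x : ℝ)
    (hx : (R : ℝ) < |x|) : iteratedDeriv d f x = 0 := by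
  have h : f =ᶠ[nhds x] fun _ => 0 := by
    have hopen : IsOpen {y : ℝ | (R : ℝ) < |y|} := isOpen_lt continuous_const continuous_abs
    filter_upwards [hopen.mem_nhds hx] with y hy
    exact hf y hy
  rw [h.iteratedDeriv_eq]
  exact iteratedDeriv_fun_const_zero

/-- Multiplying a compactly supported effective function by the identity. -/
theorem mul_id (hf : Eff1 f) {R : ℕ} (hsupp : ∀ x, (R : ℝ) < |x| → f x = 0) :
    Eff1 (fun x => x * f x) := by
  obtain ⟨hfs, ⟨Af, hAf, hAf'⟩, ⟨Bf, hBf, hBf'⟩⟩ := hf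
  refine of_family'
    (F := fun n x => x * iteratedDeriv n f x + (n : ℝ) * iteratedDeriv (n - 1) f x) ?_ (by simp)
    (fun p => p.2.1 * Af (p.1, p.2.1, (p.2.1.num.natAbs + p.1) * (p.2.2 + 1)) +
      (p.1 : ℚ) * Af (p.1 - 1, p.2.1, (p.2.1.num.natAbs + p.1) * (p.2.2 + 1))) ?_ ?_
    (fun d => R * Bf d + d * Bf (d - 1)) ?_ ?_
  · intro n x
    have h1 : HasDerivAt (fun y => y * iteratedDeriv n f y)
        (1 * iteratedDeriv n f x + x * iteratedDeriv (n + 1) f x) x :=
      (hasDerivAt_id x).mul (hasDerivAt_iteratedDeriv hfs n x)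
    cases n with
    | zero =>
      have h2 := h1
      refine HasDerivAt.congr_deriv (f' := 1 * iteratedDeriv 0 f x + x * iteratedDeriv (0 + 1) f x)
        ?_ ?_
      · simpa using h1
      · simp
        ring
    | succ n =>
      have h2 := (hasDerivAt_iteratedDeriv hfs n x).const_mul ((n + 1 : ℕ) : ℝ)
      refine (h1.fun_add h2).congr_deriv ?_
      simp only [Nat.add_sub_cancel]
      push_cast
      ring
  · have hd : Computable (fun p : ℕ × ℚ × ℕ => p.1) := Computable.fst
    have hq : Computable (fun p : ℕ × ℚ × ℕ => p.2.1) := Computable.fst.comp Computable.snd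
    have hn : Computable (fun p : ℕ × ℚ × ℕ => p.2.2) := Computable.snd.comp Computable.snd
    have hK : Computable (fun p : ℕ × ℚ × ℕ => p.2.1.num.natAbs) :=
      primrec_natAbs.to_comp.comp (computable_num.comp hq)
    have hN : Computable (fun p : ℕ × ℚ × ℕ => (p.2.1.num.natAbs + p.1) * (p.2.2 + 1)) :=
      Primrec.nat_mul.to_comp.comp (Primrec.nat_add.to_comp.comp hK hd) (Computable.succ.comp hn)
    have hpred : Computable (fun p : ℕ × ℚ × ℕ => p.1 - 1) :=
      Primrec.nat_sub.to_comp.comp hd (Computable.const 1)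
    refine Computable.ratAdd (Computable.ratMul hq (hAf.comp (hd.pair (hq.pair hN)))) ?_
    exact Computable.ratMul (Computable.ratNatCast hd) (hAf.comp (hpred.pair (hq.pair hN)))
  · intro d q n
    set K : ℕ := q.num.natAbs + d with hKdef
    have hKq : |(q : ℝ)| ≤ q.num.natAbs := abs_rat_le q
    have h1 := hAf' d q (K * (n + 1))
    have h2 := hAf' (d - 1) q (K * (n + 1))
    have hn : (0 : ℝ) < (n : ℝ) + 1 := by positivity
    push_cast
    set ε : ℝ := 1 / (((K * (n + 1) : ℕ) : ℝ) + 1) with hε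
    have hε0 : 0 ≤ ε := by positivity
    have hcomb : |(q : ℝ) * iteratedDeriv d f q + (d : ℝ) * iteratedDeriv (d - 1) f q -
        ((q : ℝ) * (Af (d, q, K * (n + 1)) : ℝ) + (d : ℝ) * (Af (d - 1, q, K * (n + 1)) : ℝ))|
        ≤ (K : ℝ) * ε := by
      calc _ = |(q : ℝ) * (iteratedDeriv d f q - (Af (d, q, K * (n + 1)) : ℝ)) +
            (d : ℝ) * (iteratedDeriv (d - 1) f q - (Af (d - 1, q, K * (n + 1)) : ℝ))| := by
              congr 1; ring
        _ ≤ |(q : ℝ)| * ε + (d : ℝ) * ε := by
            refine (abs_add_le _ _).trans (add_le_add ?_ ?_)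
            · rw [abs_mul]
              exact mul_le_mul_of_nonneg_left h1 (abs_nonneg _)
            · rw [abs_mul, Nat.abs_cast]
              exact mul_le_mul_of_nonneg_left h2 (by positivity)
        _ ≤ (q.num.natAbs : ℝ) * ε + (d : ℝ) * ε := by gcongr
        _ = (K : ℝ) * ε := by rw [hKdef]; push_cast; ring
    refine hcomb.trans ?_
    rcases Nat.eq_zero_or_pos K with h0 | hK
    · rw [h0]
      simp only [Nat.cast_zero, zero_mul]
      positivity
    · have hK' : (0 : ℝ) < K := by exact_mod_cast hK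
      calc (K : ℝ) * ε ≤ K * (1 / (K * ((n : ℝ) + 1))) := by
            apply mul_le_mul_of_nonneg_left _ hK'.le
            rw [hε]
            apply one_div_le_one_div_of_le (by positivity)
            push_cast
            linarith
        _ = 1 / ((n : ℝ) + 1) := by
            field_simp
  · have hpred : Computable (fun d : ℕ => d - 1) :=
      Primrec.nat_sub.to_comp.comp Computable.id (Computable.const 1)
    exact Primrec.nat_add.to_comp.comp
      (Primrec.nat_mul.to_comp.comp (Computable.const R) hBf)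
      (Primrec.nat_mul.to_comp.comp Computable.id (hBf.comp hpred))
  · intro d x
    push_cast
    by_cases hx : (R : ℝ) < |x|
    · rw [iteratedDeriv_eq_zero hsupp d x hx, iteratedDeriv_eq_zero hsupp (d - 1) x hx]
      simp only [mul_zero, add_zero, abs_zero]
      positivity
    · rw [not_lt] at hx
      refine (abs_add_le _ _).trans (add_le_add ?_ ?_)
      · rw [abs_mul]
        exact mul_le_mul hx (hBf' d x) (abs_nonneg _) (by positivity)
      · rw [abs_mul, Nat.abs_cast]
        exact mul_le_mul_of_nonneg_left (hBf' _ x) (by positivity)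

end Eff1

/-! ### Steps and bumps -/

/-- A smooth step: `0` for `x ≤ u`, `1` for `v ≤ x`. -/
noncomputable def step (u v : ℚ) (x : ℝ) : ℝ := tau ((x - u) / (v - u))

theorem eff1_step (u v : ℚ) : Eff1 (step u v) := by
  have h := Eff1.comp_affine (1 / (v - u)) (-u / (v - u)) eff1_tau
  refine h.congr fun x => ?_
  unfold step
  congr 1
  push_cast
  ring

theorem step_of_le {u v : ℚ} (huv : u < v) {x : ℝ} (hx : x ≤ u) : step u v x = 0 := by
  have h : (0 : ℝ) < (v : ℝ) - u := by
    have : (u : ℝ) < v := by exact_mod_cast huv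
    linarith
  exact adm_tau.zero _ (div_nonpos_of_nonpos_of_nonneg (by linarith) h.le)

theorem step_of_ge {u v : ℚ} (huv : u < v) {x : ℝ} (hx : (v : ℝ) ≤ x) : step u v x = 1 := by
  have h : (0 : ℝ) < (v : ℝ) - u := by
    have : (u : ℝ) < v := by exact_mod_cast huv
    linarith
  refine adm_tau.one _ ?_
  rw [le_div_iff₀ h]
  linarith

theorem step_nonneg (u v : ℚ) (x : ℝ) : 0 ≤ step u v x := adm_tau.nonneg _

theorem step_le_one (u v : ℚ) (x : ℝ) : step u v x ≤ 1 := adm_tau.le_one _

/-- A smooth plateau: `0` for `x ≤ p` and for `s ≤ x`, `1` on `[q, r]`. -/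
noncomputable def plateau (p q r s : ℚ) (x : ℝ) : ℝ := step p q x - step r s x

theorem eff1_plateau (p q r s : ℚ) : Eff1 (plateau p q r s) :=
  (eff1_step p q).sub (eff1_step r s)

theorem plateau_of_le {p q r s : ℚ} (hpq : p < q) (hqr : q ≤ r) (hrs : r < s) {x : ℝ}
    (hx : x ≤ p) : plateau p q r s x = 0 := by
  have hpr : (p : ℝ) ≤ r := by exact_mod_cast (hpq.le.trans hqr)
  unfold plateau
  rw [step_of_le hpq hx, step_of_le hrs (hx.trans hpr)]
  simp

theorem plateau_of_ge {p q r s : ℚ} (hpq : p < q) (hqr : q ≤ r) (hrs : r < s) {x : ℝ}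
    (hx : (s : ℝ) ≤ x) : plateau p q r s x = 0 := by
  have hqs : (q : ℝ) ≤ s := by exact_mod_cast (hqr.trans hrs.le)
  unfold plateau
  rw [step_of_ge hpq (hqs.trans hx), step_of_ge hrs hx]
  simp

theorem plateau_eq_one {p q r s : ℚ} (hpq : p < q) (hrs : r < s) {x : ℝ}
    (h1 : (q : ℝ) ≤ x) (h2 : x ≤ r) : plateau p q r s x = 1 := by
  unfold plateau
  rw [step_of_ge hpq h1, step_of_le hrs h2]
  simp

end Crest.Agent.Lib.Rvachev
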