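import Crest.Agent.Lib.SwitchKernel

/-!
Conditional expectations on the realizations of a degree vector: for a set `X` of pairs,
`condE d X f G` is the average of `f` over the realizations agreeing with `G` off `X`.

Basic facts: self-adjoint, idempotent, tower, and `E^X E^Y = E^Y E^X` for disjoint `X`, `Y`.
-/

set_option autoImplicit false

open Finset

namespace Crest.Agent.Lib.SwitchFiber

open Crest.SwitchChain

variable {n : ℕ}

/-- Degrees add over disjoint unions. -/
lemma deg_union_of_disjoint {A B : Finset (Edge n)} (h : Disjoint A B) (v : Fin n) :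
    deg (A ∪ B) v = deg A v + deg B v := by
  unfold deg
  rw [filter_union, card_union_of_disjoint (disjoint_filter_filter h)]

lemma deg_sdiff_add_inter (G X : Finset (Edge n)) (v : Fin n) :
    deg (G \ X) v + deg (G ∩ X) v = deg G v := by
  rw [← deg_union_of_disjoint (disjoint_sdiff_inter G X), sdiff_union_inter]

/-- The fibre of `G` for the free set `X`: realizations agreeing with `G` off `X`. -/
def fib (d : Fin n → ℕ) (X G : Finset (Edge n)) : Finset (Finset (Edge n)) :=
  (realizations d).filter fun G' => G' \ X = G \ X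

lemma mem_fib {d : Fin n → ℕ} {X G G' : Finset (Edge n)} :
    G' ∈ fib d X G ↔ G' ∈ realizations d ∧ G' \ X = G \ X := by
  simp [fib]

lemma self_mem_fib {d : Fin n → ℕ} {X G : Finset (Edge n)} (hG : G ∈ realizations d) :
    G ∈ fib d X G := mem_fib.mpr ⟨hG, rfl⟩

lemma fib_eq_of_mem {d : Fin n → ℕ} {X G G' : Finset (Edge n)} (h : G' ∈ fib d X G) :
    fib d X G' = fib d X G := by
  ext H
  rw [mem_fib, mem_fib, (mem_fib.mp h).2]

lemma fib_nonempty {d : Fin n → ℕ} {X G : Finset (Edge n)} (hG : G ∈ realizations d) :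
    (fib d X G).Nonempty := ⟨G, self_mem_fib hG⟩

lemma card_fib_pos {d : Fin n → ℕ} {X G : Finset (Edge n)} (hG : G ∈ realizations d) :
    (0 : ℝ) < (fib d X G).card := by
  exact_mod_cast card_pos.mpr (fib_nonempty hG)

/-- The conditional expectation. -/
noncomputable def condE (d : Fin n → ℕ) (X : Finset (Edge n)) (f : Finset (Edge n) → ℝ)
    (G : Finset (Edge n)) : ℝ :=
  (∑ G' ∈ fib d X G, f G') / (fib d X G).card

lemma condE_eq_of_mem {d : Fin n → ℕ} {X G G' : Finset (Edge n)} (f : Finset (Edge n) → ℝ)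
    (h : G' ∈ fib d X G) : condE d X f G' = condE d X f G := by
  unfold condE; rw [fib_eq_of_mem h]

lemma sum_fib_eq_card_mul {d : Fin n → ℕ} {X G : Finset (Edge n)} (hG : G ∈ realizations d)
    (f : Finset (Edge n) → ℝ) :
    ∑ G' ∈ fib d X G, f G' = (fib d X G).card * condE d X f G := by
  unfold condE
  have := (card_fib_pos (X := X) hG).ne'
  field_simp

/-- Congruence: only the values on the fibre matter. -/
lemma condE_congr {d : Fin n → ℕ} {X G : Finset (Edge n)} {f g : Finset (Edge n) → ℝ}
    (h : ∀ G' ∈ fib d X G, f G' = g G') : condE d X f G = condE d X g G := by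
  unfold condE
  rw [sum_congr rfl h]

/-- Congruence on all realizations. -/
lemma condE_congr' {d : Fin n → ℕ} {X G : Finset (Edge n)} {f g : Finset (Edge n) → ℝ}
    (h : ∀ G' ∈ realizations d, f G' = g G') : condE d X f G = condE d X g G :=
  condE_congr fun G' hG' => h G' (mem_fib.mp hG').1

/-- The double-sum expression for the pairing. -/
lemma sum_condE_mul (d : Fin n → ℕ) (X : Finset (Edge n)) (f g : Finset (Edge n) → ℝ) :
    ∑ G ∈ realizations d, condE d X f G * g G =
      ∑ G ∈ realizations d, ∑ G' ∈ realizations d,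
        (if G' \ X = G \ X then f G' * g G / (fib d X G).card else 0) := by
  refine sum_congr rfl fun G _ => ?_
  unfold condE
  rw [fib, sum_filter, sum_div, sum_mul]
  refine sum_congr rfl fun G' _ => ?_
  split_ifs <;> ring

/-- Self-adjointness. -/
lemma condE_selfAdjoint (d : Fin n → ℕ) (X : Finset (Edge n)) (f g : Finset (Edge n) → ℝ) :
    ∑ G ∈ realizations d, condE d X f G * g G = ∑ G ∈ realizations d, f G * condE d X g G := by
  have h2 : ∑ G ∈ realizations d, f G * condE d X g G
      = ∑ G ∈ realizations d, condE d X g G * f G := sum_congr rfl fun G _ => mul_comm _ _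
  rw [h2, sum_condE_mul, sum_condE_mul, sum_comm]
  refine sum_congr rfl fun G hG => sum_congr rfl fun G' hG' => ?_
  by_cases h : G' \ X = G \ X
  · rw [if_pos h, if_pos h.symm]
    have hf : fib d X G' = fib d X G := by
      apply fib_eq_of_mem; exact mem_fib.mpr ⟨hG', h⟩
    rw [hf]; ring
  · rw [if_neg h, if_neg (fun h' => h h'.symm)]

/-- A function constant on the fibre has that constant as its average. -/
lemma condE_of_const {d : Fin n → ℕ} {X G : Finset (Edge n)} (hG : G ∈ realizations d)
    {g : Finset (Edge n) → ℝ} {c : ℝ} (h : ∀ G' ∈ fib d X G, g G' = c) : condE d X g G = c := by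
  unfold condE
  rw [sum_congr rfl h, sum_const, nsmul_eq_mul]
  have := (card_fib_pos (X := X) hG).ne'
  field_simp

/-- Idempotence. -/
lemma condE_idem {d : Fin n → ℕ} (X : Finset (Edge n)) (f : Finset (Edge n) → ℝ)
    {G : Finset (Edge n)} (hG : G ∈ realizations d) :
    condE d X (condE d X f) G = condE d X f G :=
  condE_of_const hG fun _ hG' => condE_eq_of_mem f hG'

lemma sdiff_of_subset_eq {X Y : Finset (Edge n)} (hXY : X ⊆ Y) (H : Finset (Edge n)) :
    (H \ X) \ Y = H \ Y := by
  ext e
  simp only [mem_sdiff]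
  constructor
  · rintro ⟨⟨h1, -⟩, h2⟩; exact ⟨h1, h2⟩
  · rintro ⟨h1, h2⟩; exact ⟨⟨h1, fun h => h2 (hXY h)⟩, h2⟩

/-- Fibres are nested. -/
lemma fib_subset_of_subset {d : Fin n → ℕ} {X Y G : Finset (Edge n)} (hXY : X ⊆ Y) :
    fib d X G ⊆ fib d Y G := by
  intro G' hG'
  obtain ⟨h1, h2⟩ := mem_fib.mp hG'
  refine mem_fib.mpr ⟨h1, ?_⟩
  rw [← sdiff_of_subset_eq hXY G', ← sdiff_of_subset_eq hXY G, h2]

/-- If `X ⊆ Y`, averaging over `X` after averaging over `Y` changes nothing. -/
lemma condE_of_subset {d : Fin n → ℕ} {X Y : Finset (Edge n)} (hXY : X ⊆ Y)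
    (f : Finset (Edge n) → ℝ) {G : Finset (Edge n)} (hG : G ∈ realizations d) :
    condE d X (condE d Y f) G = condE d Y f G :=
  condE_of_const hG fun _ hG' => condE_eq_of_mem f (fib_subset_of_subset hXY hG')

/-- Two functions with the same pairings against everything agree on the realizations. -/
lemma eq_on_of_pairing {d : Fin n → ℕ} {u v : Finset (Edge n) → ℝ}
    (h : ∀ g : Finset (Edge n) → ℝ, ∑ G ∈ realizations d, u G * g G =
      ∑ G ∈ realizations d, v G * g G) {G : Finset (Edge n)} (hG : G ∈ realizations d) :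
    u G = v G := by
  have h1 := h (fun G => u G - v G)
  have h2 : ∑ G ∈ realizations d, (u G - v G) ^ 2 = 0 := by
    have : ∀ G, (u G - v G) ^ 2 = u G * (u G - v G) - v G * (u G - v G) := fun G => by ring
    simp only [this, sum_sub_distrib]
    linarith
  have h3 := (sum_eq_zero_iff_of_nonneg fun G _ => sq_nonneg (u G - v G)).mp h2 G hG
  have := pow_eq_zero_iff (two_ne_zero) |>.mp h3
  linarith

/-- The tower property, the other order. -/
lemma condE_condE_of_subset {d : Fin n → ℕ} {X Y : Finset (Edge n)} (hXY : X ⊆ Y)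
    (f : Finset (Edge n) → ℝ) {G : Finset (Edge n)} (hG : G ∈ realizations d) :
    condE d Y (condE d X f) G = condE d Y f G := by
  refine eq_on_of_pairing (d := d) (fun g => ?_) hG
  calc ∑ G ∈ realizations d, condE d Y (condE d X f) G * g G
      = ∑ G ∈ realizations d, condE d X f G * condE d Y g G := condE_selfAdjoint d Y _ g
    _ = ∑ G ∈ realizations d, f G * condE d X (condE d Y g) G := condE_selfAdjoint d X f _
    _ = ∑ G ∈ realizations d, f G * condE d Y g G :=
        sum_congr rfl fun G hG => by rw [condE_of_subset hXY g hG]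
    _ = ∑ G ∈ realizations d, condE d Y f G * g G := (condE_selfAdjoint d Y f g).symm

/-! ### Parametrisation of fibres -/

/-- The possible `X`-parts in the fibre of `G`. -/
def parts (X G : Finset (Edge n)) : Finset (Finset (Edge n)) :=
  X.powerset.filter fun H => ∀ v, deg H v = deg (G ∩ X) v

lemma mem_parts {X G H : Finset (Edge n)} :
    H ∈ parts X G ↔ H ⊆ X ∧ ∀ v, deg H v = deg (G ∩ X) v := by
  simp [parts]

lemma fib_eq_image {d : Fin n → ℕ} {X G : Finset (Edge n)} (hG : G ∈ realizations d) :
    fib d X G = (parts X G).image fun H => (G \ X) ∪ H := by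
  have hG' : ∀ v, deg G v = d v := fun v => (mem_filter.mp hG).2 v
  ext G'
  simp only [mem_fib, mem_image]
  constructor
  · rintro ⟨h1, h2⟩
    have h1' : ∀ v, deg G' v = d v := fun v => (mem_filter.mp h1).2 v
    refine ⟨G' ∩ X, mem_parts.mpr ⟨inter_subset_right, fun v => ?_⟩, ?_⟩
    · have e1 := deg_sdiff_add_inter G' X v
      have e2 := deg_sdiff_add_inter G X v
      rw [h2, h1'] at e1
      rw [hG'] at e2
      omega
    · rw [← h2, sdiff_union_inter]
  · rintro ⟨H, hH, rfl⟩
    obtain ⟨hH1, hH2⟩ := mem_parts.mp hH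
    have hdisj : Disjoint (G \ X) H := by
      rw [Finset.disjoint_left]
      intro e he he'
      exact (mem_sdiff.mp he).2 (hH1 he')
    refine ⟨mem_filter.mpr ⟨mem_univ _, fun v => ?_⟩, ?_⟩
    · rw [deg_union_of_disjoint hdisj, hH2, deg_sdiff_add_inter, hG']
    · ext e
      simp only [mem_sdiff, mem_union]
      constructor
      · rintro ⟨h1 | h1, h2⟩
        · exact h1
        · exact absurd (hH1 h1) h2
      · intro h1
        exact ⟨Or.inl h1, h1.2⟩

lemma union_sdiff_eq_of_subset {X G H : Finset (Edge n)} (hH : H ⊆ X) : (G \ X ∪ H) ∩ X = H := by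
  ext e
  simp only [mem_inter, mem_union, mem_sdiff]
  constructor
  · rintro ⟨h1 | h1, h2⟩
    · exact absurd h2 h1.2
    · exact h1
  · intro h1; exact ⟨Or.inr h1, hH h1⟩

lemma injOn_part {X G : Finset (Edge n)} :
    Set.InjOn (fun H => (G \ X) ∪ H) (parts X G : Set (Finset (Edge n))) := by
  intro H₁ h₁ H₂ h₂ h
  have h₁' := (mem_parts.mp h₁).1
  have h₂' := (mem_parts.mp h₂).1
  have := congrArg (· ∩ X) h
  simp only [union_sdiff_eq_of_subset h₁', union_sdiff_eq_of_subset h₂'] at this
  exact this

lemma card_fib {d : Fin n → ℕ} {X G : Finset (Edge n)} (hG : G ∈ realizations d) :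
    (fib d X G).card = (parts X G).card := by
  rw [fib_eq_image hG, card_image_of_injOn injOn_part]

lemma sum_fib {d : Fin n → ℕ} {X G : Finset (Edge n)} (hG : G ∈ realizations d)
    (f : Finset (Edge n) → ℝ) :
    ∑ G' ∈ fib d X G, f G' = ∑ H ∈ parts X G, f ((G \ X) ∪ H) := by
  rw [fib_eq_image hG, sum_image injOn_part]

/-- The average over a fibre, written over the parts. -/
lemma condE_eq_parts {d : Fin n → ℕ} {X G : Finset (Edge n)} (hG : G ∈ realizations d)
    (f : Finset (Edge n) → ℝ) :
    condE d X f G = (∑ H ∈ parts X G, f ((G \ X) ∪ H)) / (parts X G).card := by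
  unfold condE
  rw [sum_fib hG, card_fib hG]

lemma mem_realizations_of_part {d : Fin n → ℕ} {X G H : Finset (Edge n)}
    (hG : G ∈ realizations d) (hH : H ∈ parts X G) : (G \ X) ∪ H ∈ realizations d := by
  have : (G \ X) ∪ H ∈ fib d X G := by
    rw [fib_eq_image hG]; exact mem_image_of_mem _ hH
  exact (mem_fib.mp this).1

/-- For disjoint `X`, `Y`, the two orders of averaging agree: both are the average over the
product cell. -/
lemma condE_comm {d : Fin n → ℕ} {X Y : Finset (Edge n)} (hXY : Disjoint X Y)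
    (f : Finset (Edge n) → ℝ) {G : Finset (Edge n)} (hG : G ∈ realizations d) :
    condE d X (condE d Y f) G = condE d Y (condE d X f) G := by
  -- a normal form
  have key : ∀ {X Y : Finset (Edge n)}, Disjoint X Y → condE d X (condE d Y f) G =
      (∑ H ∈ parts X G, ∑ H' ∈ parts Y G, f ((G \ (X ∪ Y)) ∪ (H ∪ H'))) /
        ((parts X G).card * (parts Y G).card) := by
    intro X Y hXY
    rw [condE_eq_parts hG]
    have h1 : ∀ H ∈ parts X G, condE d Y f ((G \ X) ∪ H) =
        (∑ H' ∈ parts Y G, f ((G \ (X ∪ Y)) ∪ (H ∪ H'))) / (parts Y G).card := by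
      intro H hH
      have hH1 := (mem_parts.mp hH).1
      have hG₁ := mem_realizations_of_part hG hH
      have hHY : ∀ e ∈ H, e ∉ Y := fun e he he' => (Finset.disjoint_left.mp hXY) (hH1 he) he'
      have e1 : ((G \ X) ∪ H) ∩ Y = G ∩ Y := by
        ext e
        simp only [mem_inter, mem_union, mem_sdiff]
        constructor
        · rintro ⟨h1 | h1, h2⟩
          · exact ⟨h1.1, h2⟩
          · exact absurd h2 (hHY e h1)
        · rintro ⟨h1, h2⟩
          exact ⟨Or.inl ⟨h1, fun h => (Finset.disjoint_left.mp hXY) h h2⟩, h2⟩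
      have e2 : parts Y ((G \ X) ∪ H) = parts Y G := by
        unfold parts; rw [e1]
      rw [condE_eq_parts hG₁, e2]
      congr 1
      refine sum_congr rfl fun H' _ => ?_
      congr 1
      ext e
      simp only [mem_union, mem_sdiff]
      constructor
      · rintro (⟨h1 | h1, h2⟩ | h1)
        · exact Or.inl ⟨h1.1, by simp only [not_or]; exact ⟨h1.2, h2⟩⟩
        · exact Or.inr (Or.inl h1)
        · exact Or.inr (Or.inr h1)
      · rintro (⟨h1, h2⟩ | h1 | h1)
        · simp only [not_or] at h2
          exact Or.inl ⟨Or.inl ⟨h1, h2.1⟩, h2.2⟩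
        · exact Or.inl ⟨Or.inr h1, hHY e h1⟩
        · exact Or.inr h1
    rw [sum_congr rfl h1, ← sum_div, div_div]
    rw [mul_comm]
  rw [key hXY, key hXY.symm, sum_comm, mul_comm, union_comm X Y]
  congr 1
  refine sum_congr rfl fun H _ => sum_congr rfl fun H' _ => ?_
  rw [union_comm H H']

end Crest.Agent.Lib.SwitchFiber
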