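import Crest.Agent.Lib.SwitchKernel

/-!
From a Poincaré inequality to a total variation bound, for the lazy symmetric chain.
-/

set_option autoImplicit false

open Finset

namespace Crest.Agent.Lib.SwitchTV

section abstract

variable {α : Type*} [Fintype α] [DecidableEq α]

/-- The assumptions on a lazy symmetric stochastic matrix with an invariant set `Ω`. -/
structure LazyChain (P : Matrix α α ℝ) (Ω : Finset α) : Prop where
  symm : ∀ x y, P x y = P y x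
  nonneg : ∀ x y, 0 ≤ P x y
  sum_one : ∀ x, ∑ y, P x y = 1
  lazy : ∀ x, 1 / 2 ≤ P x x
  stay : ∀ x ∈ Ω, ∀ y, y ∉ Ω → P x y = 0

variable {P : Matrix α α ℝ} {Ω : Finset α}

/-- The action of `P` restricted to `Ω`. -/
noncomputable def act (P : Matrix α α ℝ) (Ω : Finset α) (h : α → ℝ) (x : α) : ℝ :=
  ∑ y ∈ Ω, P x y * h y

lemma LazyChain.sum_on (H : LazyChain P Ω) {x : α} (hx : x ∈ Ω) : ∑ y ∈ Ω, P x y = 1 := by
  rw [← H.sum_one x]
  refine sum_subset (subset_univ _) fun y _ hy => H.stay x hx y hy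

/-- The "doubled" kernel `Q = 2P - I`. -/
noncomputable def dbl (P : Matrix α α ℝ) (x y : α) : ℝ := 2 * P x y - if x = y then 1 else 0

lemma LazyChain.dbl_nonneg (H : LazyChain P Ω) (x y : α) : 0 ≤ dbl P x y := by
  unfold dbl
  by_cases h : x = y
  · subst h; have := H.lazy x; simp only [if_true]; linarith
  · simp only [if_neg h]; have := H.nonneg x y; linarith

lemma LazyChain.dbl_symm (H : LazyChain P Ω) (x y : α) : dbl P x y = dbl P y x := by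
  unfold dbl
  rw [H.symm x y]
  by_cases h : x = y
  · subst h; rfl
  · rw [if_neg h, if_neg (Ne.symm h)]

lemma LazyChain.sum_dbl (H : LazyChain P Ω) {x : α} (hx : x ∈ Ω) : ∑ y ∈ Ω, dbl P x y = 1 := by
  unfold dbl
  rw [sum_sub_distrib, ← mul_sum, H.sum_on hx, sum_ite_eq, if_pos hx]
  norm_num

/-- `‖Q h‖² ≤ ‖h‖²` on `Ω`. -/
lemma LazyChain.dbl_contract (H : LazyChain P Ω) (h : α → ℝ) :
    ∑ x ∈ Ω, (∑ y ∈ Ω, dbl P x y * h y) ^ 2 ≤ ∑ x ∈ Ω, h x ^ 2 := by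
  have h1 : ∀ x ∈ Ω, (∑ y ∈ Ω, dbl P x y * h y) ^ 2 ≤ ∑ y ∈ Ω, dbl P x y * h y ^ 2 := by
    intro x hx
    have := Finset.sum_sq_le_sum_mul_sum_of_sq_eq_mul Ω (r := fun y => dbl P x y * h y)
      (f := fun y => dbl P x y) (g := fun y => dbl P x y * h y ^ 2)
      (fun y _ => H.dbl_nonneg x y)
      (fun y _ => mul_nonneg (H.dbl_nonneg x y) (sq_nonneg _))
      (fun y _ => by ring)
    rwa [H.sum_dbl hx, one_mul] at this
  calc ∑ x ∈ Ω, (∑ y ∈ Ω, dbl P x y * h y) ^ 2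
      ≤ ∑ x ∈ Ω, ∑ y ∈ Ω, dbl P x y * h y ^ 2 := sum_le_sum h1
    _ = ∑ y ∈ Ω, ∑ x ∈ Ω, dbl P x y * h y ^ 2 := sum_comm
    _ = ∑ y ∈ Ω, h y ^ 2 := by
        refine sum_congr rfl fun y hy => ?_
        rw [← sum_mul]
        have : ∑ x ∈ Ω, dbl P x y = 1 := by
          rw [← H.sum_dbl hy]
          exact sum_congr rfl fun x _ => H.dbl_symm x y
        rw [this, one_mul]

lemma act_eq_half (h : α → ℝ) {x : α} (hx : x ∈ Ω) :
    act P Ω h x = (h x + ∑ y ∈ Ω, dbl P x y * h y) / 2 := by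
  unfold act dbl
  have : ∑ y ∈ Ω, (2 * P x y - if x = y then (1 : ℝ) else 0) * h y
      = 2 * ∑ y ∈ Ω, P x y * h y - h x := by
    simp only [sub_mul, sum_sub_distrib, mul_sum, mul_assoc, ite_mul, one_mul, zero_mul,
      sum_ite_eq, if_pos hx]
  rw [this]; ring

/-- `‖P h‖² ≤ ⟨h, P h⟩`. -/
lemma LazyChain.sq_act_le (H : LazyChain P Ω) (h : α → ℝ) :
    ∑ x ∈ Ω, act P Ω h x ^ 2 ≤ ∑ x ∈ Ω, h x * act P Ω h x := by
  have h1 := H.dbl_contract h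
  have h2 : ∑ x ∈ Ω, h x * act P Ω h x - ∑ x ∈ Ω, act P Ω h x ^ 2
      = (∑ x ∈ Ω, h x ^ 2 - ∑ x ∈ Ω, (∑ y ∈ Ω, dbl P x y * h y) ^ 2) / 4 := by
    rw [← sum_sub_distrib, ← sum_sub_distrib, sum_div]
    refine sum_congr rfl fun x hx => ?_
    rw [act_eq_half h hx]; ring
  linarith

/-- One step contraction of the `ℓ²` norm from the Poincaré inequality. -/
lemma LazyChain.step (H : LazyChain P Ω) {C : ℝ} (hC : 0 < C) (hΩ : Ω.Nonempty)
    (hP : ∀ f : α → ℝ, (Ω.card : ℝ) * (∑ x ∈ Ω, f x ^ 2) - (∑ x ∈ Ω, f x) ^ 2 ≤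
      C * Ω.card * ∑ x ∈ Ω, f x * (f x - ∑ y ∈ Ω, P x y * f y))
    (h : α → ℝ) (h0 : ∑ x ∈ Ω, h x = 0) :
    ∑ x ∈ Ω, act P Ω h x ^ 2 ≤ (1 - 1 / C) * ∑ x ∈ Ω, h x ^ 2 := by
  have hN : (0 : ℝ) < Ω.card := by exact_mod_cast hΩ.card_pos
  have h1 := hP h
  rw [h0] at h1
  have h2 : ∑ x ∈ Ω, h x * (h x - ∑ y ∈ Ω, P x y * h y)
      = ∑ x ∈ Ω, h x ^ 2 - ∑ x ∈ Ω, h x * act P Ω h x := by
    rw [← sum_sub_distrib]
    refine sum_congr rfl fun x _ => ?_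
    unfold act; ring
  rw [h2] at h1
  have h3 : ∑ x ∈ Ω, h x ^ 2 ≤ C * (∑ x ∈ Ω, h x ^ 2 - ∑ x ∈ Ω, h x * act P Ω h x) := by
    have : (Ω.card : ℝ) * ∑ x ∈ Ω, h x ^ 2 ≤
        (Ω.card : ℝ) * (C * (∑ x ∈ Ω, h x ^ 2 - ∑ x ∈ Ω, h x * act P Ω h x)) := by
      nlinarith
    exact le_of_mul_le_mul_left this hN
  have h4 : ∑ x ∈ Ω, h x * act P Ω h x ≤ (1 - 1 / C) * ∑ x ∈ Ω, h x ^ 2 := by
    have : (1 / C) * ∑ x ∈ Ω, h x ^ 2 ≤ ∑ x ∈ Ω, h x ^ 2 - ∑ x ∈ Ω, h x * act P Ω h x := by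
      rw [div_mul_eq_mul_div, one_mul, div_le_iff₀ hC]; linarith
    linarith
  exact (H.sq_act_le h).trans h4

/-! ### Evolution of the law -/

lemma LazyChain.pow_zero_of_not_mem (H : LazyChain P Ω) {G : α} (hG : G ∈ Ω) (t : ℕ) {x : α}
    (hx : x ∉ Ω) : (P ^ t) G x = 0 := by
  induction t generalizing x with
  | zero =>
    have : G ≠ x := fun h => hx (h ▸ hG)
    simp [Matrix.one_apply, this]
  | succ t ih =>
    rw [pow_succ, Matrix.mul_apply]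
    refine sum_eq_zero fun y _ => ?_
    by_cases hy : y ∈ Ω
    · rw [H.stay y hy x hx, mul_zero]
    · rw [ih hy, zero_mul]

lemma LazyChain.sum_pow (H : LazyChain P Ω) (G : α) (t : ℕ) : ∑ x, (P ^ t) G x = 1 := by
  induction t with
  | zero => simp [Matrix.one_apply]
  | succ t ih =>
    simp only [pow_succ, Matrix.mul_apply]
    rw [sum_comm]
    calc ∑ y, ∑ x, (P ^ t) G y * P y x = ∑ y, (P ^ t) G y * ∑ x, P y x := by
          simp only [mul_sum]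
      _ = 1 := by simp only [H.sum_one, mul_one, ih]

lemma LazyChain.sum_pow_on (H : LazyChain P Ω) {G : α} (hG : G ∈ Ω) (t : ℕ) :
    ∑ x ∈ Ω, (P ^ t) G x = 1 := by
  rw [← H.sum_pow G t]
  exact sum_subset (subset_univ _) fun x _ hx => H.pow_zero_of_not_mem hG t hx

/-- The deviation from uniform of the law at time `t`. -/
noncomputable def dev (P : Matrix α α ℝ) (Ω : Finset α) (G : α) (t : ℕ) (x : α) : ℝ :=
  (P ^ t) G x - 1 / (Ω.card : ℝ)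

lemma LazyChain.sum_dev (H : LazyChain P Ω) (hΩ : Ω.Nonempty) {G : α} (hG : G ∈ Ω) (t : ℕ) :
    ∑ x ∈ Ω, dev P Ω G t x = 0 := by
  have hN : (Ω.card : ℝ) ≠ 0 := by exact_mod_cast hΩ.card_pos.ne'
  unfold dev
  rw [sum_sub_distrib, H.sum_pow_on hG, sum_const, nsmul_eq_mul]
  field_simp
  simp

lemma LazyChain.dev_succ (H : LazyChain P Ω) (hΩ : Ω.Nonempty) {G : α} (hG : G ∈ Ω) (t : ℕ)
    {x : α} (hx : x ∈ Ω) : dev P Ω G (t + 1) x = act P Ω (dev P Ω G t) x := by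
  have h1 : (P ^ (t + 1)) G x = ∑ y ∈ Ω, P x y * (P ^ t) G y := by
    rw [pow_succ, Matrix.mul_apply]
    rw [← sum_subset (subset_univ Ω)]
    · exact sum_congr rfl fun y _ => by rw [H.symm y x, mul_comm]
    · intro y _ hy
      rw [H.pow_zero_of_not_mem hG t hy, zero_mul]
  unfold dev act
  simp only [mul_sub, sum_sub_distrib]
  rw [h1, ← sum_mul, H.sum_on hx, one_mul]

lemma sum_dev_zero_sq_le {G : α} (hG : G ∈ Ω) :
    ∑ x ∈ Ω, dev P Ω G 0 x ^ 2 ≤ 1 := by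
  have hN : (0 : ℝ) < Ω.card := by exact_mod_cast (card_pos.mpr ⟨G, hG⟩)
  unfold dev
  have : ∀ x ∈ Ω, ((P ^ 0) G x - 1 / (Ω.card : ℝ)) ^ 2
      = (if x = G then 1 else 0) * (1 - 2 / (Ω.card : ℝ)) + 1 / (Ω.card : ℝ) ^ 2 := by
    intro x _
    by_cases h : x = G
    · subst h; simp only [pow_zero, Matrix.one_apply_eq, if_true]; ring
    · have h' : G ≠ x := Ne.symm h
      simp only [pow_zero, Matrix.one_apply_ne h', if_neg h]; ring
  rw [sum_congr rfl this, sum_add_distrib, ← sum_mul, sum_ite_eq', if_pos hG, sum_const,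
    nsmul_eq_mul]
  have h1 : (Ω.card : ℝ) * (1 / (Ω.card : ℝ) ^ 2) = 1 / Ω.card := by
    field_simp
  rw [h1]
  have h2 : (0 : ℝ) < 1 / Ω.card := by positivity
  have h3 : (1 : ℝ) * (1 - 2 / (Ω.card : ℝ)) + 1 / Ω.card = 1 - 1 / Ω.card := by
    ring
  linarith

lemma LazyChain.sum_dev_sq_le (H : LazyChain P Ω) {C : ℝ} (hC : 1 ≤ C) (hΩ : Ω.Nonempty)
    (hP : ∀ f : α → ℝ, (Ω.card : ℝ) * (∑ x ∈ Ω, f x ^ 2) - (∑ x ∈ Ω, f x) ^ 2 ≤
      C * Ω.card * ∑ x ∈ Ω, f x * (f x - ∑ y ∈ Ω, P x y * f y))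
    {G : α} (hG : G ∈ Ω) (t : ℕ) :
    ∑ x ∈ Ω, dev P Ω G t x ^ 2 ≤ (1 - 1 / C) ^ t := by
  have hC0 : 0 < C := by linarith
  have hC1 : 0 ≤ 1 - 1 / C := by
    rw [sub_nonneg, div_le_one hC0]; exact hC
  induction t with
  | zero => simpa using sum_dev_zero_sq_le hG
  | succ t ih =>
    have h1 : ∑ x ∈ Ω, dev P Ω G (t + 1) x ^ 2 = ∑ x ∈ Ω, act P Ω (dev P Ω G t) x ^ 2 :=
      sum_congr rfl fun x hx => by rw [H.dev_succ hΩ hG t hx]
    rw [h1, pow_succ']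
    refine (H.step hC0 hΩ hP _ (H.sum_dev hΩ hG t)).trans ?_
    exact mul_le_mul_of_nonneg_left ih hC1

/-- The abstract total variation bound. -/
lemma LazyChain.tv_le (H : LazyChain P Ω) {C : ℝ} (hC : 1 ≤ C) (hΩ : Ω.Nonempty)
    (hP : ∀ f : α → ℝ, (Ω.card : ℝ) * (∑ x ∈ Ω, f x ^ 2) - (∑ x ∈ Ω, f x) ^ 2 ≤
      C * Ω.card * ∑ x ∈ Ω, f x * (f x - ∑ y ∈ Ω, P x y * f y))
    {G : α} (hG : G ∈ Ω) {t : ℕ} (ht : (Ω.card : ℝ) * (1 - 1 / C) ^ t ≤ 1 / 4) :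
    Crest.SwitchChain.tvDist (fun G' => (P ^ t) G G') (Crest.SwitchChain.unifOn Ω) ≤ 1 / 4 := by
  unfold Crest.SwitchChain.tvDist Crest.SwitchChain.unifOn
  have h1 : ∑ a, |(P ^ t) G a - if a ∈ Ω then 1 / (Ω.card : ℝ) else 0|
      = ∑ a ∈ Ω, |dev P Ω G t a| := by
    symm
    rw [← sum_subset (subset_univ Ω)]
    · refine sum_congr rfl fun a ha => ?_
      rw [if_pos ha]; rfl
    · intro a _ ha
      rw [if_neg ha, H.pow_zero_of_not_mem hG t ha]; simp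
  rw [h1]
  have h2 : (∑ a ∈ Ω, |dev P Ω G t a|) ^ 2 ≤ (Ω.card : ℝ) * ∑ a ∈ Ω, dev P Ω G t a ^ 2 := by
    have := sq_sum_le_card_mul_sum_sq (s := Ω) (f := fun a => |dev P Ω G t a|)
    simpa only [sq_abs] using this
  have h3 := H.sum_dev_sq_le hC hΩ hP hG t
  have hN : (0 : ℝ) ≤ Ω.card := by positivity
  have h4 : (∑ a ∈ Ω, |dev P Ω G t a|) ^ 2 ≤ (1 / 2) ^ 2 := by
    calc _ ≤ (Ω.card : ℝ) * ∑ a ∈ Ω, dev P Ω G t a ^ 2 := h2
      _ ≤ (Ω.card : ℝ) * (1 - 1 / C) ^ t := mul_le_mul_of_nonneg_left h3 hN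
      _ ≤ 1 / 4 := ht
      _ = (1 / 2) ^ 2 := by norm_num
  have h5 := abs_le_of_sq_le_sq' h4 (by norm_num)
  linarith [h5.2]

end abstract

/-! ### The switch chain -/

open Crest.SwitchChain Crest.Agent.Lib.SwitchKernel

variable {n : ℕ}

lemma lazyChain_kernel (hn : 4 ≤ n) (d : Fin n → ℕ) : LazyChain (kernel n) (realizations d) where
  symm := kernel_symm
  nonneg := kernel_nonneg
  sum_one := sum_kernel hn
  lazy := half_le_kernel_self
  stay := fun _ hx _ hy => kernel_eq_zero_of_mem_of_not_mem hx hy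

lemma card_realizations_le (d : Fin n → ℕ) :
    (realizations d).card ≤ 2 ^ (n.choose 2) := by
  calc (realizations d).card ≤ (univ : Finset (Finset (Edge n))).card := card_le_card (subset_univ _)
    _ = 2 ^ (n.choose 2) := by
        rw [card_univ, Fintype.card_finset, Sym2.card_subtype_not_diag, Fintype.card_fin]

/-- Numerics: `N (1 - 1/C)^(2 n^8) ≤ 1/4`. -/
lemma numerics (hn : 4 ≤ n) (d : Fin n → ℕ) :
    ((realizations d).card : ℝ) *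
      (1 - 1 / (24 * (n : ℝ) ^ 2 * (n.choose 4 : ℝ))) ^ (2 * n ^ 8) ≤ 1 / 4 := by
  set C : ℝ := 24 * (n : ℝ) ^ 2 * (n.choose 4 : ℝ) with hCdef
  have hnR : (4 : ℝ) ≤ n := by exact_mod_cast hn
  have hch : (1 : ℝ) ≤ n.choose 4 := by exact_mod_cast Nat.choose_pos hn
  have hC1 : 1 ≤ C := by
    have : (1 : ℝ) ≤ (n : ℝ) ^ 2 := by nlinarith
    rw [hCdef]; nlinarith [mul_le_mul this hch (by norm_num) (by positivity)]
  have hC0 : 0 < C := by linarith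
  -- `24 C(n,4) ≤ n^4`
  have h24 : (24 : ℝ) * (n.choose 4 : ℝ) ≤ (n : ℝ) ^ 4 := by
    have h1 : n.descFactorial 4 = Nat.factorial 4 * n.choose 4 :=
      Nat.descFactorial_eq_factorial_mul_choose n 4
    have h2 : n.descFactorial 4 ≤ n ^ 4 := Nat.descFactorial_le_pow n 4
    have h3 : 24 * n.choose 4 ≤ n ^ 4 := by
      rw [h1] at h2; simpa [Nat.factorial] using h2
    exact_mod_cast h3
  have hCle : C ≤ (n : ℝ) ^ 6 := by
    calc C = (n : ℝ) ^ 2 * (24 * (n.choose 4 : ℝ)) := by rw [hCdef]; ring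
      _ ≤ (n : ℝ) ^ 2 * (n : ℝ) ^ 4 := mul_le_mul_of_nonneg_left h24 (by positivity)
      _ = (n : ℝ) ^ 6 := by ring
  have hbase : 1 - 1 / C ≤ Real.exp (-(1 / C)) := by
    have := Real.add_one_le_exp (-(1 / C)); linarith
  have hbase0 : 0 ≤ 1 - 1 / C := by
    rw [sub_nonneg, div_le_one hC0]; exact hC1
  have hpow : (1 - 1 / C) ^ (2 * n ^ 8) ≤ Real.exp (-(2 * (n : ℝ) ^ 2)) := by
    calc (1 - 1 / C) ^ (2 * n ^ 8) ≤ (Real.exp (-(1 / C))) ^ (2 * n ^ 8) :=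
          pow_le_pow_left₀ hbase0 hbase _
      _ = Real.exp ((2 * n ^ 8 : ℕ) * (-(1 / C))) := by rw [Real.exp_nat_mul]
      _ ≤ Real.exp (-(2 * (n : ℝ) ^ 2)) := by
          apply Real.exp_le_exp.mpr
          push_cast
          have hn0 : (0 : ℝ) < n := by linarith
          have : 2 * (n : ℝ) ^ 2 * C ≤ 2 * (n : ℝ) ^ 8 := by
            calc 2 * (n : ℝ) ^ 2 * C ≤ 2 * (n : ℝ) ^ 2 * (n : ℝ) ^ 6 :=
                  mul_le_mul_of_nonneg_left hCle (by positivity)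
              _ = 2 * (n : ℝ) ^ 8 := by ring
          have h5 : 2 * (n : ℝ) ^ 2 ≤ 2 * (n : ℝ) ^ 8 * (1 / C) := by
            rw [mul_one_div, le_div_iff₀ hC0]; exact this
          linarith
  -- `4 N ≤ exp (2 n²)`
  have hcard : ((realizations d).card : ℝ) ≤ 2 ^ (n.choose 2) := by
    exact_mod_cast card_realizations_le d
  have hch2 : n.choose 2 + 2 ≤ 2 * n ^ 2 := by
    have h1 : n.choose 2 ≤ n ^ 2 := Nat.choose_le_pow n 2
    have h2 : 2 ≤ n ^ 2 := by nlinarith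
    omega
  have hexp : (4 : ℝ) * 2 ^ (n.choose 2) ≤ Real.exp (2 * (n : ℝ) ^ 2) := by
    have h2e : (2 : ℝ) ≤ Real.exp 1 := by
      have := Real.add_one_le_exp (1 : ℝ); linarith
    calc (4 : ℝ) * 2 ^ (n.choose 2) = 2 ^ (n.choose 2 + 2) := by rw [pow_add]; ring
      _ ≤ 2 ^ (2 * n ^ 2) := pow_le_pow_right₀ (by norm_num) hch2
      _ ≤ (Real.exp 1) ^ (2 * n ^ 2) := pow_le_pow_left₀ (by norm_num) h2e _
      _ = Real.exp (2 * (n : ℝ) ^ 2) := by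
          rw [← Real.exp_nat_mul]; push_cast; ring_nf
  have hexppos := Real.exp_pos (2 * (n : ℝ) ^ 2)
  have hN0 : (0 : ℝ) ≤ (realizations d).card := by positivity
  calc ((realizations d).card : ℝ) * (1 - 1 / C) ^ (2 * n ^ 8)
      ≤ 2 ^ (n.choose 2) * Real.exp (-(2 * (n : ℝ) ^ 2)) := by
        apply mul_le_mul hcard hpow (pow_nonneg hbase0 _) (by positivity)
    _ ≤ 1 / 4 := by
        rw [Real.exp_neg, ← div_eq_mul_inv, div_le_div_iff₀ hexppos (by norm_num)]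
        linarith

/-- Part (i) of the statement follows from part (ii). -/
theorem tv_of_poincare (hn : 4 ≤ n) (d : Fin n → ℕ) (hd : (realizations d).Nonempty)
    (hP : ∀ f : Finset (Edge n) → ℝ,
        ((realizations d).card : ℝ) * (∑ G ∈ realizations d, f G ^ 2) -
            (∑ G ∈ realizations d, f G) ^ 2 ≤
          24 * (n : ℝ) ^ 2 * (n.choose 4 : ℝ) * (realizations d).card *
            ∑ G ∈ realizations d, f G * (f G - ∑ G' ∈ realizations d, kernel n G G' * f G')) :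
    ∃ t : ℕ, t ≤ 2 * n ^ 8 ∧ ∀ G ∈ realizations d,
      tvDist (fun G' => (kernel n ^ t) G G') (unifOn (realizations d)) ≤ 1 / 4 := by
  refine ⟨2 * n ^ 8, le_rfl, fun G hG => ?_⟩
  have hnR : (4 : ℝ) ≤ n := by exact_mod_cast hn
  have hch : (1 : ℝ) ≤ n.choose 4 := by exact_mod_cast Nat.choose_pos hn
  have hC1 : (1 : ℝ) ≤ 24 * (n : ℝ) ^ 2 * (n.choose 4 : ℝ) := by
    have : (1 : ℝ) ≤ (n : ℝ) ^ 2 := by nlinarith
    nlinarith [mul_le_mul this hch (by norm_num) (by positivity)]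
  exact (lazyChain_kernel hn d).tv_le hC1 hd hP hG (numerics hn d)

end Crest.Agent.Lib.SwitchTV
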